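import Vale.Agent.P338.GS.IO

/-!
# P338, matrices of every shape: complex arithmetic with tiny numbers
-/

namespace Vale.Agent.P338.GS.Ar

open Vale.Agent.P338 Vale.Agent.P338.GS Vale.Agent.P338.GS.IO

variable {J E : Type} [DecidableEq J]

/-! ### Residues -/

theorem add_bits {S x y : ℕ} (hx : x < 2 ^ S) (hy : y < 2 ^ S) :
    SS.scO SS.x3 SS.mj false (bitsOf S x) (bitsOf S y) = bitsOf S (adR S x y) := by
  have h := SS.add_val false (bitsOf S x) (bitsOf S y) (by simp)
  have hl := SS.length_scO SS.x3 SS.mj false (bitsOf S x) (bitsOf S y) (by simp)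
  have h1 := natOf_lt (SS.scO SS.x3 SS.mj false (bitsOf S x) (bitsOf S y))
  rw [hl] at h1
  rw [natOf_bitsOf_of_lt hx, natOf_bitsOf_of_lt hy] at h
  simp only [length_bitsOf, Bool.toNat_false, Nat.add_zero] at h h1 hl
  apply natOf_inj (by rw [hl, length_bitsOf])
  rw [natOf_bitsOf_of_lt (adR_lt S x y)]
  unfold adR
  rw [← h, Nat.add_mul_mod_self_left, Nat.mod_eq_of_lt h1]

theorem sub_bits {S x y : ℕ} (hx : x < 2 ^ S) (hy : y < 2 ^ S) :
    SS.scO SS.x3 SS.bw false (bitsOf S x) (bitsOf S y) = bitsOf S (sbR S x y) := by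
  have h := SS.sub_val false (bitsOf S x) (bitsOf S y) (by simp)
  have hl := SS.length_scO SS.x3 SS.bw false (bitsOf S x) (bitsOf S y) (by simp)
  have h1 := natOf_lt (SS.scO SS.x3 SS.bw false (bitsOf S x) (bitsOf S y))
  rw [hl] at h1
  rw [natOf_bitsOf_of_lt hx, natOf_bitsOf_of_lt hy] at h
  simp only [length_bitsOf, Bool.toNat_false, Nat.add_zero] at h h1 hl
  apply natOf_inj (by rw [hl, length_bitsOf])
  rw [natOf_bitsOf_of_lt (sbR_lt S x y)]
  unfold sbR
  rw [Nat.mod_eq_of_lt hy]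
  generalize hz : natOf (SS.scO SS.x3 SS.bw false (bitsOf S x) (bitsOf S y)) = z at *
  cases hc : SS.scC SS.bw false (bitsOf S x) (bitsOf S y) with
  | false =>
    rw [hc] at h
    simp only [Bool.toNat_false, Nat.mul_zero, Nat.add_zero] at h
    have : x + (2 ^ S - y) = z + 2 ^ S := by omega
    rw [this, Nat.add_mod_right, Nat.mod_eq_of_lt h1]
  | true =>
    rw [hc] at h
    simp only [Bool.toNat_true, Nat.mul_one] at h
    have : x + (2 ^ S - y) = z := by omega
    rw [this, Nat.mod_eq_of_lt h1]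

/-- The low part of a product. -/
theorem mul_bits (S z : ℕ) : bitsOf (2 * S) z = bitsOf S (z % 2 ^ S) ++ bitsOf S (z / 2 ^ S) := by
  rw [two_mul, bitsOf_add, bitsOf_mod]

theorem take_sign {S w : ℕ} (hS : 1 ≤ S) :
    ((bits (bitsOf S w)).reverse : List (SSym E)).head? = some (sb (w.testBit (S - 1))) := by
  obtain ⟨S, rfl⟩ : ∃ S', S = S' + 1 := ⟨S - 1, by omega⟩
  rw [bitsOf_succ_right]
  simp [bits]

theorem asr_bits {S B w : ℕ} (hB : B < S) (hw : w < 2 ^ S) :
    bitsOf S (asr S B w) = bitsOf (S - B) (w / 2 ^ B) ++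
      List.replicate B (w.testBit (S - 1)) := by
  have e1 : (2 : ℕ) ^ S = 2 ^ (S - B) * 2 ^ B := by rw [← pow_add]; congr 1; omega
  have h1 : w / 2 ^ B < 2 ^ (S - B) := by
    rw [Nat.div_lt_iff_lt_mul (by positivity), ← e1]; exact hw
  have h2 : bitsOf S (asr S B w) = bitsOf (S - B) (asr S B w) ++
      bitsOf B (asr S B w / 2 ^ (S - B)) := by
    rw [← bitsOf_add]; congr 1; omega
  have h3 : (2 : ℕ) ^ S - 2 ^ (S - B) = 2 ^ (S - B) * (2 ^ B - 1) := by
    rw [e1, Nat.mul_sub, Nat.mul_one]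
  have h4 : (2 : ℕ) ^ S = 2 * 2 ^ (S - 1) := by rw [← pow_succ']; congr 1; omega
  have h5 : w.testBit (S - 1) = decide (¬ w < 2 ^ (S - 1)) := by
    rw [Nat.testBit_eq_decide_div_mod_eq]
    by_cases h : w < 2 ^ (S - 1)
    · rw [Nat.div_eq_of_lt h]; simp [h]
    · have : w / 2 ^ (S - 1) = 1 := by
        apply Nat.div_eq_of_lt_le
        · omega
        · omega
      rw [this]; simp [h]
  rw [h2]
  by_cases h : w < 2 ^ (S - 1)
  · have e : asr S B w = w / 2 ^ B := if_pos h
    rw [e, Nat.div_eq_of_lt h1, h5, bitsOf_zero]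
    simp [h]
  · have e : asr S B w = w / 2 ^ B + 2 ^ (S - B) * (2 ^ B - 1) := by
      rw [← h3]; exact if_neg h
    have e' : asr S B w / 2 ^ (S - B) = 2 ^ B - 1 := by
      rw [e, Nat.add_mul_div_left _ _ (by positivity), Nat.div_eq_of_lt h1, Nat.zero_add]
    have e'' : bitsOf (S - B) (asr S B w) = bitsOf (S - B) (w / 2 ^ B) := by
      rw [bitsOf_eq_iff, e, Nat.add_mul_mod_self_left]
    rw [e', e'', h5]
    congr 1
    have : ∀ B : ℕ, bitsOf B (2 ^ B - 1) = List.replicate B true := by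
      intro B
      unfold bitsOf
      rw [List.eq_replicate_iff]
      refine ⟨by simp, ?_⟩
      intro b hb
      rw [List.mem_map] at hb
      obtain ⟨i, hi, rfl⟩ := hb
      rw [List.mem_range] at hi
      rw [Nat.testBit_two_pow_sub_one]
      simpa using hi
    rw [this]
    simp [h]

/-! ### Simple commands -/

/-- The scan of the words on `i` and `j`. -/
theorem r_scan2 {i j o q : W} (hij : i ≠ j) (hio : i ≠ o) (hiq : i ≠ q) (hjo : j ≠ o)
    (hjq : j ≠ q) (hoq : o ≠ q) (f g : Bool → Bool → Bool → Bool) (as bs : List Bool)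
    (h : as.length = bs.length) (s : SW J E) (hi : s.at i = bits as) (hj : s.at j = bits bs)
    (hq : s.at q = []) :
    Runs ((SS.scan2 (Sum.inr i) (Sum.inr j) (Sum.inr o) (Sum.inr q) f g).seq
      (Prog.clear (Sum.inr q)) : PW J E) s
      (((s.set i []).set j []).set o ((bits (SS.scO f g false as bs)).reverse ++ s.at o))
      (3 * as.length + 5) := by
  have h1 := SS.Runs.scan2 (i := (Sum.inr i : Loc J ⊕ W)) (j := Sum.inr j) (o := Sum.inr o)
    (q := Sum.inr q) (by simpa using hij) (by simpa using hio) (by simpa using hiq)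
    (by simpa using hjo) (by simpa using hjq) (by simpa using hoq) f g as bs h false [] s hi
    (by rw [List.append_nil]; exact hj) hq
  have h2 := r_clear q ((((s.set i []).set j []).set o
    ((bits (SS.scO f g false as bs)).reverse ++ s.at o)).set q (SS.fl (SS.scC g false as bs)))
  refine ((h1.seq h2).mono ?_).of_eq ?_
  · rw [at_set_self]
    have : (SS.fl (SS.scC g false as bs) : List (SSym E)).length ≤ 1 := by
      cases SS.scC g false as bs <;> simp
    omega
  · rw [set_set]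
    refine sw_ext (fun j => by simp) fun r => ?_
    simp only [at_set]
    split_ifs <;> simp_all

/-- Push the top of `i` on `j`. -/
def dup (i j : W) : PW J E :=
  Prog.act fun tp l =>
    match tp (Sum.inr i) with
    | none => Op.keep
    | some a => if l = Sum.inr j then Op.push a else Op.keep

theorem r_dup {i j : W} (s : SW J E) (a : SSym E) (hi : (s.at i).head? = some a) :
    Runs (dup i j : PW J E) s (s.set j (a :: s.at j)) 1 := by
  refine (Runs.act _ s).of_eq ?_
  have h1 : tops s (Sum.inr i) = some a := hi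
  funext m
  simp only [h1]
  unfold SW.set SW.at
  by_cases e1 : m = Sum.inr j
  · subst e1; simp
  · simp [e1]

/-- Push the top of `i` on `j`, `n` times. -/
theorem r_dups {u t i j : W} (hut : u ≠ t) (hui : u ≠ i) (huj : u ≠ j) (hti : t ≠ i)
    (htj : t ≠ j) (hij : i ≠ j) (s : SW J E) (n : ℕ) (a : SSym E) (hu : s.at u = una n)
    (ht : s.at t = []) (hi : (s.at i).head? = some a) :
    Runs (Prog.forr (Sum.inr u) (Sum.inr t) (dup i j) : PW J E) s
      (s.set j (List.replicate n a ++ s.at j)) (8 * n + 1) := by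
  have hut' : (Sum.inr u : Loc J ⊕ W) ≠ Sum.inr t := by simpa using hut
  have h := Runs.forr' hut' (body := (dup i j : PW J E)) n mk
    (fun k => s.set j (List.replicate k a ++ s.at j)) (fun _ => 1)
    (fun k _ => by
      have : (s.set j (List.replicate k a ++ s.at j)).at u = una n := by
        rw [at_set_ne s huj, hu]
      exact this)
    (fun k _ => by
      have : (s.set j (List.replicate k a ++ s.at j)).at t = [] := by
        rw [at_set_ne s htj, ht]
      exact this)
    (by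
      intro k hk l l'
      have h1 := r_dup (i := i) (j := j) (((s.set j (List.replicate k a ++ s.at j)).set u l).set
        t l') a (by
          rw [at_set_ne _ (Ne.symm hti), at_set_ne _ (Ne.symm hui), at_set_ne _ hij, hi])
      refine h1.of_eq ?_
      refine sw_ext (fun j => by simp [SW.set]) fun r => ?_
      have e : (List.replicate (k + 1) a ++ s.at j) = a :: (List.replicate k a ++ s.at j) := by
        rw [List.replicate_succ]; rfl
      show _ = (((s.set j (List.replicate (k + 1) a ++ s.at j)).set u l).set t l').at r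
      rw [e]
      simp only [at_set]
      split_ifs <;> simp_all)
  simp only [Finset.sum_const, Finset.card_range, smul_eq_mul] at h
  have e : s.set j (List.replicate 0 a ++ s.at j) = s := set_of_at (by simp)
  rw [e] at h
  exact h.mono (by omega)

/-! ### The low part of a product -/

/-- The scratch stacks. -/
def psm : List W := [.AX, .AY, .AZ, .A1, .A8, .F7, .F8]

/-- The product of the words on `a` and `b` modulo `2 ^ S` goes to `o`. -/
def mlow (mc : PW J E) (a b o : W) : PW J E :=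
  (Prog.copyOnto (Sum.inr a) (Sum.inr .AX) (Sum.inr .A1)).seq <|
  (Prog.copyOnto (Sum.inr b) (Sum.inr .AY) (Sum.inr .A1)).seq <|
  mc.seq <|
  (Prog.forr (Sum.inr .WS) (Sum.inr .F7) (Prog.mov (Sum.inr .AZ) (Sum.inr .A8))).seq <|
  (Prog.clear (Sum.inr .AZ)).seq <|
  Prog.rev (Sum.inr .A8) (Sum.inr o)

theorem length_wd (S v : ℕ) : (wd S v : List (SSym E)).length = S := by simp [wd]

theorem r_mlow {mc : PW J E} {T : ℕ → ℕ} {C : ℕ} (hmc : MSpec mc T C) {S x y : ℕ} (hS : 1 ≤ S)
    (hx : x < 2 ^ S) (hy : y < 2 ^ S) {a b o : W} (ha : a ∉ psm) (hb : b ∉ psm) (ho : o ∉ psm)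
    {s : SW J E} (hi : ∀ j, s (Sum.inl j) = []) (he : ∀ r ∈ psm, s.at r = [])
    (hW : s.at .WS = una S) (hA : s.at a = wd S x) (hB : s.at b = wd S y) (hO : s.at o = []) :
    Runs (mlow mc a b o) s (s.set o (wd S (muR S x y))) ((C + 50) * (S + T S)) := by
  simp only [psm, List.mem_cons, List.not_mem_nil, or_false, not_or] at ha hb ho
  obtain ⟨a1, a2, a3, a4, a5, a6, a7⟩ := ha
  obtain ⟨b1, b2, b3, b4, b5, b6, b7⟩ := hb
  obtain ⟨o1, o2, o3, o4, o5, o6, o7⟩ := ho
  have e1 : s.at .AX = [] := he _ (by decide)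
  have e2 : s.at .AY = [] := he _ (by decide)
  have e3 : s.at .AZ = [] := he _ (by decide)
  have e4 : s.at .A1 = [] := he _ (by decide)
  have e5 : s.at .A8 = [] := he _ (by decide)
  have e6 : s.at .F7 = [] := he _ (by decide)
  have e7 : s.at .F8 = [] := he _ (by decide)
  have r1 := r_copy (J := J) (a := a) (b := .AX) (t := .A1) a1 a4 (by decide) s e4
  rw [hA, e1, List.append_nil, length_wd] at r1
  have r2 := r_copy (J := J) (a := b) (b := .AY) (t := .A1) b2 b4 (by decide)
    (s.set .AX (wd S x)) (by rw [at_set_ne _ (by decide), e4])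
  rw [at_set_ne _ b1, hB, at_set_ne _ (by decide), e2, List.append_nil, length_wd] at r2
  have r3 := hmc S (bitsOf S x) (bitsOf S y) ((s.set .AX (wd S x)).set .AY (wd S y)) hS
    (by simp) (by simp) (fun j => by simpa using hi j)
    (by rw [at_set_ne _ (by decide), at_set_ne _ (by decide), e3])
    (by rw [at_set_ne _ (by decide), at_set_ne _ (by decide), e7])
    (by rw [at_set_ne _ (by decide), at_set_self]; rfl) (by rw [at_set_self]; rfl)
  rw [natOf_bitsOf_of_lt hx, natOf_bitsOf_of_lt hy] at r3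
  have q3 : ((((s.set .AX (wd S x)).set .AY (wd S y)).set .AX []).set .AY []).set .AZ
      (bits (bitsOf (2 * S) (x * y))) = s.set .AZ (bits (bitsOf (2 * S) (x * y))) := by
    refine sw_ext (fun j => by simp) fun r => ?_
    simp only [at_set]
    split_ifs <;> simp_all
  rw [q3] at r3
  have r4 := r_movs (J := J) (u := .WS) (t := .F7) (x := .AZ) (o := .A8) (by decide)
    (by decide) (by decide) (by decide) (by decide) (by decide)
    (s.set .AZ (bits (bitsOf (2 * S) (x * y)))) (wd S (muR S x y))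
    (bits (bitsOf S (x * y / 2 ^ S))) S (length_wd ..)
    (by rw [at_set_ne _ (by decide), hW]) (by rw [at_set_ne _ (by decide), e6])
    (by rw [at_set_self, mul_bits]; simp [bits, wd, muR])
  rw [at_set_ne _ (by decide), e5, List.append_nil] at r4
  have r5 := r_clear (J := J) .AZ (((s.set .AZ (bits (bitsOf (2 * S) (x * y)))).set .AZ
    (bits (bitsOf S (x * y / 2 ^ S)))).set .A8 (wd S (muR S x y)).reverse)
  rw [at_set_ne _ (show W.AZ ≠ W.A8 by decide), at_set_self] at r5
  have r6 := r_rev (J := J) (a := .A8) (b := o) (Ne.symm o5)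
    ((((s.set .AZ (bits (bitsOf (2 * S) (x * y)))).set .AZ
    (bits (bitsOf S (x * y / 2 ^ S)))).set .A8 (wd S (muR S x y)).reverse).set .AZ [])
  have w0 : ((((s.set .AZ (bits (bitsOf (2 * S) (x * y)))).set .AZ
      (bits (bitsOf S (x * y / 2 ^ S)))).set .A8 (wd S (muR S x y)).reverse).set .AZ
        []).at .A8 = (wd S (muR S x y)).reverse := by
    rw [at_set_ne _ (by decide), at_set_self]
  refine ((r1.seq (r2.seq (r3.seq (r4.seq (r5.seq r6))))).mono ?_).of_eq ?_
  · rw [w0]
    have : (C + 50) * (S + T S) = C * (S + T S) + 50 * S + 50 * T S := by ring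
    simp only [length_bits, length_bitsOf, List.length_reverse, length_wd]
    omega
  · have w1 : ((((s.set .AZ (bits (bitsOf (2 * S) (x * y)))).set .AZ
      (bits (bitsOf S (x * y / 2 ^ S)))).set .A8 (wd S (muR S x y)).reverse).set .AZ
        []).at .A8 = (wd S (muR S x y)).reverse := by
      rw [at_set_ne _ (by decide), at_set_self]
    have w2 : ((((s.set .AZ (bits (bitsOf (2 * S) (x * y)))).set .AZ
      (bits (bitsOf S (x * y / 2 ^ S)))).set .A8 (wd S (muR S x y)).reverse).set .AZ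
        []).at o = [] := by
      rw [at_set_ne _ o3, at_set_ne _ o5, at_set_ne _ o3, at_set_ne _ o3, hO]
    rw [w1, w2, List.reverse_reverse, List.append_nil]
    refine sw_ext (fun j => by simp) fun r => ?_
    simp only [at_set]
    split_ifs <;> simp_all

/-! ### The shift -/

/-- The arithmetic shift of the reversed word on `i`, to `o`. -/
def shr (i o : W) : PW J E :=
  (Prog.rev (Sum.inr i) (Sum.inr .A8)).seq <|
  (Prog.forr (Sum.inr .WB) (Sum.inr .F7) (Prog.mov (Sum.inr .A8) (Sum.inr .A1))).seq <|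
  (Prog.clear (Sum.inr .A1)).seq <|
  (Prog.rev (Sum.inr .A8) (Sum.inr i)).seq <|
  (Prog.forr (Sum.inr .WB) (Sum.inr .F7) (dup i o)).seq <|
  Prog.rev (Sum.inr i) (Sum.inr o)

/-- The scratch stacks. -/
def ssm : List W := [.A1, .A8, .F7]

theorem r_shr {S B w : ℕ} (hB : B < S) (hw : w < 2 ^ S) {i o : W} (hi : i ∉ ssm) (ho : o ∉ ssm)
    (hio : i ≠ o) (hiW : i ≠ .WB) (hoW : o ≠ .WB) {s : SW J E} (he : ∀ r ∈ ssm, s.at r = [])
    (hW : s.at .WB = una B) (hI : s.at i = (wd S w).reverse) (hO : s.at o = []) :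
    Runs (shr i o : PW J E) s ((s.set i []).set o (wd S (asr S B w))) (40 * S + 20) := by
  simp only [ssm, List.mem_cons, List.not_mem_nil, or_false, not_or] at hi ho
  obtain ⟨i1, i2, i3⟩ := hi
  obtain ⟨o1, o2, o3⟩ := ho
  have e1 : s.at .A1 = [] := he _ (by decide)
  have e2 : s.at .A8 = [] := he _ (by decide)
  have e3 : s.at .F7 = [] := he _ (by decide)
  have r1 := r_rev (J := J) (a := i) (b := .A8) i2 s
  rw [hI, e2, List.reverse_reverse, List.append_nil, List.length_reverse, length_wd] at r1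
  have hsp : (wd S w : List (SSym E)) = bits (bitsOf B w) ++ bits (bitsOf (S - B) (w / 2 ^ B)) := by
    have : bitsOf S w = bitsOf B w ++ bitsOf (S - B) (w / 2 ^ B) := by
      rw [← bitsOf_add]; congr 1; omega
    unfold wd
    rw [this]; simp [bits]
  have r2 := r_movs (J := J) (u := .WB) (t := .F7) (x := .A8) (o := .A1) (by decide)
    (by decide) (by decide) (by decide) (by decide) (by decide)
    ((s.set i []).set .A8 (wd S w)) (bits (bitsOf B w))
    (bits (bitsOf (S - B) (w / 2 ^ B))) B (by simp)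
    (by rw [at_set_ne _ (by decide), at_set_ne _ (Ne.symm hiW), hW])
    (by rw [at_set_ne _ (by decide), at_set_ne _ (Ne.symm i3), e3])
    (by rw [at_set_self, hsp])
  rw [at_set_ne _ (by decide), at_set_ne _ (Ne.symm i1), e1, List.append_nil] at r2
  set H : List (SSym E) := bits (bitsOf (S - B) (w / 2 ^ B)) with hH
  have r3 := r_clear (J := J) .A1 ((((s.set i []).set .A8 (wd S w)).set .A8 H).set .A1
    (bits (bitsOf B w)).reverse)
  rw [at_set_self] at r3
  have q3 : ((((s.set i []).set .A8 (wd S w)).set .A8 H).set .A1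
    (bits (bitsOf B w)).reverse).set .A1 [] = (s.set i []).set .A8 H := by
    refine sw_ext (fun j => by simp) fun r => ?_
    simp only [at_set]
    split_ifs <;> simp_all
  rw [q3] at r3
  have r4 := r_rev (J := J) (a := .A8) (b := i) (Ne.symm i2) ((s.set i []).set .A8 H)
  rw [at_set_self, at_set_ne _ i2, at_set_self, List.append_nil] at r4
  have q4 : (((s.set i []).set .A8 H).set .A8 []).set i H.reverse = s.set i H.reverse := by
    refine sw_ext (fun j => by simp) fun r => ?_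
    simp only [at_set]
    split_ifs <;> simp_all
  rw [q4] at r4
  have hh : H.reverse.head? = some (sb (w.testBit (S - 1))) := by
    have := take_sign (E := E) (S := S - B) (w := w / 2 ^ B) (by omega)
    rw [hH, this, Nat.testBit_div_two_pow]
    congr 3
    omega
  have r5 := r_dups (J := J) (u := .WB) (t := .F7) (i := i) (j := o) (by decide)
    (Ne.symm hiW) (Ne.symm hoW) (Ne.symm i3) (Ne.symm o3) hio (s.set i H.reverse) B
    (sb (w.testBit (S - 1))) (by rw [at_set_ne _ (Ne.symm hiW), hW])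
    (by rw [at_set_ne _ (Ne.symm i3), e3]) (by rw [at_set_self]; exact hh)
  rw [at_set_ne _ (Ne.symm hio), hO, List.append_nil] at r5
  have r6 := r_rev (J := J) (a := i) (b := o) hio ((s.set i H.reverse).set o
    (List.replicate B (sb (w.testBit (S - 1)))))
  rw [at_set_ne _ hio, at_set_self, at_set_self, List.reverse_reverse, List.length_reverse] at r6
  have hf : (wd S (asr S B w) : List (SSym E)) = H ++
      List.replicate B (sb (w.testBit (S - 1))) := by
    unfold wd
    rw [asr_bits hB hw, hH]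
    simp [bits]
  refine ((r1.seq (r2.seq (r3.seq (r4.seq (r5.seq r6))))).mono ?_).of_eq ?_
  · rw [hH]
    simp only [length_bits, length_bitsOf, List.length_reverse]
    omega
  · rw [hf]
    refine sw_ext (fun j => by simp) fun r => ?_
    simp only [at_set]
    split_ifs <;> simp_all

/-! ### The complex product -/

/-- The complex product. -/
def cm (mc : PW J E) (ar ai br bi : W) : PW J E :=
  (mlow mc ar br .A2).seq <|
  (mlow mc ai bi .A3).seq <|
  (mlow mc ar bi .A4).seq <|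
  (mlow mc ai br .A5).seq <|
  (Prog.clear (Sum.inr ar)).seq <|
  (Prog.clear (Sum.inr ai)).seq <|
  ((SS.scan2 (Sum.inr .A2) (Sum.inr .A3) (Sum.inr .A6) (Sum.inr .A7) SS.x3 SS.bw).seq
    (Prog.clear (Sum.inr .A7))).seq <|
  (shr .A6 ar).seq <|
  ((SS.scan2 (Sum.inr .A4) (Sum.inr .A5) (Sum.inr .A6) (Sum.inr .A7) SS.x3 SS.mj).seq
    (Prog.clear (Sum.inr .A7))).seq <|
  shr .A6 ai

theorem psm_sub : ∀ r ∈ psm, r ∈ asc := by decide

/-- The stores in the complex product. -/
def FS (s : SW J E) (ar ai : W) (l2 l3 l4 l5 l6 la lb : List (SSym E)) : SW J E :=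
  ((((((s.set .A2 l2).set .A3 l3).set .A4 l4).set .A5 l5).set .A6 l6).set ar la).set ai lb

/-- Conditions on the two registers. -/
structure OK (ar ai : W) : Prop where
  h : ar ≠ ai
  a2 : ar ≠ .A2
  a3 : ar ≠ .A3
  a4 : ar ≠ .A4
  a5 : ar ≠ .A5
  a6 : ar ≠ .A6
  b2 : ai ≠ .A2
  b3 : ai ≠ .A3
  b4 : ai ≠ .A4
  b5 : ai ≠ .A5
  b6 : ai ≠ .A6

section FSlemmas

variable {s : SW J E} {ar ai : W} {l2 l3 l4 l5 l6 la lb : List (SSym E)} (l : List (SSym E))

theorem FS.sb : (FS s ar ai l2 l3 l4 l5 l6 la lb).set ai l = FS s ar ai l2 l3 l4 l5 l6 la l := by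
  unfold FS; rw [set_set]

theorem FS.sa (H : OK ar ai) :
    (FS s ar ai l2 l3 l4 l5 l6 la lb).set ar l = FS s ar ai l2 l3 l4 l5 l6 l lb := by
  unfold FS; rw [set_comm _ (Ne.symm H.h), set_set]

theorem FS.s6 (H : OK ar ai) :
    (FS s ar ai l2 l3 l4 l5 l6 la lb).set .A6 l = FS s ar ai l2 l3 l4 l5 l la lb := by
  unfold FS; rw [set_comm _ H.b6, set_comm _ H.a6, set_set]

theorem FS.s5 (H : OK ar ai) :
    (FS s ar ai l2 l3 l4 l5 l6 la lb).set .A5 l = FS s ar ai l2 l3 l4 l l6 la lb := by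
  unfold FS
  rw [set_comm _ H.b5, set_comm _ H.a5, set_comm _ (show W.A6 ≠ W.A5 by decide), set_set]

theorem FS.s4 (H : OK ar ai) :
    (FS s ar ai l2 l3 l4 l5 l6 la lb).set .A4 l = FS s ar ai l2 l3 l l5 l6 la lb := by
  unfold FS
  rw [set_comm _ H.b4, set_comm _ H.a4, set_comm _ (show W.A6 ≠ W.A4 by decide),
    set_comm _ (show W.A5 ≠ W.A4 by decide), set_set]

theorem FS.s3 (H : OK ar ai) :
    (FS s ar ai l2 l3 l4 l5 l6 la lb).set .A3 l = FS s ar ai l2 l l4 l5 l6 la lb := by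
  unfold FS
  rw [set_comm _ H.b3, set_comm _ H.a3, set_comm _ (show W.A6 ≠ W.A3 by decide),
    set_comm _ (show W.A5 ≠ W.A3 by decide), set_comm _ (show W.A4 ≠ W.A3 by decide), set_set]

theorem FS.s2 (H : OK ar ai) :
    (FS s ar ai l2 l3 l4 l5 l6 la lb).set .A2 l = FS s ar ai l l3 l4 l5 l6 la lb := by
  unfold FS
  rw [set_comm _ H.b2, set_comm _ H.a2, set_comm _ (show W.A6 ≠ W.A2 by decide),
    set_comm _ (show W.A5 ≠ W.A2 by decide), set_comm _ (show W.A4 ≠ W.A2 by decide),
    set_comm _ (show W.A3 ≠ W.A2 by decide), set_set]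

theorem FS.tb : (FS s ar ai l2 l3 l4 l5 l6 la lb).at ai = lb := by
  unfold FS; rw [at_set_self]

theorem FS.ta (H : OK ar ai) : (FS s ar ai l2 l3 l4 l5 l6 la lb).at ar = la := by
  unfold FS; rw [at_set_ne _ H.h, at_set_self]

theorem FS.t6 (H : OK ar ai) : (FS s ar ai l2 l3 l4 l5 l6 la lb).at .A6 = l6 := by
  unfold FS; rw [at_set_ne _ (Ne.symm H.b6), at_set_ne _ (Ne.symm H.a6), at_set_self]

theorem FS.t5 (H : OK ar ai) : (FS s ar ai l2 l3 l4 l5 l6 la lb).at .A5 = l5 := by
  unfold FS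
  rw [at_set_ne _ (Ne.symm H.b5), at_set_ne _ (Ne.symm H.a5), at_set_ne _ (by decide),
    at_set_self]

theorem FS.t4 (H : OK ar ai) : (FS s ar ai l2 l3 l4 l5 l6 la lb).at .A4 = l4 := by
  unfold FS
  rw [at_set_ne _ (Ne.symm H.b4), at_set_ne _ (Ne.symm H.a4), at_set_ne _ (by decide),
    at_set_ne _ (by decide), at_set_self]

theorem FS.t3 (H : OK ar ai) : (FS s ar ai l2 l3 l4 l5 l6 la lb).at .A3 = l3 := by
  unfold FS
  rw [at_set_ne _ (Ne.symm H.b3), at_set_ne _ (Ne.symm H.a3), at_set_ne _ (by decide),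
    at_set_ne _ (by decide), at_set_ne _ (by decide), at_set_self]

theorem FS.t2 (H : OK ar ai) : (FS s ar ai l2 l3 l4 l5 l6 la lb).at .A2 = l2 := by
  unfold FS
  rw [at_set_ne _ (Ne.symm H.b2), at_set_ne _ (Ne.symm H.a2), at_set_ne _ (by decide),
    at_set_ne _ (by decide), at_set_ne _ (by decide), at_set_ne _ (by decide), at_set_self]

theorem FS.to {r : W} (h1 : r ≠ ar) (h2 : r ≠ ai) (h3 : r ∉ [W.A2, .A3, .A4, .A5, .A6]) :
    (FS s ar ai l2 l3 l4 l5 l6 la lb).at r = s.at r := by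
  simp only [List.mem_cons, List.not_mem_nil, or_false, not_or] at h3
  obtain ⟨e2, e3, e4, e5, e6⟩ := h3
  unfold FS
  rw [at_set_ne _ h2, at_set_ne _ h1, at_set_ne _ e6, at_set_ne _ e5, at_set_ne _ e4,
    at_set_ne _ e3, at_set_ne _ e2]

theorem FS.tl (j : Loc J) :
    (FS s ar ai l2 l3 l4 l5 l6 la lb) (Sum.inl j) = s (Sum.inl j) := by
  unfold FS
  simp only [set_inl]

theorem FS.st (h2 : s.at .A2 = []) (h3 : s.at .A3 = []) (h4 : s.at .A4 = [])
    (h5 : s.at .A5 = []) (h6 : s.at .A6 = []) :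
    FS s ar ai [] [] [] [] [] la lb = (s.set ar la).set ai lb := by
  unfold FS
  rw [set_of_at h2, set_of_at h3, set_of_at h4, set_of_at h5, set_of_at h6]

end FSlemmas

/-- The complex product. -/
theorem cm_spec {mc : PW J E} {T : ℕ → ℕ} {C : ℕ} (hmc : MSpec mc T C) :
    CmSpec (cm mc) T (4 * C + 400) := by
  intro S B x y ar ai br bi s hB hBS hc hnd hna hx1 hx2 hy1 hy2 hWS hWB hAR hAI hBR hBI
  have hS : 1 ≤ S := by omega
  have nar : ar ∉ asc := hna _ (by simp)
  have nai : ai ∉ asc := hna _ (by simp)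
  have nbr : br ∉ asc := hna _ (by simp)
  have nbi : bi ∉ asc := hna _ (by simp)
  simp only [List.nodup_cons, List.mem_cons, List.not_mem_nil, or_false, not_or,
    List.nodup_nil, and_true, not_false_eq_true] at hnd
  obtain ⟨⟨-, w1, w2, w3, w4⟩, ⟨v1, v2, v3, v4⟩, ⟨u1, u2, u3⟩, ⟨t1, t2⟩, t3⟩ := hnd
  have ne : ∀ {r}, r ∉ asc → ∀ q ∈ asc, r ≠ q := fun h q hq h' => h (h' ▸ hq)
  have ne' : ∀ {r}, r ∉ asc → ∀ q ∈ asc, q ≠ r := fun h q hq h' => h (h' ▸ hq)
  have H : OK ar ai := ⟨u1, ne nar _ (by decide), ne nar _ (by decide), ne nar _ (by decide),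
    ne nar _ (by decide), ne nar _ (by decide), ne nai _ (by decide), ne nai _ (by decide),
    ne nai _ (by decide), ne nai _ (by decide), ne nai _ (by decide)⟩
  have ps : ∀ {r}, r ∉ asc → r ∉ psm := fun h h' => h (psm_sub _ h')
  have em : ∀ r ∈ asc, s.at r = [] := hc.emp
  have hr5 : ∀ {r}, r ∉ asc → r ∉ [W.A2, .A3, .A4, .A5, .A6] := by
    intro r hr hr'
    have : ∀ q ∈ [W.A2, .A3, .A4, .A5, .A6], q ∈ asc := by decide
    exact hr (this r hr')
  have hps : ∀ r ∈ psm, r ∉ [W.A2, .A3, .A4, .A5, .A6] := by decide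
  have emF : ∀ (l2 l3 l4 l5 l6 la lb : List (SSym E)) (r : W), r ∈ psm →
      (FS s ar ai l2 l3 l4 l5 l6 la lb).at r = [] := by
    intro l2 l3 l4 l5 l6 la lb r hr
    rw [FS.to (ne' nar r (psm_sub r hr)) (ne' nai r (psm_sub r hr)) (hps r hr)]
    exact em r (psm_sub r hr)
  have hs0 : s = FS s ar ai [] [] [] [] [] (wd S x.1) (wd S x.2) := by
    rw [FS.st (em _ (by decide)) (em _ (by decide)) (em _ (by decide)) (em _ (by decide))
      (em _ (by decide)), set_of_at hAR, set_of_at hAI]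
  have toS : ∀ (l2 l3 l4 l5 l6 la lb : List (SSym E)),
      (FS s ar ai l2 l3 l4 l5 l6 la lb).at .WS = una S := by
    intro l2 l3 l4 l5 l6 la lb
    rw [FS.to w1 w2 (by decide), hWS]
  have toB : ∀ (l2 l3 l4 l5 l6 la lb : List (SSym E)),
      (FS s ar ai l2 l3 l4 l5 l6 la lb).at .WB = una B := by
    intro l2 l3 l4 l5 l6 la lb
    rw [FS.to v1 v2 (by decide), hWB]
  have tor : ∀ (l2 l3 l4 l5 l6 la lb : List (SSym E)),
      (FS s ar ai l2 l3 l4 l5 l6 la lb).at br = wd S y.1 := by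
    intro l2 l3 l4 l5 l6 la lb
    rw [FS.to (Ne.symm u2) (Ne.symm t1) (hr5 nbr), hBR]
  have toi : ∀ (l2 l3 l4 l5 l6 la lb : List (SSym E)),
      (FS s ar ai l2 l3 l4 l5 l6 la lb).at bi = wd S y.2 := by
    intro l2 l3 l4 l5 l6 la lb
    rw [FS.to (Ne.symm u3) (Ne.symm t2) (hr5 nbi), hBI]
  have hid : ∀ (l2 l3 l4 l5 l6 la lb : List (SSym E)) (j : Loc J),
      (FS s ar ai l2 l3 l4 l5 l6 la lb) (Sum.inl j) = [] := by
    intro l2 l3 l4 l5 l6 la lb j
    rw [FS.tl]; exact hc.idle j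
  -- products
  have r1 := r_mlow hmc hS hx1 hy1 (ps nar) (ps nbr) (show W.A2 ∉ psm by decide)
    (hid [] [] [] [] [] (wd S x.1) (wd S x.2)) (emF _ _ _ _ _ _ _) (toS _ _ _ _ _ _ _)
    (FS.ta H) (tor _ _ _ _ _ _ _) (FS.t2 H)
  rw [FS.s2 _ H] at r1
  have r2 := r_mlow hmc hS hx2 hy2 (ps nai) (ps nbi) (show W.A3 ∉ psm by decide)
    (hid (wd S (muR S x.1 y.1)) [] [] [] [] (wd S x.1) (wd S x.2)) (emF _ _ _ _ _ _ _)
    (toS _ _ _ _ _ _ _) FS.tb (toi _ _ _ _ _ _ _) (FS.t3 H)
  rw [FS.s3 _ H] at r2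
  have r3 := r_mlow hmc hS hx1 hy2 (ps nar) (ps nbi) (show W.A4 ∉ psm by decide)
    (hid (wd S (muR S x.1 y.1)) (wd S (muR S x.2 y.2)) [] [] [] (wd S x.1) (wd S x.2))
    (emF _ _ _ _ _ _ _) (toS _ _ _ _ _ _ _) (FS.ta H) (toi _ _ _ _ _ _ _) (FS.t4 H)
  rw [FS.s4 _ H] at r3
  have r4 := r_mlow hmc hS hx2 hy1 (ps nai) (ps nbr) (show W.A5 ∉ psm by decide)
    (hid (wd S (muR S x.1 y.1)) (wd S (muR S x.2 y.2)) (wd S (muR S x.1 y.2)) [] []
      (wd S x.1) (wd S x.2))
    (emF _ _ _ _ _ _ _) (toS _ _ _ _ _ _ _) FS.tb (tor _ _ _ _ _ _ _) (FS.t5 H)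
  rw [FS.s5 _ H] at r4
  have r5 := r_clear ar (FS s ar ai (wd S (muR S x.1 y.1)) (wd S (muR S x.2 y.2))
    (wd S (muR S x.1 y.2)) (wd S (muR S x.2 y.1)) [] (wd S x.1) (wd S x.2))
  rw [FS.ta H, FS.sa _ H, length_wd] at r5
  have r6 := r_clear ai (FS s ar ai (wd S (muR S x.1 y.1)) (wd S (muR S x.2 y.2))
    (wd S (muR S x.1 y.2)) (wd S (muR S x.2 y.1)) [] [] (wd S x.2))
  rw [FS.tb, FS.sb, length_wd] at r6
  -- the real part
  have r7 := r_scan2 (J := J) (i := .A2) (j := .A3) (o := .A6) (q := .A7) (by decide)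
    (by decide) (by decide) (by decide) (by decide) (by decide) SS.x3 SS.bw
    (bitsOf S (muR S x.1 y.1)) (bitsOf S (muR S x.2 y.2)) (by simp)
    (FS s ar ai (wd S (muR S x.1 y.1)) (wd S (muR S x.2 y.2))
    (wd S (muR S x.1 y.2)) (wd S (muR S x.2 y.1)) [] [] []) (FS.t2 H) (FS.t3 H)
    (by rw [FS.to (ne' nar _ (by decide)) (ne' nai _ (by decide)) (by decide)]
        exact em _ (by decide))
  rw [sub_bits (muR_lt ..) (muR_lt ..), FS.t6 H, List.append_nil, length_bitsOf, FS.s2 _ H,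
    FS.s3 _ H, FS.s6 _ H] at r7
  have r8 := r_shr (J := J) (S := S) (B := B) (i := .A6) (o := ar) hBS
    (sbR_lt S (muR S x.1 y.1) (muR S x.2 y.2)) (by decide)
    (by
      simp only [ssm, List.mem_cons, List.not_mem_nil, or_false, not_or]
      exact ⟨ne nar _ (by decide), ne nar _ (by decide), ne nar _ (by decide)⟩)
    (ne' nar _ (by decide)) (by decide) (Ne.symm v1)
    (s := FS s ar ai [] [] (wd S (muR S x.1 y.2)) (wd S (muR S x.2 y.1))
      (bits (bitsOf S (sbR S (muR S x.1 y.1) (muR S x.2 y.2)))).reverse [] [])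
    (fun r hr => emF _ _ _ _ _ _ _ r (by revert hr; revert r; decide)) (toB _ _ _ _ _ _ _)
    (FS.t6 H) (FS.ta H)
  rw [FS.s6 _ H, FS.sa _ H] at r8
  -- the imaginary part
  have r9 := r_scan2 (J := J) (i := .A4) (j := .A5) (o := .A6) (q := .A7) (by decide)
    (by decide) (by decide) (by decide) (by decide) (by decide) SS.x3 SS.mj
    (bitsOf S (muR S x.1 y.2)) (bitsOf S (muR S x.2 y.1)) (by simp)
    (FS s ar ai [] [] (wd S (muR S x.1 y.2)) (wd S (muR S x.2 y.1)) []
      (wd S (asr S B (sbR S (muR S x.1 y.1) (muR S x.2 y.2)))) []) (FS.t4 H) (FS.t5 H)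
    (by rw [FS.to (ne' nar _ (by decide)) (ne' nai _ (by decide)) (by decide)]
        exact em _ (by decide))
  rw [add_bits (muR_lt ..) (muR_lt ..), FS.t6 H, List.append_nil, length_bitsOf, FS.s4 _ H,
    FS.s5 _ H, FS.s6 _ H] at r9
  have r10 := r_shr (J := J) (S := S) (B := B) (i := .A6) (o := ai) hBS
    (adR_lt S (muR S x.1 y.2) (muR S x.2 y.1)) (by decide)
    (by
      simp only [ssm, List.mem_cons, List.not_mem_nil, or_false, not_or]
      exact ⟨ne nai _ (by decide), ne nai _ (by decide), ne nai _ (by decide)⟩)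
    (ne' nai _ (by decide)) (by decide) (Ne.symm v2)
    (s := FS s ar ai [] [] [] []
      (bits (bitsOf S (adR S (muR S x.1 y.2) (muR S x.2 y.1)))).reverse
      (wd S (asr S B (sbR S (muR S x.1 y.1) (muR S x.2 y.2)))) [])
    (fun r hr => emF _ _ _ _ _ _ _ r (by revert hr; revert r; decide)) (toB _ _ _ _ _ _ _)
    (FS.t6 H) FS.tb
  rw [FS.s6 _ H, FS.sb, FS.st (em _ (by decide)) (em _ (by decide)) (em _ (by decide))
    (em _ (by decide)) (em _ (by decide))] at r10
  rw [← hs0] at r1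
  refine ((r1.seq (r2.seq (r3.seq (r4.seq (r5.seq (r6.seq (r7.seq (r8.seq
    (r9.seq r10))))))))).mono ?_).of_eq rfl
  have : (4 * C + 400) * (S + T S) = 4 * ((C + 50) * (S + T S)) + 200 * S + 200 * T S := by
    ring
  omega

/-! ### Conjugation -/

/-- Conjugation of the number on `PR`, `PI`. -/
def cj : PW J E :=
  (Prog.fill (Sum.inr .WS) (sb false) (Sum.inr .A2) (Sum.inr .F7)).seq <|
  ((SS.scan2 (Sum.inr .A2) (Sum.inr .PI) (Sum.inr .A6) (Sum.inr .A7) SS.x3 SS.bw).seq
    (Prog.clear (Sum.inr .A7))).seq <|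
  Prog.rev (Sum.inr .A6) (Sum.inr .PI)

theorem cj_spec : CjSpec (cj : PW J E) 40 := by
  intro S x s hS hc hx hWS hPI
  have em : ∀ r ∈ asc, s.at r = [] := hc.emp
  have r1 := r_fill (J := J) (u := .WS) (b := .A2) (t := .F7) (by decide) (by decide)
    (by decide) (sb false) s S hWS (em _ (by decide))
  have e1 : (List.replicate S (sb false) : List (SSym E)) ++ s.at .A2 = wd S 0 := by
    rw [em _ (by decide), List.append_nil, wd, bitsOf_zero]
    simp [bits]
  rw [e1] at r1
  have r2 := r_scan2 (J := J) (i := .A2) (j := .PI) (o := .A6) (q := .A7) (by decide)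
    (by decide) (by decide) (by decide) (by decide) (by decide) SS.x3 SS.bw
    (bitsOf S 0) (bitsOf S x) (by simp) (s.set .A2 (wd S 0)) (at_set_self ..)
    (by rw [at_set_ne _ (by decide), hPI]; rfl)
    (by rw [at_set_ne _ (by decide)]; exact em _ (by decide))
  rw [sub_bits (by positivity) hx, length_bitsOf, at_set_ne _ (by decide), em .A6 (by decide),
    List.append_nil] at r2
  have e2 : (((s.set .A2 (wd S 0)).set .A2 []).set .PI []).set .A6
      (bits (bitsOf S (sbR S 0 x))).reverse =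
      (s.set .PI []).set .A6 (bits (bitsOf S (sbR S 0 x))).reverse := by
    rw [set_set, set_of_at (em .A2 (by decide))]
  rw [e2] at r2
  have r3 := r_rev (J := J) (a := .A6) (b := .PI) (by decide)
    ((s.set .PI []).set .A6 (bits (bitsOf S (sbR S 0 x))).reverse)
  rw [at_set_self, at_set_ne _ (by decide), at_set_self, List.append_nil, List.reverse_reverse,
    set_set, List.length_reverse, length_bits, length_bitsOf] at r3
  have e3 : ((s.set .PI []).set .A6 []).set .PI (bits (bitsOf S (sbR S 0 x))) =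
      s.set .PI (wd S (sbR S 0 x)) := by
    rw [set_comm _ (show W.A6 ≠ W.PI by decide), set_set, set_of_at (r := W.A6)
      (by rw [at_set_ne _ (by decide)]; exact em .A6 (by decide))]
    rfl
  rw [e3] at r3
  refine (r1.seq (r2.seq r3)).mono ?_
  omega

end Vale.Agent.P338.GS.Ar
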