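import Vale.Agent.P338.GS.ConvA

/-!
# P338, matrices of every shape: sums, differences and arithmetic shifts of words
-/

namespace Vale.Agent.P338.GS.CV

open Vale.Agent.P338 Vale.Agent.P338.GS Vale.Agent.P338.S2 Vale.Agent.P338.GS.IO

/-! ### Words -/

theorem scO_append (f g : Bool → Bool → Bool → Bool) (as bs : List Bool) :
    ∀ (c : Bool) (as' bs' : List Bool), as.length = bs.length →
      SS.scO f g c (as ++ as') (bs ++ bs') =
        SS.scO f g c as bs ++ SS.scO f g (SS.scC g c as bs) as' bs' := by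
  induction as generalizing bs with
  | nil =>
    intro c as' bs' h
    cases bs with
    | nil => rfl
    | cons b bs => simp at h
  | cons a as ih =>
    intro c as' bs' h
    cases bs with
    | nil => simp at h
    | cons b bs => simp [SS.scO, SS.scC, ih bs _ _ _ (by simpa using h)]

theorem scC_append (g : Bool → Bool → Bool → Bool) (as bs : List Bool) :
    ∀ (c : Bool) (as' bs' : List Bool), as.length = bs.length →
      SS.scC g c (as ++ as') (bs ++ bs') = SS.scC g (SS.scC g c as bs) as' bs' := by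
  induction as generalizing bs with
  | nil =>
    intro c as' bs' h
    cases bs with
    | nil => rfl
    | cons b bs => simp at h
  | cons a as ih =>
    intro c as' bs' h
    cases bs with
    | nil => simp at h
    | cons b bs => simp [SS.scC, ih bs _ _ _ (by simpa using h)]

theorem sc_sub {S x y : ℕ} (hx : x < 2 ^ S) (hy : y < 2 ^ S) :
    SS.scO SS.x3 SS.bw false (bitsOf S x) (bitsOf S y) = bitsOf S (sbR S x y) := by
  have hl : (bitsOf S x).length = (bitsOf S y).length := by simp
  have h := SS.sub_val false (bitsOf S x) (bitsOf S y) hl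
  have l := SS.length_scO SS.x3 SS.bw false _ _ hl
  rw [length_bitsOf] at l h
  rw [natOf_bitsOf_of_lt hx, natOf_bitsOf_of_lt hy] at h
  have hb := natOf_lt (SS.scO SS.x3 SS.bw false (bitsOf S x) (bitsOf S y))
  rw [l] at hb
  rw [← bitsOf_natOf_of l]
  congr 1
  unfold sbR
  rw [Nat.mod_eq_of_lt hy]
  rcases Bool.eq_false_or_eq_true (SS.scC SS.bw false (bitsOf S x) (bitsOf S y)) with hc | hc
  · rw [hc] at h
    simp only [Bool.toNat_false, Nat.add_zero, Bool.toNat_true, Nat.mul_one] at h
    rw [Nat.mod_eq_of_lt (by omega)]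
    omega
  · rw [hc] at h
    simp only [Bool.toNat_false, Nat.add_zero, Nat.mul_zero] at h
    rw [show x + (2 ^ S - y) = (x - y) + 2 ^ S by omega, Nat.add_mod_right,
      Nat.mod_eq_of_lt (by omega)]
    omega

theorem sc_add {S x y : ℕ} (hx : x < 2 ^ S) (hy : y < 2 ^ S) :
    SS.scO SS.x3 SS.mj false (bitsOf S x) (bitsOf S y) = bitsOf S (adR S x y) := by
  have hl : (bitsOf S x).length = (bitsOf S y).length := by simp
  have h := SS.add_val false (bitsOf S x) (bitsOf S y) hl
  have l := SS.length_scO SS.x3 SS.mj false _ _ hl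
  rw [length_bitsOf] at l h
  rw [natOf_bitsOf_of_lt hx, natOf_bitsOf_of_lt hy] at h
  have hb := natOf_lt (SS.scO SS.x3 SS.mj false (bitsOf S x) (bitsOf S y))
  rw [l] at hb
  rw [← bitsOf_natOf_of l]
  congr 1
  unfold adR
  simp only [Bool.toNat_false, Nat.add_zero] at h
  rw [← h, Nat.add_mul_mod_self_left, Nat.mod_eq_of_lt hb]

theorem asr_bits {S B d : ℕ} (hB : B < S) (hd : d < 2 ^ S) :
    bitsOf S (asr S B d) = bitsOf (S - B) (d / 2 ^ B) ++
      List.replicate B (d.testBit (S - 1)) := by
  have e1 : 2 ^ S = 2 ^ (S - B) * 2 ^ B := by rw [← pow_add]; congr 1; omega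
  have h1 : d / 2 ^ B < 2 ^ (S - B) := by
    rw [Nat.div_lt_iff_lt_mul (by positivity), ← e1]; exact hd
  have e2 : S = (S - B) + B := by omega
  have e3 : 2 ^ S = 2 * 2 ^ (S - 1) := by rw [← pow_succ']; congr 1; omega
  have e4 : d.testBit (S - 1) = decide (2 ^ (S - 1) ≤ d) := by
    rw [Nat.testBit_eq_decide_div_mod_eq]
    have p : 0 < 2 ^ (S - 1) := by positivity
    by_cases h : 2 ^ (S - 1) ≤ d
    · have : d / 2 ^ (S - 1) = 1 := by
        refine Nat.div_eq_of_lt_le (by omega) (by omega)
      simp [this, h]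
    · have : d / 2 ^ (S - 1) = 0 := Nat.div_eq_of_lt (by omega)
      simp [this, h]
  have key : ∀ w, bitsOf S w = bitsOf (S - B) w ++ bitsOf B (w / 2 ^ (S - B)) := fun w => by
    conv_lhs => rw [e2]
    exact bitsOf_add _ _ _
  rw [key, e4]
  unfold asr
  by_cases h : d < 2 ^ (S - 1)
  · rw [if_pos h, decide_eq_false (by omega), Nat.div_eq_of_lt h1, bitsOf_zero]
  · rw [if_neg h, decide_eq_true (by omega)]
    have e5 : 2 ^ S - 2 ^ (S - B) = 2 ^ (S - B) * (2 ^ B - 1) := by
      rw [Nat.mul_sub, Nat.mul_one, ← e1]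
    rw [e5, Nat.add_mul_div_left _ _ (by positivity), Nat.div_eq_of_lt h1,
      Nat.zero_add]
    congr 1
    · rw [bitsOf_eq_iff, Nat.add_mul_mod_self_left]
    · refine List.ext_getElem (by simp) fun i h1 h2 => ?_
      simp only [List.length_replicate] at h2
      simp [bitsOf, Nat.testBit_two_pow_sub_one, h2]

/-- The last bit. -/
theorem bits_top {S B d : ℕ} (hB : B < S) : ∃ l : List Bool,
    (bitsOf (S - B) (d / 2 ^ B)).reverse = d.testBit (S - 1) :: l := by
  obtain ⟨k, hk⟩ : ∃ k, S - B = k + 1 := ⟨S - B - 1, by omega⟩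
  refine ⟨(bitsOf k (d / 2 ^ B)).reverse, ?_⟩
  rw [hk, bitsOf_succ_right, List.reverse_append]
  simp only [List.reverse_cons, List.reverse_nil, List.nil_append, List.singleton_append]
  congr 1
  rw [Nat.testBit_div_two_pow]
  congr 1
  omega

/-! ### Commands -/

variable {J E : Type} [DecidableEq J]

/-- The scan of `|u|` bits of `x` and `y`. -/
theorem r_scan2 {u t x y o q : W} (hut : u ≠ t) (hux : u ≠ x) (huy : u ≠ y) (huo : u ≠ o)
    (huq : u ≠ q) (htx : t ≠ x) (hty : t ≠ y) (hto : t ≠ o) (htq : t ≠ q) (hxy : x ≠ y)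
    (hxo : x ≠ o) (hxq : x ≠ q) (hyo : y ≠ o) (hyq : y ≠ q) (hoq : o ≠ q)
    (f g : Bool → Bool → Bool → Bool) (as bs : List Bool) (s : SW J E) (c : Bool)
    (rx ry : List (SSym E)) (n : ℕ) (hn : as.length = n) (hn' : bs.length = n)
    (hu : s.at u = una n)
    (ht : s.at t = []) (hx : s.at x = bits as ++ rx) (hy : s.at y = bits bs ++ ry)
    (hq : s.at q = SS.fl c) :
    Runs (Prog.forr (Sum.inr u) (Sum.inr t)
      (SS.st2 (Sum.inr x) (Sum.inr y) (Sum.inr o) (Sum.inr q) f g) : PW J E) s
      ((((s.set x rx).set y ry).set o ((bits (SS.scO f g c as bs)).reverse ++ s.at o)).set q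
        (SS.fl (SS.scC g c as bs))) (8 * n + 1) := by
  subst hn
  have hut' : (Sum.inr u : Loc J ⊕ W) ≠ Sum.inr t := by simpa using hut
  have h := Runs.forr' hut' (body := (SS.st2 (Sum.inr x) (Sum.inr y) (Sum.inr o)
      (Sum.inr q) f g : PW J E)) as.length mk
    (fun k => (((s.set x (bits (as.drop k) ++ rx)).set y (bits (bs.drop k) ++ ry)).set o
      ((bits (SS.scO f g c (as.take k) (bs.take k))).reverse ++ s.at o)).set q
        (SS.fl (SS.scC g c (as.take k) (bs.take k)))) (fun _ => 1)
    (fun k _ => by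
      have : ((((s.set x (bits (as.drop k) ++ rx)).set y (bits (bs.drop k) ++ ry)).set o
      ((bits (SS.scO f g c (as.take k) (bs.take k))).reverse ++ s.at o)).set q
        (SS.fl (SS.scC g c (as.take k) (bs.take k)))).at u = una as.length := by
        rw [at_set_ne _ huq, at_set_ne _ huo, at_set_ne _ huy, at_set_ne _ hux, hu]
      exact this)
    (fun k _ => by
      have : ((((s.set x (bits (as.drop k) ++ rx)).set y (bits (bs.drop k) ++ ry)).set o
      ((bits (SS.scO f g c (as.take k) (bs.take k))).reverse ++ s.at o)).set q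
        (SS.fl (SS.scC g c (as.take k) (bs.take k)))).at t = [] := by
        rw [at_set_ne _ htq, at_set_ne _ hto, at_set_ne _ hty, at_set_ne _ htx, ht]
      exact this)
    (by
      intro k hk l l'
      have hk' : k < bs.length := by omega
      have e1 : as.drop k = as[k] :: as.drop (k + 1) := List.drop_eq_getElem_cons hk
      have e1' : bs.drop k = bs[k] :: bs.drop (k + 1) := List.drop_eq_getElem_cons hk'
      have e2 : as.take (k + 1) = as.take k ++ [as[k]] := by
        rw [List.take_add_one, List.getElem?_eq_getElem hk]; simp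
      have e2' : bs.take (k + 1) = bs.take k ++ [bs[k]] := by
        rw [List.take_add_one, List.getElem?_eq_getElem hk']; simp
      have el : (as.take k).length = (bs.take k).length := by simp [hn']
      have e3 : SS.scO f g c (as.take k ++ [as[k]]) (bs.take k ++ [bs[k]]) =
          SS.scO f g c (as.take k) (bs.take k) ++
            [f as[k] bs[k] (SS.scC g c (as.take k) (bs.take k))] := by
        rw [scO_append f g _ _ _ _ _ el]; rfl
      have e4 : SS.scC g c (as.take k ++ [as[k]]) (bs.take k ++ [bs[k]]) =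
          g as[k] bs[k] (SS.scC g c (as.take k) (bs.take k)) := by
        rw [scC_append g _ _ _ _ _ el]; rfl
      have i1 : (Sum.inr x : Loc J ⊕ W) ≠ Sum.inr o := by simpa using hxo
      have i2 : (Sum.inr x : Loc J ⊕ W) ≠ Sum.inr q := by simpa using hxq
      have i3 : (Sum.inr o : Loc J ⊕ W) ≠ Sum.inr q := by simpa using hoq
      have i4 : (Sum.inr u : Loc J ⊕ W) ≠ Sum.inr x := by simpa using hux
      have i5 : (Sum.inr u : Loc J ⊕ W) ≠ Sum.inr o := by simpa using huo
      have i6 : (Sum.inr u : Loc J ⊕ W) ≠ Sum.inr q := by simpa using huq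
      have i7 : (Sum.inr t : Loc J ⊕ W) ≠ Sum.inr x := by simpa using htx
      have i8 : (Sum.inr t : Loc J ⊕ W) ≠ Sum.inr o := by simpa using hto
      have i9 : (Sum.inr t : Loc J ⊕ W) ≠ Sum.inr q := by simpa using htq
      have j1 : (Sum.inr x : Loc J ⊕ W) ≠ Sum.inr y := by simpa using hxy
      have j2 : (Sum.inr y : Loc J ⊕ W) ≠ Sum.inr o := by simpa using hyo
      have j3 : (Sum.inr y : Loc J ⊕ W) ≠ Sum.inr q := by simpa using hyq
      have j4 : (Sum.inr u : Loc J ⊕ W) ≠ Sum.inr y := by simpa using huy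
      have j5 : (Sum.inr t : Loc J ⊕ W) ≠ Sum.inr y := by simpa using hty
      refine (SS.Runs.st2 j1 i1 i2 j2 j3 i3 f g _ (as[k]) (bs[k])
        (SS.scC g c (as.take k) (bs.take k))
        (bits (as.drop (k + 1)) ++ rx) (bits (bs.drop (k + 1)) ++ ry) ?_ ?_ ?_).of_eq ?_
      · rw [Function.update_of_ne i7.symm, Function.update_of_ne i4.symm]
        unfold SW.set
        rw [Function.update_of_ne i2, Function.update_of_ne i1, Function.update_of_ne j1,
          Function.update_self, e1]
        rfl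
      · rw [Function.update_of_ne j5.symm, Function.update_of_ne j4.symm]
        unfold SW.set
        rw [Function.update_of_ne j3, Function.update_of_ne j2, Function.update_self, e1']
        rfl
      · rw [Function.update_of_ne i9.symm, Function.update_of_ne i6.symm]
        unfold SW.set
        rw [Function.update_self]
      · rw [e2, e2', e3, e4]
        unfold SW.set
        funext m
        simp only [Function.update_apply]
        split_ifs <;> simp_all [bits])
  simp only [Finset.sum_const, Finset.card_range, smul_eq_mul] at h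
  have e0 : (((s.set x (bits (as.drop 0) ++ rx)).set y (bits (bs.drop 0) ++ ry)).set o
      ((bits (SS.scO f g c (as.take 0) (bs.take 0))).reverse ++ s.at o)).set q
        (SS.fl (SS.scC g c (as.take 0) (bs.take 0))) = s := by
    have k1 : s.set x (bits (as.drop 0) ++ rx) = s := set_of_at (by rw [hx]; rfl)
    have k1' : s.set y (bits (bs.drop 0) ++ ry) = s := set_of_at (by rw [hy]; rfl)
    have k2 : s.set o ((bits (SS.scO f g c (as.take 0) (bs.take 0))).reverse ++ s.at o) = s :=
      set_of_at (by simp [SS.scO, bits])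
    have k3 : s.set q (SS.fl (SS.scC g c (as.take 0) (bs.take 0))) = s :=
      set_of_at (by rw [hq]; simp [SS.scC])
    rw [k1, k1', k2, k3]
  rw [e0, List.drop_length, List.take_length] at h
  refine (h.mono (by omega)).of_eq ?_
  have e5 : bs.drop as.length = [] := by rw [← hn', List.drop_length]
  have e6 : bs.take as.length = bs := by rw [← hn', List.take_length]
  rw [e5, e6]
  rfl

/-- Push the top symbol again. -/
def dup (i : W) : PW J E :=
  Prog.act fun tp l =>
    match tp (wg i) with
    | none => Op.keep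
    | some a => if l = wg i then Op.push a else Op.keep

theorem dup_runs (i : W) (s : SW J E) {a : SSym E} {l : List (SSym E)}
    (hs : s (wg i) = a :: l) :
    Runs (dup i) s (Function.update s (wg i) (a :: a :: l)) 1 := by
  refine (Runs.act _ s).of_eq ?_
  funext m
  have h1 : tops s (wg i) = some a := by simp [hs]
  simp only [h1]
  by_cases e : m = wg i
  · subst e
    simp [hs]
  · simp [e]

/-- Push the top symbol once for every symbol of `u`. -/
theorem r_dup {u o t : W} (huo : u ≠ o) (hut : u ≠ t) (hot : o ≠ t) (s : SW J E) (n : ℕ)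
    (hu : s.at u = una n) (ht : s.at t = []) {a : SSym E} {l : List (SSym E)}
    (ho : s.at o = a :: l) :
    Runs (Prog.forr (Sum.inr u) (Sum.inr t) (dup o) : PW J E) s
      (s.set o (List.replicate n a ++ s.at o)) (8 * n + 1) := by
  have hut' : (Sum.inr u : Loc J ⊕ W) ≠ Sum.inr t := by simpa using hut
  have h := Runs.forr' hut' (body := (dup o : PW J E)) n mk
    (fun k => s.set o (List.replicate k a ++ a :: l)) (fun _ => 1)
    (fun k _ => by
      have := at_set_ne s huo (List.replicate k a ++ a :: l)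
      unfold SW.at at this hu
      rw [this, hu]; rfl)
    (fun k _ => by
      have := at_set_ne s hot.symm (List.replicate k a ++ a :: l)
      unfold SW.at at this ht
      rw [this, ht])
    (by
      intro k hk l₁ l₂
      have h1 : (Sum.inr o : Loc J ⊕ W) ≠ Sum.inr t := by simpa using hot
      have h2 : (Sum.inr u : Loc J ⊕ W) ≠ Sum.inr o := by simpa using huo
      obtain ⟨l', hl'⟩ : ∃ l', List.replicate k a ++ a :: l = a :: l' := by
        cases k with
        | zero => exact ⟨l, rfl⟩
        | succ k => exact ⟨List.replicate k a ++ a :: l, rfl⟩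
      refine (dup_runs o _ (a := a) (l := l') ?_).of_eq ?_
      · rw [Function.update_of_ne h1, Function.update_of_ne h2.symm]
        unfold SW.set
        rw [Function.update_self, hl']
      · have e : List.replicate (k + 1) a ++ a :: l = a :: a :: l' := by
          rw [List.replicate_succ, List.cons_append, hl']
        rw [e]
        unfold SW.set
        funext q
        simp only [Function.update_apply]
        split_ifs <;> simp_all)
  simp only [Finset.sum_const, Finset.card_range, smul_eq_mul] at h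
  have e : s.set o (List.replicate 0 a ++ a :: l) = s := set_of_at (by rw [ho]; rfl)
  rw [e] at h
  rw [ho]
  exact h.mono (by omega)

/-! ### One word -/

/-- The sum or difference of a word of `x` and a word of `y`, shifted, on `T7` (reversed). -/
def wdP (x y : W) (g : Bool → Bool → Bool → Bool) : PW J E :=
  (Prog.forr (wg .WB) (wg .F1) (SS.st2 (wg x) (wg y) (wg .T1) (wg .F3) SS.x3 g)).seq <|
  (Prog.clear (wg .T1)).seq <|
  (Prog.forr (wg .T8) (wg .F1) (SS.st2 (wg x) (wg y) (wg .T7) (wg .F3) SS.x3 g)).seq <|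
  (Prog.clear (wg .F3)).seq <|
  Prog.forr (wg .WB) (wg .F1) (dup .T7)

/-- An operation computed by a scan. -/
structure Opn (S : ℕ) (g : Bool → Bool → Bool → Bool) (op : ℕ → ℕ → ℕ) : Prop where
  sc : ∀ x y, x < 2 ^ S → y < 2 ^ S →
    SS.scO SS.x3 g false (bitsOf S x) (bitsOf S y) = bitsOf S (op x y)
  lt : ∀ x y, op x y < 2 ^ S

theorem opn_sub (S : ℕ) : Opn S SS.bw (sbR S) := ⟨fun _ _ => sc_sub, sbR_lt S⟩

theorem opn_add (S : ℕ) : Opn S SS.mj (adR S) := ⟨fun _ _ => sc_add, adR_lt S⟩

theorem wdP_spec {S B : ℕ} (hB : B < S) {g : Bool → Bool → Bool → Bool} {op : ℕ → ℕ → ℕ}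
    (hop : Opn S g op) {x y : W} (hx : x ∈ [W.DR, .DI, .ER, .EI])
    (hy : y ∈ [W.DR, .DI, .ER, .EI]) (hxy : x ≠ y) {s : SW J E}
    (hF1 : s.at .F1 = []) (hF3 : s.at .F3 = []) (hT1 : s.at .T1 = [])
    (h1 : s.at .WB = una B) (h2 : s.at .T8 = una (S - B)) {e e' : ℕ} (he : e < 2 ^ S)
    (he' : e' < 2 ^ S) {rx ry : List (SSym E)} (hX : s.at x = bits (bitsOf S e) ++ rx)
    (hY : s.at y = bits (bitsOf S e') ++ ry) :
    Runs (wdP x y g) s (((s.set x rx).set y ry).set .T7
      ((bits (bitsOf S (asr S B (op e e')))).reverse ++ s.at .T7)) (60 * S) := by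
  have n1 : ∀ z ∈ [W.WB, .F1, .T1, .F3, .T7, .T8], z ≠ x := by
    intro z hz rfl
    revert hx hz
    cases z <;> decide
  have n2 : ∀ z ∈ [W.WB, .F1, .T1, .F3, .T7, .T8], z ≠ y := by
    intro z hz rfl
    revert hy hz
    cases z <;> decide
  obtain ⟨d, hd⟩ : ∃ d, d = op e e' := ⟨_, rfl⟩
  have hdlt : d < 2 ^ S := by rw [hd]; exact hop.lt _ _
  -- the bits
  have sx : bitsOf S e = bitsOf B e ++ bitsOf (S - B) (e / 2 ^ B) := by
    conv_lhs => rw [show S = B + (S - B) by omega]
    exact bitsOf_add _ _ _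
  have sy : bitsOf S e' = bitsOf B e' ++ bitsOf (S - B) (e' / 2 ^ B) := by
    conv_lhs => rw [show S = B + (S - B) by omega]
    exact bitsOf_add _ _ _
  have sd : bitsOf S d = bitsOf B d ++ bitsOf (S - B) (d / 2 ^ B) := by
    conv_lhs => rw [show S = B + (S - B) by omega]
    exact bitsOf_add _ _ _
  have hsc := hop.sc e e' he he'
  rw [← hd, sx, sy, sd, scO_append _ _ _ _ _ _ _ (by simp)] at hsc
  have hl : (bitsOf B e).length = (bitsOf B e').length := by simp
  have hsc' := List.append_inj hsc (by rw [SS.length_scO _ _ _ _ _ hl]; simp)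
  obtain ⟨c, hc⟩ : ∃ c, c = SS.scC g false (bitsOf B e) (bitsOf B e') := ⟨_, rfl⟩
  rw [← hc] at hsc'
  obtain ⟨c', hc'⟩ : ∃ c', c' = SS.scC g c (bitsOf (S - B) (e / 2 ^ B))
    (bitsOf (S - B) (e' / 2 ^ B)) := ⟨_, rfl⟩
  -- the first scan
  have a1 := r_scan2 (J := J) (u := .WB) (t := .F1) (x := x) (y := y) (o := .T1) (q := .F3)
    (by decide) (n1 _ (by simp)) (n2 _ (by simp)) (by decide) (by decide) (n1 _ (by simp))
    (n2 _ (by simp)) (by decide) (by decide) hxy (n1 _ (by simp)).symm
    (n1 _ (by simp)).symm (n2 _ (by simp)).symm (n2 _ (by simp)).symm (by decide) SS.x3 g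
    (bitsOf B e) (bitsOf B e') s false (bits (bitsOf (S - B) (e / 2 ^ B)) ++ rx)
    (bits (bitsOf (S - B) (e' / 2 ^ B)) ++ ry) B (by simp) (by simp) h1 hF1
    (by rw [hX, sx]; simp [bits]) (by rw [hY, sy]; simp [bits]) (by rw [hF3]; rfl)
  rw [hsc'.1, ← hc, hT1, List.append_nil] at a1
  set s1 := (((s.set x (bits (bitsOf (S - B) (e / 2 ^ B)) ++ rx)).set y
    (bits (bitsOf (S - B) (e' / 2 ^ B)) ++ ry)).set .T1 (bits (bitsOf B d)).reverse).set .F3
      (SS.fl c) with hs1
  have a2 := r_clear (J := J) .T1 s1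
  have e2 : (s1.at .T1).length = B := by simp [s1, at_set]
  rw [e2] at a2
  set s2 := s1.set .T1 [] with hs2
  have q1 : s2.at .T8 = una (S - B) := by
    rw [hs2, hs1, at_set_ne _ (by decide), at_set_ne _ (by decide), at_set_ne _ (by decide),
      at_set_ne _ (n2 _ (by simp)), at_set_ne _ (n1 _ (by simp)), h2]
  have q2 : s2.at .F1 = [] := by
    rw [hs2, hs1, at_set_ne _ (by decide), at_set_ne _ (by decide), at_set_ne _ (by decide),
      at_set_ne _ (n2 _ (by simp)), at_set_ne _ (n1 _ (by simp)), hF1]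
  have q3 : s2.at x = bits (bitsOf (S - B) (e / 2 ^ B)) ++ rx := by
    rw [hs2, hs1, at_set_ne _ (n1 _ (by simp)).symm, at_set_ne _ (n1 _ (by simp)).symm,
      at_set_ne _ (n1 _ (by simp)).symm, at_set_ne _ hxy, at_set_self]
  have q4 : s2.at y = bits (bitsOf (S - B) (e' / 2 ^ B)) ++ ry := by
    rw [hs2, hs1, at_set_ne _ (n2 _ (by simp)).symm, at_set_ne _ (n2 _ (by simp)).symm,
      at_set_ne _ (n2 _ (by simp)).symm, at_set_self]
  have q5 : s2.at .F3 = SS.fl c := by
    rw [hs2, hs1, at_set_ne _ (by decide), at_set_self]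
  have q6 : s2.at .T7 = s.at .T7 := by
    rw [hs2, hs1, at_set_ne _ (by decide), at_set_ne _ (by decide), at_set_ne _ (by decide),
      at_set_ne _ (n2 _ (by simp)), at_set_ne _ (n1 _ (by simp))]
  have q7 : s2.at .WB = una B := by
    rw [hs2, hs1, at_set_ne _ (by decide), at_set_ne _ (by decide), at_set_ne _ (by decide),
      at_set_ne _ (n2 _ (by simp)), at_set_ne _ (n1 _ (by simp)), h1]
  have a3 := r_scan2 (J := J) (u := .T8) (t := .F1) (x := x) (y := y) (o := .T7) (q := .F3)
    (by decide) (n1 _ (by simp)) (n2 _ (by simp)) (by decide) (by decide) (n1 _ (by simp))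
    (n2 _ (by simp)) (by decide) (by decide) hxy (n1 _ (by simp)).symm
    (n1 _ (by simp)).symm (n2 _ (by simp)).symm (n2 _ (by simp)).symm (by decide) SS.x3 g
    (bitsOf (S - B) (e / 2 ^ B)) (bitsOf (S - B) (e' / 2 ^ B)) s2 c rx ry (S - B)
    (by simp) (by simp) q1 q2 q3 q4 q5
  rw [hsc'.2, ← hc', q6] at a3
  set s3 := (((s2.set x rx).set y ry).set .T7 ((bits (bitsOf (S - B) (d / 2 ^ B))).reverse ++
    s.at .T7)).set .F3 (SS.fl c') with hs3
  have a4 := r_clear (J := J) .F3 s3
  have e4 : (s3.at .F3).length ≤ 1 := by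
    rw [hs3, at_set_self]
    cases c' <;> simp
  set s4 := s3.set .F3 [] with hs4
  obtain ⟨l, hl⟩ := bits_top (d := d) hB
  have q8 : s4.at .T7 = sb (d.testBit (S - 1)) :: (bits l ++ s.at .T7) := by
    rw [hs4, hs3, at_set_ne _ (by decide), at_set_ne _ (by decide), at_set_self]
    have : (bits (bitsOf (S - B) (d / 2 ^ B)) : List (SSym E)).reverse =
      sb (d.testBit (S - 1)) :: bits l := by
      have h := congrArg (fun l => (bits l : List (SSym E))) hl
      simpa [bits, List.map_reverse] using h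
    rw [this]
    rfl
  have q9 : s4.at .WB = una B := by
    rw [hs4, hs3, at_set_ne _ (by decide), at_set_ne _ (by decide), at_set_ne _ (by decide),
      at_set_ne _ (n2 _ (by simp)), at_set_ne _ (n1 _ (by simp)), q7]
  have q10 : s4.at .F1 = [] := by
    rw [hs4, hs3, at_set_ne _ (by decide), at_set_ne _ (by decide), at_set_ne _ (by decide),
      at_set_ne _ (n2 _ (by simp)), at_set_ne _ (n1 _ (by simp)), q2]
  have a5 := r_dup (J := J) (u := .WB) (o := .T7) (t := .F1) (by decide) (by decide)
    (by decide) s4 B q9 q10 q8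
  refine ((a1.seq (a2.seq (a3.seq (a4.seq a5)))).mono (by omega)).of_eq ?_
  have q11 : s4.at .T7 = (bits (bitsOf (S - B) (d / 2 ^ B))).reverse ++ s.at .T7 := by
    rw [hs4, hs3, at_set_ne _ (by decide), at_set_ne _ (by decide), at_set_self]
  have q12 : List.replicate B (sb (d.testBit (S - 1))) ++ s4.at .T7 =
      (bits (bitsOf S (asr S B (op e e')))).reverse ++ s.at .T7 := by
    rw [q11, ← hd, asr_bits hB hdlt]
    simp [bits]
  rw [q12]
  have m1 := n1 .T7 (by simp)
  have m2 := n2 .T7 (by simp)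
  have m3 := n1 .F3 (by simp)
  have m4 := n2 .F3 (by simp)
  have m5 := n1 .T1 (by simp)
  have m6 := n2 .T1 (by simp)
  clear a1 a2 a3 a4 a5 q1 q2 q3 q4 q5 q6 q7 q8 q9 q10 q11 q12 hsc hsc' sx sy sd n1 n2 hx hy
  refine sw_ext (fun j => by simp [s4, s3, s2, s1]) fun r => ?_
  simp only [s4, s3, s2, s1, at_set]
  split_ifs <;> simp_all

/-- All words. -/
def wdL (x y : W) (g : Bool → Bool → Bool → Bool) : PW J E :=
  Prog.loop (nonempty (wg x)) (wdP x y g)

theorem wdL_spec {S B : ℕ} (hB : B < S) {g : Bool → Bool → Bool → Bool} {op : ℕ → ℕ → ℕ}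
    (hop : Opn S g op) {x y : W} (hx : x ∈ [W.DR, .DI, .ER, .EI])
    (hy : y ∈ [W.DR, .DI, .ER, .EI]) (hxy : x ≠ y) (n : ℕ) : ∀ (e e' : ℕ → ℕ) (s : SW J E),
    s.at .F1 = [] → s.at .F3 = [] → s.at .T1 = [] → s.at .WB = una B →
    s.at .T8 = una (S - B) → (∀ k, e k < 2 ^ S) → (∀ k, e' k < 2 ^ S) →
    s.at x = bits (cat n fun k => bitsOf S (e k)) →
    s.at y = bits (cat n fun k => bitsOf S (e' k)) →
    Runs (wdL x y g) s (((s.set x []).set y []).set .T7
      ((bits (cat n fun k => bitsOf S (asr S B (op (e k) (e' k))))).reverse ++ s.at .T7))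
      (62 * (n * S)) := by
  have n1 : ∀ z ∈ [W.WB, .F1, .T1, .F3, .T7, .T8], z ≠ x := by
    intro z hz rfl
    revert hx hz
    cases z <;> decide
  have n2 : ∀ z ∈ [W.WB, .F1, .T1, .F3, .T7, .T8], z ≠ y := by
    intro z hz rfl
    revert hy hz
    cases z <;> decide
  induction n with
  | zero =>
    intro e e' s _ _ _ _ _ _ _ hX hY
    have hX' : s.at x = [] := by rw [hX]; rfl
    have hY' : s.at y = [] := by rw [hY]; rfl
    refine ((Runs.loopF (by
      have : s (Sum.inr x) = [] := hX'
      simp [this])).of_eq ?_).mono (by omega)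
    rw [cat_zero, set_of_at hX', set_of_at hY', set_of_at]
    simp [bits]
  | succ n ih =>
    intro e e' s hF1 hF3 hT1 h1 h2 he he' hX hY
    rw [cat_succ'] at hX hY
    have hX' : s.at x = bits (bitsOf S (e 0)) ++ bits (cat n fun k => bitsOf S (e (k + 1))) := by
      rw [hX]; simp [bits]
    have hY' : s.at y = bits (bitsOf S (e' 0)) ++
        bits (cat n fun k => bitsOf S (e' (k + 1))) := by
      rw [hY]; simp [bits]
    have a1 := wdP_spec hB hop hx hy hxy hF1 hF3 hT1 h1 h2 (he 0) (he' 0) hX' hY'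
    set s1 := ((s.set x (bits (cat n fun k => bitsOf S (e (k + 1))))).set y
      (bits (cat n fun k => bitsOf S (e' (k + 1))))).set .T7
        ((bits (bitsOf S (asr S B (op (e 0) (e' 0))))).reverse ++ s.at .T7) with hs1
    have q : ∀ {a : W} {l : List (SSym E)}, a ∈ [W.WB, .F1, .T1, .F3, .T7, .T8] →
        a ≠ .T7 → s.at a = l → s1.at a = l := by
      intro a l ha ha' hl
      rw [hs1, at_set_ne _ ha', at_set_ne _ (n2 _ ha), at_set_ne _ (n1 _ ha), hl]
    have a2 := ih (fun k => e (k + 1)) (fun k => e' (k + 1)) s1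
      (q (by simp) (by decide) hF1) (q (by simp) (by decide) hF3)
      (q (by simp) (by decide) hT1) (q (by simp) (by decide) h1)
      (q (by simp) (by decide) h2) (fun k => he (k + 1)) (fun k => he' (k + 1))
      (by rw [hs1, at_set_ne _ (n1 .T7 (by simp)).symm, at_set_ne _ hxy, at_set_self])
      (by rw [hs1, at_set_ne _ (n2 .T7 (by simp)).symm, at_set_self])
    have hne : nonempty (Sum.inr x) (tops s) = true := by
      obtain ⟨S', rfl⟩ : ∃ S', S = S' + 1 := ⟨S - 1, by omega⟩
      have : s (Sum.inr x) = bits (bitsOf (S' + 1) (e 0)) ++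
        bits (cat n fun k => bitsOf (S' + 1) (e (k + 1))) := hX'
      rw [nonempty_tops, this, bitsOf_succ]
      simp [bits]
    refine ((Runs.loopT (c := nonempty (Sum.inr x)) (p := wdP x y g) hne a1 a2).mono
      ?_).of_eq ?_
    · have : 1 ≤ S := by omega
      nlinarith
    · have e3 : s1.at .T7 = (bits (bitsOf S (asr S B (op (e 0) (e' 0))))).reverse ++
          s.at .T7 := by rw [hs1, at_set_self]
      rw [e3, cat_succ']
      have e4 : (bits (bitsOf S (asr S B (op (e 0) (e' 0))) ++ cat n fun k =>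
          bitsOf S (asr S B (op (e (k + 1)) (e' (k + 1))))) : List (SSym E)).reverse =
          (bits (cat n fun k => bitsOf S (asr S B (op (e (k + 1)) (e' (k + 1)))))).reverse ++
          (bits (bitsOf S (asr S B (op (e 0) (e' 0))))).reverse := by simp [bits]
      rw [e4, List.append_assoc]
      have m1 := n1 .T7 (by simp)
      have m2 := n2 .T7 (by simp)
      clear a1 a2 ih hX hX' hY hY' e3 e4 hne n1 n2 hx hy q
      refine sw_ext (fun j => by simp [s1]) fun r => ?_
      simp only [s1, at_set]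
      split_ifs <;> rfl

/-- The result of the pass, on `o`. -/
def wdA (x y o : W) (g : Bool → Bool → Bool → Bool) : PW J E :=
  (wdL x y g).seq (Prog.rev (wg .T7) (wg o))

theorem wdA_spec {S B : ℕ} (hB : B < S) {g : Bool → Bool → Bool → Bool} {op : ℕ → ℕ → ℕ}
    (hop : Opn S g op) {x y o : W} (hx : x ∈ [W.DR, .DI, .ER, .EI])
    (hy : y ∈ [W.DR, .DI, .ER, .EI]) (hxy : x ≠ y) (ho : o ∈ [W.XR, .XI]) (n : ℕ)
    (e e' : ℕ → ℕ) (s : SW J E)
    (hF1 : s.at .F1 = []) (hF3 : s.at .F3 = []) (hT1 : s.at .T1 = []) (hT7 : s.at .T7 = [])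
    (h1 : s.at .WB = una B)
    (h2 : s.at .T8 = una (S - B)) (he : ∀ k, e k < 2 ^ S) (he' : ∀ k, e' k < 2 ^ S)
    (hX : s.at x = bits (cat n fun k => bitsOf S (e k)))
    (hY : s.at y = bits (cat n fun k => bitsOf S (e' k))) (hO : s.at o = []) :
    Runs (wdA x y o g) s (((s.set x []).set y []).set o
      (bits (cat n fun k => bitsOf S (asr S B (op (e k) (e' k))))))
      (65 * (n * S) + 1) := by
  have n7 : o ≠ .T7 := by rintro rfl; simp at ho
  have nx : x ≠ .T7 := by rintro rfl; simp at hx
  have ny : y ≠ .T7 := by rintro rfl; simp at hy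
  have nx' : x ≠ o := by rintro rfl; revert hx ho; cases x <;> decide
  have ny' : y ≠ o := by rintro rfl; revert hy ho; cases y <;> decide
  have a1 := wdL_spec hB hop hx hy hxy n e e' s hF1 hF3 hT1 h1 h2 he he' hX hY
  obtain ⟨rl, hrl⟩ : ∃ rl, rl = cat n fun k => bitsOf S (asr S B (op (e k) (e' k))) :=
    ⟨_, rfl⟩
  have lrl : rl.length = n * S := by
    rw [hrl, length_cat_of fun _ _ => length_bitsOf _ _]
  rw [← hrl, hT7, List.append_nil] at a1
  rw [← hrl]
  have a2 := r_rev (J := J) (a := .T7) (b := o) n7.symm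
    (((s.set x []).set y []).set .T7 (bits rl).reverse)
  have e2 : ((((s.set x []).set y []).set .T7 (bits rl).reverse).at .T7).length = n * S := by
    rw [at_set_self, List.length_reverse, length_bits, lrl]
  rw [e2, at_set_self, List.reverse_reverse] at a2
  refine ((a1.seq a2).mono (by omega)).of_eq ?_
  rw [set_set, at_set_ne _ n7, at_set_ne _ ny'.symm, at_set_ne _ nx'.symm, hO,
    List.append_nil]
  congr 1
  refine set_of_at ?_
  rw [at_set_ne _ ny.symm, at_set_ne _ nx.symm, hT7]

end Vale.Agent.P338.GS.CV
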