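import Vale.Agent.P338.GS.ConvB
import Vale.Agent.P338.GS.ConvC

/-!
# P338, matrices of every shape: the convolution of complex numbers
-/

namespace Vale.Agent.P338.GS.CV

open Vale.Agent.P338 Vale.Agent.P338.GS Vale.Agent.P338.S2 Vale.Agent.P338.GS.IO

variable {J E : Type} [DecidableEq J]

/-- Compute the sizes. -/
def csz : List (GC E) :=
  [.scl 3 .WS .T6, .mul .HZ .T6 .T3, .clr .T6, .mul .HR .T3 .T2, .cp .T3 .T4, .sub .WS .T4,
    .scl 2 .WS .T1, .scl 2 .HR .T5, .pop .T5]

/-- Remove the sizes and the operands. -/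
def cun : List (GC E) :=
  [.clr .T1, .clr .T2, .clr .T3, .clr .T4, .clr .T5, .clr .KR, .clr .KI, .clr .XR, .clr .XI,
    .cp .WS .T8, .sub .WB .T8]

/-- The convolution. -/
def convP (mc : PW J E) : PW J E :=
  (gcs csz).seq <| (one mc .KR .XR .DR).seq <| (one mc .KI .XI .DI).seq <|
  (one mc .KR .XI .ER).seq <| (one mc .KI .XR .EI).seq <| (gcs cun).seq <|
  (wdA .DR .DI .XR SS.bw).seq <| (wdA .ER .EI .XI SS.mj).seq (Prog.clear (wg .T8))

theorem csz_runs {X r Z S B m : ℕ} {ρ : ℕ × ℕ} {s : SW J E} (e : Env s X r Z S B ρ)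
    (hs : Sz X r Z S m) :
    Runs (gcs csz) s (((((s.set .T3 (una (Z * (3 * S)))).set .T2
      (una (r * (Z * (3 * S))))).set .T4 (una (Z * (3 * S) - S))).set .T1
        (una (2 * S))).set .T5 (una (2 * r - 1))) (60 * m) := by
  obtain ⟨b0, b1, b2, b3, b4, b5, b6, b7, b8⟩ := hs.bds
  have hm := hs.hm
  have emp : ∀ q ∈ psc, s.at q = [] := e.emp2
  have t1 : s.at .T1 = [] := emp _ (by decide)
  have t2 : s.at .T2 = [] := emp _ (by decide)
  have t3 : s.at .T3 = [] := emp _ (by decide)
  have t4 : s.at .T4 = [] := emp _ (by decide)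
  have t5 : s.at .T5 = [] := emp _ (by decide)
  have t6 : s.at .T6 = [] := emp _ (by decide)
  have f5 : s.at .F5 = [] := emp _ (by decide)
  have f6 : s.at .F6 = [] := emp _ (by decide)
  have h1 := e.hz
  have h2 := e.hr
  have h3 := e.ws
  have h := gcs_spec (J := J) (E := E) csz s (by
    simp only [csz, goks, GC.ok, GC.eff, at_set, h1, h2, h3, t1, t2, t3, t4, t6, f5, f6]
    simp)
  refine (h.mono ?_).of_eq ?_
  · simp only [csz, gcosts, GC.cost, GC.eff, at_set, h1, h2, h3, t2, t3, t4, t6]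
    simp only [reduceCtorEq, if_false, if_true, len_una, List.append_nil]
    have c1 : Z * (S * 3 * 10 + 8) = 30 * (Z * S) + 8 * Z := by ring
    have c2 : r * (Z * (S * 3) * 10 + 8) = 30 * (r * (Z * S)) + 8 * r := by ring
    have c3 : Z * (S * 3) = 3 * (Z * S) := by ring
    rw [c1, c2, c3]
    omega
  · simp only [csz, geffs, GC.eff, at_set, h1, h2, h3, t1, t2, t3, t4, t5, t6]
    simp only [reduceCtorEq, if_false, if_true, len_una, List.append_nil]
    have c1 : S * 3 = 3 * S := by ring
    have c2 : S * 2 = 2 * S := by ring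
    have c3 : r * 2 = 2 * r := by ring
    rw [c1, c2, c3]
    refine sw_ext (fun j => by simp) fun q => ?_
    simp only [at_set, drop_una', tail_una']
    cases q <;> simp only [reduceCtorEq, if_false, if_true, t6]

theorem cun_runs {X r Z S B m : ℕ} {ρ : ℕ × ℕ} {s : SW J E} (e : Env s X r Z S B ρ)
    (hs : Sz X r Z S m) (hBS : B ≤ S) (n1 n2 n3 n4 n5 : ℕ) (dr di er ei : List (SSym E))
    (hn1 : n1 ≤ m) (hn2 : n2 ≤ m) (hn3 : n3 ≤ m) (hn4 : n4 ≤ m) (hn5 : n5 ≤ m)
    (k1 : (s.at .KR).length ≤ m) (k2 : (s.at .KI).length ≤ m) (k3 : (s.at .XR).length ≤ m)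
    (k4 : (s.at .XI).length ≤ m) :
    Runs (gcs cun) (((((((((s.set .T3 (una n3)).set .T2 (una n2)).set .T4 (una n4)).set .T1
      (una n1)).set .T5 (una n5)).set .DR dr).set .DI di).set .ER er).set .EI ei)
      (((((((((s.set .KR []).set .KI []).set .XR []).set .XI []).set .T8
        (una (S - B))).set .DR dr).set .DI di).set .ER er).set .EI ei) (60 * m) := by
  obtain ⟨b0, b1, b2, b3, b4, b5, b6, b7, b8⟩ := hs.bds
  have hm := hs.hm
  have emp : ∀ q ∈ psc, s.at q = [] := e.emp2
  have t1 : s.at .T1 = [] := emp _ (by decide)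
  have t2 : s.at .T2 = [] := emp _ (by decide)
  have t3 : s.at .T3 = [] := emp _ (by decide)
  have t4 : s.at .T4 = [] := emp _ (by decide)
  have t5 : s.at .T5 = [] := emp _ (by decide)
  have t8 : s.at .T8 = [] := emp _ (by decide)
  have f5 : s.at .F5 = [] := emp _ (by decide)
  have h1 := e.ws
  have h2 := e.wb
  have h := gcs_spec (J := J) (E := E) cun (((((((((s.set .T3 (una n3)).set .T2
      (una n2)).set .T4 (una n4)).set .T1
      (una n1)).set .T5 (una n5)).set .DR dr).set .DI di).set .ER er).set .EI ei) (by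
    simp only [cun, goks, GC.ok, GC.eff, at_set, h1, h2, t8, f5]
    simp)
  refine (h.mono ?_).of_eq ?_
  · simp only [cun, gcosts, GC.cost, GC.eff, at_set, h1, h2, t8]
    simp only [reduceCtorEq, if_false, if_true, len_una, List.append_nil]
    omega
  · simp only [cun, geffs, GC.eff, at_set, h1, h2, t8]
    simp only [reduceCtorEq, if_false, if_true, len_una, List.append_nil]
    refine sw_ext (fun j => by simp) fun q => ?_
    simp only [at_set, drop_una']
    cases q <;> simp only [reduceCtorEq, if_false, if_true, t1, t2, t3, t4, t5]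

/-- The three digits as one digit. -/
theorem arr3_flat (X r Z S : ℕ) (e : ℕ → ℕ → ℕ → ℕ) :
    arr3 X r Z S e = cat (X * r * Z) fun k =>
      bitsOf S (e (k / Z / r) (k / Z % r) (k % Z)) := by
  unfold arr3
  rw [cat_mul (X * r), cat_mul X]
  refine cat_congr fun x _ => cat_congr fun i hi => cat_congr fun z hz => ?_
  have e1 : ((x * r + i) * Z + z) / Z = x * r + i := by
    rw [Nat.mul_comm, Nat.mul_add_div (by omega), Nat.div_eq_of_lt hz, Nat.add_zero]
  have e2 : ((x * r + i) * Z + z) % Z = z := by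
    rw [Nat.mul_comm, Nat.mul_add_mod, Nat.mod_eq_of_lt hz]
  have e3 : (x * r + i) / r = x := by
    rw [Nat.mul_comm, Nat.mul_add_div (by omega), Nat.div_eq_of_lt hi, Nat.add_zero]
  have e4 : (x * r + i) % r = i := by
    rw [Nat.mul_comm, Nat.mul_add_mod, Nat.mod_eq_of_lt hi]
  rw [e1, e2, e3, e4]

theorem length_arr3 (X r Z S : ℕ) (e : ℕ → ℕ → ℕ → ℕ) :
    (arr3 X r Z S e).length = X * r * Z * S := by
  unfold arr3
  rw [length_cat_of (L := r * (Z * S)) fun _ _ => length_cat_of fun _ _ =>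
    length_cat_of fun _ _ => length_bitsOf _ _]
  ring

theorem cvR_lt (S r : ℕ) (κ a : ℕ → ℕ) (k : ℕ) : cvR S r κ a k < 2 ^ S :=
  Nat.mod_lt _ (by positivity)

/-- **The convolution**. -/
theorem convSpec {mc : PW J E} {T : ℕ → ℕ} {C : ℕ} (hmc : MSpec mc T C) :
    ConvSpec (convP mc) T (4 * C + 2000) := by
  intro X r Z S B m ρ κ e s N En hm hMM he1 he2 hκ1 hκ2 hKR hKI hXR hXI
  have hB1 := N.hB
  have hBS := N.hS
  have hs : Sz X r Z S m := ⟨N.hX, N.hr, N.hZ, by omega, hm⟩
  obtain ⟨b0, b1, b2, b3, b4, b5, b6, b7, b8⟩ := hs.bds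
  have emA : ∀ q ∈ asc, s.at q = [] := En.emp
  have emP : ∀ q ∈ psc, s.at q = [] := En.emp2
  -- sizes
  have a1 := csz_runs En hs
  set s1 := ((((s.set .T3 (una (Z * (3 * S)))).set .T2
      (una (r * (Z * (3 * S))))).set .T4 (una (Z * (3 * S) - S))).set .T1
        (una (2 * S))).set .T5 (una (2 * r - 1)) with hs1
  have q1 : ∀ {a : W} {l : List (SSym E)}, a ∉ [W.T3, .T2, .T4, .T1, .T5] → s.at a = l →
      s1.at a = l := by
    intro a l ha hl
    simp only [List.mem_cons, List.not_mem_nil, or_false, not_or] at ha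
    rw [hs1, at_set_ne _ ha.2.2.2.2, at_set_ne _ ha.2.2.2.1, at_set_ne _ ha.2.2.1,
      at_set_ne _ ha.2.1, at_set_ne _ ha.1, hl]
  have O1 : OEnv s1 X r Z S m := by
    refine ⟨fun j => by simp only [hs1, set_inl]; exact En.idle j, q1 (by decide) En.hx,
      q1 (by decide) En.hr, q1 (by decide) En.hz, q1 (by decide) En.ws, q1 (by decide) hMM,
      ?_, ?_, ?_, ?_, ?_, q1 (by decide) (emP _ (by decide)),
      q1 (by decide) (emP _ (by decide)), q1 (by decide) (emP _ (by decide)),
      q1 (by decide) (emP _ (by decide)), q1 (by decide) (emP _ (by decide)),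
      q1 (by decide) (emP _ (by decide)), q1 (by decide) (emP _ (by decide)),
      q1 (by decide) (emA _ (by decide)), q1 (by decide) (emA _ (by decide)),
      q1 (by decide) (emA _ (by decide)), q1 (by decide) (emA _ (by decide))⟩
    · rw [hs1, at_set_ne _ (by decide), at_set_self]
    · rw [hs1, at_set_ne _ (by decide), at_set_ne _ (by decide), at_set_ne _ (by decide),
        at_set_self]
    · rw [hs1, at_set_ne _ (by decide), at_set_ne _ (by decide), at_set_ne _ (by decide),
        at_set_ne _ (by decide), at_set_self]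
    · rw [hs1, at_set_ne _ (by decide), at_set_ne _ (by decide), at_set_self]
    · rw [hs1, at_set_self]
  -- the four real convolutions
  obtain ⟨dr, hdr⟩ : ∃ dr : ℕ → ℕ → ℕ → ℕ, dr = fun x k z =>
    cvR S r (fun j => (κ j).1) (fun i => (e x i z).1) k := ⟨_, rfl⟩
  obtain ⟨di, hdi⟩ : ∃ di : ℕ → ℕ → ℕ → ℕ, di = fun x k z =>
    cvR S r (fun j => (κ j).2) (fun i => (e x i z).2) k := ⟨_, rfl⟩
  obtain ⟨er, her⟩ : ∃ er : ℕ → ℕ → ℕ → ℕ, er = fun x k z =>
    cvR S r (fun j => (κ j).1) (fun i => (e x i z).2) k := ⟨_, rfl⟩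
  obtain ⟨ei, hei⟩ : ∃ ei : ℕ → ℕ → ℕ → ℕ, ei = fun x k z =>
    cvR S r (fun j => (κ j).2) (fun i => (e x i z).1) k := ⟨_, rfl⟩
  have ldr : ∀ x i z, dr x i z < 2 ^ S := fun _ _ _ => by rw [hdr]; exact cvR_lt ..
  have ldi : ∀ x i z, di x i z < 2 ^ S := fun _ _ _ => by rw [hdi]; exact cvR_lt ..
  have ler : ∀ x i z, er x i z < 2 ^ S := fun _ _ _ => by rw [her]; exact cvR_lt ..
  have lei : ∀ x i z, ei x i z < 2 ^ S := fun _ _ _ => by rw [hei]; exact cvR_lt ..
  have c1 := one_runs (v := fun x i z => (e x i z).1) hmc hs N.rS hκ1 he1 O1 (k := .KR)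
    (x := .XR) (o := .DR) (by simp)
    (by simp) (by simp) (q1 (by decide) (emP _ (by decide))) (q1 (by decide) hKR)
    (q1 (by decide) hXR)
  rw [← hdr] at c1
  have O2 := O1.set (q := .DR) (by simp) (bits (arr3 X r Z S dr))
  have c2 := one_runs (v := fun x i z => (e x i z).2) hmc hs N.rS hκ2 he2 O2 (k := .KI)
    (x := .XI) (o := .DI) (by simp)
    (by simp) (by simp)
    (by rw [at_set_ne _ (by decide)]; exact q1 (by decide) (emP _ (by decide)))
    (by rw [at_set_ne _ (by decide)]; exact q1 (by decide) hKI)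
    (by rw [at_set_ne _ (by decide)]; exact q1 (by decide) hXI)
  rw [← hdi] at c2
  have O3 := O2.set (q := .DI) (by simp) (bits (arr3 X r Z S di))
  have c3 := one_runs (v := fun x i z => (e x i z).2) hmc hs N.rS hκ1 he2 O3 (k := .KR)
    (x := .XI) (o := .ER) (by simp)
    (by simp) (by simp)
    (by rw [at_set_ne _ (by decide), at_set_ne _ (by decide)]
        exact q1 (by decide) (emP _ (by decide)))
    (by rw [at_set_ne _ (by decide), at_set_ne _ (by decide)]
        exact q1 (by decide) hKR)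
    (by rw [at_set_ne _ (by decide), at_set_ne _ (by decide)]
        exact q1 (by decide) hXI)
  rw [← her] at c3
  have O4 := O3.set (q := .ER) (by simp) (bits (arr3 X r Z S er))
  have c4 := one_runs (v := fun x i z => (e x i z).1) hmc hs N.rS hκ2 he1 O4 (k := .KI)
    (x := .XR) (o := .EI) (by simp)
    (by simp) (by simp)
    (by rw [at_set_ne _ (by decide), at_set_ne _ (by decide), at_set_ne _ (by decide)]
        exact q1 (by decide) (emP _ (by decide)))
    (by rw [at_set_ne _ (by decide), at_set_ne _ (by decide), at_set_ne _ (by decide)]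
        exact q1 (by decide) hKI)
    (by rw [at_set_ne _ (by decide), at_set_ne _ (by decide), at_set_ne _ (by decide)]
        exact q1 (by decide) hXR)
  rw [← hei] at c4
  -- clean
  have hk : (2 * r - 1) * S ≤ m := by
    have h1 : (2 * r - 1) * S ≤ 2 * (r * (Z * S)) := by
      calc (2 * r - 1) * S ≤ (2 * r) * (Z * S) := by
            refine Nat.mul_le_mul (by omega) ?_
            calc S = 1 * S := (Nat.one_mul S).symm
              _ ≤ Z * S := Nat.mul_le_mul_right _ hs.hZ
        _ = _ := by ring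
    omega
  have e3 : Z * (3 * S) = 3 * (Z * S) := by ring
  have e4 : r * (Z * (3 * S)) = 3 * (r * (Z * S)) := by ring
  have c5 := cun_runs En hs (by omega) (2 * S) (r * (Z * (3 * S))) (Z * (3 * S))
    (Z * (3 * S) - S) (2 * r - 1) (bits (arr3 X r Z S dr)) (bits (arr3 X r Z S di))
    (bits (arr3 X r Z S er)) (bits (arr3 X r Z S ei)) (by omega) (by omega) (by omega)
    (by omega) (by omega)
    (by rw [hKR, length_bits, length_cat_of fun _ _ => length_bitsOf _ _]; exact hk)
    (by rw [hKI, length_bits, length_cat_of fun _ _ => length_bitsOf _ _]; exact hk)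
    (by rw [hXR, length_bits, length_arr3]; omega)
    (by rw [hXI, length_bits, length_arr3]; omega)
  rw [← hs1] at c5
  set s2 := ((((((((s.set .KR []).set .KI []).set .XR []).set .XI []).set .T8
        (una (S - B))).set .DR (bits (arr3 X r Z S dr))).set .DI
        (bits (arr3 X r Z S di))).set .ER (bits (arr3 X r Z S er))).set .EI
        (bits (arr3 X r Z S ei)) with hs2
  -- the words
  have f1 : s.at .F1 = [] := emP _ (by decide)
  have f3 : s.at .F3 = [] := emP _ (by decide)
  have t1 : s.at .T1 = [] := emP _ (by decide)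
  have t7 : s.at .T7 = [] := emP _ (by decide)
  have wb := En.wb
  have g1 := wdA_spec (S := S) (B := B) (by omega) (opn_sub S) (x := .DR) (y := .DI)
    (o := .XR) (by simp) (by simp) (by decide) (by simp) (X * r * Z)
    (fun k => dr (k / Z / r) (k / Z % r) (k % Z))
    (fun k => di (k / Z / r) (k / Z % r) (k % Z)) s2 (by simp [hs2, at_set, f1])
    (by simp [hs2, at_set, f3]) (by simp [hs2, at_set, t1]) (by simp [hs2, at_set, t7])
    (by simp [hs2, at_set, wb]) (by simp [hs2, at_set]) (fun _ => ldr _ _ _)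
    (fun _ => ldi _ _ _) (by rw [← arr3_flat]; simp [hs2, at_set])
    (by rw [← arr3_flat]; simp [hs2, at_set]) (by simp [hs2, at_set])
  have g1' := arr3_flat X r Z S fun x k z => asr S B (sbR S (dr x k z) (di x k z))
  rw [← g1'] at g1
  set s3 := ((s2.set .DR []).set .DI []).set .XR
    (bits (arr3 X r Z S fun x k z => asr S B (sbR S (dr x k z) (di x k z)))) with hs3
  have g2 := wdA_spec (S := S) (B := B) (by omega) (opn_add S) (x := .ER) (y := .EI)
    (o := .XI) (by simp) (by simp) (by decide) (by simp) (X * r * Z)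
    (fun k => er (k / Z / r) (k / Z % r) (k % Z))
    (fun k => ei (k / Z / r) (k / Z % r) (k % Z)) s3 (by simp [hs3, hs2, at_set, f1])
    (by simp [hs3, hs2, at_set, f3]) (by simp [hs3, hs2, at_set, t1])
    (by simp [hs3, hs2, at_set, t7])
    (by simp [hs3, hs2, at_set, wb]) (by simp [hs3, hs2, at_set]) (fun _ => ler _ _ _)
    (fun _ => lei _ _ _) (by rw [← arr3_flat]; simp [hs3, hs2, at_set])
    (by rw [← arr3_flat]; simp [hs3, hs2, at_set]) (by simp [hs3, hs2, at_set])
  have g2' := arr3_flat X r Z S fun x k z => asr S B (adR S (er x k z) (ei x k z))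
  rw [← g2'] at g2
  set s4 := ((s3.set .ER []).set .EI []).set .XI
    (bits (arr3 X r Z S fun x k z => asr S B (adR S (er x k z) (ei x k z)))) with hs4
  have g3 := r_clear (J := J) .T8 s4
  have e8 : (s4.at .T8).length = S - B := by simp [hs4, hs3, hs2, at_set]
  rw [e8] at g3
  refine ((a1.seq (c1.seq (c2.seq (c3.seq (c4.seq (c5.seq (g1.seq (g2.seq
    g3)))))))).mono ?_).of_eq ?_
  · have e9 : (4 * C + 2000) * (m + T m) = 4 * ((C + 200) * (m + T m)) + 1200 * m +
        1200 * T m := by ring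
    omega
  · have xr : (arr3 X r Z S fun x k z => asr S B (sbR S (dr x k z) (di x k z))) =
        arr3 X r Z S fun x k z => (cvC S B r κ (fun i => e x i z) k).1 := by
      rw [hdr, hdi]; rfl
    have xi : (arr3 X r Z S fun x k z => asr S B (adR S (er x k z) (ei x k z))) =
        arr3 X r Z S fun x k z => (cvC S B r κ (fun i => e x i z) k).2 := by
      rw [her, hei]; rfl
    have t8 : s.at .T8 = [] := emP _ (by decide)
    have d1 : s.at .DR = [] := emP _ (by decide)
    have d2 : s.at .DI = [] := emP _ (by decide)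
    have d3 : s.at .ER = [] := emP _ (by decide)
    have d4 : s.at .EI = [] := emP _ (by decide)
    rw [hs4, hs3, hs2, xr, xi]
    clear a1 c1 c2 c3 c4 c5 g1 g2 g3 g1' g2' xr xi e8 hs4 hs3 hs2 s4 s3 s2 O1 O2 O3 O4 q1
      hs1 s1
    refine sw_ext (fun j => by simp) fun q => ?_
    simp only [at_set]
    cases q <;> simp only [reduceCtorEq, if_false, if_true, t8, d1, d2, d3, d4]

end Vale.Agent.P338.GS.CV
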