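import Vale.Agent.P338.GS.IO

/-!
# P338, matrices of every shape: the kernel
-/

namespace Vale.Agent.P338.GS.Ker

open Vale.Agent.P338 Vale.Agent.P338.GS Vale.Agent.P338.GS.IO

variable {J E : Type} [DecidableEq J]

/-- The stores during the generation. -/
def kst (s : SW J E) (S n : ℕ) (c d g : ℕ × ℕ) (o1 o2 : List (SSym E)) : SW J E :=
  ((((((((s.set .F2 (una n)).set .CR (wd S c.1)).set .CI (wd S c.2)).set .DR
    (wd S d.1)).set .DI (wd S d.2)).set .GR (wd S g.1)).set .GI (wd S g.2)).set .O1 o1).set .O2 o2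

section sets

variable (s : SW J E) (S n m : ℕ) (c c' d d' g : ℕ × ℕ) (o1 o2 l : List (SSym E))

theorem kst_F2 : (kst s S n c d g o1 o2).set .F2 (una m) = kst s S m c d g o1 o2 := by
  unfold kst
  rw [set_comm _ (q := .F2) (r := .O2) (by decide), set_comm _ (q := .F2) (r := .O1) (by decide),
    set_comm _ (q := .F2) (r := .GI) (by decide), set_comm _ (q := .F2) (r := .GR) (by decide),
    set_comm _ (q := .F2) (r := .DI) (by decide), set_comm _ (q := .F2) (r := .DR) (by decide),
    set_comm _ (q := .F2) (r := .CI) (by decide), set_comm _ (q := .F2) (r := .CR) (by decide),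
    set_set]

theorem kst_O1 : (kst s S n c d g o1 o2).set .O1 l = kst s S n c d g l o2 := by
  unfold kst
  rw [set_comm _ (q := .O1) (r := .O2) (by decide), set_set]

theorem kst_O2 : (kst s S n c d g o1 o2).set .O2 l = kst s S n c d g o1 l := by
  unfold kst
  rw [set_set]

theorem kst_C : ((kst s S n c d g o1 o2).set .CR (wd S c'.1)).set .CI (wd S c'.2) =
    kst s S n c' d g o1 o2 := by
  unfold kst
  rw [set_comm _ (q := .CR) (r := .O2) (by decide), set_comm _ (q := .CR) (r := .O1) (by decide),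
    set_comm _ (q := .CR) (r := .GI) (by decide), set_comm _ (q := .CR) (r := .GR) (by decide),
    set_comm _ (q := .CR) (r := .DI) (by decide), set_comm _ (q := .CR) (r := .DR) (by decide),
    set_comm _ (q := .CR) (r := .CI) (by decide), set_set,
    set_comm _ (q := .CI) (r := .O2) (by decide), set_comm _ (q := .CI) (r := .O1) (by decide),
    set_comm _ (q := .CI) (r := .GI) (by decide), set_comm _ (q := .CI) (r := .GR) (by decide),
    set_comm _ (q := .CI) (r := .DI) (by decide), set_comm _ (q := .CI) (r := .DR) (by decide),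
    set_set]

theorem kst_D : ((kst s S n c d g o1 o2).set .DR (wd S d'.1)).set .DI (wd S d'.2) =
    kst s S n c d' g o1 o2 := by
  unfold kst
  rw [set_comm _ (q := .DR) (r := .O2) (by decide), set_comm _ (q := .DR) (r := .O1) (by decide),
    set_comm _ (q := .DR) (r := .GI) (by decide), set_comm _ (q := .DR) (r := .GR) (by decide),
    set_comm _ (q := .DR) (r := .DI) (by decide), set_set,
    set_comm _ (q := .DI) (r := .O2) (by decide), set_comm _ (q := .DI) (r := .O1) (by decide),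
    set_comm _ (q := .DI) (r := .GI) (by decide), set_comm _ (q := .DI) (r := .GR) (by decide),
    set_set]

/-- The stacks that are changed. -/
def ksl : List W := [.F2, .CR, .CI, .DR, .DI, .GR, .GI, .O1, .O2]

theorem kst_ne {r : W} (h : r ∉ ksl) : (kst s S n c d g o1 o2).at r = s.at r := by
  simp only [ksl, List.mem_cons, List.not_mem_nil, or_false, not_or] at h
  obtain ⟨a1, a2, a3, a4, a5, a6, a7, a8, a9⟩ := h
  unfold kst
  rw [at_set_ne _ a9, at_set_ne _ a8, at_set_ne _ a7, at_set_ne _ a6, at_set_ne _ a5,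
    at_set_ne _ a4, at_set_ne _ a3, at_set_ne _ a2, at_set_ne _ a1]

theorem kst_at : (kst s S n c d g o1 o2).at .F2 = una n ∧
    (kst s S n c d g o1 o2).at .CR = wd S c.1 ∧ (kst s S n c d g o1 o2).at .CI = wd S c.2 ∧
    (kst s S n c d g o1 o2).at .DR = wd S d.1 ∧ (kst s S n c d g o1 o2).at .DI = wd S d.2 ∧
    (kst s S n c d g o1 o2).at .GR = wd S g.1 ∧ (kst s S n c d g o1 o2).at .GI = wd S g.2 ∧
    (kst s S n c d g o1 o2).at .O1 = o1 ∧ (kst s S n c d g o1 o2).at .O2 = o2 := by
  simp [kst, at_set]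

theorem kst_cln (hs : Cln0 s) : Cln0 (kst s S n c d g o1 o2) := by
  have c0 : ∀ (r : W) (x : SW J E) (l : List (SSym E)), Cln0 x → r ∉ asc → Cln0 (x.set r l) :=
    fun r x l h hr => h.set hr l
  unfold kst
  refine c0 _ _ _ (c0 _ _ _ (c0 _ _ _ (c0 _ _ _ (c0 _ _ _ (c0 _ _ _ (c0 _ _ _ (c0 _ _ _
      (c0 _ _ _ hs ?_) ?_) ?_) ?_) ?_) ?_) ?_) ?_) ?_ <;> decide

end sets

theorem r_push (a : W) (x : SSym E) (s : SW J E) :
    Runs (Prog.push (Sum.inr a) x : PW J E) s (s.set a (x :: s.at a)) 1 := Runs.push _ _ _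

theorem r_pop (a : W) (s : SW J E) :
    Runs (Prog.pop (Sum.inr a) : PW J E) s (s.set a (s.at a).tail) 1 := Runs.pop _ _

/-- Copy of a word, reversed, with a scratch stack. -/
def outW (c o : W) : PW J E :=
  (Prog.rev (Sum.inr c) (Sum.inr .NR)).seq
    ((Prog.copyOnto (Sum.inr .NR) (Sum.inr o) (Sum.inr .F1)).seq
      (Prog.rev (Sum.inr .NR) (Sum.inr c)))

theorem outW_spec {c o : W} (h1 : c ≠ .NR) (h2 : o ≠ .NR) (h3 : o ≠ .F1) (h4 : c ≠ .F1)
    (h5 : c ≠ o) (s : SW J E) (hN : s.at .NR = []) (hF : s.at .F1 = []) :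
    Runs (outW c o) s (s.set o ((s.at c).reverse ++ s.at o)) (12 * (s.at c).length + 3) := by
  have a1 := r_rev (J := J) h1 s
  set s1 := (s.set c []).set .NR ((s.at c).reverse ++ s.at .NR) with e1
  have a2 := r_copy (J := J) (a := .NR) (b := o) (t := .F1) h2.symm (by decide) h3 s1
    (by simp [s1, at_set, hF, h4.symm])
  set s2 := s1.set o (s1.at .NR ++ s1.at o) with e2
  have a3 := r_rev (J := J) h1.symm s2
  refine ((a1.seq (a2.seq a3)).mono ?_).of_eq ?_
  · have l1 : (s1.at .NR).length = (s.at c).length := by simp [s1, hN]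
    have l2 : (s2.at .NR).length = (s.at c).length := by simp [s2, s1, at_set, hN, h2.symm]
    rw [l1, l2]; omega
  · refine sw_ext (fun j => by simp [s1, s2]) fun r => ?_
    clear a1 a2 a3
    simp only [s2, s1, at_set]
    split_ifs <;> simp_all

/-- One number. -/
def kerB (cm : W → W → W → W → PW J E) : PW J E :=
  (Prog.pop (Sum.inr .F2)).seq <| (cm .CR .CI .DR .DI).seq <| (cm .DR .DI .GR .GI).seq <|
    (outW .CR .O1).seq (outW .CI .O2)

theorem len_wd (S v : ℕ) : (wd S v : List (SSym E)).length = S := by simp [wd]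

variable {cm : W → W → W → W → PW J E} {T : ℕ → ℕ} {C : ℕ}

theorem kerB_spec (hcm : CmSpec cm T C) {S B : ℕ} (hB : 1 ≤ B) (hS : B < S) {s : SW J E}
    (hs : Cln s) (hw : s.at .WS = una S) (hb : s.at .WB = una B) {c d g : ℕ × ℕ}
    (hc : c.1 < 2 ^ S ∧ c.2 < 2 ^ S) (hd : d.1 < 2 ^ S ∧ d.2 < 2 ^ S)
    (hg : g.1 < 2 ^ S ∧ g.2 < 2 ^ S) (n : ℕ) (o1 o2 : List (SSym E)) :
    Runs (kerB cm) (kst s S (n + 1) c d g o1 o2)
      (kst s S n (cmR S B c d) (cmR S B d g) g ((wd S (cmR S B c d).1).reverse ++ o1)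
        ((wd S (cmR S B c d).2).reverse ++ o2)) ((2 * C + 34) * (S + T S)) := by
  have hN : s.at .NR = [] := hs.emp2 .NR (by decide)
  have hF : s.at .F1 = [] := hs.emp2 .F1 (by decide)
  have hcl : ∀ c d o1 o2, Cln0 (kst s S n c d g o1 o2) := fun c d o1 o2 =>
    kst_cln _ _ _ _ _ _ _ _ hs.toCln0
  have hW : ∀ m c d o1 o2, (kst s S m c d g o1 o2).at .WS = una S := fun m c d o1 o2 => by
    rw [kst_ne _ _ _ _ _ _ _ _ (by decide), hw]
  have hWB : ∀ m c d o1 o2, (kst s S m c d g o1 o2).at .WB = una B := fun m c d o1 o2 => by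
    rw [kst_ne _ _ _ _ _ _ _ _ (by decide), hb]
  have hNR : ∀ m c d o1 o2, (kst s S m c d g o1 o2).at .NR = [] := fun m c d o1 o2 => by
    rw [kst_ne _ _ _ _ _ _ _ _ (by decide), hN]
  have hF1 : ∀ m c d o1 o2, (kst s S m c d g o1 o2).at .F1 = [] := fun m c d o1 o2 => by
    rw [kst_ne _ _ _ _ _ _ _ _ (by decide), hF]
  have a1 := r_pop (J := J) .F2 (kst s S (n + 1) c d g o1 o2)
  rw [(kst_at s S (n + 1) c d g o1 o2).1,
    show (una (n + 1) : List (SSym E)).tail = una n by simp [una, List.replicate_succ],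
    kst_F2] at a1
  obtain ⟨-, x2, x3, x4, x5, x6, x7, -, -⟩ := kst_at s S n c d g o1 o2
  have a2 := hcm S B c d .CR .CI .DR .DI (kst s S n c d g o1 o2) hB hS (hcl _ _ _ _) (by decide)
    (by decide) hc.1 hc.2 hd.1 hd.2 (hW ..) (hWB ..) x2 x3 x4 x5
  rw [kst_C] at a2
  set c' := cmR S B c d with hc'
  obtain ⟨-, -, -, y4, y5, y6, y7, -, -⟩ := kst_at s S n c' d g o1 o2
  have a3 := hcm S B d g .DR .DI .GR .GI (kst s S n c' d g o1 o2) hB hS
    (hcl _ _ _ _) (by decide) (by decide) hd.1 hd.2 hg.1 hg.2 (hW ..) (hWB ..) y4 y5 y6 y7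
  rw [kst_D] at a3
  set d' := cmR S B d g with hd'
  have a4 := outW_spec (J := J) (c := .CR) (o := .O1) (by decide) (by decide) (by decide)
    (by decide) (by decide) (kst s S n c' d' g o1 o2) (hNR ..) (hF1 ..)
  rw [kst_O1, (kst_at s S n c' d' g o1 o2).2.1, (kst_at s S n c' d' g o1 o2).2.2.2.2.2.2.2.1,
    len_wd] at a4
  have a5 := outW_spec (J := J) (c := .CI) (o := .O2) (by decide) (by decide) (by decide)
    (by decide) (by decide) (kst s S n c' d' g ((wd S c'.1).reverse ++ o1) o2) (hNR ..) (hF1 ..)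
  rw [kst_O2, (kst_at s S n c' d' g _ o2).2.2.1, (kst_at s S n c' d' g _ o2).2.2.2.2.2.2.2.2,
    len_wd] at a5
  refine (a1.seq (a2.seq (a3.seq (a4.seq a5)))).mono ?_
  have e : (2 * C + 34) * (S + T S) = C * (S + T S) + C * (S + T S) + 34 * (S + T S) := by ring
  rw [e]
  omega

/-- The loop. -/
def kerL (cm : W → W → W → W → PW J E) : PW J E := Prog.loop (nonempty (Sum.inr .F2)) (kerB cm)

theorem kerL_spec (hcm : CmSpec cm T C) {S B : ℕ} (hB : 1 ≤ B) (hS : B < S) {s : SW J E}
    (hs : Cln s) (hw : s.at .WS = una S) (hb : s.at .WB = una B) {ρ : ℕ × ℕ}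
    (h1 : ρ.1 < 2 ^ S) (h2 : ρ.2 < 2 ^ S) (n : ℕ) : ∀ (k : ℕ) (o1 o2 : List (SSym E)),
    Runs (kerL cm) (kst s S n (chs S B ρ k).1 (chs S B ρ k).2 (cmR S B ρ ρ) o1 o2)
      (kst s S 0 (chs S B ρ (k + n)).1 (chs S B ρ (k + n)).2 (cmR S B ρ ρ)
        ((bits (cat n fun j => bitsOf S (ch S B ρ (k + j + 1)).1)).reverse ++ o1)
        ((bits (cat n fun j => bitsOf S (ch S B ρ (k + j + 1)).2)).reverse ++ o2))
      (n * ((2 * C + 36) * (S + T S)) + 1) := by
  induction n with
  | zero =>
    intro k o1 o2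
    refine ((Runs.loopF (by
      have : (kst s S 0 (chs S B ρ k).1 (chs S B ρ k).2 (cmR S B ρ ρ) o1 o2) (Sum.inr .F2)
        = [] := by
        change (kst s S 0 (chs S B ρ k).1 (chs S B ρ k).2 (cmR S B ρ ρ) o1 o2).at .F2 = []
        simp [kst, at_set, una]
      simp [this])).of_eq ?_).mono (by omega)
    simp [cat_zero, bits]
  | succ n ih =>
    intro k o1 o2
    have hl := chs_lt hS h1 h2 k
    have a1 := kerB_spec hcm hB hS hs hw hb hl.1 hl.2 (cmR_lt hS.le ρ ρ) n o1 o2
    have e1 : cmR S B (chs S B ρ k).1 (chs S B ρ k).2 = (chs S B ρ (k + 1)).1 := rfl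
    have e2 : cmR S B (chs S B ρ k).2 (cmR S B ρ ρ) = (chs S B ρ (k + 1)).2 := rfl
    rw [e1, e2] at a1
    have a2 := ih (k + 1) ((wd S (chs S B ρ (k + 1)).1.1).reverse ++ o1)
      ((wd S (chs S B ρ (k + 1)).1.2).reverse ++ o2)
    have hne : nonempty (Sum.inr W.F2) (tops (kst s S (n + 1) (chs S B ρ k).1
        (chs S B ρ k).2 (cmR S B ρ ρ) o1 o2)) = true := by
      rw [nonempty_tops]
      have h9 : (kst s S (n + 1) (chs S B ρ k).1 (chs S B ρ k).2 (cmR S B ρ ρ)
        o1 o2) (Sum.inr .F2) = una (n + 1) := (kst_at ..).1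
      rw [h9]
      simp [una]
    refine ((Runs.loopT (c := nonempty (Sum.inr W.F2)) (p := kerB cm) hne a1 a2).mono
      ?_).of_eq ?_
    · have : 1 ≤ S := by omega
      nlinarith
    · have e3 : ∀ j, k + 1 + j + 1 = k + (j + 1) + 1 := fun j => by ring
      rw [show k + 1 + n = k + (n + 1) by ring, cat_succ', cat_succ']
      simp only [e3, bits, List.map_append, List.reverse_append, List.append_assoc]
      rfl

/-! ### The beginning -/

theorem wd_one {S B : ℕ} (hS : B < S) : (wd S (2 ^ B) : List (SSym E)) =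
    List.replicate B (sb false) ++ (sb true :: List.replicate (S - B - 1) (sb false)) := by
  have e1 : bitsOf S (2 ^ B) = List.replicate B false ++
      (true :: List.replicate (S - B - 1) false) := by
    have : S = B + ((S - B - 1) + 1) := by omega
    conv_lhs => rw [this]
    rw [bitsOf_add, bitsOf_succ]
    congr 1
    · rw [← bitsOf_mod, Nat.mod_self, bitsOf_zero]
    · rw [Nat.div_self (by positivity)]
      simp [bitsOf_zero]
  unfold wd
  rw [e1]
  simp [bits]

/-- The number one on `cr`, `ci`. -/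
def oneP (cr ci : W) : PW J E :=
  (Prog.copyOnto (Sum.inr .WS) (Sum.inr .T1) (Sum.inr .F1)).seq <|
  (Prog.forr (Sum.inr .WB) (Sum.inr .F1) (Prog.pop (Sum.inr .T1))).seq <|
  (Prog.pop (Sum.inr .T1)).seq <|
  (Prog.fill (Sum.inr .T1) (sb false) (Sum.inr cr) (Sum.inr .F1)).seq <|
  (Prog.push (Sum.inr cr) (sb true)).seq <|
  (Prog.fill (Sum.inr .WB) (sb false) (Sum.inr cr) (Sum.inr .F1)).seq <|
  (Prog.clear (Sum.inr .T1)).seq <|
  Prog.fill (Sum.inr .WS) (sb false) (Sum.inr ci) (Sum.inr .F1)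

theorem oneP_spec {S B : ℕ} (hS : B < S) {cr ci : W} (n1 : cr ∉ [W.WS, .WB, .T1, .F1])
    (n2 : ci ∉ [W.WS, .WB, .T1, .F1]) (n3 : cr ≠ ci) {s : SW J E}
    (hF : s.at .F1 = []) (hT : s.at .T1 = [])
    (h1 : s.at .WS = una S) (h2 : s.at .WB = una B) (hcr : s.at cr = []) (hci : s.at ci = []) :
    Runs (oneP cr ci) s ((s.set cr (wd S (2 ^ B))).set ci (wd S 0)) (60 * S) := by
  simp only [List.mem_cons, List.not_mem_nil, or_false, not_or] at n1 n2
  obtain ⟨p1, p2, p3, p4⟩ := n1
  obtain ⟨q1, q2, q3, q4⟩ := n2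
  have a1 := r_copy (J := J) (a := .WS) (b := .T1) (t := .F1) (by decide) (by decide)
    (by decide) s hF
  have b1 : s.at .WS ++ s.at .T1 = una S := by simp [hT, h1]
  have c1 : (s.at .WS).length = S := by simp [h1]
  rw [b1, c1] at a1
  set s1 := s.set .T1 (una S) with e1
  have a2 := r_sub (J := J) (u := .WB) (b := .T1) (t := .F1) (by decide) (by decide)
    (by decide) s1 B S (by simp [s1, at_set, h2]) (by simp [s1, at_set, hF]) (by simp [s1])
  set s2 := s1.set .T1 (una (S - B)) with e2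
  have a3 := r_pop (J := J) .T1 s2
  have b3 : (s2.at .T1).tail = una (S - B - 1) := by
    have : s2.at .T1 = una (S - B) := by simp [s2]
    rw [this]
    simp [una]
  rw [b3] at a3
  set s3 := s2.set .T1 (una (S - B - 1)) with e3
  have a4 := r_fill (J := J) (u := .T1) (b := cr) (t := .F1) (Ne.symm p3) (by decide)
    p4 (sb false) s3 (S - B - 1) (by simp [s3]) (by simp [s3, s2, s1, at_set, hF])
  have b4 : s3.at cr = [] := by simp [s3, s2, s1, at_set, hcr, p3]
  rw [b4, List.append_nil] at a4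
  set s4 := s3.set cr (List.replicate (S - B - 1) (sb false)) with e4
  have a5 := r_push (J := J) cr (sb true) s4
  have b5 : s4.at cr = List.replicate (S - B - 1) (sb false) := by simp [s4]
  rw [b5] at a5
  set s5 := s4.set cr (sb true :: List.replicate (S - B - 1) (sb false)) with e5
  have a6 := r_fill (J := J) (u := .WB) (b := cr) (t := .F1) (Ne.symm p2) (by decide)
    p4 (sb false) s5 B (by simp [s5, s4, s3, s2, s1, at_set, h2, Ne.symm p2])
    (by simp [s5, s4, s3, s2, s1, at_set, hF, Ne.symm p4])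
  have b6 : s5.at cr = sb true :: List.replicate (S - B - 1) (sb false) := by simp [s5]
  rw [b6, ← wd_one hS] at a6
  set s6 := s5.set cr (wd S (2 ^ B)) with e6
  have a7 := r_clear (J := J) .T1 s6
  have c7 : (s6.at .T1).length = S - B - 1 := by
    simp [s6, s5, s4, s3, at_set, Ne.symm p3]
  rw [c7] at a7
  set s7 := s6.set .T1 [] with e7
  have a8 := r_fill (J := J) (u := .WS) (b := ci) (t := .F1) (Ne.symm q1) (by decide)
    q4 (sb false) s7 S (by simp [s7, s6, s5, s4, s3, s2, s1, at_set, h1, Ne.symm p1])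
    (by simp [s7, s6, s5, s4, s3, s2, s1, at_set, hF, Ne.symm p4])
  have b8 : List.replicate S (sb false) ++ s7.at ci = wd S 0 := by
    have : s7.at ci = [] := by
      simp [s7, s6, s5, s4, s3, s2, s1, at_set, hci, q3, Ne.symm n3]
    rw [this]
    unfold wd
    rw [bitsOf_zero]
    simp [bits]
  rw [b8] at a8
  refine ((a1.seq (a2.seq (a3.seq (a4.seq (a5.seq (a6.seq (a7.seq a8))))))).mono
    (by omega)).of_eq ?_
  clear a1 a2 a3 a4 a5 a6 a7 a8
  refine sw_ext (fun j => by simp [s7, s6, s5, s4, s3, s2, s1]) fun r => ?_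
  simp only [s7, s6, s5, s4, s3, s2, s1, at_set]
  split_ifs <;> simp_all

/-- Copy of the root. -/
def cpR (a b : W) : PW J E :=
  (Prog.copyOnto (Sum.inr .PR) (Sum.inr a) (Sum.inr .F1)).seq
    (Prog.copyOnto (Sum.inr .PI) (Sum.inr b) (Sum.inr .F1))

theorem cpR_spec {a b : W} (n1 : a ∉ [W.PR, .PI, .F1]) (n2 : b ∉ [W.PR, .PI, .F1])
    (n3 : a ≠ b) {s : SW J E} {S : ℕ} {ρ : ℕ × ℕ} (hF : s.at .F1 = []) (ha : s.at a = [])
    (hb : s.at b = []) (h1 : s.at .PR = wd S ρ.1) (h2 : s.at .PI = wd S ρ.2) :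
    Runs (cpR a b) s ((s.set a (wd S ρ.1)).set b (wd S ρ.2)) (12 * S + 3) := by
  simp only [List.mem_cons, List.not_mem_nil, or_false, not_or] at n1 n2
  obtain ⟨p1, p2, p3⟩ := n1
  obtain ⟨q1, q2, q3⟩ := n2
  have a1 := r_copy (J := J) (a := .PR) (b := a) (t := .F1) (Ne.symm p1) (by decide) p3 s hF
  rw [h1, ha, List.append_nil, len_wd] at a1
  have a2 := r_copy (J := J) (a := .PI) (b := b) (t := .F1) (Ne.symm q2) (by decide) q3
    (s.set a (wd S ρ.1)) (by rw [at_set_ne _ (Ne.symm p3)]; exact hF)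
  rw [at_set_ne _ (Ne.symm p2), at_set_ne _ (Ne.symm n3), h2, hb, List.append_nil, len_wd] at a2
  exact (a1.seq a2).mono (by omega)

/-- The square of the root on `GR`, `GI`. -/
def sqP (cm : W → W → W → W → PW J E) : PW J E :=
  (cpR .GR .GI).seq <| (cpR .ER .EI).seq <| (cm .GR .GI .ER .EI).seq <|
    (Prog.clear (Sum.inr .ER)).seq (Prog.clear (Sum.inr .EI))

theorem sqP_spec (hcm : CmSpec cm T C) {S B : ℕ} (hB : 1 ≤ B) (hS : B < S) {s : SW J E}
    (hs : Cln0 s) (hF : s.at .F1 = []) (hG : s.at .GR = []) (hG' : s.at .GI = [])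
    (hE : s.at .ER = []) (hE' : s.at .EI = []) (hw : s.at .WS = una S) (hb : s.at .WB = una B)
    {ρ : ℕ × ℕ} (h1 : ρ.1 < 2 ^ S) (h2 : ρ.2 < 2 ^ S) (hp : s.at .PR = wd S ρ.1)
    (hp' : s.at .PI = wd S ρ.2) :
    Runs (sqP cm) s ((s.set .GR (wd S (cmR S B ρ ρ).1)).set .GI (wd S (cmR S B ρ ρ).2))
      ((C + 40) * (S + T S)) := by
  have a1 := cpR_spec (J := J) (a := .GR) (b := .GI) (by decide) (by decide) (by decide) hF hG
    hG' hp hp'
  set s1 := (s.set .GR (wd S ρ.1)).set .GI (wd S ρ.2) with e1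
  have a2 := cpR_spec (J := J) (a := .ER) (b := .EI) (s := s1) (S := S) (ρ := ρ) (by decide)
    (by decide) (by decide)
    (by simp [s1, at_set, hF]) (by simp [s1, at_set, hE]) (by simp [s1, at_set, hE'])
    (by simp [s1, at_set, hp]) (by simp [s1, at_set, hp'])
  set s2 := (s1.set .ER (wd S ρ.1)).set .EI (wd S ρ.2) with e2
  have hcl : Cln0 s2 := by
    refine ((((hs.set (r := .GR) (by decide) _).set (r := .GI) (by decide) _).set (r := .ER)
      (by decide) _).set (r := .EI) (by decide) _)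
  have a3 := hcm S B ρ ρ .GR .GI .ER .EI s2 hB hS hcl (by decide) (by decide) h1 h2 h1 h2
    (by simp [s2, s1, at_set, hw]) (by simp [s2, s1, at_set, hb]) (by simp [s2, s1, at_set])
    (by simp [s2, s1, at_set]) (by simp [s2, at_set]) (by simp [s2])
  set g := cmR S B ρ ρ with hg
  set s3 := (s2.set .GR (wd S g.1)).set .GI (wd S g.2) with e3
  have a4 := r_clear (J := J) .ER s3
  have c4 : (s3.at .ER).length = S := by simp [s3, s2, at_set, len_wd]
  rw [c4] at a4
  set s4 := s3.set .ER [] with e4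
  have a5 := r_clear (J := J) .EI s4
  have c5 : (s4.at .EI).length = S := by simp [s4, s3, s2, at_set, len_wd]
  rw [c5] at a5
  refine ((a1.seq (a2.seq (a3.seq (a4.seq a5)))).mono ?_).of_eq ?_
  · have e : (C + 40) * (S + T S) = C * (S + T S) + 40 * (S + T S) := by ring
    rw [e]
    omega
  · clear a1 a2 a3 a4 a5 hcm
    refine sw_ext (fun j => by simp [s4, s3, s2, s1]) fun r => ?_
    simp only [s4, s3, s2, s1, at_set]
    split_ifs <;> simp_all

/-- The beginning. -/
def kerI (cm : W → W → W → W → PW J E) : PW J E :=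
  (oneP .CR .CI).seq <| (cpR .DR .DI).seq <| (sqP cm).seq <|
    (Prog.copyOnto (Sum.inr .HR) (Sum.inr .F2) (Sum.inr .F1)).seq <|
    (Prog.copyOnto (Sum.inr .HR) (Sum.inr .F2) (Sum.inr .F1)).seq (Prog.pop (Sum.inr .F2))

theorem kerI_spec (hcm : CmSpec cm T C) {S B X r Z : ℕ} {ρ : ℕ × ℕ} (hn : Num X r Z S B ρ)
    {s : SW J E} (he : Env s X r Z S B ρ) :
    Runs (kerI cm) s (kst s S (2 * r - 1) (2 ^ B, 0) ρ (cmR S B ρ ρ) [] [])
      ((C + 140) * (r * (S + T S))) := by
  have hB := hn.hB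
  have hS : B < S := by have := hn.hS; omega
  have hF : s.at .F1 = [] := he.emp2 .F1 (by decide)
  have hT : s.at .T1 = [] := he.emp2 .T1 (by decide)
  have a1 := oneP_spec (J := J) (cr := .CR) (ci := .CI) hS (by decide) (by decide) (by decide)
    hF hT he.ws he.wb (he.emp2 .CR (by decide)) (he.emp2 .CI (by decide))
  set s1 := (s.set .CR (wd S (2 ^ B))).set .CI (wd S 0) with e1
  have a2 := cpR_spec (J := J) (a := .DR) (b := .DI) (s := s1) (S := S) (ρ := ρ) (by decide)
    (by decide) (by decide) (by simp [s1, at_set, hF])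
    (by simp [s1, at_set, he.emp2 .DR (by decide)])
    (by simp [s1, at_set, he.emp2 .DI (by decide)]) (by simp [s1, at_set, he.pr])
    (by simp [s1, at_set, he.pi])
  set s2 := (s1.set .DR (wd S ρ.1)).set .DI (wd S ρ.2) with e2
  have hcl : Cln0 s2 := by
    refine ((((he.toCln0.set (r := .CR) (by decide) _).set (r := .CI) (by decide) _).set
      (r := .DR) (by decide) _).set (r := .DI) (by decide) _)
  have a3 := sqP_spec (J := J) hcm hB hS hcl (by simp [s2, s1, at_set, hF])
    (by simp [s2, s1, at_set, he.emp2 .GR (by decide)])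
    (by simp [s2, s1, at_set, he.emp2 .GI (by decide)])
    (by simp [s2, s1, at_set, he.emp2 .ER (by decide)])
    (by simp [s2, s1, at_set, he.emp2 .EI (by decide)])
    (by simp [s2, s1, at_set, he.ws]) (by simp [s2, s1, at_set, he.wb]) hn.h1 hn.h2
    (by simp [s2, s1, at_set, he.pr]) (by simp [s2, s1, at_set, he.pi])
  set g := cmR S B ρ ρ with hg
  set s3 := (s2.set .GR (wd S g.1)).set .GI (wd S g.2) with e3
  have a4 := r_copy (J := J) (a := .HR) (b := .F2) (t := .F1) (by decide) (by decide)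
    (by decide) s3 (by simp [s3, s2, s1, at_set, hF])
  have b4 : s3.at .HR ++ s3.at .F2 = una r := by
    simp [s3, s2, s1, at_set, he.emp2 .F2 (by decide), he.hr]
  have c4 : (s3.at .HR).length = r := by simp [s3, s2, s1, at_set, he.hr]
  rw [b4, c4] at a4
  set s4 := s3.set .F2 (una r) with e4
  have a5 := r_copy (J := J) (a := .HR) (b := .F2) (t := .F1) (by decide) (by decide)
    (by decide) s4 (by simp [s4, s3, s2, s1, at_set, hF])
  have b5 : s4.at .HR ++ s4.at .F2 = una (2 * r) := by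
    have h1 : s4.at .HR = una r := by simp [s4, s3, s2, s1, at_set, he.hr]
    have h2 : s4.at .F2 = una r := by simp [s4]
    rw [h1, h2, two_mul]
    simp [una]
  have c5 : (s4.at .HR).length = r := by simp [s4, s3, s2, s1, at_set, he.hr]
  rw [b5, c5] at a5
  set s5 := s4.set .F2 (una (2 * r)) with e5
  have a6 := r_pop (J := J) .F2 s5
  have b6 : (s5.at .F2).tail = una (2 * r - 1) := by
    have : s5.at .F2 = una (2 * r) := by simp [s5]
    rw [this]
    simp [una]
  rw [b6] at a6
  refine ((a1.seq (a2.seq (a3.seq (a4.seq (a5.seq a6))))).mono ?_).of_eq ?_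
  · have h1 : S + T S ≤ r * (S + T S) := Nat.le_mul_of_pos_left _ hn.hr
    have h2 : r ≤ r * (S + T S) := Nat.le_mul_of_pos_right _ (by omega)
    have e : (C + 140) * (r * (S + T S)) = C * (r * (S + T S)) + 140 * (r * (S + T S)) := by ring
    have e' : (C + 40) * (S + T S) = C * (S + T S) + 40 * (S + T S) := by ring
    have h3 : C * (S + T S) ≤ C * (r * (S + T S)) := Nat.mul_le_mul_left _ h1
    rw [e, e']
    have := hn.hr
    omega
  · have o1 : s.at .O1 = [] := he.emp2 .O1 (by decide)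
    have o2 : s.at .O2 = [] := he.emp2 .O2 (by decide)
    have h1 : kst s S (2 * r - 1) (2 ^ B, 0) ρ g [] [] =
        (((((((s.set .F2 (una (2 * r - 1))).set .CR (wd S (2 ^ B))).set .CI (wd S 0)).set .DR
          (wd S ρ.1)).set .DI (wd S ρ.2)).set .GR (wd S g.1)).set .GI (wd S g.2)) := by
      unfold kst
      rw [set_of_at (r := .O1) (l := []), set_of_at (r := .O2) (l := [])]
      · simp [at_set, o2]
      · simp [at_set, o1]
    rw [h1]
    simp only [s5, s4, s3, s2, s1, set_set]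
    rw [set_comm _ (q := .F2) (r := .GI) (by decide), set_comm _ (q := .F2) (r := .GR) (by decide),
      set_comm _ (q := .F2) (r := .DI) (by decide), set_comm _ (q := .F2) (r := .DR) (by decide),
      set_comm _ (q := .F2) (r := .CI) (by decide), set_comm _ (q := .F2) (r := .CR) (by decide)]

/-- Clear some stacks. -/
def clrs : List W → PW J E
  | [] => Prog.skip
  | a :: l => (Prog.clear (Sum.inr a)).seq (clrs l)

/-- The effect. -/
def clrE (s : SW J E) : List W → SW J E
  | [] => s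
  | a :: l => clrE (s.set a []) l

theorem clrE_inl (l : List W) : ∀ (s : SW J E) (j : Loc J), clrE s l (Sum.inl j) = s (Sum.inl j)
  := by
  induction l with
  | nil => intro s j; rfl
  | cons a l ih => intro s j; rw [clrE, ih, set_inl]

theorem clrE_at (l : List W) : ∀ (s : SW J E) (r : W),
    (clrE s l).at r = if r ∈ l then [] else s.at r := by
  induction l with
  | nil => intro s r; simp [clrE]
  | cons a l ih =>
    intro s r
    rw [clrE, ih, at_set]
    by_cases h1 : r = a
    · simp [h1]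
    · by_cases h2 : r ∈ l <;> simp [h1, h2]

theorem clrs_spec (S : ℕ) (l : List W) : ∀ (s : SW J E), (∀ a ∈ l, (s.at a).length ≤ S) →
    Runs (clrs l) s (clrE s l) ((3 * S + 1) * l.length + 1) := by
  induction l with
  | nil => intro s _; exact (Runs.skip s).mono (by simp)
  | cons a l ih =>
    intro s h
    have a1 := r_clear (J := J) a s
    have a2 := ih (s.set a []) (fun b hb => by
      rw [at_set]
      split_ifs
      · simp
      · exact h b (List.mem_cons_of_mem _ hb))
    refine (a1.seq a2).mono ?_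
    have := h a List.mem_cons_self
    rw [List.length_cons, Nat.mul_succ]
    omega

/-- The end. -/
def kerE : PW J E :=
  (Prog.rev (Sum.inr .O1) (Sum.inr .KR)).seq <| (Prog.rev (Sum.inr .O2) (Sum.inr .KI)).seq <|
    clrs [.CR, .CI, .DR, .DI, .GR, .GI]

theorem kerE_spec {S : ℕ} {s : SW J E} (hs : Cln s) (hK : s.at .KR = []) (hK' : s.at .KI = [])
    (c d g : ℕ × ℕ) (l1 l2 : List (SSym E)) :
    Runs kerE (kst s S 0 c d g l1.reverse l2.reverse) ((s.set .KR l1).set .KI l2)
      (3 * l1.length + 3 * l2.length + 18 * S + 20) := by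
  obtain ⟨x1, x2, x3, x4, x5, x6, x7, x8, x9⟩ := kst_at s S 0 c d g l1.reverse l2.reverse
  have y0 := fun r h => kst_ne s S 0 c d g l1.reverse l2.reverse (r := r) h
  have y1 := y0 .KR (by decide)
  have y2 := y0 .KI (by decide)
  have y3 : ∀ j, (kst s S 0 c d g l1.reverse l2.reverse) (Sum.inl j) = s (Sum.inl j) := by
    intro j; simp [kst]
  generalize kst s S 0 c d g l1.reverse l2.reverse = s0 at *
  have a1 := r_rev (J := J) (a := .O1) (b := .KR) (by decide) s0
  rw [x8, y1, hK, List.reverse_reverse, List.append_nil, List.length_reverse] at a1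
  set s1 := (s0.set .O1 []).set .KR l1 with e1
  have a2 := r_rev (J := J) (a := .O2) (b := .KI) (by decide) s1
  have b2 : s1.at .O2 = l2.reverse := by simp [s1, at_set, x9]
  have b2' : s1.at .KI = [] := by simp [s1, at_set, y2, hK']
  rw [b2, b2', List.reverse_reverse, List.append_nil, List.length_reverse] at a2
  set s2 := (s1.set .O2 []).set .KI l2 with e2
  have hat : ∀ r, s2.at r = if r = .KI then l2 else if r = .O2 then [] else
      if r = .KR then l1 else if r = .O1 then [] else s0.at r := by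
    intro r; simp only [s2, s1, at_set]
  have a3 := clrs_spec (J := J) S [.CR, .CI, .DR, .DI, .GR, .GI] s2 (by
    intro a ha
    simp only [List.mem_cons, List.not_mem_nil, or_false] at ha
    rw [hat]
    rcases ha with rfl | rfl | rfl | rfl | rfl | rfl
    · simp [x2, len_wd]
    · simp [x3, len_wd]
    · simp [x4, len_wd]
    · simp [x5, len_wd]
    · simp [x6, len_wd]
    · simp [x7, len_wd])
  refine ((a1.seq (a2.seq a3)).mono (by simp only [List.length_cons, List.length_nil]; omega)).of_eq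
    ?_
  refine sw_ext (fun j => ?_) fun r => ?_
  · rw [clrE_inl]
    simp only [s2, s1, set_inl, y3]
  · rw [clrE_at, hat, at_set, at_set]
    by_cases hr : r ∈ ksl
    · have hsr : s.at r = [] := hs.emp2 r (by
        revert hr; revert r; decide)
      simp only [ksl, List.mem_cons, List.not_mem_nil, or_false] at hr
      rw [hsr]
      rcases hr with rfl | rfl | rfl | rfl | rfl | rfl | rfl | rfl | rfl
      · simp [x1, una]
      all_goals simp
    · rw [y0 r hr]
      simp only [ksl, List.mem_cons, List.not_mem_nil, or_false, not_or] at hr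
      obtain ⟨h1, h2, h3, h4, h5, h6, h7, h8, h9⟩ := hr
      simp only [List.mem_cons, List.not_mem_nil, or_false, h2, h3, h4, h5, h6, h7, h8, h9,
        if_false]

/-- The kernel. -/
def kerP (cm : W → W → W → W → PW J E) : PW J E := (kerI cm).seq ((kerL cm).seq kerE)

theorem kerSpec (hcm : CmSpec cm T C) : KerSpec (kerP cm) T (5 * C + 300) := by
  intro X r Z S B ρ s hn he hK hK'
  have hS : B < S := by have := hn.hS; have := hn.hB; omega
  have a1 := kerI_spec hcm hn he
  have a2 := kerL_spec hcm hn.hB hS he.toCln he.ws he.wb hn.h1 hn.h2 (2 * r - 1) 0 [] []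
  have e0 : (chs S B ρ 0).1 = (2 ^ B, 0) ∧ (chs S B ρ 0).2 = ρ := ⟨rfl, rfl⟩
  rw [e0.1, e0.2, List.append_nil, List.append_nil] at a2
  have a3 := kerE_spec (J := J) (S := S) he.toCln hK hK' (chs S B ρ (0 + (2 * r - 1))).1
    (chs S B ρ (0 + (2 * r - 1))).2 (cmR S B ρ ρ)
    (bits (cat (2 * r - 1) fun j => bitsOf S (ch S B ρ (0 + j + 1)).1))
    (bits (cat (2 * r - 1) fun j => bitsOf S (ch S B ρ (0 + j + 1)).2))
  refine ((a1.seq (a2.seq a3)).mono ?_).of_eq ?_
  · have k1 : (bits (cat (2 * r - 1) fun j => bitsOf S (ch S B ρ (0 + j + 1)).1) :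
        List (SSym E)).length = (2 * r - 1) * S := by
      simp only [bits, List.length_map]
      exact length_cat_of fun i _ => by simp
    have k2 : (bits (cat (2 * r - 1) fun j => bitsOf S (ch S B ρ (0 + j + 1)).2) :
        List (SSym E)).length = (2 * r - 1) * S := by
      simp only [bits, List.length_map]
      exact length_cat_of fun i _ => by simp
    rw [k1, k2]
    have hr := hn.hr
    set Y := S + T S with hY
    have h1 : (2 * r - 1) * ((2 * C + 36) * Y) ≤ (2 * r) * ((2 * C + 36) * Y) :=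
      Nat.mul_le_mul_right _ (by omega)
    have h2 : (2 * r) * ((2 * C + 36) * Y) = 4 * C * (r * Y) + 72 * (r * Y) := by ring
    have h3 : (2 * r - 1) * S ≤ 2 * (r * Y) := by
      calc (2 * r - 1) * S ≤ (2 * r) * Y := Nat.mul_le_mul (by omega) (by omega)
        _ = 2 * (r * Y) := by ring
    have h4 : Y ≤ r * Y := Nat.le_mul_of_pos_left _ hr
    have h5 : (C + 140) * (r * Y) = C * (r * Y) + 140 * (r * Y) := by ring
    have h6 : (5 * C + 300) * (r * Y) = C * (r * Y) + 4 * C * (r * Y) + 300 * (r * Y) := by ring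
    rw [h5, h6]
    omega
  · simp only [zero_add]

end Vale.Agent.P338.GS.Ker
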