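import Vale.Agent.P338.GS.Base
import Vale.Agent.P338.CallFull
import Vale.Agent.P338.Frame

/-!
# P338, matrices of every shape: the called multiplication
-/

namespace Vale.Agent.P338.GS

open Vale.Agent.P338

variable {J E : Type} [DecidableEq J]

/-- Move a list from `a` to `b`, through `t`. -/
def mvs (a b t : Loc J ⊕ W) : PW J E := (Prog.rev a t).seq (Prog.rev t b)

theorem mvs_runs {a b t : Loc J ⊕ W} (hab : a ≠ b) (hat : a ≠ t) (hbt : b ≠ t) (s : SW J E)
    (l : List (SSym E)) (ha : s a = l) (hb : s b = []) (ht : s t = []) :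
    Runs (mvs a b t) s (Function.update (Function.update s a []) b l) (6 * l.length + 1) := by
  have h1 := Runs.rev hat s
  have h2 := Runs.rev hbt.symm (Function.update (Function.update s a []) t
    ((s a).reverse ++ s t))
  refine ((h1.seq h2).mono ?_).of_eq ?_
  · rw [Function.update_self, ha, ht, List.append_nil, List.length_reverse]
    omega
  · funext i
    simp only [Function.update_apply]
    split_ifs <;> simp_all

/-- The called multiplication on our stacks. -/
noncomputable def mcall (call : Pr J E) : PW J E :=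
  (mvs (Sum.inr W.AX) (Sum.inl (Sum.inl R.AX)) (Sum.inr W.F8)).seq
    ((mvs (Sum.inr W.AY) (Sum.inl (Sum.inl R.AY)) (Sum.inr W.F8)).seq
      ((call.map Sum.inl).seq
        (mvs (Sum.inl (Sum.inl R.AZ)) (Sum.inr W.AZ) (Sum.inr W.F8))))

theorem mcall_spec {call : Pr J E} {T : ℕ → ℕ} {C : ℕ} (h : CallFullSpec call T C) :
    MSpec (mcall call) T (C + 60) := by
  intro m xs ys s hm hx hy hidle haz hf8 hax hay
  replace haz : s (Sum.inr W.AZ) = [] := haz
  replace hf8 : s (Sum.inr W.F8) = [] := hf8
  replace hax : s (Sum.inr W.AX) = bits xs := hax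
  replace hay : s (Sum.inr W.AY) = bits ys := hay
  obtain ⟨z, hz⟩ : ∃ z : List Bool, z = bitsOf (2 * m) (natOf xs * natOf ys) := ⟨_, rfl⟩
  rw [← hz]
  have r1 := mvs_runs (a := Sum.inr W.AX) (b := Sum.inl (Sum.inl R.AX)) (t := Sum.inr W.F8)
    (by simp) (by simp) (by simp) s (bits xs) hax (hidle _) hf8
  set s1 : SW J E := Function.update (Function.update s (Sum.inr W.AX) [])
    (Sum.inl (Sum.inl R.AX)) (bits xs) with hs1
  have r2 := mvs_runs (a := Sum.inr W.AY) (b := Sum.inl (Sum.inl R.AY)) (t := Sum.inr W.F8)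
    (by simp) (by simp) (by simp) s1 (bits ys) (by simp [hs1, hay]) (by simp [hs1, hidle])
    (by simp [hs1, hf8])
  set s2 : SW J E := Function.update (Function.update s1 (Sum.inr W.AY) [])
    (Sum.inl (Sum.inl R.AY)) (bits ys) with hs2
  have hsm := h m xs ys (fun j => s2 (Sum.inl j)) hm hx hy
    (by intro j; simp [hs2, hs1, hidle])
    (by
      intro r hr
      simp only [List.mem_cons, List.not_mem_nil, or_false] at hr
      show s2 (Sum.inl (Sum.inl r)) = []
      rcases hr with rfl | rfl | rfl <;> simp [hs2, hs1, hidle])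
    (by show s2 (Sum.inl (Sum.inl R.AX)) = bits xs; simp [hs2, hs1])
    (by show s2 (Sum.inl (Sum.inl R.AY)) = bits ys; simp [hs2])
  rw [← hz] at hsm
  set s3 : SW J E := Function.update (Function.update (Function.update s (Sum.inr W.AX) [])
    (Sum.inr W.AY) []) (Sum.inl (Sum.inl R.AZ)) (bits z) with hs3
  have r3 : Runs (call.map Sum.inl) s2 s3 (C * (m + T m)) := by
    refine hsm.map Sum.inl_injective (fun _ => rfl) ?_ ?_
    · intro q
      simp only [hs3, hs2, hs1, St.set, Function.update_apply, Sum.inl.injEq, reduceCtorEq,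
        if_false]
      split_ifs <;> simp_all
    · intro k hk
      have g : ∀ q, k ≠ Sum.inl q := fun q h => hk ⟨q, h.symm⟩
      rw [hs3, hs2, hs1, Function.update_of_ne (g _), Function.update_of_ne (g _)]
      simp only [Function.update_apply, if_neg (g _)]
  have r4 := mvs_runs (a := Sum.inl (Sum.inl R.AZ)) (b := Sum.inr W.AZ) (t := Sum.inr W.F8)
    (by simp) (by simp) (by simp) s3 (bits z) (by simp [hs3]) (by simp [hs3, haz])
    (by simp [hs3, hf8])
  refine ((r1.seq (r2.seq (r3.seq r4))).mono ?_).of_eq ?_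
  · have l3 : z.length = 2 * m := by rw [hz, length_bitsOf]
    rw [length_bits, length_bits, length_bits, hx, hy, l3]
    have e9 : (C + 60) * (m + T m) = C * (m + T m) + 60 * m + 60 * T m := by ring
    rw [e9]
    omega
  · rw [hs3]
    funext k
    by_cases g : k = Sum.inl (Sum.inl R.AZ)
    · subst g
      simp [SW.set, hidle]
    · simp only [SW.set, Function.update_apply, if_neg g]

end Vale.Agent.P338.GS
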