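import Mathlib

/-!
# P338, matrices of every shape: exact Fourier transforms over the complex numbers

Bluestein transforms of even length, and the composition of three transforms that transposes
a matrix.
-/

namespace Vale.Agent.P338.GS.Ex

open Finset

/-! ### One term -/

/-- The exponents in the transform of Bluestein. -/
theorem blu_term {R : Type*} [CommRing R] {ρ σ : R} (h : ρ * σ = 1) {r : ℕ} (hr : Even r)
    (h2 : ρ ^ (2 * r) = 1) {i k : ℕ} (hi : i < r) :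
    σ ^ ((k + (r - 1) - i + 1) ^ 2) * (ρ ^ (i ^ 2) * ρ ^ (k ^ 2)) = (ρ ^ 2) ^ (i * k) := by
  obtain ⟨q, hq⟩ := hr
  obtain ⟨m, hm⟩ : ∃ m, k + (r - 1) - i + 1 = m := ⟨_, rfl⟩
  have hm' : m + i = k + r := by omega
  have hz : m ^ 2 + 2 * (i * k) + 2 * r * i = i ^ 2 + k ^ 2 + 2 * r * k + 2 * r * q := by
    have e1 : (m : ℤ) = k + r - i := by
      have : ((m + i : ℕ) : ℤ) = ((k + r : ℕ) : ℤ) := by rw [hm']
      push_cast at this
      linarith
    have e2 : (r : ℤ) = q + q := by exact_mod_cast hq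
    zify
    rw [e1, e2]
    ring
  have key : ρ ^ (m ^ 2) * (ρ ^ 2) ^ (i * k) = ρ ^ (i ^ 2) * ρ ^ (k ^ 2) := by
    have e3 : ρ ^ (m ^ 2 + 2 * (i * k) + 2 * r * i) =
        ρ ^ (i ^ 2 + k ^ 2 + 2 * r * k + 2 * r * q) := by rw [hz]
    rw [pow_add, pow_add, pow_add, pow_add, pow_add, pow_mul ρ (2 * r), pow_mul ρ (2 * r),
      pow_mul ρ (2 * r), h2, one_pow, one_pow, one_pow, mul_one, mul_one, mul_one,
      pow_mul ρ 2] at e3
    exact e3
  rw [hm, ← key, ← mul_assoc, ← mul_pow, mul_comm σ ρ, h, one_pow, one_mul]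

/-- The transform of Bluestein. -/
theorem bluestein {R : Type*} [CommRing R] {ρ σ : R} (h : ρ * σ = 1) {r : ℕ} (hr : Even r)
    (h2 : ρ ^ (2 * r) = 1) (a : ℕ → R) (k : ℕ) :
    (∑ i ∈ range r, σ ^ ((k + (r - 1) - i + 1) ^ 2) * (a i * ρ ^ (i ^ 2))) * ρ ^ (k ^ 2) =
      ∑ i ∈ range r, a i * (ρ ^ 2) ^ (i * k) := by
  rw [sum_mul]
  refine sum_congr rfl fun i hi => ?_
  rw [← blu_term h hr h2 (mem_range.mp hi)]
  ring

/-! ### The composition -/

/-- The three transforms and the twiddle factors: the inner part. -/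
theorem comp_inner {R : Type*} [CommRing R] {w : R} {M n : ℕ} (hM : 0 < M)
    (hw : w ^ (M * n) = 1) (e : ℕ → ℕ → R) (k : ℕ) :
    (∑ i ∈ range M, (∑ j ∈ range n, e i j * (w ^ M) ^ (j * (k % n))) * w ^ (i * (k % n)) *
      (w ^ n) ^ (i * (k / n))) = ∑ l ∈ range (M * n), e (l % M) (l / M) * w ^ (k * l) := by
  have h1 : ∑ l ∈ range (M * n), e (l % M) (l / M) * w ^ (k * l) =
      ∑ i ∈ range M, ∑ j ∈ range n, e i j * w ^ (k * (j * M + i)) := by
    rw [← sum_product']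
    refine (sum_bij' (fun p _ => p.2 * M + p.1) (fun l _ => (l % M, l / M)) ?_ ?_ ?_ ?_
      ?_).symm
    · rintro ⟨i, j⟩ hp
      rw [mem_product, mem_range, mem_range] at hp
      rw [mem_range]
      calc j * M + i < j * M + M := by omega
        _ = (j + 1) * M := by ring
        _ ≤ n * M := Nat.mul_le_mul_right _ (by omega)
        _ = M * n := Nat.mul_comm ..
    · intro l hl
      rw [mem_range] at hl
      rw [mem_product, mem_range, mem_range]
      exact ⟨Nat.mod_lt _ hM, Nat.div_lt_of_lt_mul hl⟩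
    · rintro ⟨i, j⟩ hp
      rw [mem_product, mem_range, mem_range] at hp
      have a1 : (j * M + i) % M = i := by
        rw [Nat.add_comm, Nat.add_mul_mod_self_right, Nat.mod_eq_of_lt hp.1]
      have a2 : (j * M + i) / M = j := by
        rw [Nat.add_comm, Nat.add_mul_div_right _ _ hM, Nat.div_eq_of_lt hp.1, Nat.zero_add]
      simp only [a1, a2]
    · intro l _
      show l / M * M + l % M = l
      rw [Nat.mul_comm]
      exact Nat.div_add_mod l M
    · rintro ⟨i, j⟩ hp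
      rw [mem_product, mem_range, mem_range] at hp
      have a1 : (j * M + i) % M = i := by
        rw [Nat.add_comm, Nat.add_mul_mod_self_right, Nat.mod_eq_of_lt hp.1]
      have a2 : (j * M + i) / M = j := by
        rw [Nat.add_comm, Nat.add_mul_div_right _ _ hM, Nat.div_eq_of_lt hp.1, Nat.zero_add]
      simp only [a1, a2]
  rw [h1]
  refine sum_congr rfl fun i _ => ?_
  rw [sum_mul, sum_mul]
  refine sum_congr rfl fun j _ => ?_
  have h3 : w ^ (k * (j * M + i)) =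
      (w ^ M) ^ (j * (k % n)) * w ^ (i * (k % n)) * (w ^ n) ^ (i * (k / n)) := by
    have h4 : k * (j * M + i) =
        M * (j * (k % n)) + i * (k % n) + n * (i * (k / n)) + M * n * (j * (k / n)) := by
      conv_lhs => rw [← Nat.div_add_mod k n]
      ring
    rw [h4, pow_add, pow_add, pow_add, pow_mul w (M * n), hw, one_pow, mul_one, pow_mul w M,
      pow_mul w n]
  rw [h3]
  ring

/-- Orthogonality. -/
theorem orth {R : Type*} [CommRing R] [IsDomain R] {w w' : R} {N : ℕ}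
    (hw : IsPrimitiveRoot w N) (h : w * w' = 1) {l l' : ℕ} (hl : l < N) (hl' : l' < N) :
    ∑ k ∈ range N, w ^ (k * l') * w' ^ (k * l) = if l' = l then (N : R) else 0 := by
  have hw' : w' ^ N = 1 := by
    have := congrArg (fun x => x ^ N) h
    simp only [mul_pow, one_pow] at this
    rwa [hw.pow_eq_one, one_mul] at this
  by_cases hll : l' = l
  · subst hll
    rw [if_pos rfl]
    have : ∀ k ∈ range N, w ^ (k * l') * w' ^ (k * l') = 1 := fun k _ => by
      rw [← mul_pow, h, one_pow]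
    rw [sum_congr rfl this]
    simp
  · rw [if_neg hll]
    set z : R := w ^ l' * w' ^ l with hz
    have h1 : ∀ k ∈ range N, w ^ (k * l') * w' ^ (k * l) = z ^ k := fun k _ => by
      rw [hz, mul_pow, ← pow_mul, ← pow_mul, Nat.mul_comm k l', Nat.mul_comm k l]
    rw [sum_congr rfl h1]
    have h2 : z ^ N = 1 := by
      rw [hz, mul_pow, ← pow_mul, ← pow_mul, Nat.mul_comm l', Nat.mul_comm l, pow_mul,
        pow_mul, hw.pow_eq_one, hw', one_pow, one_pow, one_mul]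
    have h3 : z ≠ 1 := by
      intro h4
      apply hll
      have h5 : w ^ l' = w ^ l := by
        calc w ^ l' = w ^ l' * (w * w') ^ l := by rw [h, one_pow, mul_one]
          _ = z * w ^ l := by rw [hz, mul_pow]; ring
          _ = w ^ l := by rw [h4, one_mul]
      exact hw.pow_inj hl' hl h5
    have h4 : (z - 1) * ∑ k ∈ range N, z ^ k = 0 := by
      rw [mul_geom_sum, h2, sub_self]
    rcases mul_eq_zero.mp h4 with h5 | h5
    · exact absurd (sub_eq_zero.mp h5) h3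
    · exact h5

/-- The composition of the three transforms. -/
theorem comp_all {R : Type*} [CommRing R] [IsDomain R] {w w' : R} {M n : ℕ} (hM : 0 < M)
    (hw : IsPrimitiveRoot w (M * n)) (h : w * w' = 1) (e : ℕ → ℕ → R) {l : ℕ}
    (hl : l < M * n) :
    ∑ k ∈ range (M * n), (∑ i ∈ range M, (∑ j ∈ range n, e i j * (w ^ M) ^ (j * (k % n))) *
      w ^ (i * (k % n)) * (w ^ n) ^ (i * (k / n))) * w' ^ (k * l) =
      ((M * n : ℕ) : R) * e (l % M) (l / M) := by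
  have h1 : ∀ k ∈ range (M * n),
      (∑ i ∈ range M, (∑ j ∈ range n, e i j * (w ^ M) ^ (j * (k % n))) * w ^ (i * (k % n)) *
        (w ^ n) ^ (i * (k / n))) * w' ^ (k * l) =
      ∑ l' ∈ range (M * n), e (l' % M) (l' / M) * (w ^ (k * l') * w' ^ (k * l)) := by
    intro k _
    rw [comp_inner hM hw.pow_eq_one, sum_mul]
    exact sum_congr rfl fun l' _ => by ring
  rw [sum_congr rfl h1, sum_comm]
  have h2 : ∀ l' ∈ range (M * n),
      ∑ k ∈ range (M * n), e (l' % M) (l' / M) * (w ^ (k * l') * w' ^ (k * l)) =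
        if l' = l then ((M * n : ℕ) : R) * e (l % M) (l / M) else 0 := by
    intro l' hl'
    rw [← mul_sum, orth hw h hl (mem_range.mp hl')]
    by_cases hll : l' = l
    · rw [if_pos hll, if_pos hll, hll, mul_comm]
    · rw [if_neg hll, if_neg hll, mul_zero]
  rw [sum_congr rfl h2, sum_ite_eq' , if_pos (mem_range.mpr hl)]

/-! ### The exact counterparts of the four steps -/

/-- The exact root: `exp (π * I / 2 ^ (k + 1))`. -/
noncomputable def xrt (k : ℕ) : ℂ := Complex.exp (Real.pi * Complex.I / 2 ^ (k + 1))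

/-- The exact transform of `r` points with the root `ρ`. -/
noncomputable def xdft (r : ℕ) (ρ : ℂ) (a : ℕ → ℂ) (k : ℕ) : ℂ :=
  (∑ i ∈ range r, (starRingEnd ℂ ρ) ^ ((k + (r - 1) - i + 1) ^ 2) * (a i * ρ ^ (i ^ 2))) *
    ρ ^ (k ^ 2)

/-- First step. -/
noncomputable def xst1 (v : ℕ) (e : ℕ → ℕ → ℂ) (i j : ℕ) : ℂ :=
  xdft (2 ^ v) (starRingEnd ℂ (xrt (v - 1))) (fun j => e i j) j

/-- Factor of the second step. -/
noncomputable def xgm (u v : ℕ) : ℂ :=
  starRingEnd ℂ (xrt (u + v - 1)) * starRingEnd ℂ (xrt (u + v - 1))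

/-- Second step. -/
noncomputable def xst2 (u v : ℕ) (e : ℕ → ℕ → ℂ) (i j : ℕ) : ℂ :=
  xst1 v e i j * (xgm u v) ^ (i * j)

/-- Third step. -/
noncomputable def xst3 (u v : ℕ) (e : ℕ → ℕ → ℂ) (i j : ℕ) : ℂ :=
  xdft (2 ^ u) (starRingEnd ℂ (xrt (u - 1))) (fun i => xst2 u v e i j) i

/-- Fourth step. -/
noncomputable def xst4 (u v : ℕ) (e : ℕ → ℕ → ℂ) (k : ℕ) : ℂ :=
  xdft (2 ^ u * 2 ^ v) (xrt (u + v - 1)) (fun k => xst3 u v e (k / 2 ^ v) (k % 2 ^ v)) k

/-! ### The roots -/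

theorem norm_xrt (k : ℕ) : ‖xrt k‖ = 1 := by
  unfold xrt
  have : (Real.pi * Complex.I / 2 ^ (k + 1) : ℂ) =
      ((Real.pi / 2 ^ (k + 1) : ℝ) : ℂ) * Complex.I := by
    push_cast
    ring
  rw [this, Complex.norm_exp_ofReal_mul_I]

theorem xrt_mul_conj (k : ℕ) : xrt k * starRingEnd ℂ (xrt k) = 1 := by
  rw [Complex.mul_conj, Complex.normSq_eq_norm_sq, norm_xrt]
  simp

theorem conj_mul_xrt (k : ℕ) : starRingEnd ℂ (xrt k) * xrt k = 1 := by
  rw [mul_comm, xrt_mul_conj]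

theorem norm_conj_xrt (k : ℕ) : ‖starRingEnd ℂ (xrt k)‖ = 1 := by
  rw [Complex.norm_conj, norm_xrt]

/-- Squaring. -/
theorem xrt_sq (k : ℕ) : xrt (k + 1) ^ 2 = xrt k := by
  unfold xrt
  rw [← Complex.exp_nat_mul]
  congr 1
  push_cast
  rw [pow_succ (2 : ℂ) (k + 1)]
  field_simp

/-- Powers of two. -/
theorem xrt_pow (k m : ℕ) : xrt (k + m) ^ (2 ^ m) = xrt k := by
  induction m with
  | zero => simp
  | succ m ih => rw [pow_succ', pow_mul, ← Nat.add_assoc, xrt_sq, ih]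

/-- The square of the root of index `k` is a primitive root of unity of order `2 ^ (k + 1)`. -/
theorem xrt_prim (k : ℕ) : IsPrimitiveRoot (xrt k ^ 2) (2 ^ (k + 1)) := by
  have h := Complex.isPrimitiveRoot_exp (2 ^ (k + 1)) (by positivity)
  have e : xrt k ^ 2 = Complex.exp (2 * Real.pi * Complex.I / ((2 ^ (k + 1) : ℕ) : ℂ)) := by
    unfold xrt
    rw [← Complex.exp_nat_mul]
    congr 1
    push_cast
    ring
  rw [e]
  exact h

theorem conj_prim (k : ℕ) : IsPrimitiveRoot (starRingEnd ℂ (xrt k) ^ 2) (2 ^ (k + 1)) := by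
  have h := (xrt_prim k).inv
  have e : (xrt k ^ 2)⁻¹ = starRingEnd ℂ (xrt k) ^ 2 :=
    inv_eq_of_mul_eq_one_right (by rw [← mul_pow, xrt_mul_conj, one_pow])
  rwa [e] at h

/-- The transform. -/
theorem xdft_eq (k : ℕ) (a : ℕ → ℂ) (i : ℕ) :
    xdft (2 ^ (k + 1)) (xrt k) a i =
      ∑ j ∈ range (2 ^ (k + 1)), a j * (xrt k ^ 2) ^ (j * i) := by
  refine bluestein (xrt_mul_conj k) ?_ ?_ a i
  · rw [pow_succ']; exact even_two_mul _
  · rw [pow_mul, (xrt_prim k).pow_eq_one]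

theorem xdft_conj_eq (k : ℕ) (a : ℕ → ℂ) (i : ℕ) :
    xdft (2 ^ (k + 1)) (starRingEnd ℂ (xrt k)) a i =
      ∑ j ∈ range (2 ^ (k + 1)), a j * (starRingEnd ℂ (xrt k) ^ 2) ^ (j * i) := by
  refine bluestein ?_ ?_ ?_ a i
  · rw [Complex.conj_conj]; exact conj_mul_xrt k
  · rw [pow_succ']; exact even_two_mul _
  · rw [pow_mul, (conj_prim k).pow_eq_one]

/-- The composition of the four exact steps is the transposition. -/
theorem xst4_eq {u v : ℕ} (hu : 1 ≤ u) (hv : 1 ≤ v) (e : ℕ → ℕ → ℂ) {i j : ℕ}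
    (hi : i < 2 ^ u) (hj : j < 2 ^ v) :
    xst4 u v e (j * 2 ^ u + i) = 2 ^ (u + v) * e i j := by
  obtain ⟨u, rfl⟩ : ∃ u', u = u' + 1 := ⟨u - 1, by omega⟩
  obtain ⟨v, rfl⟩ : ∃ v', v = v' + 1 := ⟨v - 1, by omega⟩
  set K := u + v + 1 with hK
  set c : ℂ := starRingEnd ℂ (xrt K) with hc
  have eK : u + 1 + (v + 1) - 1 = K := by omega
  have eN : 2 ^ (u + 1) * 2 ^ (v + 1) = 2 ^ (K + 1) := by
    rw [← pow_add]; congr 1; omega
  have cv : (starRingEnd ℂ (xrt v)) = c ^ 2 ^ (u + 1) := by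
    have := congrArg (starRingEnd ℂ) (xrt_pow v (u + 1))
    rw [map_pow] at this
    rw [← this, hc, hK]
    congr 3
    omega
  have cu : (starRingEnd ℂ (xrt u)) = c ^ 2 ^ (v + 1) := by
    have := congrArg (starRingEnd ℂ) (xrt_pow u (v + 1))
    rw [map_pow] at this
    rw [← this, hc, hK]
    congr 3
  have hgm : xgm (u + 1) (v + 1) = c ^ 2 := by
    unfold xgm
    rw [eK, ← hc, sq]
  unfold xst4
  rw [eK, eN, xdft_eq]
  have h3 : ∀ k ∈ range (2 ^ (K + 1)),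
      xst3 (u + 1) (v + 1) e (k / 2 ^ (v + 1)) (k % 2 ^ (v + 1)) *
        (xrt K ^ 2) ^ (k * (j * 2 ^ (u + 1) + i)) =
      (∑ i ∈ range (2 ^ (u + 1)), (∑ j ∈ range (2 ^ (v + 1)), e i j *
        ((c ^ 2) ^ 2 ^ (u + 1)) ^ (j * (k % 2 ^ (v + 1)))) * (c ^ 2) ^ (i * (k % 2 ^ (v + 1))) *
        ((c ^ 2) ^ 2 ^ (v + 1)) ^ (i * (k / 2 ^ (v + 1)))) *
          (xrt K ^ 2) ^ (k * (j * 2 ^ (u + 1) + i)) := by
    intro k _
    congr 1
    unfold xst3
    rw [Nat.add_sub_cancel, xdft_conj_eq]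
    refine sum_congr rfl fun i' _ => ?_
    unfold xst2 xst1
    rw [Nat.add_sub_cancel, xdft_conj_eq, hgm, cv, cu]
    simp only [← pow_mul, Nat.mul_comm, Nat.mul_left_comm]
  rw [sum_congr rfl h3, ← eN]
  have hw : IsPrimitiveRoot (c ^ 2) (2 ^ (u + 1) * 2 ^ (v + 1)) := by
    rw [eN]; exact conj_prim K
  have hl : j * 2 ^ (u + 1) + i < 2 ^ (u + 1) * 2 ^ (v + 1) := by
    calc j * 2 ^ (u + 1) + i < j * 2 ^ (u + 1) + 2 ^ (u + 1) := by omega
      _ = (j + 1) * 2 ^ (u + 1) := by ring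
      _ ≤ 2 ^ (v + 1) * 2 ^ (u + 1) := Nat.mul_le_mul_right _ (by omega)
      _ = 2 ^ (u + 1) * 2 ^ (v + 1) := Nat.mul_comm ..
  rw [comp_all (by positivity) hw (by
    rw [← mul_pow, hc, conj_mul_xrt, one_pow]) e hl]
  have a1 : (j * 2 ^ (u + 1) + i) % 2 ^ (u + 1) = i := by
    rw [Nat.add_comm, Nat.add_mul_mod_self_right, Nat.mod_eq_of_lt hi]
  have a2 : (j * 2 ^ (u + 1) + i) / 2 ^ (u + 1) = j := by
    rw [Nat.add_comm, Nat.add_mul_div_right _ _ (by positivity), Nat.div_eq_of_lt hi,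
      Nat.zero_add]
  rw [a1, a2]
  congr 1
  push_cast
  rw [← pow_add]

/-! ### Bounds -/

/-- A transform multiplies bounds by the number of points. -/
theorem norm_xdft_le {r : ℕ} {ρ : ℂ} (hρ : ‖ρ‖ = 1) {a : ℕ → ℂ} {K : ℝ}
    (ha : ∀ i < r, ‖a i‖ ≤ K) (k : ℕ) : ‖xdft r ρ a k‖ ≤ r * K := by
  unfold xdft
  rw [norm_mul, norm_pow, hρ, one_pow, mul_one]
  refine (norm_sum_le _ _).trans ?_
  have : ∀ i ∈ range r, ‖(starRingEnd ℂ ρ) ^ ((k + (r - 1) - i + 1) ^ 2) *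
      (a i * ρ ^ (i ^ 2))‖ ≤ K := by
    intro i hi
    rw [norm_mul, norm_mul, norm_pow, norm_pow, Complex.norm_conj, hρ, one_pow, one_pow,
      one_mul, mul_one]
    exact ha i (mem_range.mp hi)
  refine (sum_le_sum this).trans ?_
  simp

theorem norm_xst1_le {v : ℕ} {e : ℕ → ℕ → ℂ} {K : ℝ} (he : ∀ i j, ‖e i j‖ ≤ K) (i j : ℕ) :
    ‖xst1 v e i j‖ ≤ 2 ^ v * K := by
  have := norm_xdft_le (r := 2 ^ v) (norm_conj_xrt (v - 1)) (a := fun j => e i j)
    (fun j _ => he i j) j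
  push_cast at this
  exact this

theorem norm_xgm (u v : ℕ) : ‖xgm u v‖ = 1 := by
  unfold xgm
  rw [norm_mul, norm_conj_xrt, one_mul]

theorem norm_xst2_le {u v : ℕ} {e : ℕ → ℕ → ℂ} {K : ℝ} (he : ∀ i j, ‖e i j‖ ≤ K)
    (i j : ℕ) : ‖xst2 u v e i j‖ ≤ 2 ^ v * K := by
  unfold xst2
  rw [norm_mul, norm_pow, norm_xgm, one_pow, mul_one]
  exact norm_xst1_le he i j

theorem norm_xst3_le {u v : ℕ} {e : ℕ → ℕ → ℂ} {K : ℝ} (he : ∀ i j, ‖e i j‖ ≤ K)
    (i j : ℕ) : ‖xst3 u v e i j‖ ≤ 2 ^ (u + v) * K := by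
  have := norm_xdft_le (r := 2 ^ u) (norm_conj_xrt (u - 1)) (a := fun i => xst2 u v e i j)
    (fun i _ => norm_xst2_le he i j) i
  push_cast at this
  rw [pow_add, mul_assoc]
  exact this

end Vale.Agent.P338.GS.Ex
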