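import Vale.Agent.P338.GS.PMVal

/-!
# P338, matrices of every shape: errors of the discrete Fourier transforms
-/

namespace Vale.Agent.P338.GS.PM

open Vale.Agent.P338 Vale.Agent.P338.GS

/-- The sizes: products up to `K` do not overflow. -/
structure Ctx (S B : ℕ) (K : ℝ) : Prop where
  hB : 1 ≤ B
  hS : B + 1 < S
  hK : K * 2 ^ (2 * B) < 2 ^ (S - 1)
  h4 : 4 ≤ K

/-- The rounding error. -/
noncomputable def tau (B : ℕ) : ℝ := 2 / 2 ^ B

theorem tau_nonneg (B : ℕ) : 0 ≤ tau B := by unfold tau; positivity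

variable {S B : ℕ} {K : ℝ}

theorem Ap.mono {ε ε' : ℝ} {x : ℕ × ℕ} {c : ℂ} (h : Ap S B ε x c) (hle : ε ≤ ε') :
    Ap S B ε' x c := le_trans h hle

theorem Ap.nonneg {ε : ℝ} {x : ℕ × ℕ} {c : ℂ} (h : Ap S B ε x c) : 0 ≤ ε :=
  le_trans (norm_nonneg _) h

theorem Ap.norm_le {ε M : ℝ} {x : ℕ × ℕ} {c : ℂ} (h : Ap S B ε x c) (hc : ‖c‖ ≤ M) :
    ‖vl S B x‖ ≤ M + ε := by
  have h1 : vl S B x = c + (vl S B x - c) := by ring
  rw [h1]
  exact (norm_add_le _ _).trans (add_le_add hc h)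

theorem mul_close {X Y c d : ℂ} {εx εy Mc Md : ℝ} (hx : ‖X - c‖ ≤ εx) (hy : ‖Y - d‖ ≤ εy)
    (hc : ‖c‖ ≤ Mc) (hd : ‖d‖ ≤ Md) : ‖X * Y - c * d‖ ≤ εx * (Md + εy) + Mc * εy := by
  have e : X * Y - c * d = (X - c) * Y + c * (Y - d) := by ring
  have hY : ‖Y‖ ≤ Md + εy := by
    have h1 : Y = d + (Y - d) := by ring
    rw [h1]
    exact (norm_add_le _ _).trans (add_le_add hd hy)
  rw [e]
  refine (norm_add_le _ _).trans ?_
  rw [norm_mul, norm_mul]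
  have h1 : 0 ≤ εx := le_trans (norm_nonneg _) hx
  have h2 : 0 ≤ Mc := le_trans (norm_nonneg _) hc
  exact add_le_add (mul_le_mul hx hY (norm_nonneg _) h1) (mul_le_mul hc hy (norm_nonneg _) h2)

/-- The product. -/
theorem Ap.cm (H : Ctx S B K) {εx εy Mc Md : ℝ} {x y : ℕ × ℕ} {c d : ℂ} (hx : Ap S B εx x c)
    (hy : Ap S B εy y d) (hc : ‖c‖ ≤ Mc) (hd : ‖d‖ ≤ Md) (hbig : (Mc + εx) * (Md + εy) ≤ K) :
    Ap S B (εx * (Md + εy) + Mc * εy + tau B) (cmR S B x y) (c * d) := by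
  have h1 := hx.norm_le hc
  have h2 := hy.norm_le hd
  have h3 : ‖vl S B x‖ * ‖vl S B y‖ ≤ K :=
    (mul_le_mul h1 h2 (norm_nonneg _) (le_trans (norm_nonneg _) h1)).trans hbig
  have h4 := vl_cmR H.hB (by have := H.hS; omega) x y
    (lt_of_le_of_lt (mul_le_mul_of_nonneg_right h3 (by positivity)) H.hK)
  have h5 := mul_close hx hy hc hd
  unfold Ap
  have e : vl S B (cmR S B x y) - c * d = (vl S B x * vl S B y - c * d) +
      (vl S B (cmR S B x y) - vl S B x * vl S B y) := by ring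
  rw [e]
  refine (norm_add_le _ _).trans ?_
  exact add_le_add h5 h4

/-- The product of numbers of norm at most one. -/
theorem Ap.cm1 (H : Ctx S B K) {εx εy : ℝ} {x y : ℕ × ℕ} {c d : ℂ} (hx : Ap S B εx x c)
    (hy : Ap S B εy y d) (hc : ‖c‖ ≤ 1) (hd : ‖d‖ ≤ 1) (h1 : εx ≤ 1) (h2 : εy ≤ 1) :
    Ap S B (εx + 2 * εy + tau B) (cmR S B x y) (c * d) := by
  have hx0 := hx.nonneg
  have hy0 := hy.nonneg
  refine (Ap.cm H hx hy hc hd ?_).mono ?_
  · have := H.h4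
    nlinarith
  · nlinarith

theorem Ap.one (H : Ctx S B K) : Ap S B 0 (2 ^ B, 0) 1 := by
  have hS := H.hS
  unfold Ap
  rw [vl_nat (Nat.pow_lt_pow_right (by norm_num) (by omega)) (by positivity)]
  have hp : (0 : ℝ) < 2 ^ B := by positivity
  have e : (⟨((2 ^ B : ℕ) : ℝ) / 2 ^ B, ((0 : ℕ) : ℝ) / 2 ^ B⟩ : ℂ) = 1 := by
    apply Complex.ext
    · push_cast; rw [div_self hp.ne']; rfl
    · simp
  rw [e, sub_self, norm_zero]

/-- The conjugate. -/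
theorem Ap.cj (H : Ctx S B K) {ε : ℝ} {x : ℕ × ℕ} {c : ℂ} (hx : Ap S B ε x c) (hc : ‖c‖ ≤ 1)
    (h1 : ε ≤ 1) : Ap S B ε (cjR S x) ((starRingEnd ℂ) c) := by
  have hS := H.hS
  have h2 := hx.norm_le hc
  have h3 : ‖vl S B x‖ * 2 ^ B < 2 ^ (S - 1) := by
    have h4 : (1 : ℝ) ≤ 2 ^ B := one_le_pow₀ (by norm_num)
    have hp : (0 : ℝ) < 2 ^ B := by positivity
    have hK := H.hK
    have h5 : ‖vl S B x‖ ≤ K := by have := H.h4; linarith
    refine lt_of_le_of_lt ?_ hK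
    rw [two_mul, pow_add]
    have h6 : 0 ≤ K * 2 ^ B := by have := H.h4; positivity
    calc ‖vl S B x‖ * 2 ^ B ≤ K * 2 ^ B := mul_le_mul_of_nonneg_right h5 hp.le
      _ = K * 2 ^ B * 1 := by ring
      _ ≤ K * 2 ^ B * 2 ^ B := mul_le_mul_of_nonneg_left h4 h6
      _ = K * (2 ^ B * 2 ^ B) := by ring
  unfold Ap
  rw [vl_cjR (by omega) x h3, ← map_sub, RCLike.norm_conj]
  exact hx

/-! ### Powers -/

theorem norm_pow_le_one {c : ℂ} (hc : ‖c‖ ≤ 1) (k : ℕ) : ‖c ^ k‖ ≤ 1 := by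
  rw [norm_pow]; exact pow_le_one₀ (norm_nonneg _) hc

theorem pw_ap (H : Ctx S B K) {γ : ℕ × ℕ} {g : ℂ} {ε G : ℝ} (hγ : Ap S B ε γ g) (hg : ‖g‖ ≤ 1)
    (h1 : ε ≤ 1) (hG : 2 * ε + tau B ≤ G) (n : ℕ) (hn : n * G ≤ 1) :
    ∀ k ≤ n, Ap S B (k * G) (pw S B γ k) (g ^ k) := by
  have hG0 : 0 ≤ G := by have := hγ.nonneg; have := tau_nonneg B; linarith
  intro k
  induction k with
  | zero =>
    intro _
    rw [pow_zero]
    exact (Ap.one H).mono (by simp)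
  | succ k ih =>
    intro hk
    have h2 := ih (by omega)
    have h3 : (k : ℝ) * G ≤ 1 :=
      (mul_le_mul_of_nonneg_right (by exact_mod_cast (by omega : k ≤ n)) hG0).trans hn
    rw [pow_succ]
    refine (Ap.cm1 H h2 hγ (norm_pow_le_one hg _) hg h3 h1).mono ?_
    push_cast
    linarith

theorem tw_ap (H : Ctx S B K) {γ : ℕ × ℕ} {g : ℂ} {ε G : ℝ} (hγ : Ap S B ε γ g) (hg : ‖g‖ ≤ 1)
    (h1 : ε ≤ 1) (hG : 2 * ε + tau B ≤ G) (i j : ℕ) (hij : (j + 1) * ((2 * i + 1) * G) ≤ 1) :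
    Ap S B (j * ((2 * i + 1) * G)) (tw S B γ i j) (g ^ (i * j)) := by
  have hG0 : 0 ≤ G := by have := hγ.nonneg; have := tau_nonneg B; linarith
  have hi0 : (0 : ℝ) ≤ i := by positivity
  have hj0 : (0 : ℝ) ≤ j := by positivity
  have h2 : (2 * i + 1) * G ≤ 1 := by nlinarith [mul_nonneg hi0 hG0, mul_nonneg hj0 hG0]
  have hi : (i : ℝ) * G ≤ 1 := by nlinarith [mul_nonneg hi0 hG0]
  have h3 := pw_ap H hγ hg h1 hG i hi i le_rfl
  have h4 := pw_ap H h3 (norm_pow_le_one hg i) hi (G := (2 * i + 1) * G)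
    (by have := hγ.nonneg; nlinarith) j (by nlinarith [mul_nonneg hi0 hG0]) j le_rfl
  unfold tw
  rw [pow_mul]
  exact h4

theorem chs_ap (H : Ctx S B K) {ρ : ℕ × ℕ} {r : ℂ} {ε G : ℝ} (hρ : Ap S B ε ρ r) (hr : ‖r‖ ≤ 1)
    (hG : 6 * ε + 3 * tau B ≤ G) (n : ℕ) (hn : 3 * (n + 1) ^ 2 * G ≤ 1) :
    ∀ k ≤ n, Ap S B (3 * k ^ 2 * G) (chs S B ρ k).1 (r ^ (k ^ 2)) ∧
      Ap S B ((k + 1) * G) (chs S B ρ k).2 (r ^ (2 * k + 1)) := by
  have hε0 := hρ.nonneg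
  have hτ := tau_nonneg B
  have hG0 : 0 ≤ G := by linarith
  have hG1 : G ≤ 1 := by
    have : (1 : ℝ) ≤ 3 * (n + 1) ^ 2 := by nlinarith [(Nat.cast_nonneg n : (0 : ℝ) ≤ n)]
    nlinarith
  have hsq : Ap S B (3 * ε + tau B) (cmR S B ρ ρ) (r * r) :=
    (Ap.cm1 H hρ hρ hr hr (by linarith) (by linarith)).mono (by linarith)
  intro k
  induction k with
  | zero =>
    intro _
    refine ⟨?_, ?_⟩
    · have := (Ap.one H)
      simpa [chs] using this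
    · simp only [chs, Nat.cast_zero, zero_add, one_mul, mul_zero, pow_one]
      exact hρ.mono (by linarith)
  | succ k ih =>
    intro hk
    obtain ⟨h1, h2⟩ := ih (by omega)
    have hk0 : (0 : ℝ) ≤ k := by positivity
    have hkn : (k : ℝ) + 1 ≤ n + 1 := by
      have : (k : ℝ) ≤ n := by exact_mod_cast (by omega : k ≤ n)
      linarith
    have hkn2 : 3 * ((k : ℝ) + 1) ^ 2 * G ≤ 1 := by
      refine le_trans ?_ hn
      apply mul_le_mul_of_nonneg_right _ hG0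
      nlinarith
    have h3 : 3 * (k : ℝ) ^ 2 * G ≤ 1 := by
      refine le_trans ?_ hkn2
      apply mul_le_mul_of_nonneg_right _ hG0
      nlinarith
    have h4 : ((k : ℝ) + 1) * G ≤ 1 := by
      refine le_trans ?_ hkn2
      apply mul_le_mul_of_nonneg_right _ hG0
      nlinarith
    refine ⟨?_, ?_⟩
    · have h5 := Ap.cm1 H h1 h2 (norm_pow_le_one hr _) (norm_pow_le_one hr _) h3 h4
      rw [← pow_add, show k ^ 2 + (2 * k + 1) = (k + 1) ^ 2 by ring] at h5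
      refine h5.mono ?_
      push_cast
      nlinarith [mul_nonneg hk0 hG0]
    · have h5 := Ap.cm1 H h2 hsq (norm_pow_le_one hr _)
        (by rw [norm_mul]; exact mul_le_one₀ hr (norm_nonneg _) hr) h4 (by linarith)
      rw [← pow_two, ← pow_add, show 2 * k + 1 + 2 = 2 * (k + 1) + 1 by ring] at h5
      refine h5.mono ?_
      push_cast
      linarith

/-! ### Transforms -/

/-- The exact transform, as it is computed. -/
noncomputable def edft (r : ℕ) (ρ : ℂ) (α : ℕ → ℂ) (k : ℕ) : ℂ :=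
  (∑ i ∈ Finset.range r, (starRingEnd ℂ) ρ ^ ((k + (r - 1) - i + 1) ^ 2) * (α i * ρ ^ (i ^ 2)))
    * ρ ^ (k ^ 2)

theorem cvC_ap (H : Ctx S B K) {r : ℕ} {κ a : ℕ → ℕ × ℕ} {κ' α : ℕ → ℂ} {η ε A : ℝ} (k : ℕ)
    (hk : k < r)
    (hκ : ∀ j < 2 * r - 1, Ap S B η (κ j) (κ' j)) (hκ1 : ∀ j < 2 * r - 1, ‖κ' j‖ ≤ 1)
    (ha : ∀ i < r, Ap S B ε (a i) (α i)) (hα : ∀ i < r, ‖α i‖ ≤ A)
    (hbig : r * ((1 + η) * (A + ε)) ≤ K) :
    Ap S B (r * (η * (A + ε) + ε) + tau B) (cvC S B r κ a k)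
      (∑ i ∈ Finset.range r, κ' (k + (r - 1) - i) * α i) := by
  have hs : ∑ i ∈ Finset.range r, ‖vl S B (κ (k + (r - 1) - i))‖ * ‖vl S B (a i)‖
      ≤ r * ((1 + η) * (A + ε)) := by
    have : ∀ i ∈ Finset.range r, ‖vl S B (κ (k + (r - 1) - i))‖ * ‖vl S B (a i)‖
        ≤ (1 + η) * (A + ε) := by
      intro i hi
      rw [Finset.mem_range] at hi
      have h1 := (hκ (k + (r - 1) - i) (by omega)).norm_le (hκ1 _ (by omega))
      have h2 := (ha i hi).norm_le (hα i hi)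
      exact mul_le_mul h1 h2 (norm_nonneg _) (le_trans (norm_nonneg _) h1)
    refine (Finset.sum_le_sum this).trans ?_
    simp
  have h3 := vl_cvC H.hB (by have := H.hS; omega) κ a k
    (lt_of_le_of_lt (mul_le_mul_of_nonneg_right (hs.trans hbig) (by positivity)) H.hK)
  unfold Ap
  have e : vl S B (cvC S B r κ a k) - ∑ i ∈ Finset.range r, κ' (k + (r - 1) - i) * α i
      = (∑ i ∈ Finset.range r, (vl S B (κ (k + (r - 1) - i)) * vl S B (a i)
          - κ' (k + (r - 1) - i) * α i)) + (vl S B (cvC S B r κ a k) -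
      ∑ i ∈ Finset.range r, vl S B (κ (k + (r - 1) - i)) * vl S B (a i)) := by
    rw [Finset.sum_sub_distrib]; ring
  rw [e]
  refine (norm_add_le _ _).trans (add_le_add ?_ h3)
  refine (norm_sum_le _ _).trans ?_
  have : ∀ i ∈ Finset.range r, ‖vl S B (κ (k + (r - 1) - i)) * vl S B (a i)
      - κ' (k + (r - 1) - i) * α i‖ ≤ η * (A + ε) + ε := by
    intro i hi
    rw [Finset.mem_range] at hi
    have := mul_close (hκ (k + (r - 1) - i) (by omega)) (ha i hi) (hκ1 _ (by omega)) (hα i hi)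
    linarith
  refine (Finset.sum_le_sum this).trans ?_
  rw [Finset.sum_const, Finset.card_range, nsmul_eq_mul]

theorem edft_norm {r : ℕ} {ρ : ℂ} (hρ : ‖ρ‖ ≤ 1) {α : ℕ → ℂ} {A : ℝ}
    (hα : ∀ i < r, ‖α i‖ ≤ A) (k : ℕ) : ‖edft r ρ α k‖ ≤ r * A := by
  unfold edft
  have hc : ‖(starRingEnd ℂ) ρ‖ ≤ 1 := by rw [RCLike.norm_conj]; exact hρ
  have h1 : ‖∑ i ∈ Finset.range r, (starRingEnd ℂ) ρ ^ ((k + (r - 1) - i + 1) ^ 2) *
      (α i * ρ ^ (i ^ 2))‖ ≤ r * A := by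
    refine (norm_sum_le _ _).trans ?_
    have : ∀ i ∈ Finset.range r, ‖(starRingEnd ℂ) ρ ^ ((k + (r - 1) - i + 1) ^ 2) *
        (α i * ρ ^ (i ^ 2))‖ ≤ A := by
      intro i hi
      rw [Finset.mem_range] at hi
      have hA := hα i hi
      have h2 := norm_pow_le_one hc ((k + (r - 1) - i + 1) ^ 2)
      have h3 := norm_pow_le_one hρ (i ^ 2)
      rw [norm_mul, norm_mul]
      have h4 : ‖α i‖ * ‖ρ ^ (i ^ 2)‖ ≤ A := by
        calc ‖α i‖ * ‖ρ ^ (i ^ 2)‖ ≤ ‖α i‖ * 1 := mul_le_mul_of_nonneg_left h3 (norm_nonneg _)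
          _ ≤ A := by rw [mul_one]; exact hA
      calc _ ≤ 1 * (‖α i‖ * ‖ρ ^ (i ^ 2)‖) :=
            mul_le_mul_of_nonneg_right h2 (by positivity)
        _ ≤ A := by rw [one_mul]; exact h4
    refine (Finset.sum_le_sum this).trans ?_
    simp
  rw [norm_mul]
  have h5 := norm_pow_le_one hρ (k ^ 2)
  calc _ ≤ (r * A) * 1 := mul_le_mul h1 h5 (norm_nonneg _) (le_trans (norm_nonneg _) h1)
    _ = r * A := by ring

/-- The transform. -/
theorem dft_ap (H : Ctx S B K) {r : ℕ} {ρ : ℕ × ℕ} {p : ℂ} {a : ℕ → ℕ × ℕ} {α : ℕ → ℂ}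
    {η ε A : ℝ} (hp : ‖p‖ ≤ 1) (hη : η ≤ 1) (hτ : tau B ≤ η)
    (hch : ∀ k < r, Ap S B η (ch S B ρ k) (p ^ (k ^ 2)))
    (hkr : ∀ j < 2 * r - 1, Ap S B η (krn S B ρ j) ((starRingEnd ℂ) p ^ ((j + 1) ^ 2)))
    (ha : ∀ i < r, Ap S B ε (a i) (α i)) (hα : ∀ i < r, ‖α i‖ ≤ A) (hA : 1 ≤ A) (hε : ε ≤ A)
    (hbig : 32 * (r * A) ≤ K) (k : ℕ) (hk : k < r) :
    Ap S B (r * (8 * ε + 14 * (A * η))) (dft S B r ρ a k) (edft r p α k) := by
  have hτ0 := tau_nonneg B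
  have hη0 : 0 ≤ η := hτ0.trans hτ
  have hε0 : 0 ≤ ε := (ha k hk).nonneg
  have hr1 : (1 : ℝ) ≤ r := by exact_mod_cast (by omega : 1 ≤ r)
  have hc : ‖(starRingEnd ℂ) p‖ ≤ 1 := by rw [RCLike.norm_conj]; exact hp
  have hA0 : 0 ≤ A := by linarith
  have hAη : η ≤ A * η := by nlinarith
  have hAη1 : A * η ≤ A := by nlinarith
  have hεη : ε * η ≤ ε := by nlinarith
  have hAr : A ≤ r * A := by nlinarith
  have hb : ∀ i < r, Ap S B (2 * ε + 2 * (A * η)) (cmR S B (a i) (ch S B ρ i))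
      (α i * p ^ (i ^ 2)) := by
    intro i hi
    refine (Ap.cm H (ha i hi) (hch i hi) (hα i hi) (norm_pow_le_one hp _) ?_).mono ?_
    · nlinarith
    · nlinarith
  have hbn : ∀ i < r, ‖α i * p ^ (i ^ 2)‖ ≤ A := by
    intro i hi
    rw [norm_mul]
    calc ‖α i‖ * ‖p ^ (i ^ 2)‖ ≤ ‖α i‖ * 1 :=
          mul_le_mul_of_nonneg_left (norm_pow_le_one hp _) (norm_nonneg _)
      _ ≤ A := by rw [mul_one]; exact hα i hi
  have hcv := cvC_ap H (κ := krn S B ρ) (a := fun i => cmR S B (a i) (ch S B ρ i))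
    (κ' := fun j => (starRingEnd ℂ) p ^ ((j + 1) ^ 2)) (α := fun i => α i * p ^ (i ^ 2))
    k hk hkr (fun j _ => norm_pow_le_one hc _) hb hbn (by
      have h1 : (1 + η) * (A + (2 * ε + 2 * (A * η))) ≤ 10 * A := by nlinarith
      have h2 := mul_le_mul_of_nonneg_left h1 (by linarith : (0 : ℝ) ≤ r)
      nlinarith)
  have hcv' : Ap S B (r * (4 * ε + 6 * (A * η)))
      (cvC S B r (krn S B ρ) (fun i => cmR S B (a i) (ch S B ρ i)) k)
      (∑ i ∈ Finset.range r, (starRingEnd ℂ) p ^ ((k + (r - 1) - i + 1) ^ 2) *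
        (α i * p ^ (i ^ 2))) := by
    refine hcv.mono ?_
    have h1 : η * (A + (2 * ε + 2 * (A * η))) + (2 * ε + 2 * (A * η))
        ≤ 4 * ε + 5 * (A * η) := by
      have : η * (2 * (A * η)) ≤ 2 * (A * η) := by
        have : 0 ≤ A * η := by positivity
        nlinarith
      nlinarith
    have h2 := mul_le_mul_of_nonneg_left h1 (by linarith : (0 : ℝ) ≤ r)
    have h3 : A * η ≤ r * (A * η) := by
      have : 0 ≤ A * η := by positivity
      nlinarith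
    nlinarith
  have hnorm : ‖∑ i ∈ Finset.range r, (starRingEnd ℂ) p ^ ((k + (r - 1) - i + 1) ^ 2) *
      (α i * p ^ (i ^ 2))‖ ≤ r * A := by
    refine (norm_sum_le _ _).trans ?_
    have : ∀ i ∈ Finset.range r, ‖(starRingEnd ℂ) p ^ ((k + (r - 1) - i + 1) ^ 2) *
        (α i * p ^ (i ^ 2))‖ ≤ A := by
      intro i hi
      rw [Finset.mem_range] at hi
      rw [norm_mul]
      calc _ ≤ 1 * ‖α i * p ^ (i ^ 2)‖ :=
            mul_le_mul_of_nonneg_right (norm_pow_le_one hc _) (norm_nonneg _)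
        _ ≤ A := by rw [one_mul]; exact hbn i hi
    refine (Finset.sum_le_sum this).trans ?_
    simp
  unfold dft edft
  have hEc : (r : ℝ) * (4 * ε + 6 * (A * η)) ≤ 10 * (r * A) := by
    have h1 : 4 * ε + 6 * (A * η) ≤ 10 * A := by linarith
    have h2 := mul_le_mul_of_nonneg_left h1 (by linarith : (0 : ℝ) ≤ r)
    linarith
  have hEc0 : 0 ≤ (r : ℝ) * (4 * ε + 6 * (A * η)) := by positivity
  refine (Ap.cm H hcv' (hch k hk) hnorm (norm_pow_le_one hp _) ?_).mono ?_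
  · have h1 : (r : ℝ) * A + r * (4 * ε + 6 * (A * η)) ≤ 11 * (r * A) := by linarith
    have h2 : (r * A + r * (4 * ε + 6 * (A * η))) * (1 + η) ≤ (11 * (r * A)) * 2 :=
      mul_le_mul h1 (by linarith) (by linarith) (by positivity)
    have : 0 ≤ (r : ℝ) * A := by positivity
    linarith
  · have h1 : (r : ℝ) * (4 * ε + 6 * (A * η)) * (1 + η) ≤ r * (4 * ε + 6 * (A * η)) * 2 :=
      mul_le_mul_of_nonneg_left (by linarith) hEc0
    have h3 : A * η ≤ r * (A * η) := by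
      have : 0 ≤ A * η := by positivity
      nlinarith
    have h4 : (r : ℝ) * A * η = r * (A * η) := by ring
    rw [h4]
    have h5 : tau B ≤ r * (A * η) := by linarith
    linarith

end Vale.Agent.P338.GS.PM
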