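import Vale.Agent.P338.GS.PMRt
import Vale.Agent.P338.GS.PMErr
import Vale.Agent.P338.GS.Exact

/-!
# P338, matrices of every shape: the transposition of words, proof of `PermPure`
-/

namespace Vale.Agent.P338.GS.PM

open Vale.Agent.P338 Vale.Agent.P338.GS

/-! ### Rounding -/

theorem rnd_of_ap {S B n t e : ℕ} {x : ℕ × ℕ} {ε : ℝ} {c : ℂ} (hB : 1 ≤ B)
    (h : Ap S B ε x c) (hc : c = 2 ^ n * e) (hε : ε < 2 ^ n / 2) (he : e < 2 ^ t)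
    (hS : t + (B + n) ≤ S) : rnd S (B + n) t x.1 = e := by
  have hp : (0 : ℝ) < 2 ^ B := by positivity
  have h1 : |(sg S x.1 : ℝ) / 2 ^ B - 2 ^ n * e| ≤ ε := by
    have h2 := (Complex.abs_re_le_norm (vl S B x - c)).trans h
    have e1 : (vl S B x - c).re = (sg S x.1 : ℝ) / 2 ^ B - 2 ^ n * e := by
      have h2B : (2 : ℂ) ^ B = (((2 : ℝ) ^ B : ℝ) : ℂ) := by push_cast; rfl
      have h3 : c = ((2 ^ n * e : ℝ) : ℂ) := by rw [hc]; push_cast; rfl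
      rw [Complex.sub_re, h3, Complex.ofReal_re]
      congr 1
      unfold vl raw cz
      rw [h2B, Complex.div_ofReal_re]
    rwa [e1] at h2
  have h2 := lt_of_le_of_lt h1 hε
  have e2 : (sg S x.1 : ℝ) / 2 ^ B - 2 ^ n * e = ((sg S x.1 : ℝ) - 2 ^ (B + n) * e) / 2 ^ B := by
    rw [pow_add]; field_simp
  have e3 : (2 : ℝ) ^ (B + n - 1) = 2 ^ n / 2 * 2 ^ B := by
    have : (2 : ℝ) ^ n * 2 ^ B = 2 * 2 ^ (B + n - 1) := by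
      rw [← pow_succ', ← pow_add]; congr 1; omega
    linarith
  rw [e2, abs_div, abs_of_pos hp, div_lt_iff₀ hp, ← e3, abs_lt] at h2
  have h3 : -2 ^ (B + n - 1) < sg S x.1 - 2 ^ (B + n) * (e : ℤ) := by exact_mod_cast h2.1
  have h4 : sg S x.1 - 2 ^ (B + n) * (e : ℤ) < 2 ^ (B + n - 1) := by exact_mod_cast h2.2
  have e5 : (2 : ℤ) ^ (B + n) = 2 * 2 ^ (B + n - 1) := by
    rw [← pow_succ']; congr 1; omega
  have h6 : (2 : ℤ) ^ (B + n) * (e + 1) ≤ 2 ^ S := by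
    have h7 : (e : ℤ) + 1 ≤ 2 ^ t := by exact_mod_cast he
    calc (2 : ℤ) ^ (B + n) * (e + 1) ≤ 2 ^ (B + n) * 2 ^ t :=
          mul_le_mul_of_nonneg_left h7 (by positivity)
      _ = 2 ^ (t + (B + n)) := by rw [← pow_add]; congr 1; omega
      _ ≤ 2 ^ S := pow_le_pow_right₀ (by norm_num) hS
  have h7 : (0 : ℤ) ≤ 2 ^ (B + n) * e := by positivity
  have h8 : (((x.1 + 2 ^ (B + n - 1)) % 2 ^ S : ℕ) : ℤ) = sg S x.1 + 2 ^ (B + n - 1) := by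
    push_cast
    rw [← Int.emod_eq_of_lt (a := sg S x.1 + 2 ^ (B + n - 1)) (b := 2 ^ S) (by linarith)
      (by linarith)]
    exact (sg_modEq S x.1).add_right _
  have h9 : (x.1 + 2 ^ (B + n - 1)) % 2 ^ S / 2 ^ (B + n) = e := by
    have : ((((x.1 + 2 ^ (B + n - 1)) % 2 ^ S / 2 ^ (B + n) : ℕ)) : ℤ) = e := by
      rw [Int.natCast_div, h8]
      push_cast
      apply le_antisymm
      · apply Int.le_of_lt_add_one
        rw [Int.ediv_lt_iff_lt_mul (by positivity)]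
        linarith
      · rw [Int.le_ediv_iff_mul_le (by positivity)]
        linarith
    exact_mod_cast this
  unfold rnd
  rw [h9, Nat.mod_eq_of_lt he]

/-! ### The parameters -/

/-- The uniform bound for the errors of the roots. -/
noncomputable def eta (ℓ : ℕ) : ℝ := 2 ^ (3 * ℓ + 8) / 2 ^ (20 * ℓ)

theorem eta_nonneg (ℓ : ℕ) : 0 ≤ eta ℓ := by unfold eta; positivity

theorem two_pow_mono {a b : ℕ} (h : a ≤ b) : (2 : ℝ) ^ a ≤ 2 ^ b :=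
  pow_le_pow_right₀ (by norm_num) h

theorem ctx {ℓ : ℕ} (hℓ : 2 ≤ ℓ) : Ctx (64 * ℓ) (20 * ℓ) (2 ^ (3 * ℓ + 5)) where
  hB := by omega
  hS := by omega
  hK := by
    rw [← pow_add]
    exact pow_lt_pow_right₀ (by norm_num) (by omega)
  h4 := by
    calc (4 : ℝ) = 2 ^ 2 := by norm_num
      _ ≤ 2 ^ (3 * ℓ + 5) := two_pow_mono (by omega)

theorem eta_le {ℓ : ℕ} (hℓ : 2 ≤ ℓ) : 2 ^ (2 * ℓ + 12) * eta ℓ ≤ 1 := by
  unfold eta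
  rw [← mul_div_assoc, ← pow_add, div_le_one (by positivity)]
  exact two_pow_mono (by omega)

theorem eta_le' {ℓ : ℕ} (hℓ : 2 ≤ ℓ) : 2 ^ 12 * eta ℓ ≤ 1 :=
  (mul_le_mul_of_nonneg_right (two_pow_mono (by omega)) (eta_nonneg ℓ)).trans (eta_le hℓ)

theorem tau_le (ℓ : ℕ) : tau (20 * ℓ) ≤ eta ℓ := by
  unfold tau eta
  apply div_le_div_of_nonneg_right _ (by positivity)
  calc (2 : ℝ) = 2 ^ 1 := by norm_num
    _ ≤ 2 ^ (3 * ℓ + 8) := two_pow_mono (by omega)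

/-- The bound for one step of the powers. -/
noncomputable def gee (ℓ : ℕ) : ℝ := 2 ^ (ℓ + 4) / 2 ^ (20 * ℓ)

theorem gee_nonneg (ℓ : ℕ) : 0 ≤ gee ℓ := by unfold gee; positivity

theorem gee_le {ℓ : ℕ} (hℓ : 2 ≤ ℓ) :
    6 * (2 ^ (ℓ + 1) / 2 ^ (20 * ℓ)) + 3 * tau (20 * ℓ) ≤ gee ℓ := by
  unfold gee tau
  rw [← mul_div_assoc, ← mul_div_assoc, ← add_div]
  apply div_le_div_of_nonneg_right _ (by positivity)
  have h1 : (2 : ℝ) ^ 2 ≤ 2 ^ ℓ := two_pow_mono hℓ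
  rw [pow_add, pow_add]
  linarith

theorem gee_eta (ℓ : ℕ) : 3 * (2 ^ (ℓ + 1)) ^ 2 * gee ℓ ≤ eta ℓ := by
  unfold gee eta
  rw [← mul_div_assoc]
  apply div_le_div_of_nonneg_right _ (by positivity)
  have e1 : ((2 : ℝ) ^ (ℓ + 1)) ^ 2 * 2 ^ (ℓ + 4) = 2 ^ (3 * ℓ + 6) := by
    rw [← pow_mul, ← pow_add]; congr 1; ring
  have e2 : (2 : ℝ) ^ (3 * ℓ + 8) = 4 * 2 ^ (3 * ℓ + 6) := by
    rw [show 3 * ℓ + 8 = 2 + (3 * ℓ + 6) by ring, pow_add _ 2]; norm_num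
  rw [mul_assoc, e1, e2]
  apply mul_le_mul_of_nonneg_right (by norm_num) (by positivity)

section

variable {ℓ : ℕ}

/-- The uniform bound for the numbers `ρ ^ (k ^ 2)`. -/
theorem ch_ap (hℓ : 2 ≤ ℓ) {ρ : ℕ × ℕ} {p : ℂ}
    (h : Ap (64 * ℓ) (20 * ℓ) (2 ^ (ℓ + 1) / 2 ^ (20 * ℓ)) ρ p) (hp : ‖p‖ ≤ 1) (k : ℕ)
    (hk : k < 2 ^ (ℓ + 1)) : Ap (64 * ℓ) (20 * ℓ) (eta ℓ) (ch (64 * ℓ) (20 * ℓ) ρ k)
      (p ^ (k ^ 2)) := by
  have hG := gee_nonneg ℓ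
  have h1 : ((2 ^ (ℓ + 1) - 1 : ℕ) : ℝ) + 1 = 2 ^ (ℓ + 1) := by
    rw [Nat.cast_sub Nat.one_le_two_pow]; push_cast; ring
  have h2 : eta ℓ ≤ 1 := by have := eta_le' hℓ; have := eta_nonneg ℓ; linarith
  have h3 := (chs_ap (ctx hℓ) h hp (gee_le hℓ) (2 ^ (ℓ + 1) - 1)
    (by rw [h1]; exact (gee_eta ℓ).trans h2) k (by omega)).1
  refine h3.mono ?_
  refine le_trans ?_ (gee_eta ℓ)
  apply mul_le_mul_of_nonneg_right _ hG
  have h4 : (k : ℝ) ≤ 2 ^ (ℓ + 1) := by exact_mod_cast hk.le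
  have h5 : (k : ℝ) ^ 2 ≤ (2 ^ (ℓ + 1)) ^ 2 := pow_le_pow_left₀ (by positivity) h4 2
  linarith

theorem rho_le (hℓ : 2 ≤ ℓ) : (2 : ℝ) ^ (ℓ + 1) / 2 ^ (20 * ℓ) ≤ 1 := by
  rw [div_le_one (by positivity)]
  exact two_pow_mono (by omega)

/-- The transform of `2 ^ m` points. -/
theorem dft_all (hℓ : 2 ≤ ℓ) {ρ : ℕ × ℕ} {p : ℂ}
    (h : Ap (64 * ℓ) (20 * ℓ) (2 ^ (ℓ + 1) / 2 ^ (20 * ℓ)) ρ p) (hp : ‖p‖ ≤ 1)
    {r : ℕ} (hr : r ≤ 2 ^ ℓ) {a : ℕ → ℕ × ℕ} {α : ℕ → ℂ} {ε A : ℝ}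
    (ha : ∀ i < r, Ap (64 * ℓ) (20 * ℓ) ε (a i) (α i)) (hα : ∀ i < r, ‖α i‖ ≤ A)
    (hA : 1 ≤ A) (hε : ε ≤ A) (hbig : r * A ≤ 2 ^ (3 * ℓ)) (k : ℕ) (hk : k < r) :
    Ap (64 * ℓ) (20 * ℓ) (r * (8 * ε + 14 * (A * eta ℓ))) (dft (64 * ℓ) (20 * ℓ) r ρ a k)
      (Ex.xdft r p α k) := by
  have h2 : eta ℓ ≤ 1 := by have := eta_le' hℓ; have := eta_nonneg ℓ; linarith
  have hc := Ap.cj (ctx hℓ) h hp (rho_le hℓ)
  have hcp : ‖(starRingEnd ℂ) p‖ ≤ 1 := by rw [RCLike.norm_conj]; exact hp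
  have e1 : 2 ^ (ℓ + 1) = 2 * 2 ^ ℓ := by rw [pow_succ']
  refine dft_ap (ctx hℓ) hp h2 (tau_le ℓ) (fun k hk => ch_ap hℓ h hp k (by omega))
    (fun j hj => ch_ap hℓ hc hcp (j + 1) (by omega)) ha hα hA hε ?_ k hk
  rw [show 3 * ℓ + 5 = 5 + 3 * ℓ by ring, pow_add]
  linarith

theorem er_eq (k : ℕ) : er k = Ex.xrt k := by
  unfold er Ex.xrt ang
  congr 1
  push_cast
  ring

/-- The roots. -/
theorem rt_all (hℓ : 2 ≤ ℓ) {m : ℕ} (h1 : 1 ≤ m) (hm : m ≤ ℓ) :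
    Ap (64 * ℓ) (20 * ℓ) (2 ^ (ℓ + 1) / 2 ^ (20 * ℓ)) (rt (20 * ℓ) (m - 1)) (Ex.xrt (m - 1)) := by
  rw [← er_eq]
  refine (rt_ap (by omega) (by omega) (m - 1)).mono ?_
  apply div_le_div_of_nonneg_right _ (by positivity)
  exact two_pow_mono (by omega)

theorem crt_all (hℓ : 2 ≤ ℓ) {m : ℕ} (h1 : 1 ≤ m) (hm : m ≤ ℓ) :
    Ap (64 * ℓ) (20 * ℓ) (2 ^ (ℓ + 1) / 2 ^ (20 * ℓ)) (cjR (64 * ℓ) (rt (20 * ℓ) (m - 1)))
      ((starRingEnd ℂ) (Ex.xrt (m - 1))) :=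
  Ap.cj (ctx hℓ) (rt_all hℓ h1 hm) (Ex.norm_xrt _).le (rho_le hℓ)

variable {u v t : ℕ} {e : ℕ → ℕ → ℕ}

/-- First step. -/
theorem st1_ap (hℓ : 2 ≤ ℓ) (hv : 1 ≤ v) (hvℓ : v ≤ ℓ) (ht : t ≤ ℓ)
    (he : ∀ i j, e i j < 2 ^ t) (i j : ℕ) (hj : j < 2 ^ v) :
    Ap (64 * ℓ) (20 * ℓ) (14 * (2 ^ (v + t) * eta ℓ)) (st1 (64 * ℓ) (20 * ℓ) v e i j)
      (Ex.xst1 v (fun i j => (e i j : ℂ)) i j) := by
  have h1 := dft_all hℓ (crt_all hℓ hv hvℓ) (Ex.norm_conj_xrt _).le (r := 2 ^ v)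
    (Nat.pow_le_pow_right (by norm_num) hvℓ) (a := fun j => (e i j * 2 ^ (20 * ℓ), 0))
    (α := fun j => (e i j : ℂ)) (ε := 0) (A := 2 ^ t) ?_ ?_ (one_le_pow₀ (by norm_num))
    (by positivity) ?_ j hj
  · refine h1.mono (le_of_eq ?_)
    push_cast
    rw [pow_add]
    ring
  · intro j _
    have h2 : e i j * 2 ^ (20 * ℓ) < 2 ^ (64 * ℓ - 1) := by
      calc e i j * 2 ^ (20 * ℓ) < 2 ^ t * 2 ^ (20 * ℓ) :=
            Nat.mul_lt_mul_of_pos_right (he i j) (by positivity)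
        _ = 2 ^ (t + 20 * ℓ) := by rw [pow_add]
        _ ≤ 2 ^ (64 * ℓ - 1) := Nat.pow_le_pow_right (by norm_num) (by omega)
    unfold Ap
    rw [vl_nat h2 (by positivity)]
    have hp : (0 : ℝ) < 2 ^ (20 * ℓ) := by positivity
    have e2 : (⟨((e i j * 2 ^ (20 * ℓ) : ℕ) : ℝ) / 2 ^ (20 * ℓ),
        ((0 : ℕ) : ℝ) / 2 ^ (20 * ℓ)⟩ : ℂ) = (e i j : ℂ) := by
      apply Complex.ext
      · push_cast; rw [mul_div_assoc, div_self hp.ne', mul_one]; simp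
      · simp
    rw [e2, sub_self, norm_zero]
  · intro j _
    rw [Complex.norm_natCast]
    exact_mod_cast (he i j).le
  · push_cast
    rw [← pow_add]
    exact two_pow_mono (by omega)

theorem norm_e_le (he : ∀ i j, e i j < 2 ^ t) (i j : ℕ) : ‖(e i j : ℂ)‖ ≤ 2 ^ t := by
  rw [Complex.norm_natCast]
  exact_mod_cast (he i j).le

/-- The twiddle factors. -/
theorem tw_all (hℓ : 2 ≤ ℓ) (hu : 1 ≤ u) (huv : u + v ≤ ℓ) (i j : ℕ)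
    (hi : i < 2 ^ u) (hj : j < 2 ^ v) :
    Ap (64 * ℓ) (20 * ℓ) (eta ℓ) (tw (64 * ℓ) (20 * ℓ) (gm (64 * ℓ) (20 * ℓ) u v) i j)
      (Ex.xgm u v ^ (i * j)) := by
  have hG := gee_nonneg ℓ
  have hτ := tau_nonneg (20 * ℓ)
  have hE : (0 : ℝ) ≤ 2 ^ (ℓ + 1) / 2 ^ (20 * ℓ) := by positivity
  have h2 : eta ℓ ≤ 1 := by have := eta_le' hℓ; have := eta_nonneg ℓ; linarith
  have hc := crt_all hℓ (m := u + v) (by omega) huv
  have hcn := (Ex.norm_conj_xrt (u + v - 1)).le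
  have h1 := Ap.cm1 (ctx hℓ) hc hc hcn hcn (rho_le hℓ) (rho_le hℓ)
  have hgl := gee_le hℓ
  have hge := gee_eta ℓ
  have h4 : (1 : ℝ) ≤ 3 * (2 ^ (ℓ + 1)) ^ 2 := by
    have : (1 : ℝ) ≤ 2 ^ (ℓ + 1) := one_le_pow₀ (by norm_num)
    nlinarith
  have hg1 : gee ℓ ≤ 1 := by nlinarith
  have hiR : (2 : ℝ) * i + 1 ≤ 2 * 2 ^ u := by
    have : (i : ℝ) + 1 ≤ 2 ^ u := by exact_mod_cast hi
    linarith
  have hjR : (j : ℝ) + 1 ≤ 2 ^ v := by exact_mod_cast hj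
  have h5 : ((j : ℝ) + 1) * ((2 * i + 1) * gee ℓ) ≤ eta ℓ := by
    refine le_trans ?_ hge
    have h6 : ((j : ℝ) + 1) * (2 * i + 1) ≤ 2 ^ (ℓ + 1) := by
      calc ((j : ℝ) + 1) * (2 * i + 1) ≤ 2 ^ v * (2 * 2 ^ u) :=
            mul_le_mul hjR hiR (by positivity) (by positivity)
        _ = 2 ^ (u + v + 1) := by rw [pow_add, pow_add]; ring
        _ ≤ 2 ^ (ℓ + 1) := two_pow_mono (by omega)
    have h7 : (2 : ℝ) ^ (ℓ + 1) ≤ 3 * (2 ^ (ℓ + 1)) ^ 2 := by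
      have : (1 : ℝ) ≤ 2 ^ (ℓ + 1) := one_le_pow₀ (by norm_num)
      nlinarith
    rw [← mul_assoc]
    exact mul_le_mul_of_nonneg_right (h6.trans h7) hG
  refine (tw_ap (ctx hℓ) (γ := gm (64 * ℓ) (20 * ℓ) u v) (g := Ex.xgm u v)
    (ε := 2 ^ (ℓ + 1) / 2 ^ (20 * ℓ) + 2 * (2 ^ (ℓ + 1) / 2 ^ (20 * ℓ)) + tau (20 * ℓ))
    (G := gee ℓ) h1 (Ex.norm_xgm u v).le (by linarith) (by linarith) i j (h5.trans h2)).mono ?_
  refine le_trans ?_ h5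
  have : 0 ≤ (2 * (i : ℝ) + 1) * gee ℓ := by positivity
  linarith

/-- Second step. -/
theorem st2_ap (hℓ : 2 ≤ ℓ) (hu : 1 ≤ u) (hv : 1 ≤ v) (huv : u + v ≤ ℓ) (ht : t ≤ ℓ)
    (he : ∀ i j, e i j < 2 ^ t) (i j : ℕ) (hi : i < 2 ^ u) (hj : j < 2 ^ v) :
    Ap (64 * ℓ) (20 * ℓ) (30 * (2 ^ (v + t) * eta ℓ)) (st2 (64 * ℓ) (20 * ℓ) u v e i j)
      (Ex.xst2 u v (fun i j => (e i j : ℂ)) i j) := by
  have hη := eta_le' hℓ
  have hη0 := eta_nonneg ℓ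
  have hτ := tau_le ℓ
  have hA1 : (1 : ℝ) ≤ 2 ^ (v + t) := one_le_pow₀ (by norm_num)
  have h1 := st1_ap hℓ hv (by omega) ht he i j hj
  have h2 := tw_all hℓ hu huv i j hi hj
  have hn : ‖Ex.xst1 v (fun i j => (e i j : ℂ)) i j‖ ≤ 2 ^ (v + t) := by
    rw [pow_add]
    exact Ex.norm_xst1_le (norm_e_le he) i j
  have hx : 0 ≤ 2 ^ (v + t) * eta ℓ := by positivity
  have hx1 : 2 ^ (v + t) * eta ℓ * 2 ^ 12 ≤ 2 ^ (v + t) := by nlinarith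
  refine (Ap.cm (ctx hℓ) h1 h2 hn (norm_pow_le_one (Ex.norm_xgm u v).le _) ?_).mono ?_
  · have h3 : (2 : ℝ) ^ (v + t) + 14 * (2 ^ (v + t) * eta ℓ) ≤ 2 * 2 ^ (v + t) := by linarith
    have h4 : (2 ^ (v + t) + 14 * (2 ^ (v + t) * eta ℓ)) * (1 + eta ℓ) ≤ 2 * 2 ^ (v + t) * 2 :=
      mul_le_mul h3 (by linarith) (by linarith) (by positivity)
    have h5 : (2 : ℝ) ^ (3 * ℓ + 5) = 2 ^ (3 * ℓ) * 32 := by rw [pow_add]; norm_num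
    have h6 : (2 : ℝ) ^ (v + t) ≤ 2 ^ (3 * ℓ) := two_pow_mono (by omega)
    linarith
  · have h3 : 14 * (2 ^ (v + t) * eta ℓ) * (1 + eta ℓ) ≤ 14 * (2 ^ (v + t) * eta ℓ) * 2 :=
      mul_le_mul_of_nonneg_left (by linarith) (by positivity)
    have h4 : eta ℓ ≤ 2 ^ (v + t) * eta ℓ := by nlinarith
    linarith

/-- Third step. -/
theorem st3_ap (hℓ : 2 ≤ ℓ) (hu : 1 ≤ u) (hv : 1 ≤ v) (huv : u + v ≤ ℓ) (ht : t ≤ ℓ)
    (he : ∀ i j, e i j < 2 ^ t) (i j : ℕ) (hi : i < 2 ^ u) (hj : j < 2 ^ v) :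
    Ap (64 * ℓ) (20 * ℓ) (254 * (2 ^ (u + v + t) * eta ℓ)) (st3 (64 * ℓ) (20 * ℓ) u v e i j)
      (Ex.xst3 u v (fun i j => (e i j : ℂ)) i j) := by
  have hη := eta_le' hℓ
  have hη0 := eta_nonneg ℓ
  have hA1 : (1 : ℝ) ≤ 2 ^ (v + t) := one_le_pow₀ (by norm_num)
  have hx : 0 ≤ 2 ^ (v + t) * eta ℓ := by positivity
  have hx1 : 2 ^ (v + t) * eta ℓ * 2 ^ 12 ≤ 2 ^ (v + t) := by nlinarith
  have h1 := dft_all hℓ (crt_all hℓ hu (by omega)) (Ex.norm_conj_xrt _).le (r := 2 ^ u)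
    (Nat.pow_le_pow_right (by norm_num) (by omega))
    (a := fun i => st2 (64 * ℓ) (20 * ℓ) u v e i j)
    (α := fun i => Ex.xst2 u v (fun i j => (e i j : ℂ)) i j)
    (ε := 30 * (2 ^ (v + t) * eta ℓ)) (A := 2 ^ (v + t))
    (fun i hi => st2_ap hℓ hu hv huv ht he i j hi hj)
    (fun i _ => by rw [pow_add]; exact Ex.norm_xst2_le (norm_e_le he) i j) hA1
    (by linarith) (by
      push_cast
      rw [← pow_add]
      exact two_pow_mono (by omega)) i hi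
  refine h1.mono (le_of_eq ?_)
  push_cast
  rw [show u + v + t = u + (v + t) by ring, pow_add 2 u]
  ring

/-- Fourth step. -/
theorem st4_ap (hℓ : 2 ≤ ℓ) (hu : 1 ≤ u) (hv : 1 ≤ v) (huv : u + v ≤ ℓ) (ht : t ≤ ℓ)
    (he : ∀ i j, e i j < 2 ^ t) (k : ℕ) (hk : k < 2 ^ u * 2 ^ v) :
    Ap (64 * ℓ) (20 * ℓ) (2 ^ (u + v) * (2046 * (2 ^ (u + v + t) * eta ℓ)))
      (st4 (64 * ℓ) (20 * ℓ) u v e k)
      (Ex.xst4 u v (fun i j => (e i j : ℂ)) k) := by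
  have hη := eta_le' hℓ
  have hη0 := eta_nonneg ℓ
  have hA1 : (1 : ℝ) ≤ 2 ^ (u + v + t) := one_le_pow₀ (by norm_num)
  have hx : 0 ≤ 2 ^ (u + v + t) * eta ℓ := by positivity
  have hx1 : 2 ^ (u + v + t) * eta ℓ * 2 ^ 12 ≤ 2 ^ (u + v + t) := by nlinarith
  have h1 := dft_all hℓ (rt_all hℓ (m := u + v) (by omega) huv) (Ex.norm_xrt _).le
    (r := 2 ^ u * 2 ^ v)
    (by rw [← pow_add]; exact Nat.pow_le_pow_right (by norm_num) (by omega))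
    (a := fun k => st3 (64 * ℓ) (20 * ℓ) u v e (k / 2 ^ v) (k % 2 ^ v))
    (α := fun k => Ex.xst3 u v (fun i j => (e i j : ℂ)) (k / 2 ^ v) (k % 2 ^ v))
    (ε := 254 * (2 ^ (u + v + t) * eta ℓ)) (A := 2 ^ (u + v + t))
    (fun k hk => st3_ap hℓ hu hv huv ht he _ _
      (Nat.div_lt_of_lt_mul (by rw [Nat.mul_comm]; exact hk)) (Nat.mod_lt _ (by positivity)))
    (fun k _ => by rw [pow_add 2 (u + v)]; exact Ex.norm_xst3_le (norm_e_le he) _ _) hA1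
    (by linarith) (by
      push_cast
      rw [← pow_add, ← pow_add]
      exact two_pow_mono (by omega)) k hk
  refine h1.mono (le_of_eq ?_)
  push_cast
  rw [pow_add 2 u v]
  ring

end

/-- The statement of pure mathematics: the four steps transpose. -/
theorem permPure : PermPure := by
  intro u v t ℓ e hu hv huv ht he i hi j hj
  have hℓ : 2 ≤ ℓ := by omega
  have hk : j * 2 ^ u + i < 2 ^ u * 2 ^ v := by
    calc j * 2 ^ u + i < j * 2 ^ u + 2 ^ u := by omega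
      _ = (j + 1) * 2 ^ u := by ring
      _ ≤ 2 ^ v * 2 ^ u := Nat.mul_le_mul_right _ hj
      _ = 2 ^ u * 2 ^ v := Nat.mul_comm ..
  have h1 := st4_ap hℓ hu hv huv ht he _ hk
  have h2 := Ex.xst4_eq hu hv (fun i j => (e i j : ℂ)) hi hj
  have hη := eta_le hℓ
  have hη0 : 0 < eta ℓ := by unfold eta; positivity
  refine rnd_of_ap (by omega) h1 h2 ?_ (he i j) (by omega)
  have h3 : (2 : ℝ) ^ (u + v + t) ≤ 2 ^ (2 * ℓ) := two_pow_mono (by omega)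
  have h4 : 2 ^ (u + v + t) * eta ℓ ≤ 2 ^ (2 * ℓ) * eta ℓ :=
    mul_le_mul_of_nonneg_right h3 hη0.le
  have h5 : (2 : ℝ) ^ (2 * ℓ + 12) = 2 ^ (2 * ℓ) * 4096 := by rw [pow_add]; norm_num
  rw [h5] at hη
  have h6 : 2046 * (2 ^ (u + v + t) * eta ℓ) < 1 / 2 := by
    have : 0 < 2 ^ (2 * ℓ) * eta ℓ := by positivity
    linarith
  have h7 : (0 : ℝ) < 2 ^ (u + v) := by positivity
  calc 2 ^ (u + v) * (2046 * (2 ^ (u + v + t) * eta ℓ)) < 2 ^ (u + v) * (1 / 2) :=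
        mul_lt_mul_of_pos_left h6 h7
    _ = 2 ^ (u + v) / 2 := by ring

end Vale.Agent.P338.GS.PM
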