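import Vale.Agent.P338.GS.Root

/-!
# P338, matrices of every shape: the program for the roots
-/

namespace Vale.Agent.P338.GS.Root

open Vale.Agent.P338 Vale.Agent.P338.GS

variable {J E : Type}

/-- The assumptions on the store. -/
structure RC (s : SW J E) (S B : ℕ) : Prop where
  f8 : s.at .F8 = []
  ws : s.at .WS = una S
  wb : s.at .WB = una B

/-- The other stacks are empty. -/
structure RE (v : RV E) : Prop where
  t1 : v.t1 = []
  t2 : v.t2 = []
  t3 : v.t3 = []
  t4 : v.t4 = []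
  a1 : v.a1 = []
  a2 : v.a2 = []
  a3 : v.a3 = []
  a4 : v.a4 = []
  a5 : v.a5 = []
  a6 : v.a6 = []
  a7 : v.a7 = []

section

variable (J E) [DecidableEq J]

/-- The square root of the number on `A1`, result on `A6`. -/
def sqP : PW J E :=
  (Prog.push (wg .A2) (sb false)).seq <| (sqL J E).seq <| (Prog.clear (wg .A2)).seq <|
  (Prog.rev (wg .A5) (wg .A6)).seq <|
  (Prog.copyOnto (wg .WS) (wg .T1) (wg .F8)).seq <|
  (Prog.forr (wg .WB) (wg .F8) (Prog.pop (wg .T1))).seq <|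
  (Prog.pop (wg .T1)).seq <|
  (Prog.fill (wg .T1) (sb false) (wg .A6) (wg .F8)).seq (Prog.clear (wg .T1))

end

variable [DecidableEq J]

theorem sqP_spec {s : SW J E} {S B : ℕ} (c : RC s S B) (hBS : B + 1 ≤ S) (v : RV E) (n : ℕ)
    (hn : n < 4 ^ (B + 1)) (h1 : v.a1 = (bits (bitsOf (2 * (B + 1)) n)).reverse)
    (h0 : v.t1 = []) (h2 : v.a2 = []) (h3 : v.a3 = []) (h4 : v.a4 = []) (h5 : v.a5 = [])
    (h6 : v.a6 = []) (h7 : v.a7 = []) :
    Runs (sqP J E) (v.st s) (({ v with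
        a1 := [], a6 := (wd S (Nat.sqrt n)).reverse } : RV E).st s)
      ((B + 1) * (40 * (B + 4) + 2) + 30 * S + 30) := by
  have hF' : ∀ v : RV E, (v.st s).at .F8 = [] := fun _ => c.f8
  have hS' : ∀ v : RV E, (v.st s).at .WS = una S := fun _ => c.ws
  have hB' : ∀ v : RV E, (v.st s).at .WB = una B := fun _ => c.wb
  obtain ⟨pr, pi, f1, t1, t2, t3, t4, a1, a2, a3, a4, a5, a6, a7⟩ := v
  simp only at h0 h1 h2 h3 h4 h5 h6 h7
  subst h0 h2 h3 h4 h5 h6 h7
  have b1 := r_push .A2 (sb false) ((⟨pr, pi, f1, [], t2, t3, t4, a1, [], [], [], [], [],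
    []⟩ : RV E).st s)
  rw [RV.set_A2, RV.at_A2] at b1
  have e0 : n / 4 ^ (B + 1) = 0 := Nat.div_eq_of_lt hn
  have b2 := sqL_spec c.f8 (B + 1) (⟨pr, pi, f1, [], t2, t3, t4, a1, [sb false], [], [], [],
    [], []⟩ : RV E) 0 n (by rw [e0]; simp) h1 (by rw [e0]; simp [rmd, bits, bitsOf, sb])
    (by simp [bits]) rfl rfl rfl rfl
  rw [Nat.zero_add] at b2
  have b3 := IO.r_clear .A2 ((⟨pr, pi, f1, [], t2, t3, t4, [],
    bits (bitsOf (B + 1 + 1) (rmd n)), [], [], bits (bitsOf (B + 1) (Nat.sqrt n)), [],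
    []⟩ : RV E).st s)
  rw [RV.set_A2, RV.at_A2] at b3
  have b4 := IO.r_rev (a := .A5) (b := .A6) (by decide) ((⟨pr, pi, f1, [], t2, t3, t4, [],
    [], [], [], bits (bitsOf (B + 1) (Nat.sqrt n)), [], []⟩ : RV E).st s)
  rw [RV.set_A5, RV.set_A6, RV.at_A5, RV.at_A6, List.append_nil] at b4
  have b5 := IO.r_copy (a := .WS) (b := .T1) (t := .F8) (by decide) (by decide) (by decide)
    ((⟨pr, pi, f1, [], t2, t3, t4, [], [], [], [], [],
      (bits (bitsOf (B + 1) (Nat.sqrt n))).reverse, []⟩ : RV E).st s) (hF' _)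
  rw [RV.set_T1, RV.at_T1, hS', List.append_nil] at b5
  have b6 := IO.r_sub (u := .WB) (b := .T1) (t := .F8) (by decide) (by decide) (by decide)
    ((⟨pr, pi, f1, una S, t2, t3, t4, [], [], [], [], [],
      (bits (bitsOf (B + 1) (Nat.sqrt n))).reverse, []⟩ : RV E).st s) B S (hB' _) (hF' _) rfl
  rw [RV.set_T1] at b6
  have b7 := r_pop .T1 ((⟨pr, pi, f1, una (S - B), t2, t3, t4, [], [], [], [], [],
      (bits (bitsOf (B + 1) (Nat.sqrt n))).reverse, []⟩ : RV E).st s)
  rw [RV.set_T1, RV.at_T1, tail_una'] at b7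
  have b8 := IO.r_fill (u := .T1) (b := .A6) (t := .F8) (by decide) (by decide) (by decide)
    (sb false) ((⟨pr, pi, f1, una (S - B - 1), t2, t3, t4, [], [], [], [], [],
      (bits (bitsOf (B + 1) (Nat.sqrt n))).reverse, []⟩ : RV E).st s) (S - B - 1) rfl (hF' _)
  rw [RV.set_A6, RV.at_A6] at b8
  have b9 := IO.r_clear .T1 ((⟨pr, pi, f1, una (S - B - 1), t2, t3, t4, [], [], [], [], [],
      List.replicate (S - B - 1) (sb false) ++ (bits (bitsOf (B + 1) (Nat.sqrt n))).reverse,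
      []⟩ : RV E).st s)
  rw [RV.set_T1, RV.at_T1] at b9
  have e1 : (wd S (Nat.sqrt n) : List (SSym E)).reverse =
      List.replicate (S - B - 1) (sb false) ++
        (bits (bitsOf (B + 1) (Nat.sqrt n))).reverse := by
    have h := bitsOf_add_zeros (k := B + 1) (z := Nat.sqrt n) (sqrt_lt hn) (S - B - 1)
    rw [show B + 1 + (S - B - 1) = S by omega] at h
    unfold wd
    rw [h]
    simp [bits, sb]
  rw [e1]
  refine (b1.seq (b2.seq (b3.seq (b4.seq (b5.seq (b6.seq (b7.seq (b8.seq b9)))))))).mono ?_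
  have e2 : B + 1 + 3 = B + 4 := by omega
  simp [e2]
  omega

/-! ### One half of a level -/

section

variable (J E)

/-- The square root of `(2 ^ B ± c) * 2 ^ (B - 1)`, `c` on `T3`. -/
def halfP (g : Bool → Bool → Bool → Bool) : PW J E :=
  (Prog.copyOnto (wg .WB) (wg .T1) (wg .F8)).seq <| (Prog.pop (wg .T1)).seq <|
  (Prog.fill (wg .T1) (sb false) (wg .A1) (wg .F8)).seq <| (Prog.clear (wg .T1)).seq <|
  (Prog.push (wg .T2) (sb false)).seq <| (Prog.push (wg .T2) (sb true)).seq <|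
  (Prog.fill (wg .WB) (sb false) (wg .T2) (wg .F8)).seq <|
  (SS.scan2 (wg .T2) (wg .T3) (wg .A1) (wg .A7) SS.x3 g).seq <|
  (Prog.push (wg .A1) (sb false)).seq (sqP J E)

end

/-- The list of the number under the root. -/
theorem half_list {B a : ℕ} (hB : 1 ≤ B) (ha : a < 2 ^ (B + 2)) :
    (bits (bitsOf (2 * (B + 1)) (a * 2 ^ (B - 1))) : List (SSym E)).reverse =
      sb false :: ((bits (bitsOf (B + 2) a)).reverse ++ List.replicate (B - 1) (sb false)) := by
  have e1 : 2 * (B + 1) = (B - 1) + ((B + 2) + 1) := by omega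
  rw [e1, bitsOf_add, Nat.mul_div_cancel _ (by positivity), bitsOf_add_zeros ha 1,
    ← bitsOf_mod, Nat.mul_mod_left, bitsOf_zero]
  simp [bits, sb]

theorem halfP_spec {s : SW J E} {S B : ℕ} (c : RC s S B) (hB : 1 ≤ B) (hBS : B + 1 ≤ S)
    (v : RV E) (y a : ℕ) (g : Bool → Bool → Bool → Bool) (ha : a ≤ 2 ^ (B + 1))
    (hg : SS.scO SS.x3 g false (bitsOf (B + 2) (2 ^ B)) (bitsOf (B + 2) y) =
      bitsOf (B + 2) a)
    (hg' : SS.scC g false (bitsOf (B + 2) (2 ^ B)) (bitsOf (B + 2) y) = false)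
    (ht3 : v.t3 = bits (bitsOf (B + 2) y)) (ht1 : v.t1 = []) (ht2 : v.t2 = [])
    (h1 : v.a1 = []) (h2 : v.a2 = []) (h3 : v.a3 = []) (h4 : v.a4 = []) (h5 : v.a5 = [])
    (h6 : v.a6 = []) (h7 : v.a7 = []) :
    Runs (halfP J E g) (v.st s) (({ v with
        t3 := [], a6 := (wd S (Nat.sqrt (a * 2 ^ (B - 1)))).reverse } : RV E).st s)
      ((B + 1) * (40 * (B + 4) + 2) + 80 * S + 80) := by
  have hF' : ∀ v : RV E, (v.st s).at .F8 = [] := fun _ => c.f8
  have hB' : ∀ v : RV E, (v.st s).at .WB = una B := fun _ => c.wb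
  obtain ⟨pr, pi, f1, t1, t2, t3, t4, a1, a2, a3, a4, a5, a6, a7⟩ := v
  simp only at h1 h2 h3 h4 h5 h6 h7 ht1 ht2 ht3
  subst h1 h2 h3 h4 h5 h6 h7 ht1 ht2 ht3
  have b1 := IO.r_copy (a := .WB) (b := .T1) (t := .F8) (by decide) (by decide) (by decide)
    ((⟨pr, pi, f1, [], [], bits (bitsOf (B + 2) y), t4, [], [], [], [], [], [], []⟩ :
      RV E).st s) (hF' _)
  rw [RV.set_T1, RV.at_T1, hB', List.append_nil] at b1
  have b2 := r_pop .T1 ((⟨pr, pi, f1, una B, [], bits (bitsOf (B + 2) y), t4, [], [], [],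
    [], [], [], []⟩ : RV E).st s)
  rw [RV.set_T1, RV.at_T1, tail_una'] at b2
  have b3 := IO.r_fill (u := .T1) (b := .A1) (t := .F8) (by decide) (by decide) (by decide)
    (sb false) ((⟨pr, pi, f1, una (B - 1), [], bits (bitsOf (B + 2) y), t4, [], [], [],
    [], [], [], []⟩ : RV E).st s) (B - 1) rfl (hF' _)
  rw [RV.set_A1, RV.at_A1, List.append_nil] at b3
  have b4 := IO.r_clear .T1 ((⟨pr, pi, f1, una (B - 1), [], bits (bitsOf (B + 2) y), t4,
    List.replicate (B - 1) (sb false), [], [], [], [], [], []⟩ : RV E).st s)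
  rw [RV.set_T1, RV.at_T1] at b4
  have b5 := r_push .T2 (sb false) ((⟨pr, pi, f1, [], [], bits (bitsOf (B + 2) y), t4,
    List.replicate (B - 1) (sb false), [], [], [], [], [], []⟩ : RV E).st s)
  rw [RV.set_T2, RV.at_T2] at b5
  have b6 := r_push .T2 (sb true) ((⟨pr, pi, f1, [], [sb false], bits (bitsOf (B + 2) y), t4,
    List.replicate (B - 1) (sb false), [], [], [], [], [], []⟩ : RV E).st s)
  rw [RV.set_T2, RV.at_T2] at b6
  have b7 := IO.r_fill (u := .WB) (b := .T2) (t := .F8) (by decide) (by decide) (by decide)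
    (sb false) ((⟨pr, pi, f1, [], [sb true, sb false], bits (bitsOf (B + 2) y), t4,
    List.replicate (B - 1) (sb false), [], [], [], [], [], []⟩ : RV E).st s) B (hB' _) (hF' _)
  rw [RV.set_T2, RV.at_T2] at b7
  have e7 : List.replicate B (sb false) ++ [sb true, sb false] =
      (bits (bitsOf (B + 2) (2 ^ B)) : List (SSym E)) := by
    rw [bitsOf_add, Nat.div_self (by positivity), ← bitsOf_mod B, Nat.mod_self, bitsOf_zero]
    simp [bits, sb, bitsOf_succ]
  rw [e7] at b7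
  have b8 := r_scan2 (i := .T2) (j := .T3) (o := .A1) (q := .A7) (by decide) (by decide)
    (by decide) (by decide) (by decide) (by decide) SS.x3 g (bitsOf (B + 2) (2 ^ B))
    (bitsOf (B + 2) y) (by simp) false [] ((⟨pr, pi, f1, [], bits (bitsOf (B + 2) (2 ^ B)),
      bits (bitsOf (B + 2) y), t4, List.replicate (B - 1) (sb false), [], [], [], [], [],
      []⟩ : RV E).st s) rfl (by rw [List.append_nil]; rfl) rfl
  rw [RV.set_T2, RV.set_T3, RV.set_A1, RV.set_A7, RV.at_A1, hg, hg', SS.fl_false] at b8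
  have b9 := r_push .A1 (sb false) ((⟨pr, pi, f1, [], [], [], t4,
    (bits (bitsOf (B + 2) a)).reverse ++ List.replicate (B - 1) (sb false), [], [], [],
    [], [], []⟩ : RV E).st s)
  have ha' : a < 2 ^ (B + 2) := lt_of_le_of_lt ha (Nat.pow_lt_pow_right (by norm_num)
    (by omega))
  rw [RV.set_A1, RV.at_A1, ← half_list hB ha'] at b9
  have hn : a * 2 ^ (B - 1) < 4 ^ (B + 1) := by
    calc a * 2 ^ (B - 1) ≤ 2 ^ (B + 1) * 2 ^ (B - 1) := Nat.mul_le_mul_right _ ha
      _ = 2 ^ (2 * B) := by rw [← pow_add]; congr 1; omega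
      _ < 2 ^ (2 * (B + 1)) := Nat.pow_lt_pow_right (by norm_num) (by omega)
      _ = 4 ^ (B + 1) := by rw [pow_mul]; norm_num
  have b10 := sqP_spec c hBS (⟨pr, pi, f1, [], [], [], t4,
    (bits (bitsOf (2 * (B + 1)) (a * 2 ^ (B - 1)))).reverse, [], [], [], [], [], []⟩ : RV E)
    (a * 2 ^ (B - 1)) hn rfl rfl rfl rfl rfl rfl rfl rfl
  refine (b1.seq (b2.seq (b3.seq (b4.seq (b5.seq (b6.seq (b7.seq (b8.seq (b9.seq
    b10))))))))).mono ?_
  simp
  omega

/-! ### A level -/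

theorem r_rev2 {i j k : W} (hij : i ≠ j) (hik : i ≠ k) (hjk : j ≠ k) (s : SW J E) :
    Runs (Prog.rev2 (Sum.inr i) (Sum.inr j) (Sum.inr k) : PW J E) s
      (((s.set i []).set j ((s.at i).reverse ++ s.at j)).set k ((s.at i).reverse ++ s.at k))
      (3 * (s.at i).length) :=
  Runs.rev2 (by simpa using hij) (by simpa using hik) (by simpa using hjk) s

omit [DecidableEq J] in
theorem lwd (S v : ℕ) : (wd S v : List (SSym E)).length = S := by
  simp [wd]

theorem half_sub {B x : ℕ} (hx : x ≤ 2 ^ B) :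
    SS.scO SS.x3 SS.bw false (bitsOf (B + 2) (2 ^ B)) (bitsOf (B + 2) x) =
      bitsOf (B + 2) (2 ^ B - x) ∧
    SS.scC SS.bw false (bitsOf (B + 2) (2 ^ B)) (bitsOf (B + 2) x) = false := by
  have e : 2 ^ (B + 2) = 4 * 2 ^ B := by rw [pow_add]; ring
  have h1 : 1 ≤ 2 ^ B := Nat.one_le_two_pow
  have h := SS.sub_val false (bitsOf (B + 2) (2 ^ B)) (bitsOf (B + 2) x) (by simp)
  rw [natOf_bitsOf_of_lt (by omega), natOf_bitsOf_of_lt (by omega), length_bitsOf] at h
  have hl : (SS.scO SS.x3 SS.bw false (bitsOf (B + 2) (2 ^ B)) (bitsOf (B + 2) x)).length =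
      B + 2 := by rw [SS.length_scO _ _ _ _ _ (by simp), length_bitsOf]
  have hlt : natOf (SS.scO SS.x3 SS.bw false (bitsOf (B + 2) (2 ^ B)) (bitsOf (B + 2) x)) <
      2 ^ (B + 2) := by
    have h := natOf_lt (SS.scO SS.x3 SS.bw false (bitsOf (B + 2) (2 ^ B)) (bitsOf (B + 2) x))
    rwa [hl] at h
  rcases hc : SS.scC SS.bw false (bitsOf (B + 2) (2 ^ B)) (bitsOf (B + 2) x) with _ | _
  · rw [hc] at h
    simp only [Bool.toNat_false, Nat.mul_zero, Nat.add_zero] at h
    refine ⟨?_, rfl⟩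
    rw [← bitsOf_natOf_of hl]
    congr 1
    omega
  · rw [hc] at h
    simp only [Bool.toNat_true, Nat.mul_one] at h
    simp only [Bool.toNat_false, Nat.add_zero] at h
    omega

theorem half_add {B x : ℕ} (hx : x ≤ 2 ^ B) :
    SS.scO SS.x3 SS.mj false (bitsOf (B + 2) (2 ^ B)) (bitsOf (B + 2) x) =
      bitsOf (B + 2) (2 ^ B + x) ∧
    SS.scC SS.mj false (bitsOf (B + 2) (2 ^ B)) (bitsOf (B + 2) x) = false := by
  have e : 2 ^ (B + 2) = 4 * 2 ^ B := by rw [pow_add]; ring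
  have h1 : 1 ≤ 2 ^ B := Nat.one_le_two_pow
  have h := SS.add_val false (bitsOf (B + 2) (2 ^ B)) (bitsOf (B + 2) x) (by simp)
  rw [natOf_bitsOf_of_lt (by omega), natOf_bitsOf_of_lt (by omega), length_bitsOf] at h
  have hl : (SS.scO SS.x3 SS.mj false (bitsOf (B + 2) (2 ^ B)) (bitsOf (B + 2) x)).length =
      B + 2 := by rw [SS.length_scO _ _ _ _ _ (by simp), length_bitsOf]
  rcases hc : SS.scC SS.mj false (bitsOf (B + 2) (2 ^ B)) (bitsOf (B + 2) x) with _ | _
  · rw [hc] at h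
    simp only [Bool.toNat_false, Nat.mul_zero, Nat.add_zero] at h
    refine ⟨?_, rfl⟩
    rw [← bitsOf_natOf_of hl]
    congr 1
  · rw [hc] at h
    simp only [Bool.toNat_true, Nat.mul_one] at h
    simp only [Bool.toNat_false, Nat.add_zero] at h
    omega

section

variable (J E)

/-- One level. -/
def levP : PW J E :=
  (Prog.copyOnto (wg .WB) (wg .T1) (wg .F8)).seq <| (Prog.push (wg .T1) mk).seq <|
  (Prog.push (wg .T1) mk).seq <|
  (Prog.forr (wg .T1) (wg .F8) (Prog.mov (wg .PR) (wg .T2))).seq <|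
  (Prog.clear (wg .PR)).seq <| (Prog.clear (wg .PI)).seq <| (Prog.clear (wg .T1)).seq <|
  (Prog.rev2 (wg .T2) (wg .T3) (wg .T4)).seq <|
  (halfP J E SS.bw).seq <| (Prog.rev (wg .A6) (wg .PI)).seq <|
  (Prog.rev (wg .T4) (wg .A6)).seq <| (Prog.rev (wg .A6) (wg .T3)).seq <|
  (halfP J E SS.mj).seq (Prog.rev (wg .A6) (wg .PR))

end

theorem levP_spec {s : SW J E} {S B : ℕ} (c : RC s S B) (hB : 1 ≤ B) (hBS : 3 * B ≤ S)
    (x y : ℕ) (hx : x ≤ 2 ^ B) (f1 : List (SSym E)) :
    Runs (levP J E)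
      ((⟨wd S x, wd S y, f1, [], [], [], [], [], [], [], [], [], [], []⟩ : RV E).st s)
      ((⟨wd S (Nat.sqrt ((2 ^ B + x) * 2 ^ (B - 1))), wd S (Nat.sqrt ((2 ^ B - x) *
        2 ^ (B - 1))), f1, [], [], [], [], [], [], [], [], [], [], []⟩ : RV E).st s)
      (1500 * (B * S)) := by
  have hF' : ∀ v : RV E, (v.st s).at .F8 = [] := fun _ => c.f8
  have hB' : ∀ v : RV E, (v.st s).at .WB = una B := fun _ => c.wb
  have e : 2 ^ (B + 2) = 4 * 2 ^ B := by rw [pow_add]; ring
  have e' : 2 ^ (B + 1) = 2 * 2 ^ B := by rw [pow_add]; ring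
  have hp : 1 ≤ 2 ^ B := Nat.one_le_two_pow
  have b1 := IO.r_copy (a := .WB) (b := .T1) (t := .F8) (by decide) (by decide) (by decide)
    ((⟨wd S x, wd S y, f1, [], [], [], [], [], [], [], [], [], [], []⟩ : RV E).st s) (hF' _)
  rw [RV.set_T1, RV.at_T1, hB', List.append_nil] at b1
  have b2 := r_push .T1 mk
    ((⟨wd S x, wd S y, f1, una B, [], [], [], [], [], [], [], [], [], []⟩ : RV E).st s)
  rw [RV.set_T1, RV.at_T1] at b2
  have b3 := r_push .T1 mk
    ((⟨wd S x, wd S y, f1, mk :: una B, [], [], [], [], [], [], [], [], [], []⟩ : RV E).st s)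
  rw [RV.set_T1, RV.at_T1, show (mk :: mk :: una B : List (SSym E)) = una (B + 2) from rfl]
    at b3
  have e4 : (wd S x : List (SSym E)) = bits (bitsOf (B + 2) x) ++
      bits (bitsOf (S - (B + 2)) (x / 2 ^ (B + 2))) := by
    have h := bitsOf_add (B + 2) (S - (B + 2)) x
    rw [show B + 2 + (S - (B + 2)) = S by omega] at h
    unfold wd
    rw [h]; simp [bits]
  have b4 := IO.r_movs (u := .T1) (t := .F8) (x := .PR) (o := .T2) (by decide) (by decide)
    (by decide) (by decide) (by decide) (by decide)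
    ((⟨wd S x, wd S y, f1, una (B + 2), [], [], [], [], [], [], [], [], [], []⟩ : RV E).st s)
    (bits (bitsOf (B + 2) x)) (bits (bitsOf (S - (B + 2)) (x / 2 ^ (B + 2)))) (B + 2)
    (by simp) rfl (hF' _) e4
  rw [RV.set_PR, RV.set_T2, RV.at_T2, List.append_nil] at b4
  have b5 := IO.r_clear .PR ((⟨bits (bitsOf (S - (B + 2)) (x / 2 ^ (B + 2))), wd S y, f1,
    una (B + 2), (bits (bitsOf (B + 2) x)).reverse, [], [], [], [], [], [], [], [],
    []⟩ : RV E).st s)
  rw [RV.set_PR, RV.at_PR] at b5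
  have b6 := IO.r_clear .PI ((⟨[], wd S y, f1,
    una (B + 2), (bits (bitsOf (B + 2) x)).reverse, [], [], [], [], [], [], [], [],
    []⟩ : RV E).st s)
  rw [RV.set_PI, RV.at_PI] at b6
  have b7 := IO.r_clear .T1 ((⟨[], [], f1,
    una (B + 2), (bits (bitsOf (B + 2) x)).reverse, [], [], [], [], [], [], [], [],
    []⟩ : RV E).st s)
  rw [RV.set_T1, RV.at_T1] at b7
  have b8 := r_rev2 (i := .T2) (j := .T3) (k := .T4) (by decide) (by decide) (by decide)
    ((⟨[], [], f1, [], (bits (bitsOf (B + 2) x)).reverse, [], [], [], [], [], [], [], [],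
    []⟩ : RV E).st s)
  rw [RV.set_T2, RV.set_T3, RV.set_T4, RV.at_T2, RV.at_T3, RV.at_T4, List.append_nil,
    List.reverse_reverse] at b8
  obtain ⟨s1, s2⟩ := half_sub hx
  obtain ⟨s3, s4⟩ := half_add hx
  have b9 := halfP_spec c hB (by omega) (⟨[], [], f1, [], [], bits (bitsOf (B + 2) x),
    bits (bitsOf (B + 2) x), [], [], [], [], [], [], []⟩ : RV E) x (2 ^ B - x) SS.bw (by omega)
    s1 s2 rfl rfl rfl rfl rfl rfl rfl rfl rfl rfl
  have b10 := IO.r_rev (a := .A6) (b := .PI) (by decide) ((⟨[], [], f1, [], [], [],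
    bits (bitsOf (B + 2) x), [], [], [], [], [], (wd S (Nat.sqrt ((2 ^ B - x) *
      2 ^ (B - 1)))).reverse, []⟩ : RV E).st s)
  rw [RV.set_A6, RV.set_PI, RV.at_A6, RV.at_PI, List.append_nil, List.reverse_reverse] at b10
  set z1 := Nat.sqrt ((2 ^ B - x) * 2 ^ (B - 1)) with hz1
  have b11 := IO.r_rev (a := .T4) (b := .A6) (by decide) ((⟨[], wd S z1, f1, [], [], [],
    bits (bitsOf (B + 2) x), [], [], [], [], [], [], []⟩ : RV E).st s)
  rw [RV.set_T4, RV.set_A6, RV.at_A6, RV.at_T4, List.append_nil] at b11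
  have b12 := IO.r_rev (a := .A6) (b := .T3) (by decide) ((⟨[], wd S z1, f1, [], [], [],
    [], [], [], [], [], [], (bits (bitsOf (B + 2) x)).reverse, []⟩ : RV E).st s)
  rw [RV.set_A6, RV.set_T3, RV.at_A6, RV.at_T3, List.append_nil, List.reverse_reverse] at b12
  have b13 := halfP_spec c hB (by omega) (⟨[], wd S z1, f1, [], [], bits (bitsOf (B + 2) x),
    [], [], [], [], [], [], [], []⟩ : RV E) x (2 ^ B + x) SS.mj (by omega)
    s3 s4 rfl rfl rfl rfl rfl rfl rfl rfl rfl rfl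
  have b14 := IO.r_rev (a := .A6) (b := .PR) (by decide) ((⟨[], wd S z1, f1, [], [], [],
    [], [], [], [], [], [], (wd S (Nat.sqrt ((2 ^ B + x) *
      2 ^ (B - 1)))).reverse, []⟩ : RV E).st s)
  rw [RV.set_A6, RV.set_PR, RV.at_A6, RV.at_PR, List.append_nil, List.reverse_reverse] at b14
  refine (b1.seq (b2.seq (b3.seq (b4.seq (b5.seq (b6.seq (b7.seq (b8.seq (b9.seq
    (b10.seq (b11.seq (b12.seq (b13.seq b14))))))))))))).mono ?_
  simp only [len_una, lwd, length_bits, length_bitsOf, List.length_reverse]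
  have k1 : (B + 1) * (40 * (B + 4) + 2) ≤ 404 * (B * S) := by
    have : B + 1 ≤ 2 * B := by omega
    calc (B + 1) * (40 * (B + 4) + 2) ≤ (2 * B) * (202 * B) :=
          Nat.mul_le_mul this (by omega)
      _ = 404 * (B * B) := by ring
      _ ≤ 404 * (B * S) := Nat.mul_le_mul_left _ (Nat.mul_le_mul_left _ (by omega))
  have k2 : S ≤ B * S := Nat.le_mul_of_pos_left _ hB
  omega

/-! ### The program -/

section

variable (J E)

/-- All levels. -/
def levL : PW J E := Prog.loop (nonempty (wg .F1)) ((Prog.pop (wg .F1)).seq (levP J E))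

/-- The roots. -/
def rootP : PW J E :=
  (Prog.fill (wg .WS) (sb false) (wg .PR) (wg .F8)).seq <|
  (Prog.copyOnto (wg .WS) (wg .T1) (wg .F8)).seq <|
  (Prog.forr (wg .WB) (wg .F8) (Prog.pop (wg .T1))).seq <|
  (Prog.pop (wg .T1)).seq <|
  (Prog.fill (wg .T1) (sb false) (wg .PI) (wg .F8)).seq <|
  (Prog.clear (wg .T1)).seq <| (Prog.push (wg .PI) (sb true)).seq <|
  (Prog.fill (wg .WB) (sb false) (wg .PI) (wg .F8)).seq (levL J E)

end

theorem levL_spec {s : SW J E} {S B : ℕ} (c : RC s S B) (hB : 1 ≤ B) (hBS : 3 * B ≤ S)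
    (k : ℕ) : ∀ j : ℕ,
    Runs (levL J E)
      ((⟨wd S (rt B j).1, wd S (rt B j).2, una k, [], [], [], [], [], [], [], [], [], [],
        []⟩ : RV E).st s)
      ((⟨wd S (rt B (j + k)).1, wd S (rt B (j + k)).2, [], [], [], [], [], [], [], [], [], [],
        [], []⟩ : RV E).st s)
      (k * (1500 * (B * S) + 4)) := by
  induction k with
  | zero =>
    intro j
    exact ((Runs.loopF (by rw [nonempty_tops]; rfl)).mono (by omega)).of_eq rfl
  | succ k ih =>
    intro j
    have a1 := r_pop .F1 ((⟨wd S (rt B j).1, wd S (rt B j).2, una (k + 1), [], [], [], [],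
      [], [], [], [], [], [], []⟩ : RV E).st s)
    rw [RV.set_F1, RV.at_F1, tail_una', Nat.add_sub_cancel] at a1
    have a2 := levP_spec c hB hBS (rt B j).1 (rt B j).2 (rt_le B j).1 (una k)
    have a3 := ih (j + 1)
    rw [show j + 1 + k = j + (k + 1) by omega] at a3
    refine (Runs.loopT (by rw [nonempty_tops]; rfl) (a1.seq a2) a3).mono ?_
    have : (k + 1) * (1500 * (B * S) + 4) = k * (1500 * (B * S) + 4) +
      (1500 * (B * S) + 4) := by ring
    omega

theorem rootSpec (T : ℕ → ℕ) : RootSpec (rootP J E) T 1600 := by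
  intro S B k s hB hBS hc hws hwb hf1 hem
  have c : RC s S B := ⟨hc.emp _ (by decide), hws, hwb⟩
  have hF' : ∀ v : RV E, (v.st s).at .F8 = [] := fun _ => c.f8
  have hB' : ∀ v : RV E, (v.st s).at .WB = una B := fun _ => c.wb
  have hS' : ∀ v : RV E, (v.st s).at .WS = una S := fun _ => c.ws
  have e0 : (⟨[], [], una k, [], [], [], [], [], [], [], [], [], [], []⟩ : RV E).st s = s := by
    apply sw_ext
    · intro j; rfl
    · intro q
      cases q <;> first | rfl | exact hf1.symm | exact (hem _ (by decide)).symm |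
        exact (hc.emp _ (by decide)).symm
  have b1 := IO.r_fill (u := .WS) (b := .PR) (t := .F8) (by decide) (by decide) (by decide)
    (sb false) ((⟨[], [], una k, [], [], [], [], [], [], [], [], [], [], []⟩ : RV E).st s) S
    (hS' _) (hF' _)
  rw [RV.set_PR, RV.at_PR, List.append_nil,
    show (List.replicate S (sb false) : List (SSym E)) = wd S 0 by
      simp [wd, bits, bitsOf_zero, sb]] at b1
  have b2 := IO.r_copy (a := .WS) (b := .T1) (t := .F8) (by decide) (by decide) (by decide)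
    ((⟨wd S 0, [], una k, [], [], [], [], [], [], [], [], [], [], []⟩ : RV E).st s) (hF' _)
  rw [RV.set_T1, RV.at_T1, hS', List.append_nil] at b2
  have b3 := IO.r_sub (u := .WB) (b := .T1) (t := .F8) (by decide) (by decide) (by decide)
    ((⟨wd S 0, [], una k, una S, [], [], [], [], [], [], [], [], [], []⟩ : RV E).st s) B S
    (hB' _) (hF' _) rfl
  rw [RV.set_T1] at b3
  have b4 := r_pop .T1 ((⟨wd S 0, [], una k, una (S - B), [], [], [], [], [], [], [], [], [],
    []⟩ : RV E).st s)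
  rw [RV.set_T1, RV.at_T1, tail_una'] at b4
  have b5 := IO.r_fill (u := .T1) (b := .PI) (t := .F8) (by decide) (by decide) (by decide)
    (sb false) ((⟨wd S 0, [], una k, una (S - B - 1), [], [], [], [], [], [], [], [], [],
    []⟩ : RV E).st s) (S - B - 1) rfl (hF' _)
  rw [RV.set_PI, RV.at_PI, List.append_nil] at b5
  have b6 := IO.r_clear .T1 ((⟨wd S 0, List.replicate (S - B - 1) (sb false), una k,
    una (S - B - 1), [], [], [], [], [], [], [], [], [], []⟩ : RV E).st s)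
  rw [RV.set_T1, RV.at_T1] at b6
  have b7 := r_push .PI (sb true) ((⟨wd S 0, List.replicate (S - B - 1) (sb false), una k,
    [], [], [], [], [], [], [], [], [], [], []⟩ : RV E).st s)
  rw [RV.set_PI, RV.at_PI] at b7
  have b8 := IO.r_fill (u := .WB) (b := .PI) (t := .F8) (by decide) (by decide) (by decide)
    (sb false) ((⟨wd S 0, sb true :: List.replicate (S - B - 1) (sb false), una k,
    [], [], [], [], [], [], [], [], [], [], []⟩ : RV E).st s) B (hB' _) (hF' _)
  have e8 : List.replicate B (sb false) ++ sb true :: List.replicate (S - B - 1) (sb false) =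
      (wd S (2 ^ B) : List (SSym E)) := by
    have h := bitsOf_add B (1 + (S - B - 1)) (2 ^ B)
    rw [show B + (1 + (S - B - 1)) = S by omega, Nat.div_self (by positivity),
      ← bitsOf_mod B, Nat.mod_self, bitsOf_zero, bitsOf_add_zeros (by norm_num : 1 < 2 ^ 1)]
      at h
    unfold wd
    rw [h]
    simp [bits, sb, bitsOf_succ]
  rw [RV.set_PI, RV.at_PI, e8] at b8
  have b9 := levL_spec c hB hBS k 0
  rw [Nat.zero_add] at b9
  have e1 : ((s.set .F1 []).set .PR (wd S (rt B k).1)).set .PI (wd S (rt B k).2) =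
      (⟨wd S (rt B k).1, wd S (rt B k).2, [], [], [], [], [], [], [], [], [], [],
        [], []⟩ : RV E).st s := by
    conv_lhs => rw [← e0]
    rw [RV.set_F1, RV.set_PR, RV.set_PI]
  rw [e1]
  have b := b1.seq (b2.seq (b3.seq (b4.seq (b5.seq (b6.seq (b7.seq (b8.seq b9)))))))
  rw [e0] at b
  refine b.mono ?_
  simp only [len_una]
  have k1 : (k + 1) * B * (S + T S) = k * (B * S) + B * S + (k + 1) * B * T S := by ring
  have k2 : k * (1500 * (B * S) + 4) = 1500 * (k * (B * S)) + 4 * k := by ring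
  have k3 : S ≤ B * S := Nat.le_mul_of_pos_left _ hB
  have k4 : k ≤ k * (B * S) := Nat.le_mul_of_pos_right _ (by omega)
  rw [k1, k2]
  have k5 : 1600 * (k * (B * S) + B * S + (k + 1) * B * T S) =
    1600 * (k * (B * S)) + 1600 * (B * S) + 1600 * ((k + 1) * B * T S) := by ring
  rw [k5]
  omega

end Vale.Agent.P338.GS.Root
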