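import Vale.Agent.P338.GS.ChirpPass

/-!
# P338, matrices of every shape: multiplication by `γ ^ (i * j)`
-/

namespace Vale.Agent.P338.GS.Ps

open Vale.Agent.P338 Vale.Agent.P338.GS Vale.Agent.P338.GS.IO

variable {J E : Type} [DecidableEq J]

theorem pw_lt {S B : ℕ} (hS : B < S) (γ : ℕ × ℕ) (k : ℕ) :
    (pw S B γ k).1 < 2 ^ S ∧ (pw S B γ k).2 < 2 ^ S := by
  cases k with
  | zero => exact ⟨Nat.pow_lt_pow_right (by norm_num) hS, by simp [pw]⟩
  | succ k => exact cmR_lt hS.le _ _

variable (cm : W → W → W → W → PW J E)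

/-- The elements `x i j z`, for all `z`, and the next factor. -/
def colT : PW J E := (row cm).seq (cm .CR .CI .GR .GI)

/-- The store before round `k`. -/
def bT (s : SW J E) (S B : ℕ) (β : ℕ × ℕ) (k : ℕ) : SW J E :=
  (s.set .CR (wd S (pw S B β k).1)).set .CI (wd S (pw S B β k).2)

/-- The elements `x i j z`, for all `j` and `z`, and the next factor. -/
def levT : PW J E :=
  (one2 .CR .CI).seq <|
  (Prog.forr (Sum.inr .HN) (Sum.inr .F2) (colT cm)).seq <|
  (Prog.clear (Sum.inr .CR)).seq <|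
  (Prog.clear (Sum.inr .CI)).seq <|
  cm .GR .GI .PR .PI

/-- The store before round `k`. -/
def bG (s : SW J E) (S B : ℕ) (β : ℕ × ℕ) (k : ℕ) : SW J E :=
  (s.set .GR (wd S (pw S B β k).1)).set .GI (wd S (pw S B β k).2)

/-- The elements `x i j z`, for fixed `x`. -/
def blkT : PW J E :=
  (one2 .GR .GI).seq <|
  (Prog.forr (Sum.inr .HR) (Sum.inr .F5) (levT cm)).seq <|
  (Prog.clear (Sum.inr .GR)).seq <|
  Prog.clear (Sum.inr .GI)

/-- The pass. -/
def twP : PW J E :=
  (Prog.forr (Sum.inr .HX) (Sum.inr .F1) (blkT cm)).seq <|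
  (Prog.rev (Sum.inr .O1) (Sum.inr .XR)).seq <|
  Prog.rev (Sum.inr .O2) (Sum.inr .XI)

variable {cm} {T : ℕ → ℕ} {C : ℕ}

theorem colT_spec (hcm : CmSpec cm T C) {S B Z : ℕ} (hB : 1 ≤ B) (hS : B < S) (hZ : 1 ≤ Z)
    {β : ℕ × ℕ} {a : ℕ → ℕ × ℕ} (hβ : β.1 < 2 ^ S ∧ β.2 < 2 ^ S) (ha : ∀ z, (a z).1 < 2 ^ S)
    (ha' : ∀ z, (a z).2 < 2 ^ S) {s : SW J E} (h : EO s S B Z)
    (hg : s.at .GR = wd S β.1) (hg' : s.at .GI = wd S β.2) (k : ℕ) :
    Tr (colT cm) (bT s S B β k) (bT s S B β (k + 1)) (cat Z fun z => bitsOf S (a z).1)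
      (cat Z fun z => bitsOf S (a z).2) (cat Z fun z => bitsOf S (cmR S B (a z) (pw S B β k)).1)
      (cat Z fun z => bitsOf S (cmR S B (a z) (pw S B β k)).2)
      (Z * ((2 * C + 50) * (S + T S))) := by
  have hk := pw_lt hS β k
  have ho : EO (bT s S B β k) S B Z := (h.set (by decide) _).set (by decide) _
  have h1 := row_spec hcm hB hS (c := pw S B β k) (a := a) hk ha ha' hZ
    (ho.ev (by simp [bT, at_set]) (by simp [bT])) ho.hz ho.f3
  have h2 := sd_cm hcm hB hS (x := pw S B β k) (y := β) hk hβ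
    (ar := .CR) (ai := .CI) (br := .GR) (bi := .GI) (by decide) (by decide) (by decide)
    ho.toCln0 ho.ws ho.wb (by simp [bT, at_set]) (by simp [bT]) (by simp [bT, at_set, hg])
    (by simp [bT, at_set, hg'])
  refine ((h1.sd h2).mono ?_).of_eq ?_
  · have h4 : 1 ≤ S + T S := by omega
    have e9 : Z * ((2 * C + 50) * (S + T S)) = Z * ((C + 48) * (S + T S)) +
        Z * (C * (S + T S)) + Z * (2 * (S + T S)) := by ring
    have h5 : C * (S + T S) ≤ Z * (C * (S + T S)) := Nat.le_mul_of_pos_left _ hZ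
    have h6 : 2 ≤ Z * (2 * (S + T S)) := le_trans (by omega)
      (Nat.le_mul_of_pos_left (2 * (S + T S)) hZ)
    rw [e9]
    omega
  · refine sw_ext (fun j => by simp [bT]) fun r => ?_
    simp only [bT, at_set, pw]
    split_ifs <;> simp_all

theorem levT_spec (hcm : CmSpec cm T C) {S B Z N : ℕ} (hB : 1 ≤ B) (hS : B < S) (hZ : 1 ≤ Z)
    (hN : 1 ≤ N) {γ : ℕ × ℕ} {a : ℕ → ℕ → ℕ × ℕ} (hγ : γ.1 < 2 ^ S ∧ γ.2 < 2 ^ S)
    (ha : ∀ i z, (a i z).1 < 2 ^ S) (ha' : ∀ i z, (a i z).2 < 2 ^ S) {s : SW J E}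
    (h : EO s S B Z) (hr : s.at .HN = una N) (f2 : s.at .F2 = [])
    (hp : s.at .PR = wd S γ.1) (hp' : s.at .PI = wd S γ.2)
    (hc : s.at .CR = []) (hc' : s.at .CI = []) (k : ℕ) :
    Tr (levT cm) (bG s S B γ k) (bG s S B γ (k + 1)) (cat N fun j => cat Z fun z =>
        bitsOf S (a j z).1)
      (cat N fun j => cat Z fun z => bitsOf S (a j z).2)
      (cat N fun j => cat Z fun z => bitsOf S (cmR S B (a j z) (tw S B γ k j)).1)
      (cat N fun j => cat Z fun z => bitsOf S (cmR S B (a j z) (tw S B γ k j)).2)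
      (N * (Z * ((3 * C + 150) * (S + T S)))) := by
  have hk := pw_lt hS γ k
  have o0 : EO (bG s S B γ k) S B Z := (h.set (by decide) _).set (by decide) _
  have k1 := sd_one2 (J := J) (E := E) (a := .CR) (b := .CI) (by decide) (by decide) (by decide)
    (by decide) (by decide) (s := bG s S B γ k) hS o0.ws o0.wb o0.f4 o0.t1
    (by simp [bG, at_set, hc]) (by simp [bG, at_set, hc'])
  have e3 : ((bG s S B γ k).set .CR (wd S (2 ^ B))).set .CI (wd S 0) =
    bT (bG s S B γ k) S B (pw S B γ k) 0 := rfl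
  rw [e3] at k1
  set s0 := bG s S B γ k with e0
  have k4 := Tr.forr (u := .HN) (t := .F2) (by decide) (by decide) (by decide)
    (body := colT cm) (n := N) (F := fun j => bT s0 S B (pw S B γ k) j)
    (a := fun i => cat Z fun z => bitsOf S (a i z).1)
    (b := fun i => cat Z fun z => bitsOf S (a i z).2)
    (a' := fun i => cat Z fun z => bitsOf S (cmR S B (a i z) (tw S B γ k i)).1)
    (b' := fun i => cat Z fun z => bitsOf S (cmR S B (a i z) (tw S B γ k i)).2)
    (T := Z * ((2 * C + 50) * (S + T S)))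
    (fun j _ => by simp [s0, bG, bT, at_set, hr]) (fun j _ => by simp [s0, bG, bT, at_set, f2])
    (fun j _ l l' => by
      have h5 := colT_spec hcm hB hS hZ hk (ha j) (ha' j) (s := (s0.set .HN l).set .F2 l')
        ((o0.set (by decide) _).set (by decide) _) (by simp [s0, bG, at_set])
        (by simp [s0, bG, at_set]) j
      have e5 : ∀ j, bT ((s0.set .HN l).set .F2 l') S B (pw S B γ k) j =
          ((bT s0 S B (pw S B γ k) j).set .HN l).set .F2 l' := by
        intro j
        refine sw_ext (fun j => by simp [bT]) fun r => ?_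
        simp only [bT, at_set]
        split_ifs <;> simp_all
      rw [e5, e5] at h5
      exact h5)
  have k5 := sd_clear (J := J) (r := .CR) (by decide) (bT s0 S B (pw S B γ k) N)
  have c5 : ((bT s0 S B (pw S B γ k) N).at .CR).length = S := by simp [bT, at_set, wd]
  rw [c5] at k5
  set s5 := (bT s0 S B (pw S B γ k) N).set .CR [] with e5
  have k6 := sd_clear (J := J) (r := .CI) (by decide) s5
  have c6 : (s5.at .CI).length = S := by simp [s5, bT, at_set, wd]
  rw [c6] at k6
  have e6 : s5.set .CI [] = s0 := by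
    refine sw_ext (fun j => by simp [s5, bT]) fun r => ?_
    have g1 : s0.at .CR = [] := by simp [s0, bG, at_set, hc]
    have g2 : s0.at .CI = [] := by simp [s0, bG, at_set, hc']
    simp only [s5, bT, at_set]
    split_ifs <;> simp_all
  rw [e6] at k6
  have k7 := sd_cm hcm hB hS (x := pw S B γ k) (y := γ) hk hγ
    (ar := .GR) (ai := .GI) (br := .PR) (bi := .PI) (by decide) (by decide) (by decide)
    o0.toCln0 o0.ws o0.wb (by simp [s0, bG, at_set]) (by simp [s0, bG])
    (by simp [s0, bG, at_set, hp]) (by simp [s0, bG, at_set, hp'])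
  refine ((k1.tr (k4.sd (k5.seq (k6.seq k7)))).mono ?_).of_eq ?_
  · have h4 : 1 ≤ S + T S := by omega
    obtain ⟨Q, hQ⟩ : ∃ Q, Q = S + T S := ⟨_, rfl⟩
    have g1 : S ≤ Q := by omega
    have e9 : N * (Z * ((3 * C + 150) * (S + T S))) = N * (Z * ((2 * C + 50) * (S + T S))) +
        N * (Z * (C * Q)) + N * (Z * (100 * Q)) := by rw [hQ]; ring
    have h6 : C * Q ≤ N * (Z * (C * Q)) := (Nat.le_mul_of_pos_left _ hZ).trans
      (Nat.le_mul_of_pos_left _ hN)
    have h7 : N * (Z * ((2 * C + 50) * (S + T S)) + 7) =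
      N * (Z * ((2 * C + 50) * (S + T S))) + N * 7 := by ring
    have h8 : N * 7 ≤ N * (Z * (7 * Q)) := Nat.mul_le_mul_left _
      (le_trans (by omega) (Nat.le_mul_of_pos_left (7 * Q) hZ))
    have h9 : 90 * Q ≤ N * (Z * (90 * Q)) := (Nat.le_mul_of_pos_left _ hZ).trans
      (Nat.le_mul_of_pos_left _ hN)
    have h10 : N * (Z * (100 * Q)) = N * (Z * (7 * Q)) + N * (Z * (90 * Q)) +
      N * (Z * (3 * Q)) := by ring
    rw [e9, h7]
    rw [← hQ]
    omega
  · refine sw_ext (fun j => by simp [s0, bG]) fun r => ?_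
    clear k1 k4 k5 k6 k7 e3 c5 c6 e6 e5
    simp only [s0, bG, at_set, pw]
    split_ifs <;> simp_all

theorem blkT_spec (hcm : CmSpec cm T C) {S B Z N M : ℕ} (hB : 1 ≤ B) (hS : B < S) (hZ : 1 ≤ Z)
    (hN : 1 ≤ N) (hM : 1 ≤ M) {γ : ℕ × ℕ} {a : ℕ → ℕ → ℕ → ℕ × ℕ}
    (hγ : γ.1 < 2 ^ S ∧ γ.2 < 2 ^ S)
    (ha : ∀ i j z, (a i j z).1 < 2 ^ S) (ha' : ∀ i j z, (a i j z).2 < 2 ^ S) {s : SW J E}
    (h : EO s S B Z) (hr : s.at .HR = una M) (hn : s.at .HN = una N) (f2 : s.at .F2 = [])
    (f5 : s.at .F5 = [])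
    (hp : s.at .PR = wd S γ.1) (hp' : s.at .PI = wd S γ.2)
    (hc : s.at .CR = []) (hc' : s.at .CI = []) (hg : s.at .GR = []) (hg' : s.at .GI = []) :
    Tr (blkT cm) s s
      (cat M fun i => cat N fun j => cat Z fun z => bitsOf S (a i j z).1)
      (cat M fun i => cat N fun j => cat Z fun z => bitsOf S (a i j z).2)
      (cat M fun i => cat N fun j => cat Z fun z =>
        bitsOf S (cmR S B (a i j z) (tw S B γ i j)).1)
      (cat M fun i => cat N fun j => cat Z fun z =>
        bitsOf S (cmR S B (a i j z) (tw S B γ i j)).2)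
      (M * (N * (Z * ((3 * C + 250) * (S + T S))))) := by
  have k1 := sd_one2 (J := J) (E := E) (a := .GR) (b := .GI) (by decide) (by decide) (by decide)
    (by decide) (by decide) (s := s) hS h.ws h.wb h.f4 h.t1 hg hg'
  have e3 : (s.set .GR (wd S (2 ^ B))).set .GI (wd S 0) = bG s S B γ 0 := rfl
  rw [e3] at k1
  have k4 := Tr.forr (u := .HR) (t := .F5) (by decide) (by decide) (by decide)
    (body := levT cm) (n := M) (F := fun j => bG s S B γ j)
    (a := fun i => cat N fun j => cat Z fun z => bitsOf S (a i j z).1)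
    (b := fun i => cat N fun j => cat Z fun z => bitsOf S (a i j z).2)
    (a' := fun i => cat N fun j => cat Z fun z => bitsOf S (cmR S B (a i j z) (tw S B γ i j)).1)
    (b' := fun i => cat N fun j => cat Z fun z => bitsOf S (cmR S B (a i j z) (tw S B γ i j)).2)
    (T := N * (Z * ((3 * C + 150) * (S + T S))))
    (fun j _ => by simp [bG, at_set, hr]) (fun j _ => by simp [bG, at_set, f5])
    (fun j _ l l' => by
      have h5 := levT_spec hcm hB hS hZ hN hγ (ha j) (ha' j) (s := (s.set .HR l).set .F5 l')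
        ((h.set (by decide) _).set (by decide) _) (by simp [at_set, hn]) (by simp [at_set, f2])
        (by simp [at_set, hp]) (by simp [at_set, hp']) (by simp [at_set, hc])
        (by simp [at_set, hc']) j
      have e5 : ∀ j, bG ((s.set .HR l).set .F5 l') S B γ j =
          ((bG s S B γ j).set .HR l).set .F5 l' := by
        intro j
        refine sw_ext (fun j => by simp [bG]) fun r => ?_
        simp only [bG, at_set]
        split_ifs <;> simp_all
      rw [e5, e5] at h5
      exact h5)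
  have k5 := sd_clear (J := J) (r := .GR) (by decide) (bG s S B γ M)
  have c5 : ((bG s S B γ M).at .GR).length = S := by simp [bG, at_set, wd]
  rw [c5] at k5
  set s5 := (bG s S B γ M).set .GR [] with e5
  have k6 := sd_clear (J := J) (r := .GI) (by decide) s5
  have c6 : (s5.at .GI).length = S := by simp [s5, bG, at_set, wd]
  rw [c6] at k6
  have e6 : s5.set .GI [] = s := by
    refine sw_ext (fun j => by simp [s5, bG]) fun r => ?_
    simp only [s5, bG, at_set]
    split_ifs <;> simp_all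
  rw [e6] at k6
  refine (k1.tr (k4.sd (k5.seq k6))).mono ?_
  have h4 : 1 ≤ S + T S := by omega
  obtain ⟨Q, hQ⟩ : ∃ Q, Q = S + T S := ⟨_, rfl⟩
  have g1 : S ≤ Q := by omega
  have g2 : ∀ n : ℕ, n ≤ M * (N * (Z * n)) := fun n => (Nat.le_mul_of_pos_left _ hZ).trans
    ((Nat.le_mul_of_pos_left _ hN).trans (Nat.le_mul_of_pos_left _ hM))
  have e9 : M * (N * (Z * ((3 * C + 250) * (S + T S)))) =
      M * (N * (Z * ((3 * C + 150) * (S + T S)))) +
      M * (N * (Z * (90 * Q))) + M * (N * (Z * (10 * Q))) := by rw [hQ]; ring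
  have h7 : M * (N * (Z * ((3 * C + 150) * (S + T S))) + 7) =
    M * (N * (Z * ((3 * C + 150) * (S + T S)))) + M * 7 := by ring
  have h8 : M * 7 ≤ M * (N * (Z * (10 * Q))) := Nat.mul_le_mul_left _
    (le_trans (by omega) ((Nat.le_mul_of_pos_left (10 * Q) hZ).trans
      (Nat.le_mul_of_pos_left _ hN)))
  have h9 := g2 (90 * Q)
  rw [e9, h7]
  omega

theorem twP_spec (hcm : CmSpec cm T C) : TwSpec (twP cm) T (4 * C + 300) := by
  intro X M N Z S B γ e s hn hN he hnn h1 h2 hx hy
  have hS := num_lt hn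
  have hB := hn.hB
  have hγ : γ.1 < 2 ^ S ∧ γ.2 < 2 ^ S := ⟨hn.h1, hn.h2⟩
  have f : ∀ r ∈ psc, s.at r = [] := he.emp2
  have ho : EO s S B Z := ⟨he.toCln0, he.ws, he.wb, he.hz, f _ (by decide), f _ (by decide),
    f _ (by decide), f _ (by decide), f _ (by decide)⟩
  have k4 := Tr.forr (u := .HX) (t := .F1) (by decide) (by decide) (by decide)
    (body := blkT cm) (n := X) (F := fun _ => s)
    (a := fun x => cat M fun i => cat N fun j => cat Z fun z => bitsOf S (e x i j z).1)
    (b := fun x => cat M fun i => cat N fun j => cat Z fun z => bitsOf S (e x i j z).2)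
    (a' := fun x => cat M fun i => cat N fun j => cat Z fun z =>
      bitsOf S (cmR S B (e x i j z) (tw S B γ i j)).1)
    (b' := fun x => cat M fun i => cat N fun j => cat Z fun z =>
      bitsOf S (cmR S B (e x i j z) (tw S B γ i j)).2)
    (T := M * (N * (Z * ((3 * C + 250) * (S + T S)))))
    (fun k _ => he.hx) (fun k _ => f _ (by decide))
    (fun x _ l l' => by
      have g : ∀ r, r ≠ .HX → r ≠ .F1 → ((s.set .HX l).set .F1 l').at r = s.at r := by
        intro r g1 g2
        rw [at_set_ne _ g2, at_set_ne _ g1]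
      exact blkT_spec hcm hB hS hn.hZ hN hn.hr hγ (h1 x) (h2 x)
        ((ho.set (by decide) _).set (by decide) _)
        (by rw [g _ (by decide) (by decide)]; exact he.hr)
        (by rw [g _ (by decide) (by decide)]; exact hnn)
        (by rw [g _ (by decide) (by decide)]; exact f _ (by decide))
        (by rw [g _ (by decide) (by decide)]; exact f _ (by decide))
        (by rw [g _ (by decide) (by decide)]; exact he.pr)
        (by rw [g _ (by decide) (by decide)]; exact he.pi)
        (by rw [g _ (by decide) (by decide)]; exact f _ (by decide))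
        (by rw [g _ (by decide) (by decide)]; exact f _ (by decide))
        (by rw [g _ (by decide) (by decide)]; exact f _ (by decide))
        (by rw [g _ (by decide) (by decide)]; exact f _ (by decide)))
  have k4' := k4 [] [] [] []
  set A1 := cat X fun x => cat M fun i => cat N fun j => cat Z fun z =>
    bitsOf S (cmR S B (e x i j z) (tw S B γ i j)).1 with hA1
  set A2 := cat X fun x => cat M fun i => cat N fun j => cat Z fun z =>
    bitsOf S (cmR S B (e x i j z) (tw S B γ i j)).2 with hA2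
  have u4 : st4 s (bits (cat X fun x => cat M fun i => cat N fun j => cat Z fun z =>
      bitsOf S (e x i j z).1) ++ []) (bits (cat X fun x => cat M fun i => cat N fun j =>
        cat Z fun z => bitsOf S (e x i j z).2) ++ []) [] [] = s := by
    refine sw_ext (fun j => by simp [st4]) fun r => ?_
    have g3 : s.at .O1 = [] := f _ (by decide)
    have g4 : s.at .O2 = [] := f _ (by decide)
    unfold arr4 at hx hy
    simp only [st4, at_set, List.append_nil]
    clear k4 k4'
    split_ifs <;> simp_all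
  rw [u4] at k4'
  set s4 := st4 s [] [] ((bits A1).reverse ++ []) ((bits A2).reverse ++ []) with e4
  have k7 := r_rev (J := J) (a := .O1) (b := .XR) (by decide) s4
  have l7 : (s4.at .O1).length = A1.length := by simp [s4, st4, at_set]
  rw [l7] at k7
  set s7 := (s4.set .O1 []).set .XR ((s4.at .O1).reverse ++ s4.at .XR) with e7
  have k8 := r_rev (J := J) (a := .O2) (b := .XI) (by decide) s7
  have l8 : (s7.at .O2).length = A2.length := by simp [s7, s4, st4, at_set]
  rw [l8] at k8
  have n1 : A1.length = X * (M * (N * (Z * S))) :=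
    length_cat_of fun i _ => length_cat_of fun i _ => length_cat_of fun i _ =>
      length_cat_of fun i _ => by simp
  have n2 : A2.length = X * (M * (N * (Z * S))) :=
    length_cat_of fun i _ => length_cat_of fun i _ => length_cat_of fun i _ =>
      length_cat_of fun i _ => by simp
  refine ((k4'.seq (k7.seq k8)).mono ?_).of_eq ?_
  · rw [n1, n2]
    obtain ⟨Q, hQ⟩ : ∃ Q, Q = S + T S := ⟨_, rfl⟩
    obtain ⟨P, hP⟩ : ∃ P, P = X * M * N * Z := ⟨_, rfl⟩
    have hP1 : 1 ≤ P := by
      rw [hP]; exact Nat.mul_pos (Nat.mul_pos (Nat.mul_pos hn.hX hn.hr) hN) hn.hZ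
    have hXP : X ≤ P := by
      rw [hP, mul_assoc, mul_assoc]
      exact Nat.le_mul_of_pos_right _ (Nat.mul_pos hn.hr (Nat.mul_pos hN hn.hZ))
    have g1 : S ≤ Q := by omega
    have g2 : 1 ≤ Q := by omega
    have e9 : (4 * C + 300) * (X * M * N * Z * (S + T S)) = P * (3 * C * Q) + P * (C * Q) +
        P * (300 * Q) := by rw [hP, hQ]; ring
    have e10 : X * (M * (N * (Z * ((3 * C + 250) * (S + T S)))) + 7) = P * (3 * C * Q) +
      P * (250 * Q) + X * 7 := by rw [hP, hQ]; ring
    have e11 : 3 * (X * (M * (N * (Z * S)))) = P * (3 * S) := by rw [hP]; ring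
    have h8 : P * (3 * S) ≤ P * (3 * Q) := Nat.mul_le_mul_left _ (by omega)
    have h9 : X * 7 ≤ P * (7 * Q) := Nat.mul_le_mul hXP (by omega)
    have h10 : P * (300 * Q) = P * (250 * Q) + P * (3 * Q) + P * (3 * Q) +
      P * (7 * Q) + P * (37 * Q) := by ring
    have h11 : 3 ≤ P * (37 * Q) := le_trans (by omega) (Nat.le_mul_of_pos_left (37 * Q) hP1)
    rw [e9, e10, e11]
    omega
  · refine sw_ext (fun j => by simp [s7, s4, st4]) fun r => ?_
    have g5 := f .O1 (by decide)
    have g6 := f .O2 (by decide)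
    clear k4 k4' k7 k8 l7 l8 n1 n2 u4
    simp only [s7, s4, st4, at_set, arr4]
    rw [← hA1, ← hA2]
    clear_value A1 A2
    clear e7 s7 e4 s4 hx hy
    split_ifs <;> simp_all

end Vale.Agent.P338.GS.Ps
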