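import Vale.Agent.P338.GS.PermAll
import Vale.Agent.P338.GS.RootMain
import Vale.Agent.P338.GS.MCall
import Vale.Agent.P338.GS.TwPass
import Vale.Agent.P338.GS.Ar
import Vale.Agent.P338.GS.Ker
import Vale.Agent.P338.GS.PM
import Vale.Agent.P338.GS.Conv
import Vale.Agent.P338.H921.S2Avail
import Vale.Agent.P338.H921.GBitsG

/-!
# P338, matrices of every shape: the program for the transposition of words is available
-/

namespace Vale.Agent.P338.GS

open Vale.Agent.P338

theorem availG_of {Tb Tt : ℕ → ℕ} (h1 : S2.HasCall Tb) (h2 : S2.HasCall Tt) :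
    Top.AvailG Tb Tt := by
  obtain ⟨J1, E1, _, _, _, c1, C1, h1⟩ := h1
  obtain ⟨J2, E2, _, _, _, c2, C2, h2⟩ := h2
  obtain ⟨g1, g2⟩ := callFull_two h1 h2
  have m1 := mcall_spec g1
  have m2 := mcall_spec g2
  have hcm := Ar.cm_spec m2
  exact ⟨Loc J1 ⊕ Loc J2, E1 ⊕ E2, inferInstance, inferInstance, inferInstance, _, _,
    perm_spec PM.permPure IO.inSpec (Root.rootSpec _) Ar.cj_spec
      (dft_spec (Ps.chirpP_spec hcm) Ar.cj_spec (Ker.kerSpec hcm) (CV.convSpec m1)) hcm
      (Ps.twP_spec hcm) IO.outSpec⟩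

end Vale.Agent.P338.GS
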