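import Vale.Agent.P338.GS.BmSteps

/-!
# P338, stage 5: products of many words
-/

namespace Vale.Agent.P338.GS.Bm

open Vale.Agent.P338 Vale.Agent.P338.GS

variable {J E : Type}

/-! ### Numbers -/

theorem pow4_le (g : ℕ) : (g + 6) ^ 4 ≤ 2401 * 2 ^ g := by
  induction g with
  | zero => norm_num
  | succ g ih =>
    have h : (g + 1 + 6) ^ 4 ≤ 2 * (g + 6) ^ 4 := by
      have e : 2 * (g + 6) ^ 4 = (g + 1 + 6) ^ 4 + (g ^ 4 + 20 * g ^ 3 + 138 * g ^ 2 +
        356 * g + 191) := by ring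
      omega
    calc (g + 1 + 6) ^ 4 ≤ 2 * (g + 6) ^ 4 := h
      _ ≤ 2 * (2401 * 2 ^ g) := Nat.mul_le_mul_left _ ih
      _ = 2401 * 2 ^ (g + 1) := by ring

/-- The time. -/
def qt (Tb : ℕ → ℕ) (n g m : ℕ) : ℕ := m + Tb m + n * wS g * g

section

variable {n g m : ℕ}

theorem b_W (Tb : ℕ → ℕ) (hg : 1 ≤ g) : n * wS g ≤ qt Tb n g m := by
  have : n * wS g ≤ n * wS g * g := Nat.le_mul_of_pos_right _ hg
  unfold qt
  omega

theorem b_pow (hn : 1 ≤ n) (hg : 1 ≤ g) : 2 ^ (g + 5) ≤ n * wS g := by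
  unfold wS
  calc 2 ^ (g + 5) = 1 * (2 ^ (g + 5) * 1) := by ring
    _ ≤ n * (2 ^ (g + 5) * g) := Nat.mul_le_mul hn (Nat.mul_le_mul_left _ hg)

theorem b_g (hn : 1 ≤ n) (hg : 1 ≤ g) : g + 6 ≤ n * wS g := by
  have h1 : g + 5 < 2 ^ (g + 5) := Nat.lt_two_pow_self
  have h2 := b_pow hn hg
  omega

theorem b_in (hg : 1 ≤ g) : n * 2 ^ (g + 6) * bS g ≤ 896 * (n * wS g) := by
  unfold bS wS
  have e : n * 2 ^ (g + 6) * (64 * (g + 6)) = 128 * (n * (2 ^ (g + 5) * (g + 6))) := by ring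
  have e' : 896 * (n * (2 ^ (g + 5) * g)) = 128 * (n * (2 ^ (g + 5) * (7 * g))) := by ring
  rw [e, e']
  exact Nat.mul_le_mul_left _ (Nat.mul_le_mul_left _ (Nat.mul_le_mul_left _ (by omega)))

theorem b_dft {Tt : ℕ → ℕ} {D : ℕ} (hT : ∀ k, 1 ≤ k → Tt k ≤ D * k ^ 2) (hg : 1 ≤ g) :
    n * 2 ^ (g + 6) * (bS g + Tt (bS g)) ≤ (896 + 401408 * D) * (n * wS g * g) := by
  have h1 := hT (bS g) (by unfold bS; omega)
  have h2 : bS g + Tt (bS g) ≤ bS g * (1 + D * (448 * g)) := by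
    have h3 : D * bS g ^ 2 ≤ bS g * (D * (448 * g)) := by
      have h4 : bS g ≤ 448 * g := by unfold bS; omega
      calc D * bS g ^ 2 = bS g * (D * bS g) := by ring
        _ ≤ bS g * (D * (448 * g)) := Nat.mul_le_mul_left _ (Nat.mul_le_mul_left _ h4)
    calc bS g + Tt (bS g) ≤ bS g + bS g * (D * (448 * g)) := by omega
      _ = _ := by ring
  calc n * 2 ^ (g + 6) * (bS g + Tt (bS g))
      ≤ n * 2 ^ (g + 6) * (bS g * (1 + D * (448 * g))) := Nat.mul_le_mul_left _ h2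
    _ = n * 2 ^ (g + 6) * bS g * (1 + D * (448 * g)) := by ring
    _ ≤ 896 * (n * wS g) * (1 + D * (448 * g)) := Nat.mul_le_mul_right _ (b_in hg)
    _ ≤ 896 * (n * wS g) * (g + D * (448 * g)) := Nat.mul_le_mul_left _ (by omega)
    _ = _ := by ring

theorem b_root {Tt : ℕ → ℕ} {D : ℕ} (hT : ∀ k, 1 ≤ k → Tt k ≤ D * k ^ 2) (hn : 1 ≤ n)
    (hg : 1 ≤ g) :
    (g + 5 + 1) * bB g * (bS g + Tt (bS g)) ≤ (48020 * (64 + 4096 * D)) * (n * wS g) := by
  have h1 := hT (bS g) (by unfold bS; omega)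
  have h2 : bS g + Tt (bS g) ≤ (64 + 4096 * D) * (g + 6) ^ 2 := by
    have h3 : bS g ≤ 64 * (g + 6) ^ 2 := by
      unfold bS
      have : g + 6 ≤ (g + 6) ^ 2 := Nat.le_self_pow (by norm_num) _
      omega
    have h4 : D * bS g ^ 2 = 4096 * D * (g + 6) ^ 2 := by unfold bS; ring
    calc bS g + Tt (bS g) ≤ 64 * (g + 6) ^ 2 + 4096 * D * (g + 6) ^ 2 := by omega
      _ = _ := by ring
  calc (g + 5 + 1) * bB g * (bS g + Tt (bS g))
      ≤ (g + 5 + 1) * bB g * ((64 + 4096 * D) * (g + 6) ^ 2) := Nat.mul_le_mul_left _ h2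
    _ = 20 * (64 + 4096 * D) * (g + 6) ^ 4 := by unfold bB; ring
    _ ≤ 20 * (64 + 4096 * D) * (2401 * 2 ^ g) := Nat.mul_le_mul_left _ (pow4_le g)
    _ ≤ 20 * (64 + 4096 * D) * (2401 * (n * wS g)) := by
        refine Nat.mul_le_mul_left _ (Nat.mul_le_mul_left _ (le_trans ?_ (b_pow hn hg)))
        exact Nat.pow_le_pow_right (by norm_num) (by omega)
    _ = _ := by ring

end

theorem len_ar (S n : ℕ) (x : ℕ → ℕ) : (ar S n x : List (SSym E)).length = n * S := by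
  unfold ar
  rw [length_bits]
  exact length_cat_of fun i _ => by simp

theorem len_wd (S v : ℕ) : (wd S v : List (SSym E)).length = S := by simp [wd]

/-! ### The program -/

variable [DecidableEq J]

/-- The first part. -/
def bmP1 (pad inp root cj dp : PW J E) : PW J E :=
  (gcs cB0a).seq <| (gcs cB0b).seq <| (gcs cB0c).seq <| pad.seq <| (gcs cB1).seq <|
    inp.seq <| (gcs cB2).seq <| (root.seq cj).seq <| dp.seq (gcs cB3)

/-- The second part. -/
def bmP2 (pad inp cj dp pw outp rel : PW J E) : PW J E :=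
  pad.seq <| (gcs cB4).seq <| inp.seq <| dp.seq <| pw.seq <| cj.seq <| dp.seq <|
    (gcs cB5).seq <| outp.seq <| rel.seq (gcs cB6)

section

variable {pad inp root cj dp pw outp rel : PW J E} {Tb Tt : ℕ → ℕ}
  {C₁ C₂ C₃ C₄ C₅ C₆ C₇ C₈ D : ℕ}

theorem part1 (h1 : PadSpec pad C₁) (h2 : InSpec inp C₂) (h3 : RootSpec root Tt C₃)
    (h4 : CjSpec cj C₄) (h5 : DftSpec dp Tb Tt C₅) (hT : ∀ k, 1 ≤ k → Tt k ≤ D * k ^ 2) :
    ∃ K, ∀ (n g m : ℕ) (x y : ℕ → ℕ), 1 ≤ n → 1 ≤ g → 8064 * (n * wS g) ≤ m →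
      Runs (bmP1 pad inp root cj dp)
        (({ hx := una n, uu := una g, mm := una m, n1 := ar (wS g) n x
            n2 := ar (wS g) n y } : BV E).st)
        ((bs n g m [] [] (una (wS g)) (una (bB g)) (una (bB g + (g + 6))) (una g)
          (wd (bS g) (rho g).1) (wd (bS g) (rho g).2) [] (ar (wS g) n x) []
          (pa g n fun q k => cdf g (y q) k) (pb g n fun q k => cdf g (y q) k)).st)
        (K * qt Tb n g m) := by
  refine ⟨100000 + 2 * C₁ + 897 * C₂ + C₃ * (48020 * (64 + 4096 * D)) + 448 * C₄ +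
    C₅ * (1 + (896 + 401408 * D)), ?_⟩
  intro n g m x y hn hg hm
  have a1 := cB0a_runs (J := J) n g m (ar (wS g) n x : List (SSym E)) (ar (wS g) n y)
  have a2 := cB0b_runs (J := J) n g m (ar (wS g) n x : List (SSym E)) (ar (wS g) n y)
  have a3 := cB0c_runs (J := J) n g m (ar (wS g) n x : List (SSym E)) (ar (wS g) n y)
  have a4 := pad_step n g m [] [] [] [] [] (ar (wS g) n x) [] [] h1 hg y
  have a5 := cB1_runs (J := J) n g m (ar g (n * 2 ^ (g + 6)) fun k =>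
    chk g (y (k / 2 ^ (g + 6))) (k % 2 ^ (g + 6)) : List (SSym E)) [] [] [] [] []
    (ar (wS g) n x) [] []
  have a6 := in_step n g m (una (20 * (g + 6) + (g + 6))) [] [] [] (ar (wS g) n x) [] [] h2 hg y
  have a7 := cB2_runs (J := J) n g m
    (pa g n fun q i => (chk g (y q) i * 2 ^ bB g, 0) : List (SSym E))
    (pb g n fun q i => (chk g (y q) i * 2 ^ bB g, 0)) (una (bS g)) (una (bB g))
    (una (20 * (g + 6) + (g + 6))) (una g) [] [] [] (ar (wS g) n x) [] []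
  have a8 := root_step n g m (una (20 * (g + 6) + (g + 6))) (una g) [] (ar (wS g) n x) [] [] h3 h4
    (pa g n fun q i => (chk g (y q) i * 2 ^ bB g, 0))
    (pb g n fun q i => (chk g (y q) i * 2 ^ bB g, 0))
  have hB : bB g < bS g := by unfold bS bB; omega
  have hlt : 2 ^ bB g < 2 ^ bS g := Nat.pow_lt_pow_right (by norm_num) hB
  have hl := rt_le (bB g) (g + 5)
  have r1 : (rho g).1 < 2 ^ bS g := by simp only [rho, cjR]; exact lt_of_le_of_lt hl.1 hlt
  have r2 : (rho g).2 < 2 ^ bS g := sbR_lt ..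
  have hc : ∀ q i, chk g (y q) i * 2 ^ bB g < 2 ^ bS g := by
    intro q i
    calc chk g (y q) i * 2 ^ bB g < 2 ^ g * 2 ^ bB g :=
          Nat.mul_lt_mul_of_pos_right (chk_lt _ _ _) (by positivity)
      _ = 2 ^ (g + bB g) := by rw [pow_add]
      _ ≤ 2 ^ bS g := Nat.pow_le_pow_right (by norm_num) (by unfold bS bB; omega)
  have hm' : 9 * (n * 2 ^ (g + 6) * 1 * bS g) ≤ m := by
    have := b_in (n := n) (g := g) hg
    rw [Nat.mul_one]
    omega
  have a9 := dft_step n g m (una (20 * (g + 6) + (g + 6))) (una g) [] (ar (wS g) n x) [] [] h5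
    (rho g) (fun q i => (chk g (y q) i * 2 ^ bB g, 0)) hn r1 r2 (fun q i => hc q i)
    (fun _ _ => by positivity) hm'
  have a10 := cB3_runs (J := J) n g m
    (pa g n fun q k => cdf g (y q) k : List (SSym E)) (pb g n fun q k => cdf g (y q) k)
    (una (bB g)) (una (20 * (g + 6) + (g + 6))) (una g) (wd (bS g) (rho g).1)
    (wd (bS g) (rho g).2) [] (ar (wS g) n x)
  refine (a1.seq (a2.seq (a3.seq (a4.seq (a5.seq (a6.seq (a7.seq (a8.seq
    (a9.seq a10))))))))).mono ?_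
  have w1 : n * wS g ≤ qt Tb n g m := b_W Tb hg
  have w2 := b_pow hn hg
  have w3 := b_g hn hg
  have w4 := b_in (n := n) hg
  have w5 := b_dft (n := n) hT hg
  have w6 := b_root hT hn hg
  have w7 : (g + 1) * 2 ^ (g + 5) ≤ 2 * (n * wS g) := by
    calc (g + 1) * 2 ^ (g + 5) ≤ (2 * g) * 2 ^ (g + 5) := Nat.mul_le_mul_right _ (by omega)
      _ = 2 * (1 * wS g) := by unfold wS; ring
      _ ≤ 2 * (n * wS g) := Nat.mul_le_mul_left _ (Nat.mul_le_mul_right _ hn)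
  have w8 : m + Tb m + n * wS g * g = qt Tb n g m := rfl
  have w9 : wS g ≤ n * wS g := Nat.le_mul_of_pos_left _ hn
  simp only [len_ar, pa, pb]
  set Q := qt Tb n g m with hQ
  have u1 : C₁ * (n * wS g + 1) ≤ 2 * C₁ * Q :=
    le_trans (Nat.mul_le_mul_left _ (by omega)) (le_of_eq (by ring) : C₁ * (2 * Q) ≤ _)
  have u2 : C₂ * (n * 2 ^ (g + 6) * bS g + 1) ≤ 897 * C₂ * Q := by
    have v : n * 2 ^ (g + 6) * bS g + 1 ≤ 897 * Q := by
      have w3' : 1 ≤ n * wS g := by omega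
      clear_value Q
      clear * - w4 w1 w3'
      generalize n * 2 ^ (g + 6) * bS g = V at w4 ⊢
      omega
    calc C₂ * (n * 2 ^ (g + 6) * bS g + 1) ≤ C₂ * (897 * Q) := Nat.mul_le_mul_left _ v
      _ = 897 * C₂ * Q := by ring
  have u3 : C₃ * ((g + 5 + 1) * bB g * (bS g + Tt (bS g))) ≤
      C₃ * (48020 * (64 + 4096 * D)) * Q := by
    calc C₃ * ((g + 5 + 1) * bB g * (bS g + Tt (bS g)))
        ≤ C₃ * ((48020 * (64 + 4096 * D)) * (n * wS g)) := Nat.mul_le_mul_left _ w6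
      _ ≤ C₃ * ((48020 * (64 + 4096 * D)) * Q) :=
          Nat.mul_le_mul_left _ (Nat.mul_le_mul_left _ w1)
      _ = _ := by ring
  have u4 : C₄ * bS g ≤ 448 * C₄ * Q := by
    have : bS g ≤ 448 * Q := by unfold bS; omega
    exact le_trans (Nat.mul_le_mul_left _ this) (le_of_eq (by ring))
  have u5 : C₅ * (m + Tb m + n * 2 ^ (g + 6) * 1 * (bS g + Tt (bS g))) ≤
      C₅ * (1 + (896 + 401408 * D)) * Q := by
    have v1 : m + Tb m ≤ Q := by omega
    have v2 : n * wS g * g ≤ Q := by omega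
    calc C₅ * (m + Tb m + n * 2 ^ (g + 6) * 1 * (bS g + Tt (bS g)))
        ≤ C₅ * (Q + (896 + 401408 * D) * Q) := by
          refine Nat.mul_le_mul_left _ (Nat.add_le_add v1 ?_)
          rw [Nat.mul_one]
          exact le_trans w5 (Nat.mul_le_mul_left _ v2)
      _ = _ := by ring
  have e : (100000 + 2 * C₁ + 897 * C₂ + C₃ * (48020 * (64 + 4096 * D)) + 448 * C₄ +
      C₅ * (1 + (896 + 401408 * D))) * Q = 100000 * Q + 2 * C₁ * Q + 897 * C₂ * Q +
        C₃ * (48020 * (64 + 4096 * D)) * Q + 448 * C₄ * Q +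
        C₅ * (1 + (896 + 401408 * D)) * Q := by ring
  rw [e]
  have w10 : 2 ^ (g + 5) * (g + 1) = (g + 1) * 2 ^ (g + 5) := Nat.mul_comm _ _
  have w11 : bS g = 64 * (g + 6) := rfl
  omega

theorem part2 (h1 : PadSpec pad C₁) (h2 : InSpec inp C₂) (h4 : CjSpec cj C₄)
    (h5 : DftSpec dp Tb Tt C₅) (h6 : PwSpec pw Tt C₆) (h7 : OutSpec outp C₇)
    (h8 : RelSpec rel C₈) (hT : ∀ k, 1 ≤ k → Tt k ≤ D * k ^ 2) :
    ∃ K, ∀ (n g m : ℕ) (x y : ℕ → ℕ), 1 ≤ n → 1 ≤ g → 8064 * (n * wS g) ≤ m →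
      Runs (bmP2 pad inp cj dp pw outp rel)
        ((bs n g m [] [] (una (wS g)) (una (bB g)) (una (bB g + (g + 6))) (una g)
          (wd (bS g) (rho g).1) (wd (bS g) (rho g).2) [] (ar (wS g) n x) []
          (pa g n fun q k => cdf g (y q) k) (pb g n fun q k => cdf g (y q) k)).st)
        (({ n3 := ar (wS g) n fun q => (∑ i ∈ Finset.range (2 ^ (g + 5)),
          czt g (x q) (y q) i * 2 ^ (g * i)) % 2 ^ wS g } : BV E).st)
        (K * qt Tb n g m) := by
  refine ⟨100000 + 2 * C₁ + 897 * C₂ + 448 * C₄ +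
    2 * C₅ * (1 + (896 + 401408 * D)) + C₆ * (897 + 401408 * D) + 897 * C₇ + 2 * C₈, ?_⟩
  intro n g m x y hn hg hm
  have hB : bB g < bS g := by unfold bS bB; omega
  have hlt : 2 ^ bB g < 2 ^ bS g := Nat.pow_lt_pow_right (by norm_num) hB
  have hl := rt_le (bB g) (g + 5)
  have r1 : (rho g).1 < 2 ^ bS g := by simp only [rho, cjR]; exact lt_of_le_of_lt hl.1 hlt
  have r2 : (rho g).2 < 2 ^ bS g := sbR_lt ..
  have r3 : (rt (bB g) (g + 5)).1 < 2 ^ bS g := lt_of_le_of_lt hl.1 hlt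
  have r4 : (rt (bB g) (g + 5)).2 < 2 ^ bS g := lt_of_le_of_lt hl.2 hlt
  have hc : ∀ q i, chk g (x q) i * 2 ^ bB g < 2 ^ bS g := by
    intro q i
    calc chk g (x q) i * 2 ^ bB g < 2 ^ g * 2 ^ bB g :=
          Nat.mul_lt_mul_of_pos_right (chk_lt _ _ _) (by positivity)
      _ = 2 ^ (g + bB g) := by rw [pow_add]
      _ ≤ 2 ^ bS g := Nat.pow_le_pow_right (by norm_num) (by unfold bS bB; omega)
  have hm' : 9 * (n * 2 ^ (g + 6) * 1 * bS g) ≤ m := by
    have := b_in (n := n) (g := g) hg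
    rw [Nat.mul_one]
    omega
  have c1 : ∀ z i, (cdf g z i).1 < 2 ^ bS g := fun z i => (dft_lt hB.le _ _ _ _).1
  have c2 : ∀ z i, (cdf g z i).2 < 2 ^ bS g := fun z i => (dft_lt hB.le _ _ _ _).2
  have a1 := pad_step n g m (una (bB g)) (una (bB g + (g + 6))) (una g)
    (wd (bS g) (rho g).1) (wd (bS g) (rho g).2) []
    (pa g n fun q k => cdf g (y q) k) (pb g n fun q k => cdf g (y q) k) h1 hg x
  have a2 := cB4_runs (J := J) n g m (ar g (n * 2 ^ (g + 6)) fun k =>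
    chk g (x (k / 2 ^ (g + 6))) (k % 2 ^ (g + 6)) : List (SSym E)) [] (una (bB g))
    (una (bB g + (g + 6))) (una g) (wd (bS g) (rho g).1) (wd (bS g) (rho g).2) [] [] []
    (pa g n fun q k => cdf g (y q) k) (pb g n fun q k => cdf g (y q) k)
  have a3 := in_step n g m (una (bB g + (g + 6))) (wd (bS g) (rho g).1)
    (wd (bS g) (rho g).2) [] [] (pa g n fun q k => cdf g (y q) k)
    (pb g n fun q k => cdf g (y q) k) h2 hg x
  have a4 := dft_step n g m (una (bB g + (g + 6))) (una g) [] []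
    (pa g n fun q k => cdf g (y q) k) (pb g n fun q k => cdf g (y q) k) h5
    (rho g) (fun q i => (chk g (x q) i * 2 ^ bB g, 0)) hn r1 r2 (fun q i => hc q i)
    (fun _ _ => by positivity) hm'
  have a5 := pw_step n g m (una (bB g + (g + 6))) (una g) (wd (bS g) (rho g).1)
    (wd (bS g) (rho g).2) [] [] h6 (fun q k => cdf g (x q) k) (fun q k => cdf g (y q) k)
    (fun q i => c1 _ _) (fun q i => c2 _ _) (fun q i => c1 _ _) (fun q i => c2 _ _)
  have a6 := cj_step n g m (una (bB g)) (una (bB g + (g + 6))) (una g) [] [] [] [] h4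
    (pa g n fun q i => cmR (bS g) (bB g) (cdf g (x q) i) (cdf g (y q) i))
    (pb g n fun q i => cmR (bS g) (bB g) (cdf g (x q) i) (cdf g (y q) i))
  have a7 := dft_step n g m (una (bB g + (g + 6))) (una g) [] [] [] [] h5
    (rt (bB g) (g + 5)) (fun q i => cmR (bS g) (bB g) (cdf g (x q) i) (cdf g (y q) i)) hn r3 r4
    (fun q i => (cmR_lt hB.le _ _).1) (fun q i => (cmR_lt hB.le _ _).2) hm'
  have a8 := cB5_runs (J := J) n g m
    (pa g n fun q k => dft (bS g) (bB g) (2 ^ (g + 6)) (rt (bB g) (g + 5))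
      (fun i => cmR (bS g) (bB g) (cdf g (x q) i) (cdf g (y q) i)) k : List (SSym E))
    (pb g n fun q k => dft (bS g) (bB g) (2 ^ (g + 6)) (rt (bB g) (g + 5))
      (fun i => cmR (bS g) (bB g) (cdf g (x q) i) (cdf g (y q) i)) k)
    (una (bS g)) (una (bB g)) (una (bB g + (g + 6))) (wd (bS g) (rt (bB g) (g + 5)).1)
    (wd (bS g) (rt (bB g) (g + 5)).2) [] [] [] [] []
  have a9 := out_step n g m (una (bB g)) (wd (bS g) (rt (bB g) (g + 5)).1)
    (wd (bS g) (rt (bB g) (g + 5)).2) [] [] [] [] h7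
    (fun q k => dft (bS g) (bB g) (2 ^ (g + 6)) (rt (bB g) (g + 5))
      (fun i => cmR (bS g) (bB g) (cdf g (x q) i) (cdf g (y q) i)) k)
    (fun q i => (dft_lt hB.le _ _ _ _).1)
  have a10 := rel_step n g m (una (bS g)) (una (bB g)) (una (bB g + (g + 6)))
    (wd (bS g) (rt (bB g) (g + 5)).1) (wd (bS g) (rt (bB g) (g + 5)).2) [] [] [] h8 hg
    (fun q t => czt g (x q) (y q) t) (fun q i => Nat.mod_lt _ (by positivity))
  have a11 := cB6_runs (J := J) n g m (una (bS g)) (una (bB g)) (una (bB g + (g + 6)))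
    (una (3 * (g + 6))) (wd (bS g) (rt (bB g) (g + 5)).1)
    (wd (bS g) (rt (bB g) (g + 5)).2)
    (ar (wS g) n fun q => (∑ i ∈ Finset.range (2 ^ (g + 5)),
          czt g (x q) (y q) i * 2 ^ (g * i)) % 2 ^ wS g : List (SSym E))
  refine (a1.seq (a2.seq (a3.seq (a4.seq (a5.seq (a6.seq (a7.seq (a8.seq
    (a9.seq (a10.seq a11)))))))))).mono ?_
  have w1 : n * wS g ≤ qt Tb n g m := b_W Tb hg
  have w2 := b_pow hn hg
  have w3 := b_g hn hg
  have w4 := b_in (n := n) hg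
  have w5 := b_dft (n := n) hT hg
  have w8 : m + Tb m + n * wS g * g = qt Tb n g m := rfl
  have w9 : wS g ≤ n * wS g := Nat.le_mul_of_pos_left _ hn
  have w12 : n ≤ n * wS g := Nat.le_mul_of_pos_right _ (Nat.mul_pos (by positivity) hg)
  have w13 : 2 ^ (g + 6) = 2 * 2 ^ (g + 5) := by ring
  simp only [len_wd, len_una]
  set Q := qt Tb n g m with hQ
  have v1 : m + Tb m ≤ Q := by omega
  have v2 : n * wS g * g ≤ Q := by omega
  have u1 : C₁ * (n * wS g + 1) ≤ 2 * C₁ * Q :=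
    le_trans (Nat.mul_le_mul_left _ (by omega)) (le_of_eq (by ring) : C₁ * (2 * Q) ≤ _)
  have u2 : C₂ * (n * 2 ^ (g + 6) * bS g + 1) ≤ 897 * C₂ * Q := by
    have v : n * 2 ^ (g + 6) * bS g + 1 ≤ 897 * Q := by
      have w3' : 1 ≤ n * wS g := by omega
      clear_value Q
      clear * - w4 w1 w3'
      generalize n * 2 ^ (g + 6) * bS g = V at w4 ⊢
      omega
    calc C₂ * (n * 2 ^ (g + 6) * bS g + 1) ≤ C₂ * (897 * Q) := Nat.mul_le_mul_left _ v
      _ = 897 * C₂ * Q := by ring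
  have u4 : C₄ * bS g ≤ 448 * C₄ * Q := by
    have : bS g ≤ 448 * Q := by unfold bS; omega
    exact le_trans (Nat.mul_le_mul_left _ this) (le_of_eq (by ring))
  have u5 : C₅ * (m + Tb m + n * 2 ^ (g + 6) * 1 * (bS g + Tt (bS g))) ≤
      C₅ * (1 + (896 + 401408 * D)) * Q := by
    calc C₅ * (m + Tb m + n * 2 ^ (g + 6) * 1 * (bS g + Tt (bS g)))
        ≤ C₅ * (Q + (896 + 401408 * D) * Q) := by
          refine Nat.mul_le_mul_left _ (Nat.add_le_add v1 ?_)
          rw [Nat.mul_one]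
          exact le_trans w5 (Nat.mul_le_mul_left _ v2)
      _ = _ := by ring
  have u6 : C₆ * (n * 2 ^ (g + 6) * (bS g + Tt (bS g)) + 1) ≤
      C₆ * (897 + 401408 * D) * Q := by
    have v3 : 1 ≤ Q := by omega
    calc C₆ * (n * 2 ^ (g + 6) * (bS g + Tt (bS g)) + 1)
        ≤ C₆ * ((896 + 401408 * D) * Q + Q) :=
          Nat.mul_le_mul_left _ (Nat.add_le_add (le_trans w5 (Nat.mul_le_mul_left _ v2)) v3)
      _ = _ := by ring
  have u7 : C₇ * (n * 2 ^ (g + 6) * bS g + 1) ≤ 897 * C₇ * Q := by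
    have v : n * 2 ^ (g + 6) * bS g + 1 ≤ 897 * Q := by
      have w3' : 1 ≤ n * wS g := by omega
      clear_value Q
      clear * - w4 w1 w3'
      generalize n * 2 ^ (g + 6) * bS g = V at w4 ⊢
      omega
    calc C₇ * (n * 2 ^ (g + 6) * bS g + 1) ≤ C₇ * (897 * Q) := Nat.mul_le_mul_left _ v
      _ = 897 * C₇ * Q := by ring
  have u8 : C₈ * (n * wS g + 1) ≤ 2 * C₈ * Q :=
    le_trans (Nat.mul_le_mul_left _ (by omega)) (le_of_eq (by ring) : C₈ * (2 * Q) ≤ _)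
  have e : (100000 + 2 * C₁ + 897 * C₂ + 448 * C₄ +
      2 * C₅ * (1 + (896 + 401408 * D)) + C₆ * (897 + 401408 * D) + 897 * C₇ + 2 * C₈) * Q =
        100000 * Q + 2 * C₁ * Q + 897 * C₂ * Q + 448 * C₄ * Q +
        2 * (C₅ * (1 + (896 + 401408 * D)) * Q) + C₆ * (897 + 401408 * D) * Q +
        897 * C₇ * Q + 2 * C₈ * Q := by ring
  rw [e]
  have w11 : bS g = 64 * (g + 6) := rfl
  have w14 : bB g = 20 * (g + 6) := rfl
  omega

end

/-- The program. -/
def bmP (pad inp root cj dp pw outp rel : PW J E) : PW J E :=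
  (bmP1 pad inp root cj dp).seq (bmP2 pad inp cj dp pw outp rel)

theorem bm_of {pad inp root cj dp pw outp rel : PW J E} {Tb Tt : ℕ → ℕ}
    {C₁ C₂ C₃ C₄ C₅ C₆ C₇ C₈ D : ℕ} (h1 : PadSpec pad C₁) (h2 : InSpec inp C₂)
    (h3 : RootSpec root Tt C₃) (h4 : CjSpec cj C₄)
    (h5 : DftSpec dp Tb Tt C₅) (h6 : PwSpec pw Tt C₆) (h7 : OutSpec outp C₇)
    (h8 : RelSpec rel C₈) (hT : ∀ k, 1 ≤ k → Tt k ≤ D * k ^ 2) (hp : BmPure2) :
    ∃ C, BmSpec (bmP pad inp root cj dp pw outp rel) Tb C := by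
  obtain ⟨K₁, k1⟩ := part1 (J := J) (E := E) h1 h2 h3 h4 h5 hT
  obtain ⟨K₂, k2⟩ := part2 (J := J) (E := E) h1 h2 h4 h5 h6 h7 h8 hT
  refine ⟨K₁ + K₂ + 1, ?_⟩
  intro n g m x y hn hg hm hx hy
  have a1 := k1 n g m x y hn hg hm
  have a2 := k2 n g m x y hn hg hm
  have e0 : (fun _ => [] : SW J E) = (({} : BV E).st) := by
    apply sw_ext
    · intro j; rfl
    · intro q; cases q <;> rfl
  have e1 : (asW [(.N1, ar (wS g) n x), (.N2, ar (wS g) n y), (.HX, una n), (.UU, una g),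
      (.MM, una m)] : SW J E) = (({ hx := una n, uu := una g, mm := una m
                                    n1 := ar (wS g) n x, n2 := ar (wS g) n y } : BV E).st) := by
    simp only [asW]
    rw [e0]
    simp only [BV.set_MM, BV.set_UU, BV.set_HX, BV.set_N2, BV.set_N1]
  have e2 : (asW [(.N3, ar (wS g) n fun q => muR (wS g) (x q) (y q))] : SW J E) =
      (({ n3 := ar (wS g) n fun q => (∑ i ∈ Finset.range (2 ^ (g + 5)),
          czt g (x q) (y q) i * 2 ^ (g * i)) % 2 ^ wS g } : BV E).st) := by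
    simp only [asW]
    rw [e0]
    simp only [BV.set_N3]
    congr 3
    funext q
    exact (hp g (x q) (y q) hg (hx q) (hy q)).symm
  unfold WRun
  rw [e1, e2]
  refine (a1.seq a2).mono ?_
  have v : 1 ≤ qt Tb n g m := by
    have := b_W (n := n) (m := m) Tb hg
    have := b_g hn hg
    omega
  have w8 : m + Tb m + n * wS g * g = qt Tb n g m := rfl
  rw [w8]
  set Q := qt Tb n g m
  have e : (K₁ + K₂ + 1) * Q = K₁ * Q + K₂ * Q + Q := by ring
  rw [e]
  omega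

end Vale.Agent.P338.GS.Bm
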