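import Vale.Agent.P338.GS.Base
import Vale.Agent.P338.TopLib

/-!
# P338, matrices of every shape: simple commands
-/

namespace Vale.Agent.P338.GS

open Vale.Agent.P338

variable {J E : Type} [DecidableEq J]

/-- Our stacks as stacks of the whole store. -/
abbrev wg {J : Type} (r : W) : Loc J ⊕ W := Sum.inr r

/-- Simple commands. The stacks `F5` and `F6` are scratch stacks. -/
inductive GC (E : Type) : Type
  | cp : W → W → GC E
  | push : W → SSym E → GC E
  | pop : W → GC E
  | clr : W → GC E
  | rev : W → W → GC E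
  | scl : ℕ → W → W → GC E
  | mul : W → W → W → GC E
  | pw2 : W → W → GC E
  | sub : W → W → GC E

/-- `b := 2 ^ a`. -/
def pow2P (a b : W) : PW J E :=
  (Prog.push (wg b) mk).seq (Prog.forr (wg a) (wg .F5)
    ((Prog.forr (wg b) (wg .F6) (Prog.pushN 1 (wg .F4) mk)).seq (Prog.rev (wg .F4) (wg b))))

/-- The program of a command. -/
def GC.prog : GC E → PW J E
  | .cp a b => Prog.copyOnto (wg a) (wg b) (wg .F5)
  | .push a x => Prog.push (wg a) x
  | .pop a => Prog.pop (wg a)
  | .clr a => Prog.clear (wg a)
  | .rev a b => Prog.rev (wg a) (wg b)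
  | .scl k a b => Prog.forr (wg a) (wg .F5) (Prog.pushN k (wg b) mk)
  | .mul a c b => Prog.mulOnto (wg a) (wg .F5) (wg c) (wg .F6) 1 (wg b) mk
  | .pw2 a b => pow2P a b
  | .sub u b => Prog.forr (wg u) (wg .F5) (Prog.pop (wg b))

/-- The effect of a command. -/
def GC.eff : GC E → SW J E → SW J E
  | .cp a b, s => s.set b (s.at a ++ s.at b)
  | .push a x, s => s.set a (x :: s.at a)
  | .pop a, s => s.set a (s.at a).tail
  | .clr a, s => s.set a []
  | .rev a b, s => (s.set a []).set b ((s.at a).reverse ++ s.at b)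
  | .scl k a b, s => s.set b (una ((s.at a).length * k) ++ s.at b)
  | .mul a c b, s => s.set b (una ((s.at a).length * (s.at c).length) ++ s.at b)
  | .pw2 a b, s => s.set b (una (2 ^ (s.at a).length))
  | .sub u b, s => s.set b ((s.at b).drop (s.at u).length)

/-- The condition under which a command works. -/
def GC.ok : GC E → SW J E → Prop
  | .cp a b, s => a ≠ b ∧ a ≠ .F5 ∧ b ≠ .F5 ∧ s.at .F5 = []
  | .push _ _, _ => True
  | .pop _, _ => True
  | .clr _, _ => True
  | .rev a b, _ => a ≠ b
  | .scl _ a b, s => a ≠ b ∧ a ≠ .F5 ∧ b ≠ .F5 ∧ s.at .F5 = [] ∧ ∃ n, s.at a = una n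
  | .mul a c b, s => a ≠ b ∧ a ≠ c ∧ c ≠ b ∧ a ≠ .F5 ∧ b ≠ .F5 ∧ c ≠ .F5 ∧ a ≠ .F6 ∧ b ≠ .F6 ∧
      c ≠ .F6 ∧ s.at .F5 = [] ∧ s.at .F6 = [] ∧ (∃ n, s.at a = una n) ∧ ∃ n, s.at c = una n
  | .pw2 a b, s => a ≠ b ∧ a ≠ .F4 ∧ a ≠ .F5 ∧ a ≠ .F6 ∧ b ≠ .F4 ∧ b ≠ .F5 ∧ b ≠ .F6 ∧
      s.at .F4 = [] ∧ s.at .F5 = [] ∧ s.at .F6 = [] ∧ s.at b = [] ∧ ∃ n, s.at a = una n
  | .sub u b, s => u ≠ b ∧ u ≠ .F5 ∧ b ≠ .F5 ∧ s.at .F5 = [] ∧ ∃ n, s.at u = una n

/-- A bound for the time of a command. -/
def GC.cost : GC E → SW J E → ℕ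
  | .cp a _, s => 6 * (s.at a).length + 1
  | .push _ _, _ => 1
  | .pop _, _ => 1
  | .clr a, s => 3 * (s.at a).length
  | .rev a _, s => 3 * (s.at a).length
  | .scl k a _, s => (s.at a).length * (2 * k + 8) + 1
  | .mul a c _, s => (s.at a).length * ((s.at c).length * 10 + 8) + 1
  | .pw2 a _, s => 40 * 2 ^ (s.at a).length
  | .sub u _, s => 8 * (s.at u).length + 1

theorem pow2P_runs {a b : W} (s : SW J E) (hab : a ≠ b) (h4 : a ≠ .F4) (h5 : a ≠ .F5)
    (h6 : a ≠ .F6) (g4 : b ≠ .F4) (g5 : b ≠ .F5) (g6 : b ≠ .F6) (e4 : s.at .F4 = [])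
    (e5 : s.at .F5 = []) (e6 : s.at .F6 = []) (eb : s.at b = []) {n : ℕ}
    (ha : s.at a = una n) :
    Runs (pow2P a b : PW J E) s (s.set b (una (2 ^ n))) (40 * 2 ^ n) := by
  have h1 := Runs.push (wg b : Loc J ⊕ W) (mk : SSym E) s
  have hF : ∀ k, (fun k => s.set b (una (2 ^ k)) : ℕ → SW J E) k = s.set b (una (2 ^ k)) :=
    fun _ => rfl
  have h2 := Runs.forr' (u := (wg a : Loc J ⊕ W)) (t := wg .F5) (by simpa using h5)
    (body := (Prog.forr (wg b) (wg .F6) (Prog.pushN 1 (wg .F4) mk)).seq
      (Prog.rev (wg .F4) (wg b))) n (mk : SSym E)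
    (fun k => s.set b (una (2 ^ k))) (fun k => 13 * 2 ^ k + 2)
    (fun k _ => by
      simp only [SW.set]
      rw [Function.update_of_ne (by simpa using hab)]; exact ha)
    (fun k _ => by
      simp only [SW.set]
      rw [Function.update_of_ne (by simpa using g5.symm)]; exact e5)
    (by
      intro k hk l l'
      set s1 : SW J E := Function.update (Function.update (s.set b (una (2 ^ k)))
        (wg a) l) (wg .F5) l' with hs1
      have b1 : s1 (wg b) = List.replicate (2 ^ k) mk := by
        simp only [hs1, SW.set]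
        rw [Function.update_of_ne (by simpa using g5), Function.update_of_ne
          (by simpa using hab.symm), Function.update_self]
        rfl
      have b2 : s1 (wg .F6) = [] := by
        simp only [hs1, SW.set]
        rw [Function.update_of_ne (by simp), Function.update_of_ne
          (by simpa using h6.symm), Function.update_of_ne (by simpa using g6.symm)]
        exact e6
      have b3 : s1 (wg .F4) = [] := by
        simp only [hs1, SW.set]
        rw [Function.update_of_ne (by simp), Function.update_of_ne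
          (by simpa using h4.symm), Function.update_of_ne (by simpa using g4.symm)]
        exact e4
      have r1 := Runs.scaleOnto (v := (wg b : Loc J ⊕ W)) (t' := wg .F6) (i := wg .F4)
        (by simpa using g6) (by simpa using g4) (by simp) 1 (mk : SSym E) mk s1 (2 ^ k) b1 b2
      have r2 := Runs.rev (i := (wg .F4 : Loc J ⊕ W)) (j := wg b) (by simpa using g4.symm)
        (Function.update s1 (wg .F4) (List.replicate (2 ^ k * 1) mk ++ s1 (wg .F4)))
      refine ((r1.seq r2).mono ?_).of_eq ?_
      · rw [Function.update_self, b3]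
        simp only [List.append_nil, List.length_replicate]
        omega
      · rw [Function.update_self, b3, Function.update_of_ne (by simpa using g4), b1]
        simp only [List.append_nil, mul_one, Function.update_idem, List.reverse_replicate,
          List.replicate_append_replicate]
        have e : 2 ^ k + 2 ^ k = 2 ^ (k + 1) := by ring
        rw [e]
        have e' : Function.update s1 (wg .F4) [] = s1 := by
          rw [← b3]; exact Function.update_eq_self _ _
        rw [e', hs1]
        have n1 : (wg b : Loc J ⊕ W) ≠ wg a := by simpa using hab.symm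
        have n2 : (wg b : Loc J ⊕ W) ≠ wg .F5 := by simpa using g5
        simp only [SW.set]
        funext q
        simp only [Function.update_apply]
        by_cases q1 : q = wg b
        · subst q1
          rw [if_pos rfl, if_neg n2, if_neg n1, if_pos rfl]
          rfl
        · by_cases q2 : q = wg .F5
          · rw [if_neg q1, if_pos q2, if_pos q2]
          · by_cases q3 : q = wg a
            · rw [if_neg q1, if_neg q2, if_pos q3, if_neg q2, if_pos q3]
            · rw [if_neg q1, if_neg q2, if_neg q3, if_neg q1, if_neg q2, if_neg q3, if_neg q1])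
  have e0 : s.set b (una (2 ^ 0)) = Function.update s (wg b) (mk :: s (wg b)) := by
    have : s (wg b) = [] := eb
    rw [this]; rfl
  rw [e0] at h2
  refine (h1.seq h2).mono ?_
  have h3 : ∑ k ∈ Finset.range n, (13 * 2 ^ k + 2 + 4) = 13 * (2 ^ n - 1) + 6 * n := by
    have : ∑ k ∈ Finset.range n, 2 ^ k = 2 ^ n - 1 := by
      have := Nat.geomSum_eq (m := 2) le_rfl n
      simpa using this
    rw [← this, Finset.mul_sum, Finset.sum_congr rfl fun k _ =>
      show 13 * 2 ^ k + 2 + 4 = 13 * 2 ^ k + 6 by ring, Finset.sum_add_distrib]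
    simp [mul_comm]
  rw [h3]
  have h4 : n < 2 ^ n := Nat.lt_two_pow_self
  omega

theorem GC.runs (c : GC E) (s : SW J E) (h : c.ok s) :
    Runs (c.prog : PW J E) s (c.eff s) (c.cost s) := by
  cases c with
  | cp a b =>
    obtain ⟨h1, h2, h3, h4⟩ := h
    exact Runs.copyOnto (by simpa using h1) (by simpa using h2) (by simpa using h3) s h4
  | push a x => exact Runs.push (wg a) x s
  | pop a => exact Runs.pop (wg a) s
  | clr a => exact Runs.clear (wg a) s
  | rev a b =>
    have h1 : a ≠ b := h
    refine (Runs.rev (i := (wg a : Loc J ⊕ W)) (j := wg b) (by simpa using h1) s)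
  | scl k a b =>
    obtain ⟨h1, h2, h3, h4, n, h5⟩ := h
    have r := Runs.scaleOnto (v := (wg a : Loc J ⊕ W)) (t' := wg .F5) (i := wg b)
        (by simpa using h2) (by simpa using h1) (by simpa using h3.symm) k (mk : SSym E) mk s n
        h5 h4
    refine (r.mono ?_).of_eq ?_
    · simp only [GC.cost]; rw [h5]; simp [una]
    · simp only [GC.eff]; rw [h5]; simp [una, SW.set, SW.at]
  | mul a c b =>
    obtain ⟨h1, h2, h3, h4, h5, h6, h7, h8, h9, e5, e6, ⟨n, ha⟩, n', hc⟩ := h
    have r := Runs.mulOnto (u := (wg a : Loc J ⊕ W)) (t := wg .F5) (v := wg c) (t' := wg .F6)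
      (i := wg b) (by simpa using h4) (by simpa using h2) (by simpa using h7)
      (by simpa using h1) (by simpa using h6.symm) (by simp) (by simpa using h5.symm)
      (by simpa using h9) (by simpa using h3) (by simpa using h8.symm) 1
      (mk : SSym E) mk mk s n n' ha hc e5 e6
    refine (r.mono ?_).of_eq ?_
    · simp only [GC.cost]; rw [ha, hc]; simp [una]
    · simp only [GC.eff]; rw [ha, hc]; simp [una, SW.set, SW.at]
  | pw2 a b =>
    obtain ⟨h1, h2, h3, h4, h5, h6, h7, e4, e5, e6, eb, n, ha⟩ := h
    have r := pow2P_runs s h1 h2 h3 h4 h5 h6 h7 e4 e5 e6 eb ha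
    have hl : (s.at a).length = n := by rw [ha]; simp [una]
    simp only [GC.cost, GC.eff, hl]
    exact r
  | sub u b =>
    obtain ⟨h1, h2, h3, h4, n, h5⟩ := h
    have r := Runs.forr' (u := (wg u : Loc J ⊕ W)) (t := wg .F5) (by simpa using h2)
      (body := Prog.pop (wg b)) n (mk : SSym E)
      (fun k => s.set b ((s.at b).drop k)) (fun _ => 1)
      (fun k _ => by
        simp only [SW.set]
        rw [Function.update_of_ne (by simpa using h1)]; exact h5)
      (fun k _ => by
        simp only [SW.set]
        rw [Function.update_of_ne (by simpa using h3.symm)]; exact h4)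
      (by
        intro k hk l l'
        refine (Runs.pop _ _).of_eq ?_
        simp only [SW.set]
        funext q
        simp only [Function.update_apply]
        have n1 : (wg b : Loc J ⊕ W) ≠ wg u := by simpa using h1.symm
        have n2 : (wg b : Loc J ⊕ W) ≠ wg .F5 := by simpa using h3
        have n3 : (wg u : Loc J ⊕ W) ≠ wg .F5 := by simpa using h2
        split_ifs <;> simp_all [List.tail_drop])
    have e0 : s.set b ((s.at b).drop 0) = s := by rw [List.drop_zero, set_at]
    rw [e0] at r
    have hl : (s.at u).length = n := by rw [h5]; simp [una]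
    refine (r.mono ?_).of_eq ?_
    · simp only [GC.cost, hl, Finset.sum_const, Finset.card_range, smul_eq_mul]
      omega
    · simp only [GC.eff, hl]

/-! ### Sequences -/

/-- The program of a list of commands. -/
def gcs : List (GC E) → PW J E
  | [] => Prog.skip
  | c :: l => c.prog.seq (gcs l)

/-- The effect of a list of commands. -/
def geffs : List (GC E) → SW J E → SW J E
  | [], s => s
  | c :: l, s => geffs l (c.eff s)

/-- The condition for a list of commands. -/
def goks : List (GC E) → SW J E → Prop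
  | [], _ => True
  | c :: l, s => c.ok s ∧ goks l (c.eff s)

/-- The time of a list of commands. -/
def gcosts : List (GC E) → SW J E → ℕ
  | [], _ => 1
  | c :: l, s => c.cost s + 1 + gcosts l (c.eff s)

theorem gcs_spec (l : List (GC E)) : ∀ s : SW J E, goks l s →
    Runs (gcs l : PW J E) s (geffs l s) (gcosts l s) := by
  induction l with
  | nil => intro s _; exact Runs.skip s
  | cons c l ih => intro s h; exact (c.runs s h.1).seq (ih _ h.2)

/-! ### Unary numbers -/

@[simp] theorem len_una (n : ℕ) : (una n : List (SSym E)).length = n := by simp [una]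

@[simp] theorem una_app (m n : ℕ) : (una m ++ una n : List (SSym E)) = una (m + n) := by
  simp [una]

@[simp] theorem tail_una' (n : ℕ) : (una n : List (SSym E)).tail = una (n - 1) := by
  cases n <;> simp [una, List.replicate_succ]

@[simp] theorem drop_una' (n m : ℕ) : (una n : List (SSym E)).drop m = una (n - m) := by
  simp [una]

theorem una_z : (una 0 : List (SSym E)) = [] := rfl

@[simp] theorem ex_una (n : ℕ) : ∃ m, (una n : List (SSym E)) = una m := ⟨n, rfl⟩

@[simp] theorem ex_una_nil : ∃ m, ([] : List (SSym E)) = una m := ⟨0, rfl⟩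

end Vale.Agent.P338.GS
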