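import Vale.Agent.P338.GS.Proc
import Vale.Agent.P338.GS.Cmd

/-!
# P338, stage 5: the interface

The products of many words are computed together: every word is cut into chunks, and the
discrete Fourier transforms along the chunks are computed for all words at once, with long
multiplications.

Parameters: `g`; words of `wS g = 2 ^ (g + 5) * g = 64 * wL g` bits, `wL g = 2 ^ (g - 1) * g`.
-/

namespace Vale.Agent.P338.GS

open Vale.Agent.P338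

/-- The number `ℓ`. -/
def wL (g : ℕ) : ℕ := 2 ^ (g - 1) * g

/-- The number of bits of a word. -/
def wS (g : ℕ) : ℕ := 2 ^ (g + 5) * g

theorem wS_eq {g : ℕ} (hg : 1 ≤ g) : wS g = 64 * wL g := by
  unfold wS wL
  obtain ⟨k, rfl⟩ : ∃ k, g = k + 1 := ⟨g - 1, by omega⟩
  rw [Nat.add_sub_cancel, show k + 1 + 5 = k + 6 by ring, pow_add]
  ring

variable {J E : Type}

/-- An array of `n` words of `S` bits. -/
def ar (S n : ℕ) (x : ℕ → ℕ) : List (SSym E) := bits (cat n fun q => bitsOf S (x q))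

section

variable [DecidableEq J]

/-- The store with the given contents of some of our stacks, all other stacks empty. -/
def asW : List (W × List (SSym E)) → SW J E
  | [] => fun _ => []
  | x :: L => (asW L).set x.1 x.2

/-- `p` takes the inputs `a` to the outputs `b` in time `T`; all other stacks are empty before
and after. -/
def WRun (p : PW J E) (a b : List (W × List (SSym E))) (T : ℕ) : Prop :=
  Runs p (asW a) (asW b) T

@[simp] theorem asW_nil_at (r : W) : (asW [] : SW J E).at r = [] := rfl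

@[simp] theorem asW_cons_at (x : W × List (SSym E)) (L : List (W × List (SSym E))) (r : W) :
    (asW (x :: L) : SW J E).at r = if r = x.1 then x.2 else (asW L : SW J E).at r :=
  at_set _ _ _ _

@[simp] theorem asW_inl (L : List (W × List (SSym E))) (j : Loc J) :
    (asW L : SW J E) (Sum.inl j) = [] := by
  induction L with
  | nil => rfl
  | cons x L ih => show (asW L).set x.1 x.2 (Sum.inl j) = []; rw [set_inl, ih]

theorem asW_eq (L : List (W × List (SSym E))) :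
    (asW L : SW J E) = asg (L.map fun x => (Sum.inr x.1, x.2)) := by
  induction L with
  | nil => rfl
  | cons x L ih => show (asW L).set x.1 x.2 = _; rw [ih]; rfl

/-! ### Level 0: products -/

/-- Products of words: `n` words on `N1` and on `N2`. -/
def BmSpec (p : PW J E) (Tb : ℕ → ℕ) (C : ℕ) : Prop :=
  ∀ (n g m : ℕ) (x y : ℕ → ℕ), 1 ≤ n → 1 ≤ g → 8064 * (n * wS g) ≤ m →
    (∀ q, x q < 2 ^ wS g) → (∀ q, y q < 2 ^ wS g) →
    WRun p [(.N1, ar (wS g) n x), (.N2, ar (wS g) n y), (.HX, una n), (.UU, una g),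
        (.MM, una m)]
      [(.N3, ar (wS g) n fun q => muR (wS g) (x q) (y q))] (C * (m + Tb m + n * wS g * g))

/-- Zeros are added to every word (on `N1`, result on `XR`). -/
def PadSpec (p : PW J E) (C : ℕ) : Prop :=
  ∀ (n S : ℕ) (x : ℕ → ℕ) (s : SW J E), 1 ≤ S → Cln s → s.at .WS = una S → s.at .XR = [] →
    s.at .N1 = ar S n x →
    Runs p s ((s.set .N1 []).set .XR
      (bits (cat n fun q => bitsOf S (x q) ++ List.replicate S false))) (C * (n * S + 1))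

/-- Pointwise products of the arrays of complex numbers on `XR`, `XI` and on `N4`, `N5`. -/
def PwSpec (p : PW J E) (T : ℕ → ℕ) (C : ℕ) : Prop :=
  ∀ (n S B : ℕ) (x y : ℕ → ℕ × ℕ) (s : SW J E), 1 ≤ B → B < S → Cln s →
    s.at .WS = una S → s.at .WB = una B →
    (∀ q, (x q).1 < 2 ^ S ∧ (x q).2 < 2 ^ S) → (∀ q, (y q).1 < 2 ^ S ∧ (y q).2 < 2 ^ S) →
    s.at .XR = ar S n (fun q => (x q).1) → s.at .XI = ar S n (fun q => (x q).2) →
    s.at .N4 = ar S n (fun q => (y q).1) → s.at .N5 = ar S n (fun q => (y q).2) →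
    Runs p s ((((s.set .N4 []).set .N5 []).set .XR
        (ar S n fun q => (cmR S B (x q) (y q)).1)).set .XI
        (ar S n fun q => (cmR S B (x q) (y q)).2)) (C * (n * (S + T S) + 1))

/-- Carries (from `XR` to `N3`): the coefficients have `3 * (g + 6)` bits (this number is on
`WT`), there are `2 ^ (g + 6)` of them for every word, the last half of which is dropped
(`2 ^ (g + 5)` is on `HM`). -/
def RelSpec (p : PW J E) (C : ℕ) : Prop :=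
  ∀ (n g : ℕ) (z : ℕ → ℕ → ℕ) (s : SW J E), 1 ≤ g → (∀ q i, z q i < 2 ^ (3 * (g + 6))) →
    Cln s → s.at .UU = una g → s.at .WT = una (3 * (g + 6)) → s.at .HM = una (2 ^ (g + 5)) →
    s.at .N3 = [] →
    s.at .XR = bits (cat n fun q => cat (2 ^ (g + 6)) fun i => bitsOf (3 * (g + 6)) (z q i)) →
    Runs p s ((s.set .XR []).set .N3 (ar (wS g) n fun q =>
      (∑ i ∈ Finset.range (2 ^ (g + 5)), z q i * 2 ^ (g * i)) % 2 ^ wS g))
      (C * (n * wS g + 1))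

/-! ### Level 0: arrays -/

/-- Pointwise operations on arrays of words. -/
def ElSpec (p : PW J E) (f : ℕ → ℕ → ℕ → ℕ → ℕ) (C : ℕ) : Prop :=
  ∀ (n ℓ : ℕ) (x y : ℕ → ℕ), 1 ≤ ℓ → (∀ q, x q < 2 ^ (64 * ℓ)) → (∀ q, y q < 2 ^ (64 * ℓ)) →
    WRun p [(.N1, ar (64 * ℓ) n x), (.N2, ar (64 * ℓ) n y), (.LL, una ℓ)]
      [(.N3, ar (64 * ℓ) n fun q => f (64 * ℓ) (20 * ℓ) (x q) (y q))] (C * (n * ℓ + ℓ + 1))

/-- The operations for `ElSpec`. -/
def fSub (S B x y : ℕ) : ℕ := asr S B (sbR S x y)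

/-- The operations for `ElSpec`. -/
def fAdd (S B x y : ℕ) : ℕ := asr S B (adR S x y)

/-- Negation of all words. -/
def NegSpec (p : PW J E) (C : ℕ) : Prop :=
  ∀ (n ℓ : ℕ) (y : ℕ → ℕ), 1 ≤ ℓ → (∀ q, y q < 2 ^ (64 * ℓ)) →
    WRun p [(.N1, ar (64 * ℓ) n y), (.LL, una ℓ)]
      [(.N3, ar (64 * ℓ) n fun q => sbR (64 * ℓ) 0 (y q))] (C * (n * ℓ + ℓ + 1))

/-- Every block of `L` symbols is repeated `R` times. -/
def RepSpec (p : PW J E) (C : ℕ) : Prop :=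
  ∀ (n L R : ℕ) (b : ℕ → List (SSym E)), 1 ≤ L → (∀ i, (b i).length = L) →
    WRun p [(.N1, cat n b), (.HX, una L), (.HR, una R)] [(.N3, cat n fun i => rep R (b i))]
      (C * (n * L * (R + 1) + L + R + 1))

/-- The root `exp (± π * I / 2 ^ (κ + 1))`. -/
def rtc (S B : ℕ) (cj : Bool) (κ : ℕ) : ℕ × ℕ := if cj then cjR S (rt B κ) else rt B κ

/-- An entry of a chirp array. -/
def cA (S B : ℕ) (ρ : ℕ × ℕ) (i : ℕ) : ℕ × ℕ := cmR S B (2 ^ B, 0) (ch S B ρ i)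

/-- An entry of an array of twiddle factors. -/
def tA (S B : ℕ) (γ : ℕ × ℕ) (i j : ℕ) : ℕ × ℕ := cmR S B (2 ^ B, 0) (tw S B γ i j)

/-- A short chirp array, computed sequentially. -/
def SeqChSpec (p : Bool → PW J E) (T : ℕ → ℕ) (C : ℕ) : Prop :=
  ∀ (cj : Bool) (r κ ℓ : ℕ), 1 ≤ r → 1 ≤ ℓ → r < 2 ^ (64 * ℓ - 1) →
    WRun (p cj) [(.HR, una r), (.VV, una κ), (.LL, una ℓ)]
      [(.N1, ar (64 * ℓ) r fun i =>
          (cA (64 * ℓ) (20 * ℓ) (rtc (64 * ℓ) (20 * ℓ) cj κ) i).1),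
        (.N2, ar (64 * ℓ) r fun i =>
          (cA (64 * ℓ) (20 * ℓ) (rtc (64 * ℓ) (20 * ℓ) cj κ) i).2)]
      (C * ((r + (κ + 1) * ℓ) * (64 * ℓ + T (64 * ℓ))))

/-- A short array of twiddle factors, computed sequentially. -/
def SeqTwSpec (p : Bool → PW J E) (T : ℕ → ℕ) (C : ℕ) : Prop :=
  ∀ (cj : Bool) (M N κ ℓ : ℕ), 1 ≤ M → 1 ≤ N → 1 ≤ ℓ → M < 2 ^ (64 * ℓ - 1) →
    WRun (p cj) [(.HR, una M), (.HN, una N), (.VV, una κ), (.LL, una ℓ)]
      [(.N1, ar (64 * ℓ) (M * N) fun k =>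
          (tA (64 * ℓ) (20 * ℓ) (rtc (64 * ℓ) (20 * ℓ) cj κ) (k / N) (k % N)).1),
        (.N2, ar (64 * ℓ) (M * N) fun k =>
          (tA (64 * ℓ) (20 * ℓ) (rtc (64 * ℓ) (20 * ℓ) cj κ) (k / N) (k % N)).2)]
      (C * ((M * N + (κ + 1) * ℓ) * (64 * ℓ + T (64 * ℓ))))

/-- The kernel, from the chirp array. -/
def KrSpec (p : PW J E) (C : ℕ) : Prop :=
  ∀ (r ℓ : ℕ) (c : ℕ → ℕ × ℕ), 1 ≤ r → 1 ≤ ℓ → (∀ i, (c i).1 < 2 ^ (64 * ℓ)) →
    (∀ i, (c i).2 < 2 ^ (64 * ℓ)) →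
    WRun p [(.N1, ar (64 * ℓ) r fun i => (c i).1), (.N2, ar (64 * ℓ) r fun i => (c i).2),
        (.LL, una ℓ)]
      [(.KR, ar (64 * ℓ) (2 * r - 1) fun j => (cjR (64 * ℓ) (c ((j + 1) % r))).1),
        (.KI, ar (64 * ℓ) (2 * r - 1) fun j => (cjR (64 * ℓ) (c ((j + 1) % r))).2)]
      (C * (r * ℓ))

/-- The convolution, as a procedure. -/
def CvPSpec (p : PW J E) (Tb : ℕ → ℕ) (C : ℕ) : Prop :=
  ∀ (X r Z ℓ m : ℕ) (κ : ℕ → ℕ × ℕ) (e : ℕ → ℕ → ℕ → ℕ × ℕ), 1 ≤ X → 1 ≤ r → 1 ≤ Z → 1 ≤ ℓ →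
    r < 2 ^ (64 * ℓ - 1) → 576 * (X * r * Z * ℓ) ≤ m →
    (∀ x i z, (e x i z).1 < 2 ^ (64 * ℓ)) → (∀ x i z, (e x i z).2 < 2 ^ (64 * ℓ)) →
    (∀ j, (κ j).1 < 2 ^ (64 * ℓ)) → (∀ j, (κ j).2 < 2 ^ (64 * ℓ)) →
    WRun p [(.XR, bits (arr3 X r Z (64 * ℓ) fun x i z => (e x i z).1)),
        (.XI, bits (arr3 X r Z (64 * ℓ) fun x i z => (e x i z).2)),
        (.KR, ar (64 * ℓ) (2 * r - 1) fun j => (κ j).1),
        (.KI, ar (64 * ℓ) (2 * r - 1) fun j => (κ j).2),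
        (.HX, una X), (.HR, una r), (.HZ, una Z), (.LL, una ℓ), (.MM, una m)]
      [(.XR, bits (arr3 X r Z (64 * ℓ) fun x k z =>
          (cvC (64 * ℓ) (20 * ℓ) r κ (fun i => e x i z) k).1)),
        (.XI, bits (arr3 X r Z (64 * ℓ) fun x k z =>
          (cvC (64 * ℓ) (20 * ℓ) r κ (fun i => e x i z) k).2))]
      (C * (m + Tb m))

/-- The first pass, as a procedure. -/
def InPSpec (p : PW J E) (C : ℕ) : Prop :=
  ∀ (n t ℓ : ℕ) (e : ℕ → ℕ), 1 ≤ t → t ≤ ℓ → (∀ k, e k < 2 ^ t) →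
    WRun p [(.XR, ar t n e), (.WT, una t), (.LL, una ℓ)]
      [(.XR, ar (64 * ℓ) n fun k => e k * 2 ^ (20 * ℓ)), (.XI, ar (64 * ℓ) n fun _ => 0)]
      (C * (n * ℓ + ℓ + 1))

/-- The last pass, as a procedure (`L` on `UU`). -/
def OutPSpec (p : PW J E) (C : ℕ) : Prop :=
  ∀ (n t ℓ L : ℕ) (e e' : ℕ → ℕ), 1 ≤ t → t ≤ ℓ → 1 ≤ L → L ≤ ℓ →
    (∀ k, e k < 2 ^ (64 * ℓ)) → (∀ k, e' k < 2 ^ (64 * ℓ)) →
    WRun p [(.XR, ar (64 * ℓ) n e), (.XI, ar (64 * ℓ) n e'), (.WT, una t), (.LL, una ℓ),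
        (.UU, una L)]
      [(.XR, ar t n fun k => rnd (64 * ℓ) (20 * ℓ + L) t (e k))] (C * (n * ℓ + ℓ + 1))

end

/-! ### Level 1: products of complex numbers -/

/-- The additional stacks of level 1. -/
inductive V1 : Type
  | xr | xi | yr | yi | zr | zi | n | g | l | m | t | a | b | c | d
deriving DecidableEq

/-- The programs of level 1. -/
abbrev P1 (J E : Type) : Type := Prog ((Loc J ⊕ W) ⊕ V1) (SSym E)

section

variable [DecidableEq J]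

/-- Products of complex numbers, words of `wS g` bits. -/
def CmaSpec (p : P1 J E) (Tb : ℕ → ℕ) (C : ℕ) : Prop :=
  ∀ (n g m : ℕ) (x y : ℕ → ℕ × ℕ), 1 ≤ n → 1 ≤ g → 8064 * (n * wS g) ≤ m →
    (∀ q, (x q).1 < 2 ^ wS g) → (∀ q, (x q).2 < 2 ^ wS g) →
    (∀ q, (y q).1 < 2 ^ wS g) → (∀ q, (y q).2 < 2 ^ wS g) →
    Runs p (up (asg [(V1.xr, ar (wS g) n fun q => (x q).1),
        (V1.xi, ar (wS g) n fun q => (x q).2), (V1.yr, ar (wS g) n fun q => (y q).1),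
        (V1.yi, ar (wS g) n fun q => (y q).2), (V1.n, una n), (V1.g, una g),
        (V1.l, una (wL g)), (V1.m, una m)]))
      (up (asg [(V1.zr, ar (wS g) n fun q => (cmR (wS g) (20 * wL g) (x q) (y q)).1),
        (V1.zi, ar (wS g) n fun q => (cmR (wS g) (20 * wL g) (x q) (y q)).2)]))
      (C * (m + Tb m + n * wS g * g))

end

/-! ### Level 2: arrays of twiddle factors and chirps, transforms -/

/-- The additional stacks of level 2. -/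
inductive V2 : Type
  | dr | di | cr | ci | er | ei | fr | fi | zx | zr | zz | m1 | n1 | n0 | k1 | k0 | kk
  | n | g | l | m | t | a | b | c | d | e | f | h
deriving DecidableEq

/-- The programs of level 2. -/
abbrev P2 (J E : Type) : Type := Prog (((Loc J ⊕ W) ⊕ V1) ⊕ V2) (SSym E)

/-- The factor `γ ^ (i * j)`, where `γ₁ = γ ^ N₀`, `γ₀ = γ`. -/
def tF (S B : ℕ) (γ₁ γ₀ : ℕ × ℕ) (N₀ i j : ℕ) : ℕ × ℕ :=
  cmR S B (tA S B γ₁ i (j / N₀)) (tA S B γ₀ i (j % N₀))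

/-- The long chirp array: `H = 2 ^ h`, `h = L / 2 + 1`, `N₀ = 2 ^ (L / 4)`. -/
def cF (S B L k : ℕ) : ℕ × ℕ :=
  cmR S B (tF S B (rt B (L - (L / 2 + 1) - L / 4 - 2)) (rt B (L - (L / 2 + 1) - 2))
    (2 ^ (L / 4)) (k / 2 ^ (L / 2 + 1)) (k % 2 ^ (L / 2 + 1)))
    (cA S B (rt B (L - 1)) (k % 2 ^ (L / 2 + 1)))

/-- The transform with a chirp array. -/
def dftA (S B r : ℕ) (c : ℕ → ℕ × ℕ) (a : ℕ → ℕ × ℕ) (k : ℕ) : ℕ × ℕ :=
  cmR S B (cvC S B r (fun j => cjR S (c ((j + 1) % r))) (fun i => cmR S B (a i) (c i)) k) (c k)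

section

variable [DecidableEq J]

/-- The full array of twiddle factors: `M = m1`, `N₁ = n1`, `N₀ = n0`, root indices `κ₁ = k1`,
`κ₀ = k0`. -/
def TwfSpec (p : Bool → P2 J E) (Tb Tt : ℕ → ℕ) (C : ℕ) : Prop :=
  ∀ (cj : Bool) (M N₁ N₀ κ₁ κ₀ g m : ℕ), 1 ≤ M → 1 ≤ N₁ → 1 ≤ N₀ → 1 ≤ g →
    M < 2 ^ (wS g - 1) → 8064 * (M * (N₁ * N₀) * wS g) ≤ m →
    Runs (p cj) (up (asg [(V2.m1, una M), (V2.n1, una N₁), (V2.n0, una N₀), (V2.k1, una κ₁),
        (V2.k0, una κ₀), (V2.g, una g), (V2.l, una (wL g)), (V2.m, una m)]))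
      (up (asg [(V2.er, ar (wS g) (M * (N₁ * N₀)) fun k =>
          (tF (wS g) (20 * wL g) (rtc (wS g) (20 * wL g) cj κ₁)
            (rtc (wS g) (20 * wL g) cj κ₀) N₀ (k / (N₁ * N₀)) (k % (N₁ * N₀))).1),
        (V2.ei, ar (wS g) (M * (N₁ * N₀)) fun k =>
          (tF (wS g) (20 * wL g) (rtc (wS g) (20 * wL g) cj κ₁)
            (rtc (wS g) (20 * wL g) cj κ₀) N₀ (k / (N₁ * N₀)) (k % (N₁ * N₀))).2)]))
      (C * (m + Tb m + M * (N₁ * N₀) * wS g * g +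
        (M * N₁ + M * N₀ + (κ₁ + 1) * wL g + (κ₀ + 1) * wL g) * (wS g + Tt (wS g))))

/-- The long chirp array, `2 ^ L` words (`L` on `kk`). -/
def CfSpec (p : P2 J E) (Tb Tt : ℕ → ℕ) (C : ℕ) : Prop :=
  ∀ (L g m : ℕ), 12 ≤ L → 1 ≤ g → L ≤ wL g → 8064 * (2 ^ L * wS g) ≤ m →
    Runs p (up (asg [(V2.kk, una L), (V2.g, una g), (V2.l, una (wL g)), (V2.m, una m)]))
      (up (asg [(V2.cr, ar (wS g) (2 ^ L) fun k => (cF (wS g) (20 * wL g) L k).1),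
        (V2.ci, ar (wS g) (2 ^ L) fun k => (cF (wS g) (20 * wL g) L k).2)]))
      (C * (m + Tb m + 2 ^ L * wS g * g +
        (2 ^ (L - L / 4) + wL g ^ 2) * (wS g + Tt (wS g))))

/-- Multiplication of the data by an array: the element `x i z` by `c i`. The array (on `cr`,
`ci`) is kept. -/
def ExpSpec (p : P2 J E) (Tb : ℕ → ℕ) (C : ℕ) : Prop :=
  ∀ (X r Z g m : ℕ) (c : ℕ → ℕ × ℕ) (e : ℕ → ℕ → ℕ → ℕ × ℕ), 1 ≤ X → 1 ≤ r → 1 ≤ Z → 1 ≤ g →
    8064 * (X * r * Z * wS g) ≤ m →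
    (∀ x i z, (e x i z).1 < 2 ^ wS g) → (∀ x i z, (e x i z).2 < 2 ^ wS g) →
    (∀ i, (c i).1 < 2 ^ wS g) → (∀ i, (c i).2 < 2 ^ wS g) →
    Runs p (up (asg [(V2.dr, bits (arr3 X r Z (wS g) fun x i z => (e x i z).1)),
        (V2.di, bits (arr3 X r Z (wS g) fun x i z => (e x i z).2)),
        (V2.cr, ar (wS g) r fun i => (c i).1), (V2.ci, ar (wS g) r fun i => (c i).2),
        (V2.zx, una X), (V2.zr, una r), (V2.zz, una Z), (V2.g, una g), (V2.l, una (wL g)),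
        (V2.m, una m)]))
      (up (asg [(V2.dr, bits (arr3 X r Z (wS g) fun x i z =>
          (cmR (wS g) (20 * wL g) (e x i z) (c i)).1)),
        (V2.di, bits (arr3 X r Z (wS g) fun x i z =>
          (cmR (wS g) (20 * wL g) (e x i z) (c i)).2)),
        (V2.cr, ar (wS g) r fun i => (c i).1), (V2.ci, ar (wS g) r fun i => (c i).2),
        (V2.zx, una X), (V2.zr, una r), (V2.zz, una Z), (V2.g, una g), (V2.l, una (wL g)),
        (V2.m, una m)]))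
      (C * (m + Tb m + X * r * Z * wS g * g))

end

/-! ### Level 3: the transposition of words -/

/-- The additional stacks of level 3. -/
inductive V3 : Type
  | dr | di | cr | ci | er | ei | hx | hu | hv | hz | ht | g | l | m | t
  | a | b | c | d | e | f | a1 | a2 | a3 | a4 | a5 | a6 | a7 | a8
deriving DecidableEq

/-- The programs of level 3. -/
abbrev P3 (J E : Type) : Type := Prog ((((Loc J ⊕ W) ⊕ V1) ⊕ V2) ⊕ V3) (SSym E)

/-- The steps of the transposition. -/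
def sa1 (S B v : ℕ) (e : ℕ → ℕ → ℕ) (i j : ℕ) : ℕ × ℕ :=
  dftA S B (2 ^ v) (cA S B (rtc S B true (v - 1))) (fun j => (e i j * 2 ^ B, 0)) j

/-- Second step. -/
def sa2 (S B u v : ℕ) (e : ℕ → ℕ → ℕ) (i j : ℕ) : ℕ × ℕ :=
  cmR S B (sa1 S B v e i j) (tF S B (rtc S B true (u + v - (v - v / 2) - 2))
    (rtc S B true (u + v - 2)) (2 ^ (v - v / 2)) i j)

/-- Third step. -/
def sa3 (S B u v : ℕ) (e : ℕ → ℕ → ℕ) (i j : ℕ) : ℕ × ℕ :=
  dftA S B (2 ^ u) (cA S B (rtc S B true (u - 1))) (fun i => sa2 S B u v e i j) i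

/-- Fourth step. -/
def sa4 (S B u v : ℕ) (e : ℕ → ℕ → ℕ) (k : ℕ) : ℕ × ℕ :=
  dftA S B (2 ^ u * 2 ^ v) (cF S B (u + v))
    (fun k => sa3 S B u v e (k / 2 ^ v) (k % 2 ^ v)) k

section

variable [DecidableEq J]

/-- The transposition of words, program of level 3. -/
def Perm3Spec (p : P3 J E) (Tb Tt : ℕ → ℕ) (C : ℕ) : Prop :=
  ∀ (X u v Z t g m : ℕ) (e : ℕ → ℕ → ℕ → ℕ → ℕ), 1 ≤ X → 6 ≤ u → 6 ≤ v → 1 ≤ Z → 1 ≤ t →
    1 ≤ g → u + v ≤ wL g → t ≤ wL g → 8064 * (X * 2 ^ u * 2 ^ v * Z * wS g) ≤ m →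
    (∀ x i j z, e x i j z < 2 ^ t) →
    Runs p (up (asg [(V3.dr, bits (arr4 X (2 ^ u) (2 ^ v) Z t e)), (V3.hx, una X),
        (V3.hu, una u), (V3.hv, una v), (V3.hz, una Z), (V3.ht, una t), (V3.g, una g),
        (V3.l, una (wL g)), (V3.m, una m)]))
      (up (asg [(V3.dr, bits (arr4 X (2 ^ v) (2 ^ u) Z t fun x j i z => e x i j z))]))
      (C * (m + Tb m + X * 2 ^ u * 2 ^ v * Z * wS g * g +
        (2 ^ u + 2 ^ v + 2 ^ (u + v - v / 2) + 2 ^ (u + v - (u + v) / 4) + wL g ^ 2) *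
          (wS g + Tt (wS g))))

/-- The transposition of words for the main program: the interface of `PermSpec`, with `g` on
`N9`. -/
def PermSpec2 (p : PW J E) (Tb : ℕ → ℕ) (C : ℕ) : Prop :=
  ∀ (X u v Z t g m : ℕ) (e : ℕ → ℕ → ℕ → ℕ → ℕ) (s : SW J E), 1 ≤ X → 6 ≤ u → 6 ≤ v →
    1 ≤ Z → 1 ≤ t → 1 ≤ g → u + v ≤ wL g → t ≤ wL g →
    wL g ≤ X * Z * 2 ^ u → wL g ≤ X * Z * 2 ^ (v / 2) → wL g ≤ X * Z * 2 ^ ((u + v) / 4) →
    600000 * (X * 2 ^ u * 2 ^ v * Z * wL g) ≤ m → Cln0 s →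
    (∀ r ∈ wsc, s.at r = []) → s.at .HX = una X → s.at .UU = una u → s.at .VV = una v →
    s.at .HZ = una Z → s.at .WT = una t → s.at .LL = una (wL g) → s.at .N9 = una g →
    s.at .MM = una m → (∀ x i j z, e x i j z < 2 ^ t) →
    s.at .XR = bits (arr4 X (2 ^ u) (2 ^ v) Z t e) →
    Runs p s (s.set .XR (bits (arr4 X (2 ^ v) (2 ^ u) Z t fun x j i z => e x i j z)))
      (C * (m + Tb m + X * 2 ^ u * 2 ^ v * Z * wL g * g + wL g ^ 4))

end

/-! ### Pure mathematics -/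

/-- A chunk of a word. -/
def chk (g x i : ℕ) : ℕ := if i < 2 ^ (g + 5) then x / 2 ^ (g * i) % 2 ^ g else 0

/-- The transform of the chunks. -/
def cdf (g x k : ℕ) : ℕ × ℕ :=
  dft (64 * (g + 6)) (20 * (g + 6)) (2 ^ (g + 6))
    (cjR (64 * (g + 6)) (rt (20 * (g + 6)) (g + 5)))
    (fun i => (chk g x i * 2 ^ (20 * (g + 6)), 0)) k

/-- The coefficients of the product. -/
def czt (g x y t : ℕ) : ℕ :=
  rnd (64 * (g + 6)) (20 * (g + 6) + (g + 6)) (3 * (g + 6))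
    (dft (64 * (g + 6)) (20 * (g + 6)) (2 ^ (g + 6)) (rt (20 * (g + 6)) (g + 5))
      (fun k => cmR (64 * (g + 6)) (20 * (g + 6)) (cdf g x k) (cdf g y k)) t).1

/-- Package PM-BM. -/
def BmPure : Prop :=
  ∀ (g x y : ℕ), 1 ≤ g → x < 2 ^ wS g → y < 2 ^ wS g → ∀ t < 2 ^ (g + 6),
    czt g x y t = ∑ i ∈ Finset.range (t + 1), chk g x i * chk g y (t - i)

/-- Package PM-BM, second part. -/
def BmPure2 : Prop :=
  ∀ (g x y : ℕ), 1 ≤ g → x < 2 ^ wS g → y < 2 ^ wS g →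
    (∑ t ∈ Finset.range (2 ^ (g + 5)), czt g x y t * 2 ^ (g * t)) % 2 ^ wS g =
      muR (wS g) x y

/-- Package PM-2. -/
def PermPure2 : Prop :=
  ∀ (u v t ℓ : ℕ) (e : ℕ → ℕ → ℕ), 6 ≤ u → 6 ≤ v → u + v ≤ ℓ → t ≤ ℓ →
    (∀ i j, e i j < 2 ^ t) → ∀ i < 2 ^ u, ∀ j < 2 ^ v,
      rnd (64 * ℓ) (20 * ℓ + (u + v)) t (sa4 (64 * ℓ) (20 * ℓ) u v e (j * 2 ^ u + i)).1 = e i j

end Vale.Agent.P338.GS
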