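import Vale.Agent.P338.GS.PM
import Vale.Agent.P338.GS.Iface2

/-!
# P338, stage 5: products of long words by transforms of chunks, the pure mathematics
-/

namespace Vale.Agent.P338.GS.BP

open Vale.Agent.P338 Vale.Agent.P338.GS Vale.Agent.P338.GS.PM Finset

/-! ### Chunks -/

theorem chk_lt (g x i : ℕ) : chk g x i < 2 ^ g := by
  unfold chk
  split_ifs
  · exact Nat.mod_lt _ (by positivity)
  · positivity

theorem chk_of_le {g x i : ℕ} (h : 2 ^ (g + 5) ≤ i) : chk g x i = 0 := by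
  unfold chk
  rw [if_neg (by omega)]

theorem sum_chunks (g x n : ℕ) :
    ∑ i ∈ range n, x / 2 ^ (g * i) % 2 ^ g * 2 ^ (g * i) = x % 2 ^ (g * n) := by
  induction n with
  | zero => simp [Nat.mod_one]
  | succ n ih =>
    rw [sum_range_succ, ih, Nat.mul_succ, pow_add, Nat.mod_mul, Nat.mul_comm (2 ^ (g * n))]

theorem sum_chk {g x : ℕ} (hx : x < 2 ^ wS g) :
    ∑ i ∈ range (2 ^ (g + 5)), chk g x i * 2 ^ (g * i) = x := by
  have h : ∀ i ∈ range (2 ^ (g + 5)), chk g x i * 2 ^ (g * i) =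
      x / 2 ^ (g * i) % 2 ^ g * 2 ^ (g * i) := by
    intro i hi
    unfold chk
    rw [if_pos (mem_range.mp hi)]
  rw [sum_congr rfl h, sum_chunks, Nat.mod_eq_of_lt]
  rwa [Nat.mul_comm]

/-! ### The exact transforms -/

theorem conv_exact {g t : ℕ} (ht : t < 2 ^ (g + 6)) (a b : ℕ → ℂ)
    (ha : ∀ i, 2 ^ (g + 5) ≤ i → a i = 0) (hb : ∀ i, 2 ^ (g + 5) ≤ i → b i = 0) :
    Ex.xdft (2 ^ (g + 6)) (Ex.xrt (g + 5))
      (fun k => Ex.xdft (2 ^ (g + 6)) ((starRingEnd ℂ) (Ex.xrt (g + 5))) a k *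
        Ex.xdft (2 ^ (g + 6)) ((starRingEnd ℂ) (Ex.xrt (g + 5))) b k) t =
      2 ^ (g + 6) * ∑ i ∈ range (t + 1), a i * b (t - i) := by
  have eN : 2 ^ (g + 6) = 2 ^ (g + 5) + 2 ^ (g + 5) := by rw [pow_succ 2 (g + 5)]; ring
  have hw := Ex.xrt_prim (g + 5)
  have hww : Ex.xrt (g + 5) ^ 2 * ((starRingEnd ℂ) (Ex.xrt (g + 5))) ^ 2 = 1 := by
    rw [← mul_pow, Ex.xrt_mul_conj, one_pow]
  rw [Ex.xdft_eq]
  simp only [Ex.xdft_conj_eq (g + 5)]
  set w : ℂ := Ex.xrt (g + 5) ^ 2 with hwd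
  set w' : ℂ := ((starRingEnd ℂ) (Ex.xrt (g + 5))) ^ 2 with hwd'
  set N : ℕ := 2 ^ (g + 5 + 1) with hN
  have h1 : ∀ k ∈ range N, ((∑ i ∈ range N, a i * w' ^ (i * k)) *
      ∑ j ∈ range N, b j * w' ^ (j * k)) * w ^ (k * t) =
      ∑ i ∈ range N, ∑ j ∈ range N, a i * b j * (w ^ (k * t) * w' ^ (k * (i + j))) := by
    intro k _
    rw [sum_mul_sum, sum_mul]
    refine sum_congr rfl fun i _ => ?_
    rw [sum_mul]
    refine sum_congr rfl fun j _ => ?_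
    rw [Nat.mul_add, pow_add, Nat.mul_comm k i, Nat.mul_comm k j]
    ring
  rw [sum_congr rfl h1, sum_comm]
  have h2 : ∀ i ∈ range N, ∑ k ∈ range N, ∑ j ∈ range N,
      a i * b j * (w ^ (k * t) * w' ^ (k * (i + j))) =
      if i ∈ range (t + 1) then (N : ℂ) * (a i * b (t - i)) else 0 := by
    intro i hi
    rw [mem_range] at hi
    rw [sum_comm]
    have h3 : ∀ j ∈ range N, ∑ k ∈ range N, a i * b j * (w ^ (k * t) * w' ^ (k * (i + j))) =
        if t = i + j then (N : ℂ) * (a i * b j) else 0 := by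
      intro j hj
      rw [mem_range] at hj
      rw [← mul_sum]
      by_cases h4 : 2 ^ (g + 5) ≤ i
      · rw [ha i h4]; simp
      by_cases h5 : 2 ^ (g + 5) ≤ j
      · rw [hb j h5]; simp
      rw [Ex.orth hw hww (l := i + j) (l' := t) (by omega) ht]
      split_ifs
      · ring
      · simp
    rw [sum_congr rfl h3]
    by_cases h6 : i ≤ t
    · rw [if_pos (mem_range.mpr (by omega))]
      rw [sum_eq_single (t - i)]
      · rw [if_pos (by omega)]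
      · intro j _ hne
        rw [if_neg (by omega)]
      · intro hj
        exact absurd (mem_range.mpr (by omega)) hj
    · rw [if_neg (by rw [mem_range]; omega)]
      apply sum_eq_zero
      intro j _
      rw [if_neg (by omega)]
  rw [sum_congr rfl h2, ← sum_filter]
  have h7 : (range N).filter (fun i => i ∈ range (t + 1)) = range (t + 1) := by
    ext i
    simp only [mem_filter, mem_range]
    omega
  rw [h7, ← mul_sum]
  congr 1
  rw [hN]
  push_cast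
  rfl

/-! ### Errors -/

theorem ctx' {ℓ : ℕ} (hℓ : 2 ≤ ℓ) : Ctx (64 * ℓ) (20 * ℓ) (2 ^ (5 * ℓ + 5)) where
  hB := by omega
  hS := by omega
  hK := by
    rw [← pow_add]
    exact pow_lt_pow_right₀ (by norm_num) (by omega)
  h4 := by
    calc (4 : ℝ) = 2 ^ 2 := by norm_num
      _ ≤ 2 ^ (5 * ℓ + 5) := two_pow_mono (by omega)

theorem dft_all' {ℓ : ℕ} (hℓ : 2 ≤ ℓ) {ρ : ℕ × ℕ} {p : ℂ}
    (h : Ap (64 * ℓ) (20 * ℓ) (2 ^ (ℓ + 1) / 2 ^ (20 * ℓ)) ρ p) (hp : ‖p‖ ≤ 1)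
    {r : ℕ} (hr : r ≤ 2 ^ ℓ) {a : ℕ → ℕ × ℕ} {α : ℕ → ℂ} {ε A : ℝ}
    (ha : ∀ i < r, Ap (64 * ℓ) (20 * ℓ) ε (a i) (α i)) (hα : ∀ i < r, ‖α i‖ ≤ A)
    (hA : 1 ≤ A) (hε : ε ≤ A) (hbig : r * A ≤ 2 ^ (5 * ℓ)) (k : ℕ) (hk : k < r) :
    Ap (64 * ℓ) (20 * ℓ) (r * (8 * ε + 14 * (A * eta ℓ))) (dft (64 * ℓ) (20 * ℓ) r ρ a k)
      (Ex.xdft r p α k) := by
  have h2 : eta ℓ ≤ 1 := by have := eta_le' hℓ; have := eta_nonneg ℓ; linarith
  have hc := Ap.cj (ctx hℓ) h hp (rho_le hℓ)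
  have hcp : ‖(starRingEnd ℂ) p‖ ≤ 1 := by rw [RCLike.norm_conj]; exact hp
  have e1 : 2 ^ (ℓ + 1) = 2 * 2 ^ ℓ := by rw [pow_succ']
  refine dft_ap (ctx' hℓ) hp h2 (tau_le ℓ) (fun k hk => ch_ap hℓ h hp k (by omega))
    (fun j hj => ch_ap hℓ hc hcp (j + 1) (by omega)) ha hα hA hε ?_ k hk
  rw [show 5 * ℓ + 5 = 5 + 5 * ℓ by ring, pow_add]
  linarith

theorem norm_chk_le (g x i : ℕ) : ‖((chk g x i : ℕ) : ℂ)‖ ≤ 2 ^ (g + 6) := by
  rw [Complex.norm_natCast]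
  have h1 := chk_lt g x i
  have h2 : 2 ^ g ≤ 2 ^ (g + 6) := Nat.pow_le_pow_right (by norm_num) (by omega)
  exact_mod_cast (h1.le.trans h2)

theorem ap_chk (g x i : ℕ) : Ap (64 * (g + 6)) (20 * (g + 6)) 0
    (chk g x i * 2 ^ (20 * (g + 6)), 0) ((chk g x i : ℕ) : ℂ) := by
  have h2 : chk g x i * 2 ^ (20 * (g + 6)) < 2 ^ (64 * (g + 6) - 1) := by
    calc chk g x i * 2 ^ (20 * (g + 6)) < 2 ^ g * 2 ^ (20 * (g + 6)) :=
          Nat.mul_lt_mul_of_pos_right (chk_lt g x i) (by positivity)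
      _ = 2 ^ (g + 20 * (g + 6)) := by rw [pow_add]
      _ ≤ 2 ^ (64 * (g + 6) - 1) := Nat.pow_le_pow_right (by norm_num) (by omega)
  unfold Ap
  rw [vl_nat h2 (by positivity)]
  have hp : (0 : ℝ) < 2 ^ (20 * (g + 6)) := by positivity
  have e2 : (⟨((chk g x i * 2 ^ (20 * (g + 6)) : ℕ) : ℝ) / 2 ^ (20 * (g + 6)),
      ((0 : ℕ) : ℝ) / 2 ^ (20 * (g + 6))⟩ : ℂ) = ((chk g x i : ℕ) : ℂ) := by
    apply Complex.ext
    · push_cast; rw [mul_div_assoc, div_self hp.ne', mul_one]; simp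
    · simp
  rw [e2, sub_self, norm_zero]

/-- The exact transform of the chunks. -/
noncomputable def xcd (g x k : ℕ) : ℂ :=
  Ex.xdft (2 ^ (g + 6)) ((starRingEnd ℂ) (Ex.xrt (g + 5))) (fun i => ((chk g x i : ℕ) : ℂ)) k

theorem norm_xcd_le (g x k : ℕ) : ‖xcd g x k‖ ≤ 2 ^ (2 * (g + 6)) := by
  have h := Ex.norm_xdft_le (r := 2 ^ (g + 6)) (Ex.norm_conj_xrt (g + 5))
    (a := fun i => ((chk g x i : ℕ) : ℂ)) (fun i _ => norm_chk_le g x i) k
  refine h.trans (le_of_eq ?_)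
  push_cast
  rw [← pow_add]
  congr 1
  ring

theorem cdf_ap (g x k : ℕ) (hk : k < 2 ^ (g + 6)) :
    Ap (64 * (g + 6)) (20 * (g + 6)) (14 * (2 ^ (2 * (g + 6)) * eta (g + 6))) (cdf g x k)
      (xcd g x k) := by
  have h1 := dft_all (ℓ := g + 6) (by omega) (crt_all (by omega) (m := g + 6) (by omega) le_rfl)
    (Ex.norm_conj_xrt _).le (r := 2 ^ (g + 6)) le_rfl
    (a := fun i => (chk g x i * 2 ^ (20 * (g + 6)), 0))
    (α := fun i => ((chk g x i : ℕ) : ℂ)) (ε := 0) (A := 2 ^ (g + 6))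
    (fun i _ => ap_chk g x i) (fun i _ => norm_chk_le g x i) (one_le_pow₀ (by norm_num))
    (by positivity) (by
      push_cast
      rw [← pow_add]
      exact two_pow_mono (by omega)) k hk
  refine h1.mono (le_of_eq ?_)
  push_cast
  rw [show 2 * (g + 6) = (g + 6) + (g + 6) by ring, pow_add]
  ring

theorem prod_ap (g x y k : ℕ) (hk : k < 2 ^ (g + 6)) :
    Ap (64 * (g + 6)) (20 * (g + 6)) (43 * (2 ^ (4 * (g + 6)) * eta (g + 6)))
      (cmR (64 * (g + 6)) (20 * (g + 6)) (cdf g x k) (cdf g y k)) (xcd g x k * xcd g y k) := by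
  have hη := eta_le' (ℓ := g + 6) (by omega)
  have hη0 := eta_nonneg (g + 6)
  have hτ := tau_le (g + 6)
  have hA1 : (1 : ℝ) ≤ 2 ^ (2 * (g + 6)) := one_le_pow₀ (by norm_num)
  have e4 : (2 : ℝ) ^ (4 * (g + 6)) = 2 ^ (2 * (g + 6)) * 2 ^ (2 * (g + 6)) := by
    rw [← pow_add]; congr 1; ring
  have h5 : (2 : ℝ) ^ (5 * (g + 6) + 5) = 2 ^ (g + 6) * 32 * 2 ^ (4 * (g + 6)) := by
    rw [show 5 * (g + 6) + 5 = (g + 6) + 5 + 4 * (g + 6) by ring, pow_add, pow_add]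
    norm_num
  have h6 : (1 : ℝ) ≤ 2 ^ (g + 6) := one_le_pow₀ (by norm_num)
  refine (Ap.cm (ctx' (by omega)) (cdf_ap g x k hk) (cdf_ap g y k hk) (norm_xcd_le g x k)
    (norm_xcd_le g y k) ?_).mono ?_
  · rw [h5, e4]
    set P : ℝ := 2 ^ (2 * (g + 6)) with hP
    set η : ℝ := eta (g + 6) with hηd
    have h7 : 14 * (P * η) ≤ P := by nlinarith
    have h8 : P + 14 * (P * η) ≤ 2 * P := by linarith
    have h9 : (P + 14 * (P * η)) * (P + 14 * (P * η)) ≤ 2 * P * (2 * P) :=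
      mul_le_mul h8 h8 (by positivity) (by positivity)
    have h10 : 32 * (P * P) ≤ 2 ^ (g + 6) * 32 * (P * P) := by
      have : 0 ≤ P * P := by positivity
      nlinarith
    have : 0 ≤ P * P := by positivity
    linarith
  · rw [e4]
    set P : ℝ := 2 ^ (2 * (g + 6)) with hP
    set η : ℝ := eta (g + 6) with hηd
    have h7 : 14 * (P * η) ≤ P := by nlinarith
    have h8 : 14 * (P * η) * (P + 14 * (P * η)) ≤ 14 * (P * η) * (2 * P) :=
      mul_le_mul_of_nonneg_left (by linarith) (by positivity)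
    have h9 : η ≤ P * P * η := by
      have : (1 : ℝ) ≤ P * P := by nlinarith
      nlinarith
    have e5 : 14 * (P * η) * (2 * P) = 28 * (P * P * η) := by ring
    have e6 : P * (14 * (P * η)) = 14 * (P * P * η) := by ring
    linarith

theorem sum_chk_lt {g x y t : ℕ} (ht : t < 2 ^ (g + 6)) :
    ∑ i ∈ range (t + 1), chk g x i * chk g y (t - i) < 2 ^ (3 * (g + 6)) := by
  have h1 : ∀ i ∈ range (t + 1), chk g x i * chk g y (t - i) ≤ 2 ^ g * 2 ^ g := fun i _ =>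
    Nat.mul_le_mul (chk_lt ..).le (chk_lt ..).le
  calc ∑ i ∈ range (t + 1), chk g x i * chk g y (t - i)
      ≤ ∑ _i ∈ range (t + 1), 2 ^ g * 2 ^ g := sum_le_sum h1
    _ = (t + 1) * (2 ^ g * 2 ^ g) := by simp
    _ ≤ 2 ^ (g + 6) * (2 ^ g * 2 ^ g) := Nat.mul_le_mul_right _ ht
    _ = 2 ^ (3 * g + 6) := by rw [← pow_add, ← pow_add]; congr 1; ring
    _ < 2 ^ (3 * (g + 6)) := Nat.pow_lt_pow_right (by norm_num) (by omega)

/-- The coefficients of the product. -/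
theorem bmPure : BmPure := by
  intro g x y _ _ _ t ht
  have hη := eta_le (ℓ := g + 6) (by omega)
  have hη' := eta_le' (ℓ := g + 6) (by omega)
  have hη0 := eta_nonneg (g + 6)
  have hA1 : (1 : ℝ) ≤ 2 ^ (4 * (g + 6)) := one_le_pow₀ (by norm_num)
  have h1 := dft_all' (ℓ := g + 6) (by omega) (rt_all (by omega) (m := g + 6) (by omega) le_rfl)
    (Ex.norm_xrt _).le (r := 2 ^ (g + 6)) le_rfl
    (a := fun k => cmR (64 * (g + 6)) (20 * (g + 6)) (cdf g x k) (cdf g y k))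
    (α := fun k => xcd g x k * xcd g y k)
    (ε := 43 * (2 ^ (4 * (g + 6)) * eta (g + 6))) (A := 2 ^ (4 * (g + 6)))
    (fun k hk => prod_ap g x y k hk) (fun k _ => by
      rw [norm_mul]
      calc ‖xcd g x k‖ * ‖xcd g y k‖ ≤ 2 ^ (2 * (g + 6)) * 2 ^ (2 * (g + 6)) :=
            mul_le_mul (norm_xcd_le g x k) (norm_xcd_le g y k) (norm_nonneg _) (by positivity)
        _ = 2 ^ (4 * (g + 6)) := by rw [← pow_add]; congr 1; ring) hA1
    (by nlinarith) (by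
      push_cast
      rw [← pow_add]
      exact two_pow_mono (by omega)) t ht
  unfold czt
  refine rnd_of_ap (B := 20 * (g + 6)) (n := g + 6) (by omega) h1 ?_ ?_ (sum_chk_lt ht)
    (by omega)
  · show Ex.xdft (2 ^ (g + 6)) (Ex.xrt (g + 5)) (fun k => xcd g x k * xcd g y k) t = _
    unfold xcd
    rw [conv_exact ht]
    · push_cast
      rfl
    · intro i hi
      rw [chk_of_le hi, Nat.cast_zero]
    · intro i hi
      rw [chk_of_le hi, Nat.cast_zero]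
  · have e1 : (((2 ^ (g + 6) : ℕ) : ℝ)) * (8 * (43 * (2 ^ (4 * (g + 6)) * eta (g + 6))) +
        14 * (2 ^ (4 * (g + 6)) * eta (g + 6))) =
        2 ^ (g + 6) * (358 * (2 ^ (4 * (g + 6)) * eta (g + 6))) := by
      push_cast
      ring
    rw [e1]
    have h6 : 358 * (2 ^ (4 * (g + 6)) * eta (g + 6)) < 1 / 2 := by
      unfold eta
      rw [← mul_div_assoc, ← pow_add, ← mul_div_assoc, div_lt_iff₀ (by positivity)]
      have h7 : (2 : ℝ) ^ (20 * (g + 6)) = 2 ^ (4 * (g + 6) + (3 * (g + 6) + 8)) *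
          2 ^ (13 * (g + 6) - 8) := by
        rw [← pow_add]; congr 1; omega
      rw [h7]
      have h8 : (2 : ℝ) ^ 12 ≤ 2 ^ (13 * (g + 6) - 8) := two_pow_mono (by omega)
      have h9 : (0 : ℝ) < 2 ^ (4 * (g + 6) + (3 * (g + 6) + 8)) := by positivity
      nlinarith
    have h7 : (0 : ℝ) < 2 ^ (g + 6) := by positivity
    calc 2 ^ (g + 6) * (358 * (2 ^ (4 * (g + 6)) * eta (g + 6))) < 2 ^ (g + 6) * (1 / 2) :=
          mul_lt_mul_of_pos_left h6 h7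
      _ = 2 ^ (g + 6) / 2 := by ring

/-- The product from its coefficients. -/
theorem bmPure2 : BmPure2 := by
  intro g x y hg hx hy
  have h0 : ∀ t ∈ range (2 ^ (g + 5)), czt g x y t * 2 ^ (g * t) =
      ∑ i ∈ range (t + 1), (fun i j => chk g x i * 2 ^ (g * i) * (chk g y j * 2 ^ (g * j)))
        i (t - i) := by
    intro t ht
    rw [mem_range] at ht
    have h1 : 2 ^ (g + 5) ≤ 2 ^ (g + 6) := Nat.pow_le_pow_right (by norm_num) (by omega)
    rw [bmPure g x y hg hx hy t (by omega), sum_mul]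
    refine sum_congr rfl fun i hi => ?_
    rw [mem_range] at hi
    have h2 : 2 ^ (g * t) = 2 ^ (g * i) * 2 ^ (g * (t - i)) := by
      rw [← pow_add, ← Nat.mul_add]; congr 2; omega
    rw [h2]
    ring
  rw [sum_congr rfl h0, sum_range_diag_flip (2 ^ (g + 5))
    fun i j => chk g x i * 2 ^ (g * i) * (chk g y j * 2 ^ (g * j))]
  unfold muR
  have h3 : x * y = (∑ i ∈ range (2 ^ (g + 5)), ∑ j ∈ range (2 ^ (g + 5) - i),
      chk g x i * 2 ^ (g * i) * (chk g y j * 2 ^ (g * j))) +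
      ∑ i ∈ range (2 ^ (g + 5)), ∑ j ∈ Ico (2 ^ (g + 5) - i) (2 ^ (g + 5)),
      chk g x i * 2 ^ (g * i) * (chk g y j * 2 ^ (g * j)) := by
    conv_lhs => rw [← sum_chk hx, ← sum_chk hy]
    rw [sum_mul_sum, ← sum_add_distrib]
    refine sum_congr rfl fun i _ => ?_
    rw [sum_range_add_sum_Ico _ (Nat.sub_le _ _)]
  have h4 : 2 ^ wS g ∣ ∑ i ∈ range (2 ^ (g + 5)), ∑ j ∈ Ico (2 ^ (g + 5) - i) (2 ^ (g + 5)),
      chk g x i * 2 ^ (g * i) * (chk g y j * 2 ^ (g * j)) := by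
    refine dvd_sum fun i hi => dvd_sum fun j hj => ?_
    rw [mem_range] at hi
    rw [mem_Ico] at hj
    have h5 : wS g ≤ g * i + g * j := by
      unfold wS
      rw [← Nat.mul_add, Nat.mul_comm]
      exact Nat.mul_le_mul_left _ (by omega)
    have h6 : 2 ^ wS g ∣ 2 ^ (g * i) * 2 ^ (g * j) := by
      rw [← pow_add]
      exact pow_dvd_pow 2 h5
    have e : chk g x i * 2 ^ (g * i) * (chk g y j * 2 ^ (g * j)) =
        chk g x i * chk g y j * (2 ^ (g * i) * 2 ^ (g * j)) := by ring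
    rw [e]
    exact Dvd.dvd.mul_left h6 _
  obtain ⟨q, hq⟩ := h4
  rw [h3, hq, Nat.add_mul_mod_self_left]

end Vale.Agent.P338.GS.BP
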