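import Vale.Agent.P338.GS.Twf

/-!
# P338, stage 5: the long chirp array
-/

namespace Vale.Agent.P338.GS

open Vale.Agent.P338 R2

/-! ### Commands on unary numbers -/

namespace VC

variable {V E : Type} [DecidableEq V]

theorem cpu {a b t : V} (hab : a ≠ b) (hat : a ≠ t) (hbt : b ≠ t) {s s' : Store V (SSym E)}
    {n : ℕ} (ha : s a = una n) (hb : s b = []) (ht : s t = [])
    (e : s' = Function.update s b (una n)) :
    Runs (Prog.copyOnto a b t) s s' (6 * n + 1) := by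
  have := cp hab hat hbt (s' := s') ht (by rw [e, ha, hb, List.append_nil])
  rwa [ha, len_una] at this

theorem clru {a : V} {s s' : Store V (SSym E)} {n : ℕ} (ha : s a = una n)
    (e : s' = Function.update s a []) : Runs (Prog.clear a) s s' (3 * n) := by
  have := clr (s' := s') e
  rwa [ha, len_una] at this

theorem pushu {a : V} {s s' : Store V (SSym E)} {n : ℕ} (ha : s a = una n)
    (e : s' = Function.update s a (una (n + 1))) : Runs (Prog.push a mk) s s' 1 :=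
  push (by rw [e, ha]; rfl)

theorem popu {a : V} {s s' : Store V (SSym E)} {n : ℕ} (ha : s a = una n)
    (e : s' = Function.update s a (una (n - 1))) : Runs (Prog.pop a) s s' 1 :=
  pop (by rw [e, ha, tail_una'])

end VC

variable {J E : Type} [DecidableEq J]

/-- Parameters. -/
def cfP0 : Prog V2 (SSym E) :=
  (Prog.copyOnto .kk .a .t).seq <| (VC.halfP .a .b).seq <| (Prog.copyOnto .b .a .t).seq <|
  (VC.halfP .a .c).seq <| (Prog.push .b mk).seq <| (Prog.copyOnto .kk .d .t).seq <|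
  (Prog.forr .b .t (Prog.pop .d)).seq <| (Prog.copyOnto .d .k0 .t).seq <|
  (Prog.pop .k0).seq <| (Prog.pop .k0).seq <| (Prog.copyOnto .d .k1 .t).seq <|
  (Prog.forr .c .t (Prog.pop .k1)).seq <| (Prog.pop .k1).seq <| (Prog.pop .k1).seq <|
  (Prog.copyOnto .b .e .t).seq <| (Prog.forr .c .t (Prog.pop .e)).seq <|
  (VC.pow2P .d .m1 .a .t .h).seq <| (VC.pow2P .e .n1 .a .t .h).seq <|
  (VC.pow2P .c .n0 .a .t .h).seq <| (VC.pow2P .b .zz .a .t .h).seq <|
  (VC.pow2P .d .di .a .t .h).seq <| (Prog.pop .kk).seq <| (Prog.clear .b).seq <|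
  (Prog.clear .c).seq <| (Prog.clear .d).seq <| Prog.clear .e

theorem cfP0_runs {L : ℕ} (hL : 2 ≤ L) (q : R2 E) (h1 : q.kk = una L) (h2 : q.a = [])
    (h3 : q.b = []) (h4 : q.c = []) (h5 : q.d = []) (h6 : q.e = []) (h7 : q.t = [])
    (h8 : q.h = []) (h9 : q.m1 = []) (h10 : q.n1 = []) (h11 : q.n0 = []) (h12 : q.zz = [])
    (h13 : q.di = []) (h14 : q.k0 = []) (h15 : q.k1 = []) :
    Runs (cfP0 : Prog V2 (SSym E)) q.st ({ q with
      kk := una (L - 1)
      m1 := una (2 ^ (L - (L / 2 + 1)))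
      n1 := una (2 ^ (L / 2 + 1 - L / 4))
      n0 := una (2 ^ (L / 4))
      zz := una (2 ^ (L / 2 + 1))
      di := una (2 ^ (L - (L / 2 + 1)))
      k0 := una (L - (L / 2 + 1) - 2)
      k1 := una (L - (L / 2 + 1) - L / 4 - 2) } : R2 E).st (400 * 2 ^ L) := by
  have hd : L / 2 / 2 = L / 4 := by rw [Nat.div_div_eq_div_mul]
  set p1 : R2 E := { q with a := una L } with dp1
  have a1 := VC.cpu (a := V2.kk) (b := V2.a) (t := V2.t) (by decide) (by decide) (by decide)
    (s := q.st) (s' := p1.st) h1 h2 h7 (by funext v; cases v <;> rfl)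
  set p2 : R2 E := { p1 with a := [], b := una (L / 2) } with dp2
  have a2 := VC.half (a := V2.a) (b := V2.b) (by decide) L (n' := 0)
    (s := p1.st) (s' := p2.st) rfl h3 (by funext v; cases v <;> rfl)
  set p3 : R2 E := { p2 with a := una (L / 2) } with dp3
  have a3 := VC.cpu (a := V2.b) (b := V2.a) (t := V2.t) (by decide) (by decide) (by decide)
    (s := p2.st) (s' := p3.st) (n := L / 2) rfl rfl h7 (by funext v; cases v <;> rfl)
  set p4 : R2 E := { p3 with a := [], c := una (L / 4) } with dp4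
  have a4 := VC.half (a := V2.a) (b := V2.c) (by decide) (L / 2) (n' := 0)
    (s := p3.st) (s' := p4.st) rfl h4 (by rw [hd]; funext v; cases v <;> rfl)
  set p5 : R2 E := { p4 with b := una (L / 2 + 1) } with dp5
  have a5 := VC.pushu (a := V2.b) (n := L / 2)
    (s := p4.st) (s' := p5.st) rfl (by funext v; cases v <;> rfl)
  set p6 : R2 E := { p5 with d := una L } with dp6
  have a6 := VC.cpu (a := V2.kk) (b := V2.d) (t := V2.t) (by decide) (by decide) (by decide)
    (s := p5.st) (s' := p6.st) h1 h5 h7 (by funext v; cases v <;> rfl)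
  set p7 : R2 E := { p6 with d := una (L - (L / 2 + 1)) } with dp7
  have a7 := VC.sub (a := V2.b) (b := V2.d) (t := V2.t) (by decide) (by decide) (by decide)
    (n := L / 2 + 1) (m := L)
    (s := p6.st) (s' := p7.st) rfl rfl h7 (by funext v; cases v <;> rfl)
  set p8 : R2 E := { p7 with k0 := una (L - (L / 2 + 1)) } with dp8
  have a8 := VC.cpu (a := V2.d) (b := V2.k0) (t := V2.t) (by decide) (by decide) (by decide)
    (s := p7.st) (s' := p8.st) (n := L - (L / 2 + 1)) rfl h14 h7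
    (by funext v; cases v <;> rfl)
  set p9 : R2 E := { p8 with k0 := una (L - (L / 2 + 1) - 1) } with dp9
  have a9 := VC.popu (a := V2.k0) (n := L - (L / 2 + 1))
    (s := p8.st) (s' := p9.st) rfl (by funext v; cases v <;> rfl)
  set p10 : R2 E := { p9 with k0 := una (L - (L / 2 + 1) - 2) } with dp10
  have a10 := VC.popu (a := V2.k0) (n := L - (L / 2 + 1) - 1)
    (s := p9.st) (s' := p10.st) rfl (by funext v; cases v <;> rfl)
  set p11 : R2 E := { p10 with k1 := una (L - (L / 2 + 1)) } with dp11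
  have a11 := VC.cpu (a := V2.d) (b := V2.k1) (t := V2.t) (by decide) (by decide) (by decide)
    (s := p10.st) (s' := p11.st) (n := L - (L / 2 + 1)) rfl h15 h7
    (by funext v; cases v <;> rfl)
  set p12 : R2 E := { p11 with k1 := una (L - (L / 2 + 1) - L / 4) } with dp12
  have a12 := VC.sub (a := V2.c) (b := V2.k1) (t := V2.t) (by decide) (by decide) (by decide)
    (n := L / 4) (m := L - (L / 2 + 1))
    (s := p11.st) (s' := p12.st) rfl rfl h7 (by funext v; cases v <;> rfl)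
  set p13 : R2 E := { p12 with k1 := una (L - (L / 2 + 1) - L / 4 - 1) } with dp13
  have a13 := VC.popu (a := V2.k1) (n := L - (L / 2 + 1) - L / 4)
    (s := p12.st) (s' := p13.st) rfl (by funext v; cases v <;> rfl)
  set p14 : R2 E := { p13 with k1 := una (L - (L / 2 + 1) - L / 4 - 2) } with dp14
  have a14 := VC.popu (a := V2.k1) (n := L - (L / 2 + 1) - L / 4 - 1)
    (s := p13.st) (s' := p14.st) rfl (by funext v; cases v <;> rfl)
  set p15 : R2 E := { p14 with e := una (L / 2 + 1) } with dp15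
  have a15 := VC.cpu (a := V2.b) (b := V2.e) (t := V2.t) (by decide) (by decide) (by decide)
    (s := p14.st) (s' := p15.st) (n := L / 2 + 1) rfl h6 h7 (by funext v; cases v <;> rfl)
  set p16 : R2 E := { p15 with e := una (L / 2 + 1 - L / 4) } with dp16
  have a16 := VC.sub (a := V2.c) (b := V2.e) (t := V2.t) (by decide) (by decide) (by decide)
    (n := L / 4) (m := L / 2 + 1)
    (s := p15.st) (s' := p16.st) rfl rfl h7 (by funext v; cases v <;> rfl)
  set p17 : R2 E := { p16 with m1 := una (2 ^ (L - (L / 2 + 1))) } with dp17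
  have a17 := VC.pw2 (a := V2.d) (b := V2.m1) (t4 := V2.a) (t5 := V2.t) (t6 := V2.h) (by decide)
    (n := L - (L / 2 + 1)) (s := p16.st) (s' := p17.st) rfl h9 rfl h7 h8
    (by funext v; cases v <;> rfl)
  set p18 : R2 E := { p17 with n1 := una (2 ^ (L / 2 + 1 - L / 4)) } with dp18
  have a18 := VC.pw2 (a := V2.e) (b := V2.n1) (t4 := V2.a) (t5 := V2.t) (t6 := V2.h) (by decide)
    (n := L / 2 + 1 - L / 4) (s := p17.st) (s' := p18.st) rfl h10 rfl h7 h8
    (by funext v; cases v <;> rfl)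
  set p19 : R2 E := { p18 with n0 := una (2 ^ (L / 4)) } with dp19
  have a19 := VC.pw2 (a := V2.c) (b := V2.n0) (t4 := V2.a) (t5 := V2.t) (t6 := V2.h) (by decide)
    (n := L / 4) (s := p18.st) (s' := p19.st) rfl h11 rfl h7 h8
    (by funext v; cases v <;> rfl)
  set p20 : R2 E := { p19 with zz := una (2 ^ (L / 2 + 1)) } with dp20
  have a20 := VC.pw2 (a := V2.b) (b := V2.zz) (t4 := V2.a) (t5 := V2.t) (t6 := V2.h) (by decide)
    (n := L / 2 + 1) (s := p19.st) (s' := p20.st) rfl h12 rfl h7 h8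
    (by funext v; cases v <;> rfl)
  set p21 : R2 E := { p20 with di := una (2 ^ (L - (L / 2 + 1))) } with dp21
  have a21 := VC.pw2 (a := V2.d) (b := V2.di) (t4 := V2.a) (t5 := V2.t) (t6 := V2.h) (by decide)
    (n := L - (L / 2 + 1)) (s := p20.st) (s' := p21.st) rfl h13 rfl h7 h8
    (by funext v; cases v <;> rfl)
  set p22 : R2 E := { p21 with kk := una (L - 1) } with dp22
  have a22 := VC.popu (a := V2.kk) (n := L)
    (s := p21.st) (s' := p22.st) h1 (by funext v; cases v <;> rfl)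
  set p23 : R2 E := { p22 with b := [] } with dp23
  have a23 := VC.clru (a := V2.b) (n := L / 2 + 1)
    (s := p22.st) (s' := p23.st) rfl (by funext v; cases v <;> rfl)
  set p24 : R2 E := { p23 with c := [] } with dp24
  have a24 := VC.clru (a := V2.c) (n := L / 4)
    (s := p23.st) (s' := p24.st) rfl (by funext v; cases v <;> rfl)
  set p25 : R2 E := { p24 with d := [] } with dp25
  have a25 := VC.clru (a := V2.d) (n := L - (L / 2 + 1))
    (s := p24.st) (s' := p25.st) rfl (by funext v; cases v <;> rfl)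
  set p26 : R2 E := { p25 with e := [] } with dp26
  have a26 := VC.clru (a := V2.e) (n := L / 2 + 1 - L / 4)
    (s := p25.st) (s' := p26.st) rfl (by funext v; cases v <;> rfl)
  refine ((a1.seq (a2.seq (a3.seq (a4.seq (a5.seq (a6.seq (a7.seq (a8.seq (a9.seq (a10.seq
    (a11.seq (a12.seq (a13.seq (a14.seq (a15.seq (a16.seq (a17.seq (a18.seq (a19.seq (a20.seq
    (a21.seq (a22.seq (a23.seq (a24.seq (a25.seq a26))))))))))))))))))))))))).mono ?_).of_eq ?_
  · have b1 : 2 ^ (L - (L / 2 + 1)) ≤ 2 ^ L := Nat.pow_le_pow_right (by norm_num) (by omega)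
    have b2 : 2 ^ (L / 2 + 1 - L / 4) ≤ 2 ^ L := Nat.pow_le_pow_right (by norm_num) (by omega)
    have b3 : 2 ^ (L / 4) ≤ 2 ^ L := Nat.pow_le_pow_right (by norm_num) (by omega)
    have b4 : 2 ^ (L / 2 + 1) ≤ 2 ^ L := Nat.pow_le_pow_right (by norm_num) (by omega)
    have b5 : L ≤ 2 ^ L := Nat.lt_two_pow_self.le
    have b6 : L / 2 + 1 ≤ L := by omega
    have b7 : L / 4 ≤ L := by omega
    have b8 : L - (L / 2 + 1) ≤ L := by omega
    have b9 : L / 2 + 1 - L / 4 ≤ L := by omega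
    have b10 : L / 2 ≤ L := by omega
    generalize 2 ^ (L - (L / 2 + 1)) = t1 at *
    generalize 2 ^ (L / 2 + 1 - L / 4) = t2 at *
    generalize 2 ^ (L / 4) = t3 at *
    generalize 2 ^ (L / 2 + 1) = t4 at *
    generalize L / 2 + 1 - L / 4 = t6 at *
    generalize L - (L / 2 + 1) = t5 at *
    clear * - b1 b2 b3 b4 b5 b6 b7 b8 b9 b10 hL
    linarith
  · congr 1
    simp only [dp26, dp25, dp24, dp23, dp22, dp21, dp20, dp19, dp18, dp17, dp16, dp15, dp14,
      dp13, dp12, dp11, dp10, dp9, dp8, dp7, dp6, dp5, dp4, dp3, dp2, dp1]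
    congr 1 <;> simp [*]

/-- A short chirp array on `x`, `y`. -/
noncomputable def sqcC (sq : PW J E) (R K x y : V2) : P2 J E :=
  callP .t [(false, R, Sum.inl (Sum.inr W.HR)), (true, K, Sum.inl (Sum.inr W.VV)),
    (false, .l, Sum.inl (Sum.inr W.LL))] (lf1 sq)
    [(Sum.inl (Sum.inr W.N1), x), (Sum.inl (Sum.inr W.N2), y)]

theorem sqcC_runs {sq : Bool → PW J E} {Tt : ℕ → ℕ} {C : ℕ} (hsq : SeqChSpec sq Tt C)
    {R K x y : V2} (hnd : [R, K, V2.l, V2.t].Nodup) (hxy : [x, y, V2.t].Nodup)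
    (cj : Bool) {r κ ℓ : ℕ} (hr : 1 ≤ r) (hℓ : 1 ≤ ℓ)
    (hb : r < 2 ^ (64 * ℓ - 1)) {s s' : Store V2 (SSym E)}
    (hR : s R = una r) (hK : s K = una κ) (hl : s .l = una ℓ)
    (ht : s .t = []) (hx : s x = []) (hy : s y = [])
    (e : s' = Function.update (Function.update (Function.update s K []) x
      (ar (64 * ℓ) r fun i =>
          (cA (64 * ℓ) (20 * ℓ) (rtc (64 * ℓ) (20 * ℓ) cj κ) i).1)) y
      (ar (64 * ℓ) r fun i =>
          (cA (64 * ℓ) (20 * ℓ) (rtc (64 * ℓ) (20 * ℓ) cj κ) i).2)) :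
    Runs (sqcC (sq cj) R K x y) (up s) (up s')
      ((C + 60) * ((r + (κ + 1) * ℓ) * (64 * ℓ + Tt (64 * ℓ)))) := by
  simp only [List.nodup_cons, List.mem_cons, List.not_mem_nil, or_false, not_or,
    List.nodup_nil, and_true, not_false_eq_true] at hnd hxy
  obtain ⟨⟨h1, h2, h3⟩, ⟨h5, h6⟩, h8⟩ := hnd
  obtain ⟨⟨g1, g2⟩, g3⟩ := hxy
  have a := (hsq cj r κ ℓ hr hℓ hb).asg1
  have e1 : s' x = ar (64 * ℓ) r fun i =>
      (cA (64 * ℓ) (20 * ℓ) (rtc (64 * ℓ) (20 * ℓ) cj κ) i).1 := by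
    rw [e, Function.update_of_ne g1, Function.update_self]
  have e2 : s' y = ar (64 * ℓ) r fun i =>
      (cA (64 * ℓ) (20 * ℓ) (rtc (64 * ℓ) (20 * ℓ) cj κ) i).2 := by
    rw [e, Function.update_self]
  have c := call_runs (ι := (Loc J ⊕ W) ⊕ V1) (V2.t) [(false, R, Sum.inl (Sum.inr W.HR)),
    (true, K, Sum.inl (Sum.inr W.VV)), (false, .l, Sum.inl (Sum.inr W.LL))]
    [(Sum.inl (Sum.inr W.N1), x), (Sum.inl (Sum.inr W.N2), y)] (p := lf1 (sq cj)) s s'
    (T := C * ((r + (κ + 1) * ℓ) * (64 * ℓ + Tt (64 * ℓ)))) (by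
      simp only [ldl, unl, List.map_cons, List.map_nil, hR, hK, hl, e1, e2]
      exact a) ht (by simp [h1, h2, h5]) (by simp)
    (by simp [Ne.symm h3, Ne.symm h6])
    (by simp) (by simp [g1]) (by simp [Ne.symm g2, Ne.symm g3]) (by
      intro v hv
      simp only [List.map_cons, List.map_nil, List.mem_cons, List.not_mem_nil, or_false] at hv
      simp only [ldst]
      rw [Function.update_apply]
      split_ifs
      · rfl
      · rcases hv with rfl | rfl
        · exact hx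
        · exact hy)
  refine (c.mono ?_).of_eq ?_
  · simp only [ldt, unt, List.map_cons, List.map_nil, List.sum_cons, List.sum_nil, e1, e2, hR,
      hK, hl, len_una, len_ar]
    have e3 : (C + 60) * ((r + (κ + 1) * ℓ) * (64 * ℓ + Tt (64 * ℓ))) =
        C * ((r + (κ + 1) * ℓ) * (64 * ℓ + Tt (64 * ℓ))) +
        60 * ((r + (κ + 1) * ℓ) * (64 * ℓ)) + 60 * ((r + (κ + 1) * ℓ) *
        Tt (64 * ℓ)) := by ring
    have e4 : (r + (κ + 1) * ℓ) * (64 * ℓ) = r * (64 * ℓ) +
        64 * ((κ + 1) * ℓ * ℓ) := by ring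
    have e7 : r ≤ r * (64 * ℓ) := Nat.le_mul_of_pos_right _ (by omega)
    have e8 : κ + 1 ≤ (κ + 1) * ℓ := Nat.le_mul_of_pos_right _ hℓ
    have e9 : (κ + 1) * ℓ ≤ (κ + 1) * ℓ * ℓ := Nat.le_mul_of_pos_right _ hℓ
    have e10 : ℓ ≤ (κ + 1) * ℓ := Nat.le_mul_of_pos_left _ (by omega)
    rw [e3, e4]
    omega
  · congr 1
    funext v
    simp only [unst, ldst, List.map_cons, List.map_nil, List.mem_cons, List.not_mem_nil,
      or_false]
    by_cases hv : v = x ∨ v = y
    · rw [if_pos hv]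
    · rw [if_neg hv, e]
      rw [not_or] at hv
      rw [Function.update_of_ne hv.2, Function.update_of_ne hv.1]

/-- The whole array is repeated. -/
theorem rep_all (S N R : ℕ) (x : ℕ → ℕ) :
    (cat 1 fun _ => rep R (bits (cat N fun j => bitsOf S (x j)))) =
      (ar S (R * N) fun k => x (k % N) : List (SSym E)) := by
  rw [cat_one, rep_eq_cat, ar_blk]
  refine cat_congr fun i _ => ?_
  congr 1
  refine cat_congr fun j hj => ?_
  rw [Nat.mul_comm i N, Nat.mul_add_mod, Nat.mod_eq_of_lt hj]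

/-- The long chirp array. -/
noncomputable def cfP (sq sqc : Bool → PW J E) (rp : PW J E) (cma : P1 J E) : P2 J E :=
  (v2 cfP0).seq <|
  (twfK sq rp cma false).seq <|
  (sqcC (sqc false) .zz .kk .b .c).seq <|
  (v2 (Prog.forr .l .t (Prog.pushN 64 .a mk))).seq <|
  (v2 (Prog.mulOnto .zz .t .a .h 1 .f mk)).seq <|
  (repC rp .b .f .di .fr).seq <|
  (repC rp .c .f .di .fi).seq <|
  (v2 (Prog.mulOnto .di .t .zz .h 1 .n mk)).seq <|
  (cmaC cma .er .ei .fr .fi .n .cr .ci).seq <|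
  (v2 (Prog.clear .a)).seq <| (v2 (Prog.clear .f)).seq <| (v2 (Prog.clear .zz)).seq <|
  (v2 (Prog.clear .di)).seq <| (v2 (Prog.clear .n)).seq <| (v2 (Prog.clear .g)).seq <|
  (v2 (Prog.clear .l)).seq <| v2 (Prog.clear .m)

theorem cfU_bound {Tb Tt : ℕ → ℕ} {Cs Cq Cr Cc L g m : ℕ} (hL : 12 ≤ L) (hg : 1 ≤ g)
    (hLl : L ≤ wL g) (hm : 8064 * (2 ^ L * wS g) ≤ m) :
    400 * 2 ^ L + 1 + ((4 * Cr + 2 * Cs + Cc + 400) * twfU Tb Tt (2 ^ (L - (L / 2 + 1)))
      (2 ^ (L / 2 + 1 - L / 4)) (2 ^ (L / 4)) (L - (L / 2 + 1) - L / 4 - 2)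
      (L - (L / 2 + 1) - 2) g m + 1 + ((Cq + 60) * ((2 ^ (L / 2 + 1) + (L - 1 + 1) * wL g) *
      (wS g + Tt (wS g))) + 1 + (wL g * (2 * 64 + 8) + 1 + 1 +
      (2 ^ (L / 2 + 1) * (wS g * 10 + 8) + 1 + 1 +
      ((Cr + 20) * (1 * (2 ^ (L / 2 + 1) * wS g) * (2 ^ (L - (L / 2 + 1)) + 1) +
        2 ^ (L / 2 + 1) * wS g + 2 ^ (L - (L / 2 + 1)) + 1) + 1 +
      ((Cr + 20) * (1 * (2 ^ (L / 2 + 1) * wS g) * (2 ^ (L - (L / 2 + 1)) + 1) +
        2 ^ (L / 2 + 1) * wS g + 2 ^ (L - (L / 2 + 1)) + 1) + 1 +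
      (2 ^ (L - (L / 2 + 1)) * (2 ^ (L / 2 + 1) * 10 + 8) + 1 + 1 +
      ((Cc + 20) * (m + Tb m + 2 ^ L * wS g * g) + 1 + (3 * wS g + 1 +
      (3 * (2 ^ (L / 2 + 1) * wS g) + 1 + (3 * 2 ^ (L / 2 + 1) + 1 +
      (3 * 2 ^ (L - (L / 2 + 1)) + 1 + (3 * 2 ^ L + 1 + (3 * g + 1 + (3 * wL g + 1 +
      3 * m))))))))))))))) ≤
      (10 * Cr + 4 * Cs + 3 * Cc + Cq + 1000) * (m + Tb m + 2 ^ L * wS g * g +
        (2 ^ (L - L / 4) + wL g ^ 2) * (wS g + Tt (wS g))) := by
  have hl : 1 ≤ wL g := hg.trans (g_le_wL g)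
  have hlS : wL g ≤ wS g := wL_le hg
  have hgl : g ≤ wL g := g_le_wL g
  have hQ : 2 ^ (L - (L / 2 + 1)) * 2 ^ (L / 2 + 1) = 2 ^ L := by
    rw [← pow_add]; congr 1; omega
  have hN : 2 ^ (L / 2 + 1 - L / 4) * 2 ^ (L / 4) = 2 ^ (L / 2 + 1) := by
    rw [← pow_add]; congr 1; omega
  have hP₁ : 2 ^ (L - (L / 2 + 1)) * 2 ^ (L / 2 + 1 - L / 4) = 2 ^ (L - L / 4) := by
    rw [← pow_add]; congr 1; omega
  have hP₀ : 2 ^ (L - (L / 2 + 1)) * 2 ^ (L / 4) ≤ 2 ^ (L - L / 4) := by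
    rw [← pow_add]; exact Nat.pow_le_pow_right (by norm_num) (by omega)
  have hH : 2 ^ (L / 2 + 1) ≤ 2 ^ (L - L / 4) := Nat.pow_le_pow_right (by norm_num) (by omega)
  have b1 : 2 ^ (L - (L / 2 + 1)) ≤ 2 ^ L := Nat.pow_le_pow_right (by norm_num) (by omega)
  have b4 : 2 ^ (L / 2 + 1) ≤ 2 ^ L := Nat.pow_le_pow_right (by norm_num) (by omega)
  have b5 : 1 ≤ 2 ^ (L - (L / 2 + 1)) := Nat.one_le_two_pow
  have b6 : 1 ≤ 2 ^ (L / 2 + 1) := Nat.one_le_two_pow
  unfold twfU
  rw [hN, hQ, hP₁]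
  have s1 : (L - 1 + 1) * wL g ≤ wL g ^ 2 := by
    rw [pow_two]; exact Nat.mul_le_mul_right _ (by omega)
  have s2 : (L - (L / 2 + 1) - L / 4 - 2 + 1) * wL g ≤ wL g ^ 2 := by
    rw [pow_two]; exact Nat.mul_le_mul_right _ (by omega)
  have s3 : (L - (L / 2 + 1) - 2 + 1) * wL g ≤ wL g ^ 2 := by
    rw [pow_two]; exact Nat.mul_le_mul_right _ (by omega)
  have s4 : 2 ^ (L / 2 + 1) * wS g ≤ 2 ^ L * wS g := Nat.mul_le_mul_right _ b4
  have s5 : 2 ^ L ≤ 2 ^ L * wS g := Nat.le_mul_of_pos_right _ (by omega)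
  have s6 : wS g ≤ 2 ^ (L / 2 + 1) * wS g := Nat.le_mul_of_pos_left _ (by omega)
  have y1 : 1 * (2 ^ (L / 2 + 1) * wS g) * (2 ^ (L - (L / 2 + 1)) + 1) =
      2 ^ L * wS g + 2 ^ (L / 2 + 1) * wS g := by rw [← hQ]; ring
  have y2 : 2 ^ (L - (L / 2 + 1)) * (2 ^ (L / 2 + 1) * 10 + 8) =
      10 * 2 ^ L + 8 * 2 ^ (L - (L / 2 + 1)) := by rw [← hQ]; ring
  have y3 : 2 ^ (L / 2 + 1) * (wS g * 10 + 8) = 10 * (2 ^ (L / 2 + 1) * wS g) +
      8 * 2 ^ (L / 2 + 1) := by ring
  rw [y1, y2, y3]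
  clear y1 y2 y3 hQ hN hP₁ hLl hL
  generalize 2 ^ L * wS g * g = G
  generalize 2 ^ L * wS g = Q₁ at *
  generalize 2 ^ (L / 2 + 1) * wS g = Q₂ at *
  generalize 2 ^ (L - (L / 2 + 1)) * 2 ^ (L / 4) = Q₃ at *
  generalize 2 ^ (L - L / 4) = P at *
  generalize 2 ^ (L - (L / 2 + 1)) = M at *
  generalize 2 ^ (L / 2 + 1) = H at *
  generalize 2 ^ L = Q at *
  generalize wL g ^ 2 = A at *
  generalize (L - 1 + 1) * wL g = A₁ at *
  generalize (L - (L / 2 + 1) - L / 4 - 2 + 1) * wL g = A₂ at *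
  generalize (L - (L / 2 + 1) - 2 + 1) * wL g = A₃ at *
  generalize wL g = ℓ at *
  generalize wS g = S at *
  generalize S + Tt S = D
  obtain ⟨U, hU⟩ : ∃ U, U = m + Tb m + G + (P + A) * D := ⟨_, rfl⟩
  rw [← hU]
  have t1 : (P + Q₃ + A₂ + A₃) * D ≤ (2 * (P + A)) * D := Nat.mul_le_mul_right _ (by omega)
  have t2 : (2 * (P + A)) * D = 2 * ((P + A) * D) := by ring
  have t3 : (H + A₁) * D ≤ (P + A) * D := Nat.mul_le_mul_right _ (by omega)
  have u1 : (4 * Cr + 2 * Cs + Cc + 400) * (m + Tb m + G + (P + Q₃ + A₂ + A₃) * D) ≤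
      (4 * Cr + 2 * Cs + Cc + 400) * (2 * U) := Nat.mul_le_mul_left _ (by omega)
  have u2 : (Cq + 60) * ((H + A₁) * D) ≤ (Cq + 60) * U := Nat.mul_le_mul_left _ (by omega)
  have v0 : 8064 * Q₁ ≤ U := by omega
  have u3 : (Cr + 20) * (Q₁ + Q₂ + Q₂ + M + 1) ≤ (Cr + 20) * U :=
    Nat.mul_le_mul_left _ (by omega)
  have u4 : (Cc + 20) * (m + Tb m + G) ≤ (Cc + 20) * U :=
    Nat.mul_le_mul_left _ (by omega)
  have v1 : m ≤ U := by omega
  clear t1 t2 t3 hU
  have e1 : (10 * Cr + 4 * Cs + 3 * Cc + Cq + 1000) * U =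
      (4 * Cr + 2 * Cs + Cc + 400) * (2 * U) + (Cq + 60) * U + 2 * ((Cr + 20) * U) +
      (Cc + 20) * U + 80 * U := by ring
  rw [e1]
  linarith

theorem cf_spec {sq sqc : Bool → PW J E} {rp : PW J E} {cma : P1 J E} {Tb Tt : ℕ → ℕ}
    {Cs Cq Cr Cc : ℕ} (hsq : SeqTwSpec sq Tt Cs) (hsqc : SeqChSpec sqc Tt Cq)
    (hrp : RepSpec rp Cr) (hcma : CmaSpec cma Tb Cc) :
    CfSpec (cfP sq sqc rp cma) Tb Tt (10 * Cr + 4 * Cs + 3 * Cc + Cq + 1000) := by
  intro L g m hL hg hLl hm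
  have eS : wS g = 64 * wL g := wS_eq hg
  have hl : 1 ≤ wL g := hg.trans (g_le_wL g)
  have hS : 1 ≤ wS g := by omega
  have hQ : 2 ^ (L - (L / 2 + 1)) * 2 ^ (L / 2 + 1) = 2 ^ L := by
    rw [← pow_add]; congr 1; omega
  have hN : 2 ^ (L / 2 + 1 - L / 4) * 2 ^ (L / 4) = 2 ^ (L / 2 + 1) := by
    rw [← pow_add]; congr 1; omega
  have hBS : 20 * wL g ≤ wS g := by omega
  set S := wS g with dS
  set B := 20 * wL g with dB
  set N₁ := 2 ^ (L / 2 + 1 - L / 4) with dN₁
  set N₀ := 2 ^ (L / 4) with dN₀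
  set H := 2 ^ (L / 2 + 1) with dH
  set M := 2 ^ (L - (L / 2 + 1)) with dM
  have hM : 1 ≤ M := Nat.one_le_two_pow
  have hN₁ : 1 ≤ N₁ := Nat.one_le_two_pow
  have hN₀ : 1 ≤ N₀ := Nat.one_le_two_pow
  have hH : 1 ≤ H := Nat.one_le_two_pow
  set q : R2 E := { (R2.z : R2 E) with
    kk := una L, g := una g, l := una (wL g), m := una m } with dq
  set p1 : R2 E := { q with
      kk := una (L - 1)
      m1 := una M
      n1 := una N₁
      n0 := una N₀
      zz := una H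
      di := una M
      k0 := una (L - (L / 2 + 1) - 2)
      k1 := una (L - (L / 2 + 1) - L / 4 - 2) } with dp1
  have a1 : Runs (v2 cfP0 : P2 J E) (up q.st) (up p1.st) (400 * 2 ^ L) :=
    v2_runs (cfP0_runs (by omega) q rfl rfl rfl rfl rfl rfl rfl rfl rfl rfl rfl rfl rfl rfl
      rfl)
  set p2 : R2 E := { p1 with
    m1 := [], n1 := [], n0 := [], k1 := [], k0 := []
    er := ar S (2 ^ L) fun k =>
      (tF S B (rt B (L - (L / 2 + 1) - L / 4 - 2)) (rt B (L - (L / 2 + 1) - 2)) N₀ (k / H)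
        (k % H)).1
    ei := ar S (2 ^ L) fun k =>
      (tF S B (rt B (L - (L / 2 + 1) - L / 4 - 2)) (rt B (L - (L / 2 + 1) - 2)) N₀ (k / H)
        (k % H)).2 } with dp2
  have hb1 : M < 2 ^ (S - 1) := Nat.pow_lt_pow_right (by norm_num) (by omega)
  have hb2 : H < 2 ^ (S - 1) := Nat.pow_lt_pow_right (by norm_num) (by omega)
  have a2 := twfK_runs (J := J) hsq hrp hcma false M N₁ N₀ (L - (L / 2 + 1) - L / 4 - 2)
    (L - (L / 2 + 1) - 2) g m hM hN₁ hN₀ hg hb1 (by rw [hN, hQ]; exact hm) p1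
    rfl rfl rfl rfl rfl rfl rfl rfl rfl rfl rfl rfl rfl rfl rfl rfl rfl rfl rfl rfl rfl rfl
  rw [hN, hQ] at a2
  have a2' : Runs (twfK sq rp cma false) (up p1.st) (up p2.st) _ := a2
  clear a2
  -- the short chirp array
  set p3 : R2 E := { p2 with
    kk := []
    b := ar S H fun i => (cA S B (rt B (L - 1)) i).1
    c := ar S H fun i => (cA S B (rt B (L - 1)) i).2 } with dp3
  have a3 := sqcC_runs (J := J) (E := E) hsqc (R := .zz) (K := .kk) (x := .b)
    (y := .c) (by decide) (by decide) false (r := H) (κ := L - 1) (ℓ := wL g) hH hl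
    (by rw [← eS]; exact hb2) (s := p2.st) (s' := p3.st) rfl rfl rfl rfl rfl rfl (by
      rw [← eS]
      funext v; cases v <;> rfl)
  rw [← eS] at a3
  set p4 : R2 E := { p3 with a := una S } with dp4
  have a4 : Runs (v2 (Prog.forr .l .t (Prog.pushN 64 .a mk)) : P2 J E) (up p3.st) (up p4.st)
      (wL g * (2 * 64 + 8) + 1) := v2_runs (VC.scl (by decide) (by decide) (by decide) 64
      (n := wL g) (n' := 0) (s := p3.st) (s' := p4.st) rfl rfl rfl (by
        rw [Nat.add_zero, Nat.mul_comm, ← eS]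
        funext v; cases v <;> rfl))
  set p5 : R2 E := { p4 with f := una (H * S) } with dp5
  have a5 : Runs (v2 (Prog.mulOnto .zz .t .a .h 1 .f mk) : P2 J E) (up p4.st) (up p5.st)
      (H * (S * 10 + 8) + 1) := v2_runs (VC.mul (by decide)
      (n := H) (n' := S) (n'' := 0) (s := p4.st) (s' := p5.st) rfl rfl rfl rfl rfl (by
        funext v; cases v <;> rfl))
  set p6 : R2 E := { p5 with
    b := []
    fr := ar S (2 ^ L) fun k => (cA S B (rt B (L - 1)) (k % H)).1 } with dp6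
  have a6 := repC_runs (J := J) (E := E) hrp (x := .b) (L := .f) (R := .di) (y := .fr)
    (by decide) (by decide) (n := 1) (l := H * S) (r := M)
    (b := fun _ => bits (cat H fun j => bitsOf S (cA S B (rt B (L - 1)) j).1))
    (Nat.mul_pos hH hS) (fun i => by
      rw [len_bits, length_cat_of (L := S) fun i _ => length_bitsOf _ _])
    (s := p5.st) (s' := p6.st) (by rw [cat_one]; rfl) rfl rfl rfl (Or.inr rfl) (by
      rw [rep_all S H M fun j => (cA S B (rt B (L - 1)) j).1, hQ]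
      funext v; cases v <;> rfl)
  set p7 : R2 E := { p6 with
    c := []
    fi := ar S (2 ^ L) fun k => (cA S B (rt B (L - 1)) (k % H)).2 } with dp7
  have a7 := repC_runs (J := J) (E := E) hrp (x := .c) (L := .f) (R := .di) (y := .fi)
    (by decide) (by decide) (n := 1) (l := H * S) (r := M)
    (b := fun _ => bits (cat H fun j => bitsOf S (cA S B (rt B (L - 1)) j).2))
    (Nat.mul_pos hH hS) (fun i => by
      rw [len_bits, length_cat_of (L := S) fun i _ => length_bitsOf _ _])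
    (s := p6.st) (s' := p7.st) (by rw [cat_one]; rfl) rfl rfl rfl (Or.inr rfl) (by
      rw [rep_all S H M fun j => (cA S B (rt B (L - 1)) j).2, hQ]
      funext v; cases v <;> rfl)
  set p8 : R2 E := { p7 with n := una (2 ^ L) } with dp8
  have a8 : Runs (v2 (Prog.mulOnto .di .t .zz .h 1 .n mk) : P2 J E) (up p7.st) (up p8.st)
      (M * (H * 10 + 8) + 1) := v2_runs (VC.mul (by decide)
      (n := M) (n' := H) (n'' := 0) (s := p7.st) (s' := p8.st) rfl rfl rfl rfl rfl (by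
        rw [Nat.add_zero, hQ]
        funext v; cases v <;> rfl))
  -- the product
  set p9 : R2 E := { p8 with
    er := [], ei := [], fr := [], fi := []
    cr := ar S (2 ^ L) fun k => (cF S B L k).1
    ci := ar S (2 ^ L) fun k => (cF S B L k).2 } with dp9
  have a9 := cmaC_runs (J := J) (E := E) hcma (x₁ := .er) (x₂ := .ei) (y₁ := .fr) (y₂ := .fi)
    (nn := .n) (z₁ := .cr) (z₂ := .ci) (by decide) (by decide) (n := 2 ^ L) (g := g)
    (m := m) Nat.one_le_two_pow hg hm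
    (x := fun k => tF S B (rt B (L - (L / 2 + 1) - L / 4 - 2)) (rt B (L - (L / 2 + 1) - 2)) N₀
      (k / H) (k % H))
    (y := fun k => cA S B (rt B (L - 1)) (k % H))
    (fun _ => (cmR_lt hBS _ _).1) (fun _ => (cmR_lt hBS _ _).2)
    (fun _ => (cmR_lt hBS _ _).1) (fun _ => (cmR_lt hBS _ _).2)
    (s := p8.st) (s' := p9.st) rfl rfl rfl rfl rfl rfl rfl rfl rfl (Or.inr rfl) (Or.inr rfl)
    (by funext v; cases v <;> rfl)
  -- the end
  set p10 : R2 E := { p9 with a := [] } with dp10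
  have a10 := v2_runs (J := J) (VC.clru (a := V2.a) (n := S) (s := p9.st) (s' := p10.st) rfl
      (by funext v; cases v <;> rfl))
  set p11 : R2 E := { p10 with f := [] } with dp11
  have a11 := v2_runs (J := J) (VC.clru (a := V2.f) (n := H * S) (s := p10.st) (s' := p11.st)
      rfl (by funext v; cases v <;> rfl))
  set p12 : R2 E := { p11 with zz := [] } with dp12
  have a12 := v2_runs (J := J) (VC.clru (a := V2.zz) (n := H) (s := p11.st) (s' := p12.st) rfl
      (by funext v; cases v <;> rfl))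
  set p13 : R2 E := { p12 with di := [] } with dp13
  have a13 := v2_runs (J := J) (VC.clru (a := V2.di) (n := M) (s := p12.st) (s' := p13.st) rfl
      (by funext v; cases v <;> rfl))
  set p14 : R2 E := { p13 with n := [] } with dp14
  have a14 := v2_runs (J := J) (VC.clru (a := V2.n) (n := 2 ^ L) (s := p13.st) (s' := p14.st)
      rfl (by funext v; cases v <;> rfl))
  set p15 : R2 E := { p14 with g := [] } with dp15
  have a15 := v2_runs (J := J) (VC.clru (a := V2.g) (n := g) (s := p14.st) (s' := p15.st)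
      rfl (by funext v; cases v <;> rfl))
  set p16 : R2 E := { p15 with l := [] } with dp16
  have a16 := v2_runs (J := J) (VC.clru (a := V2.l) (n := wL g) (s := p15.st) (s' := p16.st)
      rfl (by funext v; cases v <;> rfl))
  set p17 : R2 E := { p16 with m := [] } with dp17
  have a17 := v2_runs (J := J) (VC.clru (a := V2.m) (n := m) (s := p16.st) (s' := p17.st)
      rfl (by funext v; cases v <;> rfl))
  have e0 : q.st = asg [(V2.kk, una L), (V2.g, una g), (V2.l, una (wL g)), (V2.m, una m)] := by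
    funext v; cases v <;> rfl
  rw [e0] at a1
  refine ((a1.seq (a2'.seq (a3.seq (a4.seq (a5.seq (a6.seq (a7.seq (a8.seq (a9.seq (a10.seq
    (a11.seq (a12.seq (a13.seq (a14.seq (a15.seq (a16.seq a17)))))))))))))))).mono
    ?_).of_eq ?_
  · exact cfU_bound (Tb := Tb) (Tt := Tt) hL hg hLl hm
  · congr 1
    funext v; cases v <;> rfl

end Vale.Agent.P338.GS
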