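import Vale.Agent.P338.GS.Iface2

/-!
# P338, stage 5: products of arrays of complex numbers (package S5-CMA)
-/

namespace Vale.Agent.P338.GS

open Vale.Agent.P338

variable {J E : Type}

@[simp] theorem length_ar (S n : ℕ) (x : ℕ → ℕ) :
    (ar S n x : List (SSym E)).length = n * S := by
  unfold ar
  rw [length_bits, length_cat_of (L := S) fun i _ => length_bitsOf _ _]

/-- A stack of the lower level. -/
abbrev lw (r : W) : Loc J ⊕ W := Sum.inr r

variable [DecidableEq J]

/-- A product of real numbers at level 1. -/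
noncomputable def cmaM (p : PW J E) (c cn : Bool) (vx vy vz : V1) : P1 J E :=
  callP .t [(c, vx, lw .N1), (c, vy, lw .N2), (cn, .n, lw .HX), (cn, .g, lw .UU),
    (cn, .m, lw .MM)] p [(lw .N3, vz)]

/-- A sum or difference at level 1. -/
noncomputable def cmaE (p : PW J E) (cl : Bool) (vz : V1) : P1 J E :=
  callP .t [(true, .a, lw .N1), (true, .b, lw .N2), (cl, .l, lw .LL)] p [(lw .N3, vz)]

theorem cmaM_runs {p : PW J E} {Tb : ℕ → ℕ} {C : ℕ} (hp : BmSpec p Tb C) (c cn : Bool)
    {vx vy vz : V1} (h : Store V1 (SSym E)) {n g m : ℕ} {x y : ℕ → ℕ} (hn : 1 ≤ n) (hg : 1 ≤ g)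
    (hm : 8064 * (n * wS g) ≤ m) (hx : ∀ q, x q < 2 ^ wS g) (hy : ∀ q, y q < 2 ^ wS g)
    (hd : [V1.t, vx, vy, vz, .n, .g, .m].Nodup) (e0 : h .t = []) (e1 : h vx = ar (wS g) n x)
    (e2 : h vy = ar (wS g) n y) (e3 : h vz = []) (e4 : h .n = una n) (e5 : h .g = una g)
    (e6 : h .m = una m) :
    Runs (cmaM p c cn vx vy vz) (up h) (up fun v =>
      if v = vz then ar (wS g) n fun q => muR (wS g) (x q) (y q)
      else if (v = vx ∨ v = vy) ∧ c = true then []
      else if (v = .n ∨ v = .g ∨ v = .m) ∧ cn = true then [] else h v)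
      (C * (m + Tb m + n * wS g * g) + 100 * m + 100) := by
  have hw : 1 ≤ wS g := by unfold wS; exact Nat.mul_pos (by positivity) hg
  have hgw : g ≤ wS g := by
    unfold wS; exact Nat.le_mul_of_pos_left _ (by positivity)
  have b1 : n ≤ n * wS g := Nat.le_mul_of_pos_right _ hw
  have b2 : wS g ≤ n * wS g := Nat.le_mul_of_pos_left _ hn
  have hr := hp n g m x y hn hg hm hx hy
  unfold WRun at hr
  rw [asW_eq, asW_eq] at hr
  simp only [List.nodup_cons, List.mem_cons, List.not_mem_nil, or_false, not_or,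
    not_false_eq_true, List.nodup_nil, and_true] at hd
  obtain ⟨⟨d1, d2, d3, d4, d5, d6⟩, ⟨d7, d8, d9, d10, d11⟩, ⟨d12, d13, d14, d15⟩,
    ⟨d16, d17, d18⟩, ⟨d19, d20⟩, d21⟩ := hd
  have key := call_runs (V1.t) [(c, vx, lw .N1), (c, vy, lw .N2), (cn, .n, lw .HX),
    (cn, .g, lw .UU), (cn, .m, lw .MM)] [((lw .N3 : Loc J ⊕ W), vz)] (p := p) h
    (fun _ => ar (wS g) n fun q => muR (wS g) (x q) (y q)) (T := C * (m + Tb m + n * wS g * g))
    (by
      simp only [ldl, unl, List.map, e1, e2, e4, e5, e6] at hr ⊢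
      exact hr) e0
    (by simp; tauto) (by simp) (by simp; tauto) (by simp) (by simp) (by simp; tauto)
    (by
      intro v hv
      simp only [List.map, List.mem_singleton] at hv
      subst hv
      rw [ldst_of_not_mem, e3]
      simp; tauto)
  refine (key.mono ?_).of_eq ?_
  · simp only [ldt, unt, List.map, List.sum_cons, List.sum_nil, e1, e2, e4, e5, e6, length_ar,
      length_una]
    omega
  · congr 1
    funext v
    simp only [unst, List.map, List.mem_singleton]
    by_cases h1 : v = vz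
    · simp [h1]
    · rw [if_neg h1, if_neg h1]
      cases c <;> cases cn <;> simp only [ldst, Function.update_apply, Bool.false_eq_true,
        and_false, and_true, if_false]
      · split_ifs <;> simp_all
      · split_ifs <;> simp_all
      · split_ifs <;> simp_all

theorem cmaE_runs {p : PW J E} {f : ℕ → ℕ → ℕ → ℕ → ℕ} {C : ℕ} (hp : ElSpec p f C) (cl : Bool)
    {vz : V1} (h : Store V1 (SSym E)) {n ℓ : ℕ} {x y : ℕ → ℕ} (hl : 1 ≤ ℓ)
    (hx : ∀ q, x q < 2 ^ (64 * ℓ)) (hy : ∀ q, y q < 2 ^ (64 * ℓ))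
    (hd : [V1.t, .a, .b, .l, vz].Nodup) (e0 : h .t = []) (e1 : h .a = ar (64 * ℓ) n x)
    (e2 : h .b = ar (64 * ℓ) n y) (e3 : h vz = []) (e4 : h .l = una ℓ) :
    Runs (cmaE p cl vz) (up h) (up fun v =>
      if v = vz then ar (64 * ℓ) n fun q => f (64 * ℓ) (20 * ℓ) (x q) (y q)
      else if v = .a ∨ v = .b then [] else if v = .l ∧ cl = true then [] else h v)
      (C * (n * ℓ + ℓ + 1) + 2000 * (n * ℓ + ℓ + 1)) := by
  have hr := hp n ℓ x y hl hx hy
  unfold WRun at hr
  rw [asW_eq, asW_eq] at hr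
  simp only [List.nodup_cons, List.mem_cons, List.not_mem_nil, or_false, not_or,
    not_false_eq_true, List.nodup_nil, and_true] at hd
  obtain ⟨⟨d1, d2, d3, d4⟩, ⟨d5, d6, d7⟩, ⟨d8, d9⟩, d10⟩ := hd
  have key := call_runs (V1.t) [(true, .a, lw .N1), (true, .b, lw .N2), (cl, .l, lw .LL)]
    [((lw .N3 : Loc J ⊕ W), vz)] (p := p) h
    (fun _ => ar (64 * ℓ) n fun q => f (64 * ℓ) (20 * ℓ) (x q) (y q))
    (T := C * (n * ℓ + ℓ + 1))
    (by
      simp only [ldl, unl, List.map, e1, e2, e4] at hr ⊢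
      exact hr) e0
    (by simp) (by simp) (by simp) (by simp) (by simp) (by simp; tauto)
    (by
      intro v hv
      simp only [List.map, List.mem_singleton] at hv
      subst hv
      rw [ldst_of_not_mem, e3]
      simp; tauto)
  refine (key.mono ?_).of_eq ?_
  · simp only [ldt, unt, List.map, List.sum_cons, List.sum_nil, e1, e2, e4, length_ar,
      length_una]
    have : n * (64 * ℓ) = 64 * (n * ℓ) := by ring
    rw [this]
    omega
  · congr 1
    funext v
    simp only [unst, List.map, List.mem_singleton]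
    by_cases h1 : v = vz
    · simp [h1]
    · rw [if_neg h1, if_neg h1]
      cases cl <;> simp only [ldst, Function.update_apply, Bool.false_eq_true,
        and_false, and_true, if_false]
      · split_ifs <;> simp_all
      · split_ifs <;> simp_all

/-- The program for the products of complex numbers: `pb` computes products, `ps` differences,
`pa` sums. -/
noncomputable def cmaP (pb ps pa : PW J E) : P1 J E :=
  (cmaM pb false false .xr .yr .a).seq ((cmaM pb false false .xi .yi .b).seq
    ((cmaE ps false .zr).seq ((cmaM pb true false .xr .yi .a).seq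
      ((cmaM pb true true .xi .yr .b).seq (cmaE pa true .zi)))))

/-- Package S5-CMA. -/
theorem cmaSpec {pb ps pa : PW J E} {Tb : ℕ → ℕ} {C₁ C₂ C₃ : ℕ} (hb : BmSpec pb Tb C₁)
    (hs : ElSpec ps fSub C₂) (ha : ElSpec pa fAdd C₃) :
    CmaSpec (cmaP pb ps pa) Tb (4 * C₁ + 3 * C₂ + 3 * C₃ + 20000) := by
  intro n g m x y hn hg hm hx1 hx2 hy1 hy2
  have hw : 1 ≤ wL g := by unfold wL; exact Nat.mul_pos (by positivity) hg
  have hS : wS g = 64 * wL g := wS_eq hg
  have q1 := fun (u v : ℕ → ℕ) q => muR_lt (wS g) (u q) (v q)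
  set h0 : Store V1 (SSym E) := asg [(V1.xr, ar (wS g) n fun q => (x q).1),
        (V1.xi, ar (wS g) n fun q => (x q).2), (V1.yr, ar (wS g) n fun q => (y q).1),
        (V1.yi, ar (wS g) n fun q => (y q).2), (V1.n, una n), (V1.g, una g),
        (V1.l, una (wL g)), (V1.m, una m)] with hh0
  have z0 : h0 = fun v => match v with
      | .xr => ar (wS g) n fun q => (x q).1
      | .xi => ar (wS g) n fun q => (x q).2
      | .yr => ar (wS g) n fun q => (y q).1
      | .yi => ar (wS g) n fun q => (y q).2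
      | .n => una n
      | .g => una g
      | .l => una (wL g)
      | .m => una m
      | _ => [] := by
    funext v
    cases v <;> simp [hh0, asg]
  have r1 := cmaM_runs hb false false (vx := .xr) (vy := .yr) (vz := .a) h0 hn hg hm hx1 hy1
    (by decide) (by simp [z0]) (by simp [z0]) (by simp [z0]) (by simp [z0]) (by simp [z0])
    (by simp [z0]) (by simp [z0])
  set h1 : Store V1 (SSym E) := fun v => match v with
      | .a => ar (wS g) n fun q => muR (wS g) (x q).1 (y q).1
      | v => h0 v with hh1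
  have w1 := r1.of_eq (s'' := up h1) (by
    congr 1; funext v; cases v <;> simp [hh1, z0])
  have r2 := cmaM_runs hb false false (vx := .xi) (vy := .yi) (vz := .b) h1 hn hg hm hx2 hy2
    (by decide) (by simp [hh1, z0]) (by simp [hh1, z0]) (by simp [hh1, z0]) (by simp [hh1, z0])
    (by simp [hh1, z0]) (by simp [hh1, z0]) (by simp [hh1, z0])
  set h2 : Store V1 (SSym E) := fun v => match v with
      | .b => ar (wS g) n fun q => muR (wS g) (x q).2 (y q).2
      | v => h1 v with hh2
  have w2 := r2.of_eq (s'' := up h2) (by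
    congr 1; funext v; cases v <;> simp [hh2, hh1, z0])
  have r3 := cmaE_runs hs false (vz := .zr) h2 (n := n) (ℓ := wL g)
    (x := fun q => muR (wS g) (x q).1 (y q).1) (y := fun q => muR (wS g) (x q).2 (y q).2) hw
    (by intro q; rw [← hS]; exact muR_lt ..) (by intro q; rw [← hS]; exact muR_lt ..)
    (by decide) (by simp [hh2, hh1, z0]) (by simp [hh2, hh1, hS]) (by simp [hh2, hS])
    (by simp [hh2, hh1, z0]) (by simp [hh2, hh1, z0])
  set h3 : Store V1 (SSym E) := fun v => match v with
      | .zr => ar (wS g) n fun q => (cmR (wS g) (20 * wL g) (x q) (y q)).1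
      | v => h0 v with hh3
  have w3 := r3.of_eq (s'' := up h3) (by
    congr 1; funext v; cases v <;> simp [hh3, hh2, hh1, z0, hS, cmR, fSub])
  have r4 := cmaM_runs hb true false (vx := .xr) (vy := .yi) (vz := .a) h3 hn hg hm hx1 hy2
    (by decide) (by simp [hh3, z0]) (by simp [hh3, z0]) (by simp [hh3, z0]) (by simp [hh3, z0])
    (by simp [hh3, z0]) (by simp [hh3, z0]) (by simp [hh3, z0])
  set h4 : Store V1 (SSym E) := fun v => match v with
      | .a => ar (wS g) n fun q => muR (wS g) (x q).1 (y q).2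
      | .xr => []
      | .yi => []
      | v => h3 v with hh4
  have w4 := r4.of_eq (s'' := up h4) (by
    congr 1; funext v; cases v <;> simp [hh4, hh3, z0])
  have r5 := cmaM_runs hb true true (vx := .xi) (vy := .yr) (vz := .b) h4 hn hg hm hx2 hy1
    (by decide) (by simp [hh4, hh3, z0]) (by simp [hh4, hh3, z0]) (by simp [hh4, hh3, z0])
    (by simp [hh4, hh3, z0]) (by simp [hh4, hh3, z0]) (by simp [hh4, hh3, z0])
    (by simp [hh4, hh3, z0])
  set h5 : Store V1 (SSym E) := fun v => match v with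
      | .a => ar (wS g) n fun q => muR (wS g) (x q).1 (y q).2
      | .b => ar (wS g) n fun q => muR (wS g) (x q).2 (y q).1
      | .zr => ar (wS g) n fun q => (cmR (wS g) (20 * wL g) (x q) (y q)).1
      | .l => una (wL g)
      | _ => [] with hh5
  have w5 := r5.of_eq (s'' := up h5) (by
    congr 1; funext v; cases v <;> simp [hh5, hh4, hh3, z0])
  have r6 := cmaE_runs ha true (vz := .zi) h5 (n := n) (ℓ := wL g)
    (x := fun q => muR (wS g) (x q).1 (y q).2) (y := fun q => muR (wS g) (x q).2 (y q).1) hw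
    (by intro q; rw [← hS]; exact muR_lt ..) (by intro q; rw [← hS]; exact muR_lt ..)
    (by decide) (by simp [hh5]) (by simp [hh5, hS]) (by simp [hh5, hS])
    (by simp [hh5]) (by simp [hh5])
  have w6 := r6.of_eq (s'' := up (asg [(V1.zr, ar (wS g) n fun q =>
      (cmR (wS g) (20 * wL g) (x q) (y q)).1), (V1.zi, ar (wS g) n fun q =>
      (cmR (wS g) (20 * wL g) (x q) (y q)).2)])) (by
    congr 1; funext v; cases v <;> simp [hh5, hS, cmR, fAdd, asg])
  refine (w1.seq (w2.seq (w3.seq (w4.seq (w5.seq w6))))).mono ?_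
  have b1 : n * wL g ≤ m := by
    have : n * wS g = 64 * (n * wL g) := by rw [hS]; ring
    omega
  have b2 : wL g ≤ m := le_trans (Nat.le_mul_of_pos_left _ hn) b1
  have b3 : 1 ≤ m := le_trans hw b2
  have b4 : C₂ * (n * wL g + wL g + 1) ≤ C₂ * (3 * m) := Nat.mul_le_mul_left _ (by omega)
  have b5 : C₃ * (n * wL g + wL g + 1) ≤ C₃ * (3 * m) := Nat.mul_le_mul_left _ (by omega)
  have b6 : 2000 * (n * wL g + wL g + 1) ≤ 6000 * m := by omega
  set K := m + Tb m + n * wS g * g with hK
  have b7 : m ≤ K := by omega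
  have b8 : C₂ * m ≤ C₂ * K := Nat.mul_le_mul_left _ b7
  have b9 : C₃ * m ≤ C₃ * K := Nat.mul_le_mul_left _ b7
  have e1 : (4 * C₁ + 3 * C₂ + 3 * C₃ + 20000) * K =
    4 * (C₁ * K) + 3 * (C₂ * K) + 3 * (C₃ * K) + 20000 * K := by ring
  rw [e1]
  have e2 : C₂ * (3 * m) = 3 * (C₂ * m) := by ring
  have e3 : C₃ * (3 * m) = 3 * (C₃ * m) := by ring
  rw [e2] at b4
  rw [e3] at b5
  clear_value K
  generalize C₁ * K = a1 at *
  generalize C₂ * K = a2 at *
  generalize C₃ * K = a3 at *
  generalize C₂ * (n * wL g + wL g + 1) = a4 at *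
  generalize C₃ * (n * wL g + wL g + 1) = a5 at *
  generalize 2000 * (n * wL g + wL g + 1) = a6 at *
  generalize C₂ * m = a7 at *
  generalize C₃ * m = a8 at *
  omega

end Vale.Agent.P338.GS
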