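import Vale.Agent.P338.H744.VC

/-!
# P338, stage 5: multiplication of the data by an array (`ExpSpec`)
-/

namespace Vale.Agent.P338.GS.H744

open Vale.Agent.P338 Vale.Agent.P338.GS

variable {J E : Type}

/-- The stores of this file. -/
def stE (dr di cr ci er ei c d n zx zr zz g l m : List (SSym E)) : Store V2 (SSym E)
  | .dr => dr | .di => di | .cr => cr | .ci => ci | .er => er | .ei => ei | .c => c | .d => d
  | .n => n | .zx => zx | .zr => zr | .zz => zz | .g => g | .l => l | .m => m | _ => []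

/-- The numbers: `n = X * r * Z`, `c = 64 * l`, `d = r * Z * c`. -/
def segA : List (VC V2) :=
  [.mul .zx .zr .a, .mul .a .zz .n, .scl 64 .l .c, .mul .zr .zz .e, .mul .e .c .d, .clr .a,
    .clr .e]

/-- Clear. -/
def segB : List (VC V2) := [.clr .c, .clr .d]

section

variable (dr di cr ci er ei c d n g m : List (SSym E)) (X r Z L : ℕ)

theorem segA_eff : veffs segA (stE dr di cr ci [] [] [] [] [] (una X) (una r) (una Z) g
    (una L) m) = stE dr di cr ci [] [] (una (64 * L)) (una (r * Z * (64 * L)))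
      (una (X * r * Z)) (una X) (una r) (una Z) g (una L) m := by
  funext v
  cases v <;> simp [segA, veffs, VC.eff, stE, Nat.mul_comm 64]

theorem segA_ok : voks .t .b segA (stE dr di cr ci [] [] [] [] [] (una X) (una r) (una Z) g
    (una L) m) := by
  simp [segA, voks, VC.eff, VC.ok, stE]

theorem segA_cost : vcosts segA (stE dr di cr ci [] [] [] [] [] (una X) (una r) (una Z) g
    (una L) m) = X * (r * 10 + 8) + 1 + 1 + (X * r * (Z * 10 + 8) + 1 + 1 + (L * 136 + 1 + 1 +
      (r * (Z * 10 + 8) + 1 + 1 + (r * Z * (L * 64 * 10 + 8) + 1 + 1 + (3 * (X * r) + 1 +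
        (3 * (r * Z) + 1 + 1)))))) := by
  simp [segA, vcosts, VC.eff, VC.cost, stE]

end

/-- Stacks of level 0 as stacks of level 1. -/
abbrev k1 {J : Type} (w : W) : (Loc J ⊕ W) ⊕ V1 := Sum.inl (Sum.inr w)

variable [DecidableEq J]

theorem rep1_runs {rp : PW J E} {C : ℕ} (h : RepSpec rp C) (n L R : ℕ)
    (b : ℕ → List (SSym E)) (hL : 1 ≤ L) (hb : ∀ i, (b i).length = L) :
    Runs (rp.map (Sum.inl : Loc J ⊕ W → (Loc J ⊕ W) ⊕ V1))
      (asg [(k1 .N1, cat n b), (k1 .HX, una L), (k1 .HR, una R)])
      (asg [(k1 .N3, cat n fun i => Vale.Agent.P338.rep R (b i))])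
      (C * (n * L * (R + 1) + L + R + 1)) := by
  have h1 := h n L R b hL hb
  unfold WRun at h1
  rw [asW_eq, asW_eq] at h1
  exact lift_asg h1

/-- The array, every word `Z` times, all this `X` times. -/
noncomputable def xpd (rp : PW J E) (src dst : V2) : P2 J E :=
  (callP .t [(false, src, k1 .N1), (false, .c, k1 .HX), (false, .zz, k1 .HR)]
    (rp.map Sum.inl) [(k1 .N3, dst)]).seq
  (callP .t [(true, dst, k1 .N1), (false, .d, k1 .HX), (false, .zx, k1 .HR)]
    (rp.map Sum.inl) [(k1 .N3, dst)])

/-- The expanded array. -/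
theorem xpd_list (X r Z S : ℕ) (x : ℕ → ℕ) :
    (Vale.Agent.P338.rep X (cat r fun i => Vale.Agent.P338.rep Z (wd S (x i)))
      : List (SSym E)) = ar S (X * r * Z) fun k => x (k / Z % r) := by
  rw [ar_cat, cat_mul (X * r), cat_mul X, rep_cat]
  refine cat_congr fun a _ => cat_congr fun i hi => ?_
  rw [rep_cat]
  refine cat_congr fun z hz => ?_
  have e1 : ((a * r + i) * Z + z) / Z = a * r + i := by
    rw [Nat.mul_comm, Nat.mul_add_div (by omega), Nat.div_eq_of_lt hz, Nat.add_zero]
  have e4 : (a * r + i) % r = i := by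
    rw [Nat.mul_comm, Nat.mul_add_mod, Nat.mod_eq_of_lt hi]
  simp only [e1, e4]

theorem xpd_er {rp : PW J E} {C : ℕ} (h : RepSpec rp C) (X r Z S : ℕ) (x : ℕ → ℕ)
    (dr di ci ei n g l m : List (SSym E)) (hS : 1 ≤ S) (hr : 1 ≤ r) (hZ : 1 ≤ Z) :
    Runs (xpd rp .cr .er)
      (up (stE dr di (ar S r x) ci [] ei (una S) (una (r * Z * S)) n (una X) (una r) (una Z)
        g l m))
      (up (stE dr di (ar S r x) ci (ar S (X * r * Z) fun k => x (k / Z % r)) ei (una S)
        (una (r * Z * S)) n (una X) (una r) (una Z) g l m))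
      ((C + 50) * (r * S * (Z + 1) + S + Z + 1) +
        (C + 50) * (r * Z * S * (X + 1) + r * Z * S + X + 1)) := by
  have a1 := rep1_runs h r S Z (fun i => wd S (x i)) hS fun i => length_wd ..
  have hl : (cat r fun i => Vale.Agent.P338.rep Z (wd S (x i)) : List (SSym E)).length =
      r * Z * S := by
    rw [length_cat_of (L := Z * S) fun i _ => by rw [length_rep, length_wd]]; ring
  have a2 := rep1_runs h 1 (r * Z * S) X
    (fun _ => cat r fun i => Vale.Agent.P338.rep Z (wd S (x i)))
    (Nat.mul_pos (Nat.mul_pos hr hZ) hS) fun _ => hl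
  rw [cat_one, cat_one] at a2
  have b1 := call_runs (.t : V2) [(false, .cr, k1 .N1), (false, .c, k1 .HX),
    (false, .zz, k1 .HR)] [(k1 .N3, .er)]
    (stE dr di (ar S r x) ci [] ei (una S) (una (r * Z * S)) n (una X) (una r) (una Z)
        g l m) (fun _ => cat r fun i => Vale.Agent.P338.rep Z (wd S (x i)))
    (by rw [← ar_cat] at a1; exact a1) rfl (by simp) (by simp) (by simp) (by simp) (by simp)
    (by simp) (by simp [ldst, stE])
  have b2 := call_runs (.t : V2) [(true, .er, k1 .N1), (false, .d, k1 .HX),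
    (false, .zx, k1 .HR)] [(k1 .N3, .er)]
    (stE dr di (ar S r x) ci (cat r fun i => Vale.Agent.P338.rep Z (wd S (x i))) ei (una S)
      (una (r * Z * S)) n (una X) (una r) (una Z) g l m)
    (fun _ => Vale.Agent.P338.rep X (cat r fun i => Vale.Agent.P338.rep Z (wd S (x i))))
    a2 rfl (by simp) (by simp) (by simp) (by simp) (by simp) (by simp) (by simp [ldst])
  refine ((b1.of_eq ?_).seq (b2.of_eq ?_)).mono ?_
  · congr 1
    funext v
    cases v <;> simp [unst, ldst, stE]
  · congr 1
    funext v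
    rw [← xpd_list]
    cases v <;> simp [unst, ldst, stE]
  · simp only [ldt, unt, List.map, List.sum_cons, List.sum_nil, stE, length_ar, length_una, hl,
      length_rep]
    nlinarith

theorem xpd_ei {rp : PW J E} {C : ℕ} (h : RepSpec rp C) (X r Z S : ℕ) (x : ℕ → ℕ)
    (dr di cr er n g l m : List (SSym E)) (hS : 1 ≤ S) (hr : 1 ≤ r) (hZ : 1 ≤ Z) :
    Runs (xpd rp .ci .ei)
      (up (stE dr di cr (ar S r x) er [] (una S) (una (r * Z * S)) n (una X) (una r) (una Z)
        g l m))
      (up (stE dr di cr (ar S r x) er (ar S (X * r * Z) fun k => x (k / Z % r)) (una S)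
        (una (r * Z * S)) n (una X) (una r) (una Z) g l m))
      ((C + 50) * (r * S * (Z + 1) + S + Z + 1) +
        (C + 50) * (r * Z * S * (X + 1) + r * Z * S + X + 1)) := by
  have a1 := rep1_runs h r S Z (fun i => wd S (x i)) hS fun i => length_wd ..
  have hl : (cat r fun i => Vale.Agent.P338.rep Z (wd S (x i)) : List (SSym E)).length =
      r * Z * S := by
    rw [length_cat_of (L := Z * S) fun i _ => by rw [length_rep, length_wd]]; ring
  have a2 := rep1_runs h 1 (r * Z * S) X
    (fun _ => cat r fun i => Vale.Agent.P338.rep Z (wd S (x i)))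
    (Nat.mul_pos (Nat.mul_pos hr hZ) hS) fun _ => hl
  rw [cat_one, cat_one] at a2
  have b1 := call_runs (.t : V2) [(false, .ci, k1 .N1), (false, .c, k1 .HX),
    (false, .zz, k1 .HR)] [(k1 .N3, .ei)]
    (stE dr di cr (ar S r x) er [] (una S) (una (r * Z * S)) n (una X) (una r) (una Z)
        g l m) (fun _ => cat r fun i => Vale.Agent.P338.rep Z (wd S (x i)))
    (by rw [← ar_cat] at a1; exact a1) rfl (by simp) (by simp) (by simp) (by simp) (by simp)
    (by simp) (by simp [ldst, stE])
  have b2 := call_runs (.t : V2) [(true, .ei, k1 .N1), (false, .d, k1 .HX),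
    (false, .zx, k1 .HR)] [(k1 .N3, .ei)]
    (stE dr di cr (ar S r x) er (cat r fun i => Vale.Agent.P338.rep Z (wd S (x i))) (una S)
      (una (r * Z * S)) n (una X) (una r) (una Z) g l m)
    (fun _ => Vale.Agent.P338.rep X (cat r fun i => Vale.Agent.P338.rep Z (wd S (x i))))
    a2 rfl (by simp) (by simp) (by simp) (by simp) (by simp) (by simp) (by simp [ldst])
  refine ((b1.of_eq ?_).seq (b2.of_eq ?_)).mono ?_
  · congr 1
    funext v
    cases v <;> simp [unst, ldst, stE]
  · congr 1
    funext v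
    rw [← xpd_list]
    cases v <;> simp [unst, ldst, stE]
  · simp only [ldt, unt, List.map, List.sum_cons, List.sum_nil, stE, length_ar, length_una, hl,
      length_rep]
    nlinarith

/-- The program. -/
noncomputable def expP (rp : PW J E) (cma : P1 J E) : P2 J E :=
  ((vcs .t .b segA).map Sum.inr).seq ((xpd rp .cr .er).seq ((xpd rp .ci .ei).seq
    (((vcs .t .b segB).map Sum.inr).seq
      (callP .t [(true, .dr, Sum.inr .xr), (true, .di, Sum.inr .xi), (true, .er, Sum.inr .yr),
        (true, .ei, Sum.inr .yi), (true, .n, Sum.inr .n), (false, .g, Sum.inr .g),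
        (false, .l, Sum.inr .l), (false, .m, Sum.inr .m)] cma
        [(Sum.inr .zr, .dr), (Sum.inr .zi, .di)]))))

theorem expSpec {rp : PW J E} {cma : P1 J E} {Tb : ℕ → ℕ} {C C' : ℕ} (hr : RepSpec rp C)
    (hc : CmaSpec cma Tb C') : ExpSpec (expP rp cma) Tb (C' + 1000 * (C + 100)) := by
  intro X r Z g m c e hX h1 hZ hg hm he1 he2 hc1 hc2
  set S := wS g with hS
  set L := wL g with hL
  have eS : S = 64 * L := wS_eq hg
  have hL1 : 1 ≤ L := by
    rw [hL]; unfold wL; exact Nat.mul_pos (by positivity) hg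
  have hS1 : 1 ≤ S := by omega
  have s1 := vcs_up (ι := (Loc J ⊕ W) ⊕ V1) (E := E) .t .b segA
    (stE (bits (arr3 X r Z S fun x i z => (e x i z).1))
      (bits (arr3 X r Z S fun x i z => (e x i z).2)) (ar S r fun i => (c i).1)
      (ar S r fun i => (c i).2) [] [] [] [] [] (una X) (una r) (una Z) (una g) (una L) (una m))
    (segA_ok ..)
  rw [segA_eff, segA_cost, ← eS] at s1
  have s2 := xpd_er hr X r Z S (fun i => (c i).1) (bits (arr3 X r Z S fun x i z => (e x i z).1))
      (bits (arr3 X r Z S fun x i z => (e x i z).2)) (ar S r fun i => (c i).2) []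
      (una (X * r * Z)) (una g) (una L) (una m) hS1 h1 hZ
  have s3 := xpd_ei hr X r Z S (fun i => (c i).2) (bits (arr3 X r Z S fun x i z => (e x i z).1))
      (bits (arr3 X r Z S fun x i z => (e x i z).2)) (ar S r fun i => (c i).1)
      (ar S (X * r * Z) fun k => (c (k / Z % r)).1)
      (una (X * r * Z)) (una g) (una L) (una m) hS1 h1 hZ
  have s4 := vcs_up (ι := (Loc J ⊕ W) ⊕ V1) (E := E) .t .b segB
    (stE (bits (arr3 X r Z S fun x i z => (e x i z).1))
      (bits (arr3 X r Z S fun x i z => (e x i z).2)) (ar S r fun i => (c i).1)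
      (ar S r fun i => (c i).2) (ar S (X * r * Z) fun k => (c (k / Z % r)).1)
      (ar S (X * r * Z) fun k => (c (k / Z % r)).2) (una S) (una (r * Z * S))
      (una (X * r * Z)) (una X) (una r) (una Z) (una g) (una L) (una m))
    (by simp [segB, voks, VC.ok])
  have a5 := hc (X * r * Z) g m (fun k => e (k / Z / r) (k / Z % r) (k % Z))
    (fun k => c (k / Z % r)) (Nat.mul_pos (Nat.mul_pos hX h1) hZ) hg hm
    (fun q => he1 _ _ _) (fun q => he2 _ _ _) (fun q => hc1 _) (fun q => hc2 _)
  rw [up_asg, up_asg] at a5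
  have s5 := call_runs (.t : V2) [(true, .dr, (Sum.inr .xr : (Loc J ⊕ W) ⊕ V1)),
    (true, .di, Sum.inr .xi), (true, .er, Sum.inr .yr),
        (true, .ei, Sum.inr .yi), (true, .n, Sum.inr .n), (false, .g, Sum.inr .g),
        (false, .l, Sum.inr .l), (false, .m, Sum.inr .m)] [(Sum.inr .zr, .dr), (Sum.inr .zi, .di)]
    (stE (bits (arr3 X r Z S fun x i z => (e x i z).1))
      (bits (arr3 X r Z S fun x i z => (e x i z).2)) (ar S r fun i => (c i).1)
      (ar S r fun i => (c i).2) (ar S (X * r * Z) fun k => (c (k / Z % r)).1)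
      (ar S (X * r * Z) fun k => (c (k / Z % r)).2) [] []
      (una (X * r * Z)) (una X) (una r) (una Z) (una g) (una L) (una m))
    (stE (bits (arr3 X r Z S fun x i z => (cmR S (20 * L) (e x i z) (c i)).1))
      (bits (arr3 X r Z S fun x i z => (cmR S (20 * L) (e x i z) (c i)).2)) [] [] [] [] [] []
      [] [] [] [] [] [] [])
    (by
      simp only [ldl, unl, List.map, stE]
      rw [arr3_ar, arr3_ar, arr3_ar, arr3_ar]
      exact a5) rfl (by simp) (by simp) (by simp) (by simp) (by simp) (by simp)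
    (by simp [ldst])
  have e4 : veffs segB (stE (bits (arr3 X r Z S fun x i z => (e x i z).1))
      (bits (arr3 X r Z S fun x i z => (e x i z).2)) (ar S r fun i => (c i).1)
      (ar S r fun i => (c i).2) (ar S (X * r * Z) fun k => (c (k / Z % r)).1)
      (ar S (X * r * Z) fun k => (c (k / Z % r)).2) (una S) (una (r * Z * S))
      (una (X * r * Z)) (una X) (una r) (una Z) (una g) (una L) (una m)) =
      stE (E := E) (bits (arr3 X r Z S fun x i z => (e x i z).1))
      (bits (arr3 X r Z S fun x i z => (e x i z).2)) (ar S r fun i => (c i).1)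
      (ar S r fun i => (c i).2) (ar S (X * r * Z) fun k => (c (k / Z % r)).1)
      (ar S (X * r * Z) fun k => (c (k / Z % r)).2) [] []
      (una (X * r * Z)) (una X) (una r) (una Z) (una g) (una L) (una m) := by
    funext v
    cases v <;> simp [segB, veffs, VC.eff, stE]
  rw [e4] at s4
  have key := s1.seq (s2.seq (s3.seq (s4.seq s5)))
  have f1 : asg [(V2.dr, bits (arr3 X r Z S fun x i z => (e x i z).1)),
        (V2.di, bits (arr3 X r Z S fun x i z => (e x i z).2)),
        (V2.cr, ar S r fun i => (c i).1), (V2.ci, ar S r fun i => (c i).2),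
        (V2.zx, una X), (V2.zr, una r), (V2.zz, una Z), (V2.g, una g), (V2.l, una L),
        (V2.m, una m)] = (stE (bits (arr3 X r Z S fun x i z => (e x i z).1))
      (bits (arr3 X r Z S fun x i z => (e x i z).2)) (ar S r fun i => (c i).1)
      (ar S r fun i => (c i).2) [] [] [] [] [] (una X) (una r) (una Z) (una g) (una L) (una m)
        : Store V2 (SSym E)) := by
    funext v
    cases v <;> simp [asg, stE]
  rw [f1]
  refine (key.of_eq ?_).mono ?_
  · congr 1
    funext v
    cases v <;> simp [asg, unst, ldst, stE]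
  · have hP1 : 1 ≤ X * r * Z * S :=
      Nat.mul_pos (Nat.mul_pos (Nat.mul_pos hX h1) hZ) hS1
    obtain ⟨P, hP⟩ : ∃ P, P = X * r * Z * S := ⟨_, rfl⟩
    have pXr : X * r ≤ P := by
      rw [hP, Nat.mul_assoc (X * r)]
      exact Nat.le_mul_of_pos_right _ (Nat.mul_pos hZ hS1)
    have pXrZ : X * r * Z ≤ P := by rw [hP]; exact Nat.le_mul_of_pos_right _ hS1
    have prZ : r * Z ≤ P := by
      rw [hP, show X * r * Z * S = r * Z * (X * S) by ring]
      exact Nat.le_mul_of_pos_right _ (Nat.mul_pos hX hS1)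
    have prS : r * S ≤ P := by
      rw [hP, show X * r * Z * S = r * S * (X * Z) by ring]
      exact Nat.le_mul_of_pos_right _ (Nat.mul_pos hX hZ)
    have prZS : r * Z * S ≤ P := by
      rw [hP, show X * r * Z * S = r * Z * S * X by ring]
      exact Nat.le_mul_of_pos_right _ hX
    have pX : X ≤ P := le_trans (Nat.le_mul_of_pos_right _ h1) pXr
    have pr : r ≤ P := le_trans (Nat.le_mul_of_pos_right _ hZ) prZ
    have pZ : Z ≤ P := le_trans (Nat.le_mul_of_pos_left _ h1) prZ
    have pS : S ≤ P := le_trans (Nat.le_mul_of_pos_left _ h1) prS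
    have pm : 8064 * P ≤ m := by rw [hP]; exact hm
    have pg : P ≤ P * g := Nat.le_mul_of_pos_right _ hg
    have pg' : g ≤ P * g := Nat.le_mul_of_pos_left _ (by omega)
    have prZL : r * Z * (L * 64) ≤ P := by
      rw [show L * 64 = S by omega]; exact prZS
    have c1 : X * (r * 10 + 8) + 1 + 1 + (X * r * (Z * 10 + 8) + 1 + 1 + (L * 136 + 1 + 1 +
      (r * (Z * 10 + 8) + 1 + 1 + (r * Z * (L * 64 * 10 + 8) + 1 + 1 + (3 * (X * r) + 1 +
        (3 * (r * Z) + 1 + 1)))))) ≤ 300 * P := by
      have e1 : X * (r * 10 + 8) = 10 * (X * r) + 8 * X := by ring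
      have e2 : X * r * (Z * 10 + 8) = 10 * (X * r * Z) + 8 * (X * r) := by ring
      have e3 : r * (Z * 10 + 8) = 10 * (r * Z) + 8 * r := by ring
      have e4 : r * Z * (L * 64 * 10 + 8) = 10 * (r * Z * (L * 64)) + 8 * (r * Z) := by ring
      rw [e1, e2, e3, e4]
      omega
    have c2 : (C + 50) * (r * S * (Z + 1) + S + Z + 1) +
        (C + 50) * (r * Z * S * (X + 1) + r * Z * S + X + 1) ≤ (C + 50) * (9 * P) := by
      have e1 : r * S * (Z + 1) = r * Z * S + r * S := by ring
      have e2 : r * Z * S * (X + 1) = P + r * Z * S := by rw [hP]; ring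
      rw [← Nat.mul_add, e1, e2]
      exact Nat.mul_le_mul_left _ (by omega)
    simp only [ldt, unt, segB, vcosts, VC.eff, VC.cost, List.map, List.sum_cons, List.sum_nil,
      stE, length_ar, length_una, length_bits, length_arr3, Function.update_of_ne, ne_eq,
      reduceCtorEq, not_false_eq_true, ← hP]
    generalize Tb m = T at *
    have c3 : C' * (m + T + P * g) + 1000 * (C + 100) * m ≤
        (C' + 1000 * (C + 100)) * (m + T + P * g) := by
      rw [Nat.add_mul]
      exact Nat.add_le_add_left (Nat.mul_le_mul_left _ (by omega)) _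
    have c4 : 2 * ((C + 50) * (9 * P)) + 800 * P + 40 * m ≤ 1000 * (C + 100) * m := by
      have e1 : (C + 50) * (9 * P) ≤ (C + 50) * (9 * m) := Nat.mul_le_mul_left _ (by omega)
      have e2 : (C + 50) * (9 * m) = 9 * (C * m) + 450 * m := by ring
      have e3 : 1000 * (C + 100) * m = 1000 * (C * m) + 100000 * m := by ring
      rw [e3]
      rw [e2] at e1
      omega
    have e5 : X * r * Z * wS g * g = P * g := by rw [← hS, hP]
    have e6 : g ≤ S := by
      rw [hS]; unfold wS; exact Nat.le_mul_of_pos_left _ (by positivity)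
    rw [e5]
    omega

end Vale.Agent.P338.GS.H744
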