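import Vale.Agent.P338.GS.Iface2
import Vale.Agent.P338.GS.ConvC

/-!
# P338, stage 5: pointwise passes over arrays of words
-/

namespace Vale.Agent.P338.GS.El

open Vale.Agent.P338 Vale.Agent.P338.GS Vale.Agent.P338.GS.IO Vale.Agent.P338.GS.CV

variable {J E : Type} [DecidableEq J]

theorem length_ar (S n : ℕ) (x : ℕ → ℕ) : (ar S n x : List (SSym E)).length = n * S := by
  unfold ar
  rw [length_bits, length_cat_of fun _ _ => length_bitsOf _ _]

/-- Load two arrays and the parameters. -/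
def ldA : List (GC E) :=
  [.rev .N1 .T2, .rev .T2 .DR, .rev .N2 .T2, .rev .T2 .DI, .scl 20 .LL .WB, .scl 44 .LL .T8]

/-- Clean up. -/
def cl3 : List (GC E) :=
  [.rev .T7 .N3, .clr .WB, .clr .T8, .clr .LL]

/-- The pass. -/
def elP (g : Bool → Bool → Bool → Bool) : PW J E :=
  (gcs ldA).seq ((wdL .DR .DI g).seq (gcs cl3))

theorem elP_spec {g : Bool → Bool → Bool → Bool} {op : ℕ → ℕ → ℕ → ℕ}
    (hop : ∀ S, Opn S g (op S)) :
    ElSpec (elP g : PW J E) (fun S B x y => asr S B (op S x y)) 6000 := by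
  intro n ℓ x y hℓ hx hy
  set s0 : SW J E := asW [(.N1, ar (64 * ℓ) n x), (.N2, ar (64 * ℓ) n y), (.LL, una ℓ)] with h0
  have a1 := gcs_spec (J := J) (E := E) ldA s0 (by
    simp [goks, ldA, GC.ok, GC.eff, s0, at_set])
  have e1 : geffs ldA s0 = (((asW [(.DR, ar (64 * ℓ) n x), (.DI, ar (64 * ℓ) n y),
      (.WB, una (20 * ℓ)), (.T8, una (44 * ℓ)), (.LL, una ℓ)]) : SW J E)) := by
    refine sw_ext (fun j => by simp [geffs, ldA, GC.eff, s0]) fun r => ?_
    simp only [geffs, ldA, GC.eff, s0, at_set, asW_cons_at, asW_nil_at]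
    split_ifs <;> simp_all [mul_comm]
  have c1 : gcosts ldA s0 ≤ 6 * (n * (64 * ℓ) * 2) + 150 * ℓ + 20 := by
    simp only [gcosts, ldA, GC.eff, GC.cost, s0, at_set, asW_cons_at, asW_nil_at]
    simp [length_ar]
    omega
  rw [e1] at a1
  set s1 : SW J E := asW [(.DR, ar (64 * ℓ) n x), (.DI, ar (64 * ℓ) n y),
      (.WB, una (20 * ℓ)), (.T8, una (44 * ℓ)), (.LL, una ℓ)] with h1
  have a2 := wdL_spec (J := J) (E := E) (S := 64 * ℓ) (B := 20 * ℓ) (by omega) (hop (64 * ℓ))
    (x := .DR) (y := .DI) (by decide) (by decide) (by decide) n x y s1 (by simp [s1])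
    (by simp [s1]) (by simp [s1]) (by simp [s1])
    (by simp [s1]; congr 1; omega) hx hy (by simp [s1, ar]) (by simp [s1, ar])
  set s2 : SW J E := ((s1.set .DR []).set .DI []).set .T7
      ((bits (cat n fun k => bitsOf (64 * ℓ) (asr (64 * ℓ) (20 * ℓ)
        (op (64 * ℓ) (x k) (y k))))).reverse ++ s1.at .T7) with h2
  have a3 := gcs_spec (J := J) (E := E) cl3 s2 (by
    simp [goks, cl3, GC.ok])
  have c3 : gcosts cl3 s2 ≤ 3 * (n * (64 * ℓ)) + 300 * ℓ + 20 := by
    have : (bits (cat n fun k => bitsOf (64 * ℓ) (asr (64 * ℓ) (20 * ℓ)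
        (op (64 * ℓ) (x k) (y k)))) : List (SSym E)).length = n * (64 * ℓ) :=
      length_ar _ _ _
    simp only [gcosts, cl3, GC.eff, GC.cost, s2, s1, at_set, asW_cons_at, asW_nil_at]
    simp [this]
    omega
  refine ((a1.seq (a2.seq a3)).mono ?_).of_eq ?_
  · nlinarith
  · refine sw_ext (fun j => by simp [geffs, cl3, GC.eff, s2, s1]) fun r => ?_
    simp only [geffs, cl3, GC.eff, s2, s1, at_set, asW_cons_at, asW_nil_at, ar]
    split_ifs <;> simp_all

/-- Pointwise subtraction. -/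
theorem elSub : ElSpec (elP SS.bw : PW J E) fSub 6000 := elP_spec fun S => opn_sub S

/-- Pointwise addition. -/
theorem elAdd : ElSpec (elP SS.mj : PW J E) fAdd 6000 := elP_spec fun S => opn_add S

/-! ### Negation -/

theorem asr_zero (S d : ℕ) : asr S 0 d = d := by
  unfold asr
  split_ifs <;> simp

/-- The negation of one word. -/
def ngB : PW J E :=
  (Prog.fill (wg .T8) (sb false) (wg .DR) (wg .F1)).seq (wdP .DR .DI SS.bw)

theorem ngB_spec {S : ℕ} (hS : 1 ≤ S) {s : SW J E} (hF1 : s.at .F1 = []) (hF3 : s.at .F3 = [])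
    (hT1 : s.at .T1 = []) (hDR : s.at .DR = []) (h1 : s.at .WB = []) (h2 : s.at .T8 = una S)
    {y : ℕ} (hy : y < 2 ^ S) {ry : List (SSym E)} (hY : s.at .DI = bits (bitsOf S y) ++ ry) :
    Runs ngB s ((s.set .DI ry).set .T7 ((bits (bitsOf S (sbR S 0 y))).reverse ++ s.at .T7))
      (70 * S) := by
  have a1 := r_fill (J := J) (u := .T8) (b := .DR) (t := .F1) (by decide) (by decide)
    (by decide) (sb false : SSym E) s S h2 hF1
  have e1 : List.replicate S (sb false : SSym E) ++ s.at .DR = bits (bitsOf S 0) := by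
    rw [hDR, bitsOf_zero]; simp [bits]
  rw [e1] at a1
  have a2 := wdP_spec (J := J) (E := E) (S := S) (B := 0) (by omega) (opn_sub S)
    (x := .DR) (y := .DI) (by decide) (by decide) (by decide)
    (s := s.set .DR (bits (bitsOf S 0))) (by simp [at_set, hF1]) (by simp [at_set, hF3])
    (by simp [at_set, hT1]) (by simp [at_set, h1]; rfl) (by simp [at_set, h2])
    (e := 0) (e' := y) (by positivity) hy (rx := []) (ry := ry) (by simp)
    (by simp [at_set, hY])
  rw [asr_zero] at a2
  refine ((a1.seq a2).mono (by omega)).of_eq ?_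
  refine sw_ext (fun j => by simp) fun r => ?_
  simp only [at_set]
  split_ifs <;> simp_all

/-- The negation of all words. -/
def ngL : PW J E := Prog.loop (nonempty (wg .DI)) ngB

theorem ngL_spec {S : ℕ} (hS : 1 ≤ S) (n : ℕ) : ∀ (y : ℕ → ℕ) (s : SW J E), s.at .F1 = [] →
    s.at .F3 = [] → s.at .T1 = [] → s.at .DR = [] → s.at .WB = [] → s.at .T8 = una S →
    (∀ k, y k < 2 ^ S) → s.at .DI = bits (cat n fun k => bitsOf S (y k)) →
    Runs ngL s ((s.set .DI []).set .T7
      ((bits (cat n fun k => bitsOf S (sbR S 0 (y k)))).reverse ++ s.at .T7))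
      (72 * (n * S)) := by
  induction n with
  | zero =>
    intro y s _ _ _ _ _ _ _ hY
    have hY' : s.at .DI = [] := by rw [hY]; rfl
    refine ((Runs.loopF (by
      have : s (Sum.inr .DI) = [] := hY'
      simp [this])).of_eq ?_).mono (by omega)
    rw [cat_zero, set_of_at hY', set_of_at]
    simp [bits]
  | succ n ih =>
    intro y s hF1 hF3 hT1 hDR h1 h2 hy hY
    rw [cat_succ'] at hY
    have hY' : s.at .DI = bits (bitsOf S (y 0)) ++
        bits (cat n fun k => bitsOf S (y (k + 1))) := by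
      rw [hY]; simp [bits]
    have a1 := ngB_spec hS hF1 hF3 hT1 hDR h1 h2 (hy 0) hY'
    set s1 := (s.set .DI (bits (cat n fun k => bitsOf S (y (k + 1))))).set .T7
        ((bits (bitsOf S (sbR S 0 (y 0)))).reverse ++ s.at .T7) with hs1
    have a2 := ih (fun k => y (k + 1)) s1
      (by simp [s1, at_set, hF1]) (by simp [s1, at_set, hF3]) (by simp [s1, at_set, hT1])
      (by simp [s1, at_set, hDR]) (by simp [s1, at_set, h1]) (by simp [s1, at_set, h2])
      (fun k => hy (k + 1)) (by simp [s1, at_set])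
    have hne : nonempty (Sum.inr W.DI) (tops s) = true := by
      obtain ⟨S', rfl⟩ : ∃ S', S = S' + 1 := ⟨S - 1, by omega⟩
      have : s (Sum.inr .DI) = bits (bitsOf (S' + 1) (y 0)) ++
        bits (cat n fun k => bitsOf (S' + 1) (y (k + 1))) := hY'
      rw [nonempty_tops, this, bitsOf_succ]
      simp [bits]
    refine ((Runs.loopT (c := nonempty (Sum.inr W.DI)) (p := ngB) hne a1 a2).mono
      ?_).of_eq ?_
    · nlinarith
    · have e3 : s1.at .T7 = (bits (bitsOf S (sbR S 0 (y 0)))).reverse ++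
          s.at .T7 := by rw [hs1, at_set_self]
      rw [e3, cat_succ']
      have e4 : (bits (bitsOf S (sbR S 0 (y 0)) ++ cat n fun k =>
          bitsOf S (sbR S 0 (y (k + 1)))) : List (SSym E)).reverse =
          (bits (cat n fun k => bitsOf S (sbR S 0 (y (k + 1))))).reverse ++
          (bits (bitsOf S (sbR S 0 (y 0)))).reverse := by simp [bits]
      rw [e4, List.append_assoc]
      clear a1 a2 ih hY hY' e3 e4 hne
      refine sw_ext (fun j => by simp [s1]) fun r => ?_
      simp only [s1, at_set]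
      split_ifs <;> rfl

/-- Load one array. -/
def ldN : List (GC E) := [.rev .N1 .T2, .rev .T2 .DI, .scl 64 .LL .T8]

/-- Clean up. -/
def clN : List (GC E) := [.rev .T7 .N3, .clr .T8, .clr .LL]

/-- Negation of all words. -/
def ngP : PW J E := (gcs ldN).seq (ngL.seq (gcs clN))

theorem ngP_spec : NegSpec (ngP : PW J E) 6000 := by
  intro n ℓ y hℓ hy
  set s0 : SW J E := asW [(.N1, ar (64 * ℓ) n y), (.LL, una ℓ)] with h0
  have a1 := gcs_spec (J := J) (E := E) ldN s0 (by
    simp [goks, ldN, GC.ok, GC.eff, s0, at_set])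
  have e1 : geffs ldN s0 = ((asW [(.DI, ar (64 * ℓ) n y), (.T8, una (64 * ℓ)),
      (.LL, una ℓ)]) : SW J E) := by
    refine sw_ext (fun j => by simp [geffs, ldN, GC.eff, s0]) fun r => ?_
    simp only [geffs, ldN, GC.eff, s0, at_set, asW_cons_at, asW_nil_at]
    split_ifs <;> simp_all [mul_comm]
  have c1 : gcosts ldN s0 ≤ 6 * (n * (64 * ℓ)) + 200 * ℓ + 20 := by
    simp only [gcosts, ldN, GC.eff, GC.cost, s0, at_set, asW_cons_at, asW_nil_at]
    simp [length_ar]
    omega
  rw [e1] at a1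
  set s1 : SW J E := asW [(.DI, ar (64 * ℓ) n y), (.T8, una (64 * ℓ)), (.LL, una ℓ)] with h1
  have a2 := ngL_spec (J := J) (E := E) (S := 64 * ℓ) (by omega) n y s1 (by simp [s1])
    (by simp [s1]) (by simp [s1]) (by simp [s1]) (by simp [s1]) (by simp [s1]) hy
    (by simp [s1, ar])
  set s2 : SW J E := (s1.set .DI []).set .T7
      ((bits (cat n fun k => bitsOf (64 * ℓ) (sbR (64 * ℓ) 0 (y k)))).reverse ++
        s1.at .T7) with h2
  have a3 := gcs_spec (J := J) (E := E) clN s2 (by
    simp [goks, clN, GC.ok])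
  have c3 : gcosts clN s2 ≤ 3 * (n * (64 * ℓ)) + 300 * ℓ + 20 := by
    have : (bits (cat n fun k => bitsOf (64 * ℓ) (sbR (64 * ℓ) 0 (y k))) :
      List (SSym E)).length = n * (64 * ℓ) := length_ar _ _ _
    simp only [gcosts, clN, GC.eff, GC.cost, s2, s1, at_set, asW_cons_at, asW_nil_at]
    simp [this]
    omega
  refine ((a1.seq (a2.seq a3)).mono ?_).of_eq ?_
  · nlinarith
  · refine sw_ext (fun j => by simp [geffs, clN, GC.eff, s2, s1]) fun r => ?_
    simp only [geffs, clN, GC.eff, s2, s1, at_set, asW_cons_at, asW_nil_at, ar]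
    split_ifs <;> simp_all

end Vale.Agent.P338.GS.El
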