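import Vale.Agent.P338.GS.Seq
import Vale.Agent.P338.GS.El

/-!
# P338, stage 5: the kernel, the convolution, the first and the last pass as procedures
-/

namespace Vale.Agent.P338.GS.Kc

open Vale.Agent.P338 Vale.Agent.P338.GS Vale.Agent.P338.GS.Sq

variable {J E : Type} [DecidableEq J]

/-! ### The first pass -/

/-- Parameters. -/
def ci1 : List (GC E) := [.scl 64 .LL .WS, .scl 20 .LL .WB]

/-- Clean up. -/
def ci2 : List (GC E) := [.clr .WS, .clr .WB, .clr .LL, .clr .WT]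

/-- The first pass. -/
def inPP (cin : PW J E) : PW J E := (gcs ci1).seq (cin.seq (gcs ci2))

theorem inP {cin : PW J E} {C : ℕ} (hin : InSpec cin C) : InPSpec (inPP cin) (64 * C + 1000) := by
  intro n t ℓ e ht htl he
  have a1 := gcs_spec (J := J) (ci1 : List (GC E)) (asW [(.XR, ar t n e), (.WT, una t),
    (.LL, una ℓ)]) (by simp [ci1, goks, GC.ok, GC.eff, at_set])
  have a1' := a1.of_eq (s'' := asW [(.XR, ar t n e), (.WT, una t), (.WS, una (64 * ℓ)),
    (.WB, una (20 * ℓ)), (.LL, una ℓ)]) (by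
      simp only [ci1, geffs, GC.eff]
      refine sw_ext (fun j => by simp) (fun q => ?_)
      cases q <;> simp [at_set]
      all_goals rw [Nat.mul_comm])
  have a2 := hin n t (64 * ℓ) (20 * ℓ) e (asW [(.XR, ar t n e), (.WT, una t),
    (.WS, una (64 * ℓ)), (.WB, una (20 * ℓ)), (.LL, una ℓ)]) ht (by omega)
    (cln_asW (by simp [asc, psc])) (by simp) (by simp) (by simp) (by simp) he (by simp [ar])
  have a2' := a2.of_eq (s'' := asW [(.XR, ar (64 * ℓ) n fun k => e k * 2 ^ (20 * ℓ)),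
    (.XI, ar (64 * ℓ) n fun _ => 0), (.WT, una t),
    (.WS, una (64 * ℓ)), (.WB, una (20 * ℓ)), (.LL, una ℓ)]) (by
      refine sw_ext (fun j => by simp) (fun q => ?_)
      cases q <;> simp [at_set]
      all_goals simp [ar])
  have a3 := gcs_spec (J := J) (ci2 : List (GC E)) (asW [(.XR, ar (64 * ℓ) n fun k =>
    e k * 2 ^ (20 * ℓ)), (.XI, ar (64 * ℓ) n fun _ => 0), (.WT, una t),
    (.WS, una (64 * ℓ)), (.WB, una (20 * ℓ)), (.LL, una ℓ)]) (by simp [ci2, goks, GC.ok])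
  refine ((a1'.seq (a2'.seq a3)).mono ?_).of_eq ?_
  · simp [ci1, ci2, gcosts, GC.cost, GC.eff, at_set]
    have e1 : (64 * C + 1000) * (n * ℓ + ℓ + 1) = C * (64 * (n * ℓ)) + C * (64 * ℓ) + C * 64 +
      1000 * (n * ℓ) + 1000 * ℓ + 1000 := by ring
    have e2 : C * (n * (64 * ℓ) + 1) = C * (64 * (n * ℓ)) + C := by ring
    rw [e1, e2]
    have e3 : 0 ≤ C * (64 * ℓ) := Nat.zero_le _
    omega
  · simp only [ci2, geffs, GC.eff]
    refine sw_ext (fun j => by simp) (fun q => ?_)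
    cases q <;> simp [at_set]

/-! ### The last pass -/

/-- Parameters. -/
def co1 : List (GC E) := [.scl 64 .LL .WS, .scl 20 .LL .WP, .cp .UU .WP]

/-- Clean up. -/
def co2 : List (GC E) := [.clr .WS, .clr .WP, .clr .LL, .clr .WT, .clr .UU]

/-- The last pass. -/
def outPP (out : PW J E) : PW J E := (gcs co1).seq (out.seq (gcs co2))

theorem outP {out : PW J E} {C : ℕ} (hout : OutSpec out C) :
    OutPSpec (outPP out) (64 * C + 1000) := by
  intro n t ℓ L e e' ht htl hL hLl he he'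
  have a1 := gcs_spec (J := J) (co1 : List (GC E)) (asW [(.XR, ar (64 * ℓ) n e),
    (.XI, ar (64 * ℓ) n e'), (.WT, una t), (.LL, una ℓ), (.UU, una L)])
    (by simp [co1, goks, GC.ok, GC.eff, at_set])
  have a1' := a1.of_eq (s'' := asW [(.XR, ar (64 * ℓ) n e),
    (.XI, ar (64 * ℓ) n e'), (.WT, una t), (.WS, una (64 * ℓ)),
    (.WP, una (20 * ℓ + L)), (.LL, una ℓ), (.UU, una L)]) (by
      simp only [co1, geffs, GC.eff]
      refine sw_ext (fun j => by simp) (fun q => ?_)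
      cases q <;> simp [at_set]
      · rw [Nat.mul_comm]
      · congr 1; omega)
  have a2 := hout n t (64 * ℓ) (20 * ℓ + L) e e' (asW [(.XR, ar (64 * ℓ) n e),
    (.XI, ar (64 * ℓ) n e'), (.WT, una t), (.WS, una (64 * ℓ)),
    (.WP, una (20 * ℓ + L)), (.LL, una ℓ), (.UU, una L)]) ht (by omega) (by omega)
    (cln_asW (by simp [asc, psc])) (by simp) (by simp) (by simp) he (by simp [ar])
    (by simp [ar])
  have a2' := a2.of_eq (s'' := asW [(.XR, ar t n fun k => rnd (64 * ℓ) (20 * ℓ + L) t (e k)),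
    (.WT, una t), (.WS, una (64 * ℓ)),
    (.WP, una (20 * ℓ + L)), (.LL, una ℓ), (.UU, una L)]) (by
      refine sw_ext (fun j => by simp) (fun q => ?_)
      cases q <;> simp [at_set]
      all_goals simp [ar])
  have a3 := gcs_spec (J := J) (co2 : List (GC E)) (asW [(.XR, ar t n fun k =>
    rnd (64 * ℓ) (20 * ℓ + L) t (e k)),
    (.WT, una t), (.WS, una (64 * ℓ)),
    (.WP, una (20 * ℓ + L)), (.LL, una ℓ), (.UU, una L)]) (by simp [co2, goks, GC.ok])
  refine ((a1'.seq (a2'.seq a3)).mono ?_).of_eq ?_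
  · simp [co1, co2, gcosts, GC.cost, GC.eff, at_set]
    have e1 : (64 * C + 1000) * (n * ℓ + ℓ + 1) = C * (64 * (n * ℓ)) + C * (64 * ℓ) + C * 64 +
      1000 * (n * ℓ) + 1000 * ℓ + 1000 := by ring
    have e2 : C * (n * (64 * ℓ) + 1) = C * (64 * (n * ℓ)) + C := by ring
    rw [e1, e2]
    have e3 : 0 ≤ C * (64 * ℓ) := Nat.zero_le _
    omega
  · simp only [co2, geffs, GC.eff]
    refine sw_ext (fun j => by simp) (fun q => ?_)
    cases q <;> simp [at_set]

/-! ### The convolution -/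

/-- Parameters. -/
def cc1 : List (GC E) := [.scl 64 .LL .WS, .scl 20 .LL .WB]

/-- Clean up. -/
def cc2 : List (GC E) :=
  [.clr .WS, .clr .WB, .clr .PR, .clr .PI, .clr .LL, .clr .HX, .clr .HR, .clr .HZ, .clr .MM]

/-- The convolution. -/
def cvPP (conv : PW J E) : PW J E :=
  (gcs cc1).seq ((Prog.fill (Sum.inr .WS) (sb false) (Sum.inr .PR) (Sum.inr .F5)).seq
    ((Prog.fill (Sum.inr .WS) (sb false) (Sum.inr .PI) (Sum.inr .F5)).seq
      (conv.seq (gcs cc2))))

omit [DecidableEq J] in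
theorem wd_zero (S : ℕ) : (wd S 0 : List (SSym E)) = List.replicate S (sb false) := by
  unfold wd
  rw [bitsOf_zero]
  simp [bits]

theorem cvP {conv : PW J E} {Tb : ℕ → ℕ} {C : ℕ} (hcv : ConvSpec conv Tb C) :
    CvPSpec (cvPP conv) Tb (C + 1000) := by
  intro X r Z ℓ m κ e hX hr hZ hl hrl hm he1 he2 hk1 hk2
  set xr : List (SSym E) := bits (arr3 X r Z (64 * ℓ) fun x i z => (e x i z).1) with hxr
  set xi : List (SSym E) := bits (arr3 X r Z (64 * ℓ) fun x i z => (e x i z).2) with hxi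
  set kr : List (SSym E) := ar (64 * ℓ) (2 * r - 1) fun j => (κ j).1 with hkr
  set ki : List (SSym E) := ar (64 * ℓ) (2 * r - 1) fun j => (κ j).2 with hki
  have a1 := gcs_spec (J := J) (cc1 : List (GC E)) (asW [(.XR, xr), (.XI, xi), (.KR, kr),
    (.KI, ki), (.HX, una X), (.HR, una r), (.HZ, una Z), (.LL, una ℓ), (.MM, una m)])
    (by simp [cc1, goks, GC.ok, GC.eff, at_set])
  have a1' := a1.of_eq (s'' := asW [(.XR, xr), (.XI, xi), (.KR, kr),
    (.KI, ki), (.HX, una X), (.HR, una r), (.HZ, una Z), (.LL, una ℓ), (.MM, una m),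
    (.WS, una (64 * ℓ)), (.WB, una (20 * ℓ))]) (by
      simp only [cc1, geffs, GC.eff]
      refine sw_ext (fun j => by simp) (fun q => ?_)
      cases q <;> simp [at_set]
      all_goals rw [Nat.mul_comm])
  have a2 := r_fill (J := J) (E := E) (u := .WS) (b := .PR) (t := .F5) (by decide) (by decide)
    (by decide) (sb false) (asW [(.XR, xr), (.XI, xi), (.KR, kr),
    (.KI, ki), (.HX, una X), (.HR, una r), (.HZ, una Z), (.LL, una ℓ), (.MM, una m),
    (.WS, una (64 * ℓ)), (.WB, una (20 * ℓ))]) (64 * ℓ) (by simp) (by simp)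
  have a2' := a2.of_eq (s'' := asW [(.XR, xr), (.XI, xi), (.KR, kr),
    (.KI, ki), (.HX, una X), (.HR, una r), (.HZ, una Z), (.LL, una ℓ), (.MM, una m),
    (.WS, una (64 * ℓ)), (.WB, una (20 * ℓ)), (.PR, wd (64 * ℓ) 0)]) (by
      rw [wd_zero]
      refine sw_ext (fun j => by simp) (fun q => ?_)
      cases q <;> simp [at_set])
  have a3 := r_fill (J := J) (E := E) (u := .WS) (b := .PI) (t := .F5) (by decide) (by decide)
    (by decide) (sb false) (asW [(.XR, xr), (.XI, xi), (.KR, kr),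
    (.KI, ki), (.HX, una X), (.HR, una r), (.HZ, una Z), (.LL, una ℓ), (.MM, una m),
    (.WS, una (64 * ℓ)), (.WB, una (20 * ℓ)), (.PR, wd (64 * ℓ) 0)]) (64 * ℓ) (by simp)
    (by simp)
  set L : List (W × List (SSym E)) := [(.XR, xr), (.XI, xi), (.KR, kr),
    (.KI, ki), (.HX, una X), (.HR, una r), (.HZ, una Z), (.LL, una ℓ), (.MM, una m),
    (.WS, una (64 * ℓ)), (.WB, una (20 * ℓ)), (.PR, wd (64 * ℓ) 0),
    (.PI, wd (64 * ℓ) 0)] with hL
  have a3' := a3.of_eq (s'' := asW L) (by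
      rw [hL, wd_zero]
      refine sw_ext (fun j => by simp) (fun q => ?_)
      cases q <;> simp [at_set])
  have a4 := hcv X r Z (64 * ℓ) (20 * ℓ) m (0, 0) κ e (asW L)
    ⟨hX, hr, hZ, by omega, by omega, hrl, by positivity, by positivity⟩
    ⟨cln_asW (by simp [hL, asc, psc]), by simp [hL], by simp [hL], by simp [hL],
      by simp [hL], by simp [hL], by simp [hL], by simp [hL]⟩
    (by
      calc 9 * (X * r * Z * (64 * ℓ)) = 576 * (X * r * Z * ℓ) := by ring
        _ ≤ m := hm) (by simp [hL]) he1 he2 hk1 hk2 (by simp [hL, hkr, ar])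
    (by simp [hL, hki, ar]) (by simp [hL, hxr]) (by simp [hL, hxi])
  set yr : List (SSym E) := bits (arr3 X r Z (64 * ℓ) fun x k z =>
    (cvC (64 * ℓ) (20 * ℓ) r κ (fun i => e x i z) k).1) with hyr
  set yi : List (SSym E) := bits (arr3 X r Z (64 * ℓ) fun x k z =>
    (cvC (64 * ℓ) (20 * ℓ) r κ (fun i => e x i z) k).2) with hyi
  have a4' := a4.of_eq (s'' := asW [(.XR, yr), (.XI, yi), (.HX, una X), (.HR, una r),
    (.HZ, una Z), (.LL, una ℓ), (.MM, una m), (.WS, una (64 * ℓ)), (.WB, una (20 * ℓ)),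
    (.PR, wd (64 * ℓ) 0), (.PI, wd (64 * ℓ) 0)]) (by
      rw [hL]
      refine sw_ext (fun j => by simp) (fun q => ?_)
      cases q <;> simp [at_set])
  have a5 := gcs_spec (J := J) (cc2 : List (GC E)) (asW [(.XR, yr), (.XI, yi), (.HX, una X),
    (.HR, una r),
    (.HZ, una Z), (.LL, una ℓ), (.MM, una m), (.WS, una (64 * ℓ)), (.WB, una (20 * ℓ)),
    (.PR, wd (64 * ℓ) 0), (.PI, wd (64 * ℓ) 0)]) (by simp [cc2, goks, GC.ok])
  have a := (a1'.seq (a2'.seq (a3'.seq (a4'.seq a5))))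
  unfold WRun
  refine (a.mono ?_).of_eq ?_
  · simp [cc1, cc2, gcosts, GC.cost, GC.eff, at_set]
    have g1 : X ≤ X * r * Z * ℓ := by
      calc X = X * 1 * 1 * 1 := by ring
        _ ≤ X * r * Z * ℓ := Nat.mul_le_mul (Nat.mul_le_mul (Nat.mul_le_mul_left _ hr) hZ) hl
    have g2 : r ≤ X * r * Z * ℓ := by
      calc r = 1 * r * 1 * 1 := by ring
        _ ≤ X * r * Z * ℓ := Nat.mul_le_mul (Nat.mul_le_mul (Nat.mul_le_mul_right _ hX) hZ) hl
    have g3 : Z ≤ X * r * Z * ℓ := by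
      calc Z = 1 * 1 * Z * 1 := by ring
        _ ≤ X * r * Z * ℓ := Nat.mul_le_mul (Nat.mul_le_mul (Nat.mul_le_mul hX hr) le_rfl) hl
    have g4 : ℓ ≤ X * r * Z * ℓ := by
      calc ℓ = 1 * 1 * 1 * ℓ := by ring
        _ ≤ X * r * Z * ℓ := Nat.mul_le_mul (Nat.mul_le_mul (Nat.mul_le_mul hX hr) hZ) le_rfl
    have g5 : (C + 1000) * (m + Tb m) = C * (m + Tb m) + 1000 * m + 1000 * Tb m := by ring
    rw [g5]
    omega
  · simp only [cc2, geffs, GC.eff]
    refine sw_ext (fun j => by simp) (fun q => ?_)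
    cases q <;> simp [at_set]

/-! ### The kernel -/

theorem ar_rot (S : ℕ) {r : ℕ} (hr : 1 ≤ r) (x : ℕ → ℕ) :
    (ar S (2 * r - 1) fun j => x ((j + 1) % r) : List (SSym E)) =
      (ar S r x : List (SSym E)).drop S ++ ar S r x := by
  obtain ⟨n, rfl⟩ : ∃ n, r = n + 1 := ⟨r - 1, by omega⟩
  have h1 : (ar S (n + 1) x : List (SSym E)) = bits (bitsOf S (x 0)) ++
      bits (cat n fun i => bitsOf S (x (i + 1))) := by
    unfold ar
    rw [cat_succ']
    simp [bits]
  have h2 : (ar S (n + 1) x : List (SSym E)).drop S =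
      bits (cat n fun i => bitsOf S (x (i + 1))) := by
    rw [h1, List.drop_append_of_le_length (by simp), List.drop_eq_nil_of_le (by simp)]
    rfl
  rw [h2]
  unfold ar
  rw [show 2 * (n + 1) - 1 = n + (n + 1) by omega, cat_add]
  have h3 : (cat n fun j => bitsOf S (x ((j + 1) % (n + 1)))) =
      cat n fun i => bitsOf S (x (i + 1)) :=
    cat_congr fun i hi => by rw [Nat.mod_eq_of_lt (by omega)]
  have h4 : (cat (n + 1) fun i => bitsOf S (x ((n + i + 1) % (n + 1)))) =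
      cat (n + 1) fun i => bitsOf S (x i) :=
    cat_congr fun i hi => by
      rw [show n + i + 1 = (n + 1) + i by ring, Nat.add_mod_left, Nat.mod_eq_of_lt hi]
  rw [h3, h4]
  simp [bits]

/-- Parameters. -/
def ck1 : List (GC E) :=
  [.scl 64 .LL .T8, .cp .N1 .KR, .sub .T8 .N1, .cp .N1 .KR, .clr .N1,
    .cp .N2 .DI, .sub .T8 .N2, .cp .N2 .DI, .clr .N2]

/-- Clean up. -/
def ck2 : List (GC E) := [.rev .T7 .KI, .clr .T8, .clr .LL]

/-- The kernel. -/
def krP : PW J E := (gcs ck1).seq (El.ngL.seq (gcs ck2))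

theorem kr_spec : KrSpec (krP : PW J E) 20000 := by
  intro r ℓ c hr hl h1 h2
  set x1 : List (SSym E) := ar (64 * ℓ) r fun i => (c i).1 with hx1
  set x2 : List (SSym E) := ar (64 * ℓ) r fun i => (c i).2 with hx2
  set y1 : List (SSym E) := x1.drop (64 * ℓ) ++ x1 with hy1
  set y2 : List (SSym E) := x2.drop (64 * ℓ) ++ x2 with hy2
  have e1 : (ar (64 * ℓ) (2 * r - 1) fun j => (c ((j + 1) % r)).1 : List (SSym E)) = y1 :=
    ar_rot (64 * ℓ) hr fun i => (c i).1
  have e2 : (ar (64 * ℓ) (2 * r - 1) fun j => (c ((j + 1) % r)).2 : List (SSym E)) = y2 :=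
    ar_rot (64 * ℓ) hr fun i => (c i).2
  have l1 : x1.length = r * (64 * ℓ) := len_ar _ _ _
  have l2 : x2.length = r * (64 * ℓ) := len_ar _ _ _
  have a1 := gcs_spec (J := J) (ck1 : List (GC E)) (asW [(.N1, x1), (.N2, x2), (.LL, una ℓ)])
    (by simp [ck1, goks, GC.ok, GC.eff, at_set])
  have a1' := a1.of_eq (s'' := asW [(.KR, y1), (.DI, y2), (.T8, una (64 * ℓ)), (.LL, una ℓ)]) (by
      simp only [ck1, geffs, GC.eff]
      refine sw_ext (fun j => by simp) (fun q => ?_)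
      cases q <;> simp [at_set]
      all_goals simp [Nat.mul_comm, hy1, hy2])
  have a2 := El.ngL_spec (J := J) (E := E) (S := 64 * ℓ) (by omega) (2 * r - 1)
    (fun j => (c ((j + 1) % r)).2)
    (asW [(.KR, y1), (.DI, y2), (.T8, una (64 * ℓ)), (.LL, una ℓ)]) (by simp) (by simp)
    (by simp) (by simp) (by simp) (by simp) (fun _ => h2 _) (by simp [← e2, ar])
  set z2 : List (SSym E) := ar (64 * ℓ) (2 * r - 1) fun j =>
    (cjR (64 * ℓ) (c ((j + 1) % r))).2 with hz2
  have lz : z2.length = (2 * r - 1) * (64 * ℓ) := len_ar _ _ _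
  have a2' := a2.of_eq (s'' := asW [(.KR, y1), (.T7, z2.reverse), (.T8, una (64 * ℓ)),
    (.LL, una ℓ)]) (by
      refine sw_ext (fun j => by simp) (fun q => ?_)
      cases q <;> simp [at_set]
      all_goals simp [hz2, ar, cjR])
  have a3 := gcs_spec (J := J) (ck2 : List (GC E)) (asW [(.KR, y1), (.T7, z2.reverse),
    (.T8, una (64 * ℓ)), (.LL, una ℓ)]) (by simp [ck2, goks, GC.ok])
  have hrl : 1 ≤ r * ℓ := Nat.mul_pos hr hl
  have f1 : ℓ ≤ r * ℓ := Nat.le_mul_of_pos_left _ hr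
  have f2 : r * (64 * ℓ) = 64 * (r * ℓ) := by ring
  have f3 : (2 * r - 1) * (64 * ℓ) ≤ 128 * (r * ℓ) := by
    calc (2 * r - 1) * (64 * ℓ) ≤ 2 * r * (64 * ℓ) := Nat.mul_le_mul_right _ (by omega)
      _ = 128 * (r * ℓ) := by ring
  unfold WRun
  refine ((a1'.seq (a2'.seq a3)).mono ?_).of_eq ?_
  · simp [ck1, ck2, gcosts, GC.cost, GC.eff, at_set]
    rw [l1, l2, lz, f2]
    omega
  · simp only [ck2, geffs, GC.eff]
    have e3 : (ar (64 * ℓ) (2 * r - 1) fun j => (cjR (64 * ℓ) (c ((j + 1) % r))).1 :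
      List (SSym E)) = y1 := e1
    rw [e3]
    refine sw_ext (fun j => by simp) (fun q => ?_)
    cases q <;> simp [at_set]

end Vale.Agent.P338.GS.Kc
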