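import Vale.Agent.P338.GS.PM
import Vale.Agent.P338.GS.Iface2

/-!
# P338, stage 5: the transposition with arrays of chirps, proof of `PermPure2`
-/

namespace Vale.Agent.P338.GS.PM

open Vale.Agent.P338 Vale.Agent.P338.GS

/-! ### The transform with given arrays -/

section

variable {S B : ℕ} {K : ℝ}

/-- The transform with an array `c` of chirps and a kernel `κ`. -/
theorem dftg_ap (H : Ctx S B K) {r : ℕ} {κ c : ℕ → ℕ × ℕ} {p : ℂ} {a : ℕ → ℕ × ℕ}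
    {α : ℕ → ℂ} {η ε A : ℝ} (hp : ‖p‖ ≤ 1) (hη : η ≤ 1) (hτ : tau B ≤ η)
    (hch : ∀ k < r, Ap S B η (c k) (p ^ (k ^ 2)))
    (hkr : ∀ j < 2 * r - 1, Ap S B η (κ j) ((starRingEnd ℂ) p ^ ((j + 1) ^ 2)))
    (ha : ∀ i < r, Ap S B ε (a i) (α i)) (hα : ∀ i < r, ‖α i‖ ≤ A) (hA : 1 ≤ A) (hε : ε ≤ A)
    (hbig : 32 * (r * A) ≤ K) (k : ℕ) (hk : k < r) :
    Ap S B (r * (8 * ε + 14 * (A * η)))
      (cmR S B (cvC S B r κ (fun i => cmR S B (a i) (c i)) k) (c k)) (edft r p α k) := by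
  have hτ0 := tau_nonneg B
  have hη0 : 0 ≤ η := hτ0.trans hτ
  have hε0 : 0 ≤ ε := (ha k hk).nonneg
  have hr1 : (1 : ℝ) ≤ r := by exact_mod_cast (by omega : 1 ≤ r)
  have hc : ‖(starRingEnd ℂ) p‖ ≤ 1 := by rw [RCLike.norm_conj]; exact hp
  have hA0 : 0 ≤ A := by linarith
  have hAη : η ≤ A * η := by nlinarith
  have hAη1 : A * η ≤ A := by nlinarith
  have hεη : ε * η ≤ ε := by nlinarith
  have hAr : A ≤ r * A := by nlinarith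
  have hb : ∀ i < r, Ap S B (2 * ε + 2 * (A * η)) (cmR S B (a i) (c i))
      (α i * p ^ (i ^ 2)) := by
    intro i hi
    refine (Ap.cm H (ha i hi) (hch i hi) (hα i hi) (norm_pow_le_one hp _) ?_).mono ?_
    · nlinarith
    · nlinarith
  have hbn : ∀ i < r, ‖α i * p ^ (i ^ 2)‖ ≤ A := by
    intro i hi
    rw [norm_mul]
    calc ‖α i‖ * ‖p ^ (i ^ 2)‖ ≤ ‖α i‖ * 1 :=
          mul_le_mul_of_nonneg_left (norm_pow_le_one hp _) (norm_nonneg _)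
      _ ≤ A := by rw [mul_one]; exact hα i hi
  have hcv := cvC_ap H (κ := κ) (a := fun i => cmR S B (a i) (c i))
    (κ' := fun j => (starRingEnd ℂ) p ^ ((j + 1) ^ 2)) (α := fun i => α i * p ^ (i ^ 2))
    k hk hkr (fun j _ => norm_pow_le_one hc _) hb hbn (by
      have h1 : (1 + η) * (A + (2 * ε + 2 * (A * η))) ≤ 10 * A := by nlinarith
      have h2 := mul_le_mul_of_nonneg_left h1 (by linarith : (0 : ℝ) ≤ r)
      nlinarith)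
  have hcv' : Ap S B (r * (4 * ε + 6 * (A * η)))
      (cvC S B r κ (fun i => cmR S B (a i) (c i)) k)
      (∑ i ∈ Finset.range r, (starRingEnd ℂ) p ^ ((k + (r - 1) - i + 1) ^ 2) *
        (α i * p ^ (i ^ 2))) := by
    refine hcv.mono ?_
    have h1 : η * (A + (2 * ε + 2 * (A * η))) + (2 * ε + 2 * (A * η))
        ≤ 4 * ε + 5 * (A * η) := by
      have : η * (2 * (A * η)) ≤ 2 * (A * η) := by
        have : 0 ≤ A * η := by positivity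
        nlinarith
      nlinarith
    have h2 := mul_le_mul_of_nonneg_left h1 (by linarith : (0 : ℝ) ≤ r)
    have h3 : A * η ≤ r * (A * η) := by
      have : 0 ≤ A * η := by positivity
      nlinarith
    nlinarith
  have hnorm : ‖∑ i ∈ Finset.range r, (starRingEnd ℂ) p ^ ((k + (r - 1) - i + 1) ^ 2) *
      (α i * p ^ (i ^ 2))‖ ≤ r * A := by
    refine (norm_sum_le _ _).trans ?_
    have : ∀ i ∈ Finset.range r, ‖(starRingEnd ℂ) p ^ ((k + (r - 1) - i + 1) ^ 2) *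
        (α i * p ^ (i ^ 2))‖ ≤ A := by
      intro i hi
      rw [Finset.mem_range] at hi
      rw [norm_mul]
      calc _ ≤ 1 * ‖α i * p ^ (i ^ 2)‖ :=
            mul_le_mul_of_nonneg_right (norm_pow_le_one hc _) (norm_nonneg _)
        _ ≤ A := by rw [one_mul]; exact hbn i hi
    refine (Finset.sum_le_sum this).trans ?_
    simp
  unfold edft
  have hEc : (r : ℝ) * (4 * ε + 6 * (A * η)) ≤ 10 * (r * A) := by
    have h1 : 4 * ε + 6 * (A * η) ≤ 10 * A := by linarith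
    have h2 := mul_le_mul_of_nonneg_left h1 (by linarith : (0 : ℝ) ≤ r)
    linarith
  have hEc0 : 0 ≤ (r : ℝ) * (4 * ε + 6 * (A * η)) := by positivity
  refine (Ap.cm H hcv' (hch k hk) hnorm (norm_pow_le_one hp _) ?_).mono ?_
  · have h1 : (r : ℝ) * A + r * (4 * ε + 6 * (A * η)) ≤ 11 * (r * A) := by linarith
    have h2 : (r * A + r * (4 * ε + 6 * (A * η))) * (1 + η) ≤ (11 * (r * A)) * 2 :=
      mul_le_mul h1 (by linarith) (by linarith) (by positivity)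
    have : 0 ≤ (r : ℝ) * A := by positivity
    linarith
  · have h1 : (r : ℝ) * (4 * ε + 6 * (A * η)) * (1 + η) ≤ r * (4 * ε + 6 * (A * η)) * 2 :=
      mul_le_mul_of_nonneg_left (by linarith) hEc0
    have h3 : A * η ≤ r * (A * η) := by
      have : 0 ≤ A * η := by positivity
      nlinarith
    have h4 : (r : ℝ) * A * η = r * (A * η) := by ring
    rw [h4]
    have h5 : tau B ≤ r * (A * η) := by linarith
    linarith

/-- The exponents `k ^ 2` matter modulo `r` only. -/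
theorem pow_sq_mod {p : ℂ} {r q : ℕ} (hr : r = 2 * q) (h : p ^ (2 * r) = 1) (m : ℕ) :
    p ^ ((m % r) ^ 2) = p ^ (m ^ 2) := by
  have e : m ^ 2 = (m % r) ^ 2 + 2 * r * ((m / r) * (m % r) + q * (m / r) ^ 2) := by
    conv_lhs => rw [← Nat.div_add_mod m r]
    generalize m / r = d
    generalize m % r = s
    subst hr
    ring
  rw [e, pow_add, pow_mul p (2 * r), h, one_pow, mul_one]

/-- The transform with an array of chirps. -/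
theorem dftA_ap (H : Ctx S B K) {r q : ℕ} (hr : r = 2 * q) {c : ℕ → ℕ × ℕ} {p : ℂ}
    {a : ℕ → ℕ × ℕ} {α : ℕ → ℂ} {η ε A : ℝ} (hp : ‖p‖ ≤ 1) (hp2 : p ^ (2 * r) = 1) (hη : η ≤ 1)
    (hτ : tau B ≤ η) (hch : ∀ k < r, Ap S B η (c k) (p ^ (k ^ 2)))
    (ha : ∀ i < r, Ap S B ε (a i) (α i)) (hα : ∀ i < r, ‖α i‖ ≤ A) (hA : 1 ≤ A) (hε : ε ≤ A)
    (hbig : 32 * (r * A) ≤ K) (k : ℕ) (hk : k < r) :
    Ap S B (r * (8 * ε + 14 * (A * η))) (dftA S B r c a k) (Ex.xdft r p α k) := by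
  refine dftg_ap H hp hη hτ hch ?_ ha hα hA hε hbig k hk
  intro j _
  have h1 := Ap.cj H (hch ((j + 1) % r) (Nat.mod_lt _ (by omega))) (norm_pow_le_one hp _) hη
  rw [pow_sq_mod hr hp2, map_pow] at h1
  exact h1

end

/-! ### The arrays -/

/-- The uniform bound for the errors of the arrays. -/
noncomputable def the (ℓ : ℕ) : ℝ := 32 * eta ℓ

theorem the_nonneg (ℓ : ℕ) : 0 ≤ the ℓ := by have := eta_nonneg ℓ; unfold the; linarith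

theorem the_pos (ℓ : ℕ) : 0 < the ℓ := by unfold the eta; positivity

theorem the_le {ℓ : ℕ} (hℓ : 2 ≤ ℓ) : 2 ^ (2 * ℓ + 12) * the ℓ ≤ 1 := by
  unfold the eta
  have e : (2 : ℝ) ^ (2 * ℓ + 12) * (32 * (2 ^ (3 * ℓ + 8) / 2 ^ (20 * ℓ))) =
      2 ^ (5 * ℓ + 25) / 2 ^ (20 * ℓ) := by
    rw [← mul_div_assoc, ← mul_div_assoc]
    congr 1
    rw [show 5 * ℓ + 25 = 5 + ((2 * ℓ + 12) + (3 * ℓ + 8)) by ring, pow_add 2 5, pow_add]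
    ring
  rw [e, div_le_one (by positivity)]
  exact two_pow_mono (by omega)

theorem the_le' {ℓ : ℕ} (hℓ : 2 ≤ ℓ) : 2 ^ 12 * the ℓ ≤ 1 :=
  (mul_le_mul_of_nonneg_right (two_pow_mono (by omega)) (the_nonneg ℓ)).trans (the_le hℓ)

theorem tau_the (ℓ : ℕ) : tau (20 * ℓ) ≤ the ℓ := by
  have := tau_le ℓ
  have := eta_nonneg ℓ
  unfold the
  linarith

section

variable {ℓ : ℕ}

theorem eta_small (hℓ : 2 ≤ ℓ) : 32 * eta ℓ ≤ 1 := by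
  have := eta_le' hℓ
  have := eta_nonneg ℓ
  linarith

theorem cA_ap (hℓ : 2 ≤ ℓ) {ρ : ℕ × ℕ} {p : ℂ}
    (h : Ap (64 * ℓ) (20 * ℓ) (2 ^ (ℓ + 1) / 2 ^ (20 * ℓ)) ρ p) (hp : ‖p‖ ≤ 1) (k : ℕ)
    (hk : k < 2 ^ (ℓ + 1)) :
    Ap (64 * ℓ) (20 * ℓ) (3 * eta ℓ) (cA (64 * ℓ) (20 * ℓ) ρ k) (p ^ (k ^ 2)) := by
  have hη0 := eta_nonneg ℓ
  have hη := eta_small hℓ
  have h1 := Ap.cm1 (ctx hℓ) (Ap.one (ctx hℓ)) (ch_ap hℓ h hp k hk) (by simp)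
    (norm_pow_le_one hp _) zero_le_one (by linarith)
  rw [one_mul] at h1
  exact h1.mono (by have := tau_le ℓ; linarith)

theorem tA_ap (hℓ : 2 ≤ ℓ) {γ : ℕ × ℕ} {g : ℂ}
    (h : Ap (64 * ℓ) (20 * ℓ) (2 ^ (ℓ + 1) / 2 ^ (20 * ℓ)) γ g) (hg : ‖g‖ ≤ 1)
    {a b i j : ℕ} (hab : a + b ≤ ℓ) (hi : i < 2 ^ a) (hj : j < 2 ^ b) :
    Ap (64 * ℓ) (20 * ℓ) (3 * eta ℓ) (tA (64 * ℓ) (20 * ℓ) γ i j) (g ^ (i * j)) := by
  have hη0 := eta_nonneg ℓ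
  have hη := eta_small hℓ
  have hG := gee_nonneg ℓ
  have hτ := tau_nonneg (20 * ℓ)
  have hE : (0 : ℝ) ≤ 2 ^ (ℓ + 1) / 2 ^ (20 * ℓ) := by positivity
  have hgl := gee_le hℓ
  have hge := gee_eta ℓ
  have hiR : (2 : ℝ) * i + 1 ≤ 2 * 2 ^ a := by
    have : (i : ℝ) + 1 ≤ 2 ^ a := by exact_mod_cast hi
    linarith
  have hjR : (j : ℝ) + 1 ≤ 2 ^ b := by exact_mod_cast hj
  have h5 : ((j : ℝ) + 1) * ((2 * i + 1) * gee ℓ) ≤ eta ℓ := by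
    refine le_trans ?_ hge
    have h6 : ((j : ℝ) + 1) * (2 * i + 1) ≤ 2 ^ (ℓ + 1) := by
      calc ((j : ℝ) + 1) * (2 * i + 1) ≤ 2 ^ b * (2 * 2 ^ a) :=
            mul_le_mul hjR hiR (by positivity) (by positivity)
        _ = 2 ^ (a + b + 1) := by rw [pow_add, pow_add]; ring
        _ ≤ 2 ^ (ℓ + 1) := two_pow_mono (by omega)
    have h7 : (2 : ℝ) ^ (ℓ + 1) ≤ 3 * (2 ^ (ℓ + 1)) ^ 2 := by
      have : (1 : ℝ) ≤ 2 ^ (ℓ + 1) := one_le_pow₀ (by norm_num)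
      nlinarith
    rw [← mul_assoc]
    exact mul_le_mul_of_nonneg_right (h6.trans h7) hG
  have h8 : Ap (64 * ℓ) (20 * ℓ) (eta ℓ) (tw (64 * ℓ) (20 * ℓ) γ i j) (g ^ (i * j)) := by
    refine (tw_ap (ctx hℓ) h hg (rho_le hℓ) (G := gee ℓ) (by linarith) i j
      (h5.trans (by linarith))).mono ?_
    refine le_trans ?_ h5
    have : 0 ≤ (2 * (i : ℝ) + 1) * gee ℓ := by positivity
    linarith
  have h1 := Ap.cm1 (ctx hℓ) (Ap.one (ctx hℓ)) h8 (by simp)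
    (norm_pow_le_one hg _) zero_le_one (by linarith)
  rw [one_mul] at h1
  exact h1.mono (by have := tau_le ℓ; linarith)

theorem tF_ap (hℓ : 2 ≤ ℓ) {γ₁ γ₀ : ℕ × ℕ} {g₁ g₀ : ℂ} {N₀ : ℕ}
    (h1 : Ap (64 * ℓ) (20 * ℓ) (2 ^ (ℓ + 1) / 2 ^ (20 * ℓ)) γ₁ g₁)
    (h0 : Ap (64 * ℓ) (20 * ℓ) (2 ^ (ℓ + 1) / 2 ^ (20 * ℓ)) γ₀ g₀) (hg1 : ‖g₁‖ ≤ 1)
    (hg0 : ‖g₀‖ ≤ 1) (hN : g₀ ^ N₀ = g₁) {a b i j : ℕ} (hab : a + b ≤ ℓ) (hi : i < 2 ^ a)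
    (hj : j < 2 ^ b) :
    Ap (64 * ℓ) (20 * ℓ) (10 * eta ℓ) (tF (64 * ℓ) (20 * ℓ) γ₁ γ₀ N₀ i j) (g₀ ^ (i * j)) := by
  have hη0 := eta_nonneg ℓ
  have hη := eta_small hℓ
  have k1 := tA_ap hℓ h1 hg1 hab hi (lt_of_le_of_lt (Nat.div_le_self j N₀) hj)
  have k0 := tA_ap hℓ h0 hg0 hab hi (lt_of_le_of_lt (Nat.mod_le j N₀) hj)
  have k := Ap.cm1 (ctx hℓ) k1 k0 (norm_pow_le_one hg1 _) (norm_pow_le_one hg0 _)
    (by linarith) (by linarith)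
  have e : g₁ ^ (i * (j / N₀)) * g₀ ^ (i * (j % N₀)) = g₀ ^ (i * j) := by
    rw [← hN, ← pow_mul, ← pow_add]
    congr 1
    conv_rhs => rw [← Nat.div_add_mod j N₀]
    ring
  rw [e] at k
  exact k.mono (by have := tau_le ℓ; linarith)

theorem rt_all' (hℓ : 2 ≤ ℓ) {κ : ℕ} (hκ : κ + 1 ≤ ℓ) :
    Ap (64 * ℓ) (20 * ℓ) (2 ^ (ℓ + 1) / 2 ^ (20 * ℓ)) (rt (20 * ℓ) κ) (Ex.xrt κ) := by
  have := rt_all hℓ (m := κ + 1) (by omega) hκ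
  rwa [Nat.add_sub_cancel] at this

theorem crt_all' (hℓ : 2 ≤ ℓ) {κ : ℕ} (hκ : κ + 1 ≤ ℓ) :
    Ap (64 * ℓ) (20 * ℓ) (2 ^ (ℓ + 1) / 2 ^ (20 * ℓ)) (rtc (64 * ℓ) (20 * ℓ) true κ)
      ((starRingEnd ℂ) (Ex.xrt κ)) := by
  have := crt_all hℓ (m := κ + 1) (by omega) hκ
  rw [Nat.add_sub_cancel] at this
  exact this

/-- Powers of two of the roots. -/
theorem xrt_pow' {k m n : ℕ} (h : n = k + m) : Ex.xrt n ^ (2 ^ m) = Ex.xrt k := by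
  rw [h, Ex.xrt_pow]

theorem xrt_one (k : ℕ) : Ex.xrt k ^ (2 * 2 ^ (k + 1)) = 1 := by
  rw [pow_mul, (Ex.xrt_prim k).pow_eq_one]

theorem cxrt_one (k : ℕ) : (starRingEnd ℂ) (Ex.xrt k) ^ (2 * 2 ^ (k + 1)) = 1 := by
  rw [pow_mul, (Ex.conj_prim k).pow_eq_one]

/-- The long chirp array: the exact identity. -/
theorem xcF {L : ℕ} (hL : 12 ≤ L) (k : ℕ) :
    Ex.xrt (L - (L / 2 + 1) - 2) ^ (k / 2 ^ (L / 2 + 1) * (k % 2 ^ (L / 2 + 1))) *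
      Ex.xrt (L - 1) ^ ((k % 2 ^ (L / 2 + 1)) ^ 2) = Ex.xrt (L - 1) ^ (k ^ 2) := by
  set h := L / 2 + 1 with hh
  have h1 : Ex.xrt (L - 1) ^ (2 ^ (h + 1)) = Ex.xrt (L - h - 2) := xrt_pow' (by omega)
  have h2 : Ex.xrt (L - 1) ^ (2 ^ (2 * h)) = 1 := by
    obtain ⟨d, hd⟩ : ∃ d, 2 * h = (L + 1) + d := ⟨2 * h - (L + 1), by omega⟩
    have h3 := xrt_one (L - 1)
    rw [show 2 * 2 ^ (L - 1 + 1) = 2 ^ (L + 1) by
      rw [← pow_succ']; congr 1; omega] at h3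
    rw [hd, pow_add 2 (L + 1), pow_mul, h3, one_pow]
  rw [← h1, ← pow_mul, ← pow_add]
  conv_rhs => rw [← Nat.div_add_mod k (2 ^ h)]
  generalize k / 2 ^ h = a
  generalize k % 2 ^ h = b
  have e : (2 ^ h * a + b) ^ 2 = 2 ^ (2 * h) * a ^ 2 + (2 ^ (h + 1) * (a * b) + b ^ 2) := by
    rw [two_mul h, pow_add, pow_succ]; ring
  rw [e, pow_add _ (2 ^ (2 * h) * a ^ 2), pow_mul _ (2 ^ (2 * h)), h2, one_pow, one_mul]

/-- The long chirp array. -/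
theorem cF_ap (hℓ : 2 ≤ ℓ) {L : ℕ} (hL : 12 ≤ L) (hLℓ : L ≤ ℓ) {k : ℕ} (hk : k < 2 ^ L) :
    Ap (64 * ℓ) (20 * ℓ) (the ℓ) (cF (64 * ℓ) (20 * ℓ) L k) (Ex.xrt (L - 1) ^ (k ^ 2)) := by
  have hη0 := eta_nonneg ℓ
  have hη := eta_small hℓ
  have hk2 : k % 2 ^ (L / 2 + 1) < 2 ^ (L / 2 + 1) := Nat.mod_lt _ (by positivity)
  have hk1 : k / 2 ^ (L / 2 + 1) < 2 ^ (L - (L / 2 + 1)) := by
    rw [Nat.div_lt_iff_lt_mul (by positivity), ← pow_add]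
    rwa [show L - (L / 2 + 1) + (L / 2 + 1) = L by omega]
  have k1 := tF_ap hℓ (N₀ := 2 ^ (L / 4))
    (rt_all' hℓ (κ := L - (L / 2 + 1) - L / 4 - 2) (by omega))
    (rt_all' hℓ (κ := L - (L / 2 + 1) - 2) (by omega)) (Ex.norm_xrt _).le (Ex.norm_xrt _).le
    (xrt_pow' (by omega)) (a := L - (L / 2 + 1)) (b := L / 2 + 1) (by omega) hk1 hk2
  have k2 := cA_ap hℓ (rt_all' hℓ (κ := L - 1) (by omega)) (Ex.norm_xrt _).le
    (k % 2 ^ (L / 2 + 1)) (lt_of_lt_of_le hk2 (Nat.pow_le_pow_right (by norm_num) (by omega)))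
  have k3 := Ap.cm1 (ctx hℓ) k1 k2 (norm_pow_le_one (Ex.norm_xrt _).le _)
    (norm_pow_le_one (Ex.norm_xrt _).le _) (by linarith) (by linarith)
  rw [xcF hL] at k3
  exact k3.mono (by have := tau_le ℓ; unfold the; linarith)

/-- The transform of `2 ^ m` points, with an array of chirps. -/
theorem dftA_all (hℓ : 2 ≤ ℓ) {r q : ℕ} (hr2 : r = 2 * q) {c : ℕ → ℕ × ℕ} {p : ℂ}
    (hp : ‖p‖ ≤ 1) (hp2 : p ^ (2 * r) = 1)
    (hch : ∀ k < r, Ap (64 * ℓ) (20 * ℓ) (the ℓ) (c k) (p ^ (k ^ 2)))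
    {a : ℕ → ℕ × ℕ} {α : ℕ → ℂ} {ε A : ℝ}
    (ha : ∀ i < r, Ap (64 * ℓ) (20 * ℓ) ε (a i) (α i)) (hα : ∀ i < r, ‖α i‖ ≤ A)
    (hA : 1 ≤ A) (hε : ε ≤ A) (hbig : r * A ≤ 2 ^ (3 * ℓ)) (k : ℕ) (hk : k < r) :
    Ap (64 * ℓ) (20 * ℓ) (r * (8 * ε + 14 * (A * the ℓ))) (dftA (64 * ℓ) (20 * ℓ) r c a k)
      (Ex.xdft r p α k) := by
  have h2 : the ℓ ≤ 1 := by have := the_le' hℓ; have := the_nonneg ℓ; linarith
  refine dftA_ap (ctx hℓ) hr2 hp hp2 h2 (tau_the ℓ) hch ha hα hA hε ?_ k hk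
  rw [show 3 * ℓ + 5 = 5 + 3 * ℓ by ring, pow_add]
  linarith

/-- The chirps of the short transforms. -/
theorem cA_the (hℓ : 2 ≤ ℓ) {m : ℕ} (hm : 1 ≤ m) (hmℓ : m ≤ ℓ) {k : ℕ} (hk : k < 2 ^ m) :
    Ap (64 * ℓ) (20 * ℓ) (the ℓ)
      (cA (64 * ℓ) (20 * ℓ) (rtc (64 * ℓ) (20 * ℓ) true (m - 1)) k)
      ((starRingEnd ℂ) (Ex.xrt (m - 1)) ^ (k ^ 2)) := by
  have hη0 := eta_nonneg ℓ
  refine (cA_ap hℓ (crt_all' hℓ (κ := m - 1) (by omega)) (Ex.norm_conj_xrt _).le k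
    (lt_of_lt_of_le hk (Nat.pow_le_pow_right (by norm_num) (by omega)))).mono ?_
  unfold the
  linarith

theorem pw_two {m : ℕ} (hm : 1 ≤ m) : 2 ^ m = 2 * 2 ^ (m - 1) := by
  rw [← pow_succ']; congr 1; omega

theorem cxrt_one' {m : ℕ} (hm : 1 ≤ m) :
    (starRingEnd ℂ) (Ex.xrt (m - 1)) ^ (2 * 2 ^ m) = 1 := by
  have := cxrt_one (m - 1)
  rwa [show m - 1 + 1 = m by omega] at this

variable {u v t : ℕ} {e : ℕ → ℕ → ℕ}

/-- First step. -/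
theorem sa1_ap (hℓ : 2 ≤ ℓ) (hv : 1 ≤ v) (hvℓ : v ≤ ℓ) (ht : t ≤ ℓ)
    (he : ∀ i j, e i j < 2 ^ t) (i j : ℕ) (hj : j < 2 ^ v) :
    Ap (64 * ℓ) (20 * ℓ) (14 * (2 ^ (v + t) * the ℓ)) (sa1 (64 * ℓ) (20 * ℓ) v e i j)
      (Ex.xst1 v (fun i j => (e i j : ℂ)) i j) := by
  have h1 := dftA_all hℓ (pw_two hv) (Ex.norm_conj_xrt (v - 1)).le (cxrt_one' hv)
    (c := cA (64 * ℓ) (20 * ℓ) (rtc (64 * ℓ) (20 * ℓ) true (v - 1)))
    (fun k hk => cA_the hℓ hv hvℓ hk) (a := fun j => (e i j * 2 ^ (20 * ℓ), 0))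
    (α := fun j => (e i j : ℂ)) (ε := 0) (A := 2 ^ t) ?_ ?_ (one_le_pow₀ (by norm_num))
    (by positivity) ?_ j hj
  · refine h1.mono (le_of_eq ?_)
    push_cast
    rw [pow_add]
    ring
  · intro j _
    have h2 : e i j * 2 ^ (20 * ℓ) < 2 ^ (64 * ℓ - 1) := by
      calc e i j * 2 ^ (20 * ℓ) < 2 ^ t * 2 ^ (20 * ℓ) :=
            Nat.mul_lt_mul_of_pos_right (he i j) (by positivity)
        _ = 2 ^ (t + 20 * ℓ) := by rw [pow_add]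
        _ ≤ 2 ^ (64 * ℓ - 1) := Nat.pow_le_pow_right (by norm_num) (by omega)
    unfold Ap
    rw [vl_nat h2 (by positivity)]
    have hp : (0 : ℝ) < 2 ^ (20 * ℓ) := by positivity
    have e2 : (⟨((e i j * 2 ^ (20 * ℓ) : ℕ) : ℝ) / 2 ^ (20 * ℓ),
        ((0 : ℕ) : ℝ) / 2 ^ (20 * ℓ)⟩ : ℂ) = (e i j : ℂ) := by
      apply Complex.ext
      · push_cast; rw [mul_div_assoc, div_self hp.ne', mul_one]; simp
      · simp
    rw [e2, sub_self, norm_zero]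
  · intro j _
    rw [Complex.norm_natCast]
    exact_mod_cast (he i j).le
  · push_cast
    rw [← pow_add]
    exact two_pow_mono (by omega)

theorem xgm_eq (huv : 2 ≤ u + v) : Ex.xgm u v = (starRingEnd ℂ) (Ex.xrt (u + v - 2)) := by
  unfold Ex.xgm
  rw [← map_mul, ← pow_two, ← xrt_pow' (k := u + v - 2) (m := 1) (n := u + v - 1) (by omega)]
  norm_num

/-- The twiddle factors. -/
theorem tF_all (hℓ : 2 ≤ ℓ) (hu : 2 ≤ u) (huv : u + v ≤ ℓ) (i j : ℕ)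
    (hi : i < 2 ^ u) (hj : j < 2 ^ v) :
    Ap (64 * ℓ) (20 * ℓ) (the ℓ)
      (tF (64 * ℓ) (20 * ℓ) (rtc (64 * ℓ) (20 * ℓ) true (u + v - (v - v / 2) - 2))
        (rtc (64 * ℓ) (20 * ℓ) true (u + v - 2)) (2 ^ (v - v / 2)) i j)
      (Ex.xgm u v ^ (i * j)) := by
  have hη0 := eta_nonneg ℓ
  rw [xgm_eq (by omega)]
  refine (tF_ap hℓ (N₀ := 2 ^ (v - v / 2))
    (crt_all' hℓ (κ := u + v - (v - v / 2) - 2) (by omega))
    (crt_all' hℓ (κ := u + v - 2) (by omega)) (Ex.norm_conj_xrt _).le (Ex.norm_conj_xrt _).le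
    ?_ huv hi hj).mono ?_
  · rw [← map_pow, xrt_pow' (k := u + v - (v - v / 2) - 2) (by omega)]
  · unfold the; linarith

/-- Second step. -/
theorem sa2_ap (hℓ : 2 ≤ ℓ) (hu : 2 ≤ u) (hv : 1 ≤ v) (huv : u + v ≤ ℓ) (ht : t ≤ ℓ)
    (he : ∀ i j, e i j < 2 ^ t) (i j : ℕ) (hi : i < 2 ^ u) (hj : j < 2 ^ v) :
    Ap (64 * ℓ) (20 * ℓ) (30 * (2 ^ (v + t) * the ℓ)) (sa2 (64 * ℓ) (20 * ℓ) u v e i j)
      (Ex.xst2 u v (fun i j => (e i j : ℂ)) i j) := by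
  have hη := the_le' hℓ
  have hη0 := the_nonneg ℓ
  have hτ := tau_the ℓ
  have hA1 : (1 : ℝ) ≤ 2 ^ (v + t) := one_le_pow₀ (by norm_num)
  have h1 := sa1_ap hℓ hv (by omega) ht he i j hj
  have h2 := tF_all hℓ hu huv i j hi hj
  have hn : ‖Ex.xst1 v (fun i j => (e i j : ℂ)) i j‖ ≤ 2 ^ (v + t) := by
    rw [pow_add]
    exact Ex.norm_xst1_le (norm_e_le he) i j
  have hx : 0 ≤ 2 ^ (v + t) * the ℓ := by positivity
  have hx1 : 2 ^ (v + t) * the ℓ * 2 ^ 12 ≤ 2 ^ (v + t) := by nlinarith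
  refine (Ap.cm (ctx hℓ) h1 h2 hn (norm_pow_le_one (Ex.norm_xgm u v).le _) ?_).mono ?_
  · have h3 : (2 : ℝ) ^ (v + t) + 14 * (2 ^ (v + t) * the ℓ) ≤ 2 * 2 ^ (v + t) := by linarith
    have h4 : (2 ^ (v + t) + 14 * (2 ^ (v + t) * the ℓ)) * (1 + the ℓ) ≤ 2 * 2 ^ (v + t) * 2 :=
      mul_le_mul h3 (by linarith) (by linarith) (by positivity)
    have h5 : (2 : ℝ) ^ (3 * ℓ + 5) = 2 ^ (3 * ℓ) * 32 := by rw [pow_add]; norm_num
    have h6 : (2 : ℝ) ^ (v + t) ≤ 2 ^ (3 * ℓ) := two_pow_mono (by omega)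
    linarith
  · have h3 : 14 * (2 ^ (v + t) * the ℓ) * (1 + the ℓ) ≤ 14 * (2 ^ (v + t) * the ℓ) * 2 :=
      mul_le_mul_of_nonneg_left (by linarith) (by positivity)
    have h4 : the ℓ ≤ 2 ^ (v + t) * the ℓ := by nlinarith
    linarith

/-- Third step. -/
theorem sa3_ap (hℓ : 2 ≤ ℓ) (hu : 2 ≤ u) (hv : 1 ≤ v) (huv : u + v ≤ ℓ) (ht : t ≤ ℓ)
    (he : ∀ i j, e i j < 2 ^ t) (i j : ℕ) (hi : i < 2 ^ u) (hj : j < 2 ^ v) :
    Ap (64 * ℓ) (20 * ℓ) (254 * (2 ^ (u + v + t) * the ℓ)) (sa3 (64 * ℓ) (20 * ℓ) u v e i j)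
      (Ex.xst3 u v (fun i j => (e i j : ℂ)) i j) := by
  have hη := the_le' hℓ
  have hη0 := the_nonneg ℓ
  have hA1 : (1 : ℝ) ≤ 2 ^ (v + t) := one_le_pow₀ (by norm_num)
  have hx : 0 ≤ 2 ^ (v + t) * the ℓ := by positivity
  have hx1 : 2 ^ (v + t) * the ℓ * 2 ^ 12 ≤ 2 ^ (v + t) := by nlinarith
  have hu1 : 1 ≤ u := by omega
  have h1 := dftA_all hℓ (pw_two hu1) (Ex.norm_conj_xrt (u - 1)).le (cxrt_one' hu1)
    (c := cA (64 * ℓ) (20 * ℓ) (rtc (64 * ℓ) (20 * ℓ) true (u - 1)))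
    (fun k hk => cA_the hℓ hu1 (by omega) hk)
    (a := fun i => sa2 (64 * ℓ) (20 * ℓ) u v e i j)
    (α := fun i => Ex.xst2 u v (fun i j => (e i j : ℂ)) i j)
    (ε := 30 * (2 ^ (v + t) * the ℓ)) (A := 2 ^ (v + t))
    (fun i hi => sa2_ap hℓ hu hv huv ht he i j hi hj)
    (fun i _ => by rw [pow_add]; exact Ex.norm_xst2_le (norm_e_le he) i j) hA1
    (by linarith) (by
      push_cast
      rw [← pow_add]
      exact two_pow_mono (by omega)) i hi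
  refine h1.mono (le_of_eq ?_)
  push_cast
  rw [show u + v + t = u + (v + t) by ring, pow_add 2 u]
  ring

/-- Fourth step. -/
theorem sa4_ap (hℓ : 2 ≤ ℓ) (hu : 6 ≤ u) (hv : 6 ≤ v) (huv : u + v ≤ ℓ) (ht : t ≤ ℓ)
    (he : ∀ i j, e i j < 2 ^ t) (k : ℕ) (hk : k < 2 ^ u * 2 ^ v) :
    Ap (64 * ℓ) (20 * ℓ) (2 ^ (u + v) * (2046 * (2 ^ (u + v + t) * the ℓ)))
      (sa4 (64 * ℓ) (20 * ℓ) u v e k)
      (Ex.xst4 u v (fun i j => (e i j : ℂ)) k) := by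
  have hη := the_le' hℓ
  have hη0 := the_nonneg ℓ
  have hA1 : (1 : ℝ) ≤ 2 ^ (u + v + t) := one_le_pow₀ (by norm_num)
  have hx : 0 ≤ 2 ^ (u + v + t) * the ℓ := by positivity
  have hx1 : 2 ^ (u + v + t) * the ℓ * 2 ^ 12 ≤ 2 ^ (u + v + t) := by nlinarith
  have hr : 2 ^ u * 2 ^ v = 2 * 2 ^ (u + v - 1) := by
    rw [← pow_add]; exact pw_two (by omega)
  have hp2 : Ex.xrt (u + v - 1) ^ (2 * (2 ^ u * 2 ^ v)) = 1 := by
    have := xrt_one (u + v - 1)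
    rwa [show u + v - 1 + 1 = u + v by omega, pow_add] at this
  have h1 := dftA_all hℓ hr (Ex.norm_xrt (u + v - 1)).le hp2
    (c := cF (64 * ℓ) (20 * ℓ) (u + v))
    (fun k hk => cF_ap hℓ (by omega) huv (by rw [pow_add]; exact hk))
    (a := fun k => sa3 (64 * ℓ) (20 * ℓ) u v e (k / 2 ^ v) (k % 2 ^ v))
    (α := fun k => Ex.xst3 u v (fun i j => (e i j : ℂ)) (k / 2 ^ v) (k % 2 ^ v))
    (ε := 254 * (2 ^ (u + v + t) * the ℓ)) (A := 2 ^ (u + v + t))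
    (fun k hk => sa3_ap hℓ (by omega) (by omega) huv ht he _ _
      (Nat.div_lt_of_lt_mul (by rw [Nat.mul_comm]; exact hk)) (Nat.mod_lt _ (by positivity)))
    (fun k _ => by rw [pow_add 2 (u + v)]; exact Ex.norm_xst3_le (norm_e_le he) _ _) hA1
    (by linarith) (by
      push_cast
      rw [← pow_add, ← pow_add]
      exact two_pow_mono (by omega)) k hk
  refine h1.mono (le_of_eq ?_)
  push_cast
  rw [pow_add 2 u v]
  ring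

end

/-- The statement of pure mathematics for stage 5: the four steps transpose. -/
theorem permPure2 : PermPure2 := by
  intro u v t ℓ e hu hv huv ht he i hi j hj
  have hℓ : 2 ≤ ℓ := by omega
  have hk : j * 2 ^ u + i < 2 ^ u * 2 ^ v := by
    calc j * 2 ^ u + i < j * 2 ^ u + 2 ^ u := by omega
      _ = (j + 1) * 2 ^ u := by ring
      _ ≤ 2 ^ v * 2 ^ u := Nat.mul_le_mul_right _ hj
      _ = 2 ^ u * 2 ^ v := Nat.mul_comm ..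
  have h1 := sa4_ap hℓ hu hv huv ht he _ hk
  have h2 := Ex.xst4_eq (by omega) (by omega) (fun i j => (e i j : ℂ)) hi hj
  have hη := the_le hℓ
  have hη0 : 0 < the ℓ := the_pos ℓ
  refine rnd_of_ap (by omega) h1 h2 ?_ (he i j) (by omega)
  have h3 : (2 : ℝ) ^ (u + v + t) ≤ 2 ^ (2 * ℓ) := two_pow_mono (by omega)
  have h4 : 2 ^ (u + v + t) * the ℓ ≤ 2 ^ (2 * ℓ) * the ℓ :=
    mul_le_mul_of_nonneg_right h3 hη0.le
  have h5 : (2 : ℝ) ^ (2 * ℓ + 12) = 2 ^ (2 * ℓ) * 4096 := by rw [pow_add]; norm_num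
  rw [h5] at hη
  have h6 : 2046 * (2 ^ (u + v + t) * the ℓ) < 1 / 2 := by
    have : 0 < 2 ^ (2 * ℓ) * the ℓ := by positivity
    linarith
  have h7 : (0 : ℝ) < 2 ^ (u + v) := by positivity
  calc 2 ^ (u + v) * (2046 * (2 ^ (u + v + t) * the ℓ)) < 2 ^ (u + v) * (1 / 2) :=
        mul_lt_mul_of_pos_left h6 h7
    _ = 2 ^ (u + v) / 2 := by ring

end Vale.Agent.P338.GS.PM
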