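import Vale.Agent.P338.GS.IO

/-!
# P338, matrices of every shape: passes over the data
-/

namespace Vale.Agent.P338.GS.Ps

open Vale.Agent.P338 Vale.Agent.P338.GS Vale.Agent.P338.GS.IO

variable {J E : Type} [DecidableEq J]

/-! ### Loops -/

/-- Do something for every symbol of `u`. -/
theorem r_forr {u t : W} (hut : u ≠ t) (body : PW J E) (n : ℕ) (F : ℕ → SW J E) (T : ℕ)
    (hu : ∀ k ≤ n, (F k).at u = una n) (ht : ∀ k ≤ n, (F k).at t = [])
    (h : ∀ k < n, ∀ l l' : List (SSym E), Runs body (((F k).set u l).set t l')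
      (((F (k + 1)).set u l).set t l') T) :
    Runs (Prog.forr (Sum.inr u) (Sum.inr t) body : PW J E) (F 0) (F n) (n * (T + 7) + 1) := by
  have h1 := Runs.forr' (u := (Sum.inr u : Loc J ⊕ W)) (t := Sum.inr t) (by simpa using hut)
    (body := body) n mk F (fun _ => T) hu ht h
  refine h1.mono ?_
  simp only [Finset.sum_const, Finset.card_range, smul_eq_mul]
  have : n * (T + 4) + 3 * n = n * (T + 7) := by ring
  omega

/-! ### Data on `XR`, `XI`, results on `O1`, `O2` -/

/-- The four stacks of a pass. -/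
def st4 (s : SW J E) (x1 x2 y1 y2 : List (SSym E)) : SW J E :=
  (((s.set .XR x1).set .XI x2).set .O1 y1).set .O2 y2

/-- The program `p` takes `a`, `b` from the data and appends `a'`, `b'` to the results. -/
def Tr (p : PW J E) (s s' : SW J E) (a b a' b' : List Bool) (T : ℕ) : Prop :=
  ∀ x1 x2 y1 y2 : List (SSym E), Runs p (st4 s (bits a ++ x1) (bits b ++ x2) y1 y2)
    (st4 s' x1 x2 ((bits a').reverse ++ y1) ((bits b').reverse ++ y2)) T

theorem Tr.mono {p : PW J E} {s s' : SW J E} {a b a' b' : List Bool} {T T' : ℕ}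
    (h : Tr p s s' a b a' b' T) (hT : T ≤ T') : Tr p s s' a b a' b' T' :=
  fun x1 x2 y1 y2 => (h x1 x2 y1 y2).mono hT

theorem Tr.of_eq {p : PW J E} {s s' s'' : SW J E} {a b a' b' : List Bool} {T : ℕ}
    (h : Tr p s s' a b a' b' T) (e : s' = s'') : Tr p s s'' a b a' b' T := e ▸ h

/-- A program that does not touch the data. -/
def Sd (p : PW J E) (s s' : SW J E) (T : ℕ) : Prop :=
  ∀ x1 x2 y1 y2 : List (SSym E), Runs p (st4 s x1 x2 y1 y2) (st4 s' x1 x2 y1 y2) T

theorem Sd.seq {p q : PW J E} {s s' s'' : SW J E} {T T' : ℕ} (h : Sd p s s' T)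
    (h' : Sd q s' s'' T') : Sd (p.seq q) s s'' (T + 1 + T') :=
  fun x1 x2 y1 y2 => (h x1 x2 y1 y2).seq (h' x1 x2 y1 y2)

theorem Sd.tr {p q : PW J E} {s s' s'' : SW J E} {a b a' b' : List Bool} {T T' : ℕ}
    (h : Sd p s s' T) (h' : Tr q s' s'' a b a' b' T') :
    Tr (p.seq q) s s'' a b a' b' (T + 1 + T') :=
  fun x1 x2 y1 y2 => (h _ _ _ _).seq (h' x1 x2 y1 y2)

theorem Tr.sd {p q : PW J E} {s s' s'' : SW J E} {a b a' b' : List Bool} {T T' : ℕ}
    (h : Tr p s s' a b a' b' T) (h' : Sd q s' s'' T') :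
    Tr (p.seq q) s s'' a b a' b' (T + 1 + T') :=
  fun x1 x2 y1 y2 => (h x1 x2 y1 y2).seq (h' _ _ _ _)

theorem bits_app (l l' : List Bool) : (bits (l ++ l') : List (SSym E)) = bits l ++ bits l' := by
  simp [bits]

theorem st4_set (s : SW J E) {r : W} (hr : r ∉ [W.XR, .XI, .O1, .O2]) (l : List (SSym E))
    (x1 x2 y1 y2 : List (SSym E)) :
    (st4 s x1 x2 y1 y2).set r l = st4 (s.set r l) x1 x2 y1 y2 := by
  simp only [List.mem_cons, List.not_mem_nil, or_false, not_or] at hr
  obtain ⟨h1, h2, h3, h4⟩ := hr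
  unfold st4
  rw [set_comm _ (Ne.symm h4), set_comm _ (Ne.symm h3), set_comm _ (Ne.symm h2),
    set_comm _ (Ne.symm h1)]

theorem st4_at (s : SW J E) {r : W} (hr : r ∉ [W.XR, .XI, .O1, .O2])
    (x1 x2 y1 y2 : List (SSym E)) : (st4 s x1 x2 y1 y2).at r = s.at r := by
  simp only [List.mem_cons, List.not_mem_nil, or_false, not_or] at hr
  obtain ⟨h1, h2, h3, h4⟩ := hr
  unfold st4
  rw [at_set_ne _ h4, at_set_ne _ h3, at_set_ne _ h2, at_set_ne _ h1]

theorem Tr.forr {u t : W} (hut : u ≠ t) (hu4 : u ∉ [W.XR, .XI, .O1, .O2])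
    (ht4 : t ∉ [W.XR, .XI, .O1, .O2]) {body : PW J E} {n : ℕ} {F : ℕ → SW J E}
    {a b a' b' : ℕ → List Bool} {T : ℕ}
    (hu : ∀ k ≤ n, (F k).at u = una n) (ht : ∀ k ≤ n, (F k).at t = [])
    (h : ∀ k < n, ∀ l l' : List (SSym E), Tr body (((F k).set u l).set t l')
      (((F (k + 1)).set u l).set t l') (a k) (b k) (a' k) (b' k) T) :
    Tr (Prog.forr (Sum.inr u) (Sum.inr t) body : PW J E) (F 0) (F n) (cat n a) (cat n b)
      (cat n a') (cat n b') (n * (T + 7) + 1) := by
  intro x1 x2 y1 y2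
  have e0 : ∀ (f : ℕ → List Bool) (k : ℕ), k < n → cat (n - k) (fun i => f (k + i)) =
      f k ++ cat (n - (k + 1)) (fun i => f (k + 1 + i)) := by
    intro f k hk
    rw [show n - k = (n - (k + 1)) + 1 by omega, cat_succ']
    congr 2
    funext i
    rw [show k + (i + 1) = k + 1 + i by ring]
  have h1 := r_forr hut body n (fun k => st4 (F k) (bits (cat (n - k) fun i => a (k + i)) ++ x1)
    (bits (cat (n - k) fun i => b (k + i)) ++ x2) ((bits (cat k a')).reverse ++ y1)
    ((bits (cat k b')).reverse ++ y2)) T (fun k hk => by rw [st4_at _ hu4]; exact hu k hk)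
    (fun k hk => by rw [st4_at _ ht4]; exact ht k hk)
    (fun k hk l l' => by
      have h2 := h k hk l l' (bits (cat (n - (k + 1)) fun i => a (k + 1 + i)) ++ x1)
        (bits (cat (n - (k + 1)) fun i => b (k + 1 + i)) ++ x2)
        ((bits (cat k a')).reverse ++ y1) ((bits (cat k b')).reverse ++ y2)
      rw [st4_set _ hu4, st4_set _ ht4, st4_set _ hu4, st4_set _ ht4, e0 a k hk, e0 b k hk,
        cat_succ, cat_succ, bits_app, bits_app, bits_app, bits_app, List.append_assoc,
        List.append_assoc, List.reverse_append, List.reverse_append, List.append_assoc,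
        List.append_assoc]
      exact h2)
  simp only [Nat.sub_zero, Nat.zero_add, Nat.sub_self] at h1
  have e1 : (bits (cat 0 a') : List (SSym E)).reverse ++ y1 = y1 := rfl
  have e2 : (bits (cat 0 b') : List (SSym E)).reverse ++ y2 = y2 := rfl
  have e3 : (bits (cat 0 fun i => a (n + i)) : List (SSym E)) ++ x1 = x1 := rfl
  have e4 : (bits (cat 0 fun i => b (n + i)) : List (SSym E)) ++ x2 = x2 := rfl
  rw [e1, e2, e3, e4] at h1
  exact h1

end Vale.Agent.P338.GS.Ps
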