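import Vale.Agent.P338.GS.Iface2
import Vale.Agent.P338.GS.PassLib

/-!
# P338, stage 5: zeros after every word; carries
-/

namespace Vale.Agent.P338.GS.PR

open Vale.Agent.P338 Vale.Agent.P338.GS Vale.Agent.P338.GS.IO

variable {J E : Type} [DecidableEq J]

/-! ### Loops over blocks -/

omit [DecidableEq J] in
theorem ne_tops (s : SW J E) (a : W) :
    nonempty (Sum.inr a) (tops s) = !(s.at a).isEmpty := nonempty_tops _ _

/-- A loop that consumes the blocks `b k` of the stack `a`, and appends the blocks `c k` to the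
stack `o`. -/
theorem r_blocks {a o : W} (hao : a ≠ o) {body : PW J E} (b c : ℕ → List (SSym E)) (T n : ℕ)
    (s : SW J E) (hb : ∀ k < n, b k ≠ [])
    (h : ∀ k < n, ∀ l o' : List (SSym E), Runs body ((s.set a (b k ++ l)).set o o')
      ((s.set a l).set o ((c k).reverse ++ o')) T) (hs : s.at a = cat n b) :
    Runs (Prog.loop (nonempty (Sum.inr a)) body) s
      ((s.set a []).set o ((cat n c).reverse ++ s.at o)) (n * (T + 2)) := by
  have e0 : ∀ k, k < n → cat (n - k) (fun i => b (k + i)) =
      b k ++ cat (n - (k + 1)) (fun i => b (k + 1 + i)) := by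
    intro k hk
    rw [show n - k = (n - (k + 1)) + 1 by omega, cat_succ']
    congr 2
    funext i
    rw [show k + (i + 1) = k + 1 + i by ring]
  have h1 := Runs.loop_iter_le (c := nonempty (Sum.inr a)) (p := body) n
    (fun k => (s.set a (cat (n - k) fun i => b (k + i))).set o ((cat k c).reverse ++ s.at o)) T
    (fun k hk => by
      have e : ((s.set a (cat (n - k) fun i => b (k + i))).set o
          ((cat k c).reverse ++ s.at o)).at a = b k ++ cat (n - (k + 1))
            (fun i => b (k + 1 + i)) := by
        rw [at_set_ne _ hao, at_set_self, e0 k hk]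
      rw [ne_tops, e]
      have := hb k hk
      cases hbk : b k with
      | nil => exact absurd hbk this
      | cons x l => rfl)
    (by
      have e : ((s.set a (cat (n - n) fun i => b (n + i))).set o
          ((cat n c).reverse ++ s.at o)).at a = [] := by
        rw [at_set_ne _ hao, at_set_self, Nat.sub_self, cat_zero]
      rw [ne_tops, e]
      rfl)
    (fun k hk => by
      rw [e0 k hk, cat_succ, List.reverse_append, List.append_assoc]
      exact h k hk _ _)
  simp only [Nat.sub_zero, Nat.sub_self, Nat.zero_add] at h1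
  have e2 : (s.set a (cat n fun i => b i)).set o ((cat 0 c).reverse ++ s.at o) = s := by
    rw [set_of_at hs, cat_zero]
    exact set_of_at rfl
  rw [e2] at h1
  exact h1

theorem bits_cat {n : ℕ} (f : ℕ → List Bool) :
    (bits (cat n f) : List (SSym E)) = cat n fun k => bits (f k) := by
  unfold bits
  exact map_cat _ n f

/-! ### Zeros after every word -/

/-- One word. -/
def padB : PW J E :=
  (Prog.forr (Sum.inr .WS) (Sum.inr .F1) (Prog.mov (Sum.inr .N1) (Sum.inr .T1))).seq
    (Prog.fill (Sum.inr .WS) (sb false) (Sum.inr .T1) (Sum.inr .F1))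

theorem padB_spec {S : ℕ} {s : SW J E} (w rest : List (SSym E)) (hw : w.length = S)
    (hF : s.at .F1 = []) (hW : s.at .WS = una S) (hN : s.at .N1 = w ++ rest) :
    Runs padB s ((s.set .N1 rest).set .T1
      ((w ++ List.replicate S (sb false)).reverse ++ s.at .T1)) (16 * S + 3) := by
  have a1 := r_movs (J := J) (u := .WS) (t := .F1) (x := .N1) (o := .T1) (by decide) (by decide)
    (by decide) (by decide) (by decide) (by decide) s w rest S hw hW hF hN
  have a2 := r_fill (J := J) (u := .WS) (b := .T1) (t := .F1) (by decide) (by decide)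
    (by decide) (sb false) ((s.set .N1 rest).set .T1 (w.reverse ++ s.at .T1)) S
    (by rw [at_set_ne _ (by decide), at_set_ne _ (by decide), hW])
    (by rw [at_set_ne _ (by decide), at_set_ne _ (by decide), hF])
  refine ((a1.seq a2).mono (by omega)).of_eq ?_
  rw [set_set, at_set_self]
  simp

/-- All words. -/
def padP : PW J E :=
  (Prog.loop (nonempty (Sum.inr .N1)) padB).seq (Prog.rev (Sum.inr .T1) (Sum.inr .XR))

theorem padSpec : PadSpec (padP : PW J E) 60 := by
  intro n S x s hS hs hW hXR hN
  have hF : s.at .F1 = [] := hs.emp2 .F1 (by decide)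
  have hT : s.at .T1 = [] := hs.emp2 .T1 (by decide)
  set c : ℕ → List (SSym E) := fun q => bits (bitsOf S (x q)) ++ List.replicate S (sb false)
    with hc
  have a1 := r_blocks (J := J) (a := .N1) (o := .T1) (by decide) (body := padB)
    (fun q => (bits (bitsOf S (x q)) : List (SSym E))) c (16 * S + 3) n s
    (fun k _ h => by
      have := congrArg List.length h
      simp only [length_bits, length_bitsOf, List.length_nil] at this
      omega)
    (fun k _ l o' => by
      have b1 := padB_spec (J := J) (E := E) (S := S)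
        (s := (s.set .N1 (bits (bitsOf S (x k)) ++ l)).set .T1 o')
        (bits (bitsOf S (x k))) l (by simp) (by simp [at_set, hF]) (by simp [at_set, hW])
        (by simp [at_set])
      refine b1.of_eq ?_
      refine sw_ext (fun j => by simp) fun r => ?_
      simp only [at_set, c]
      split_ifs <;> simp_all)
    (by rw [hN]; unfold ar; exact bits_cat _)
  rw [hT, List.append_nil] at a1
  set s1 := (s.set .N1 []).set .T1 (cat n c).reverse with e1
  have a2 := r_rev (J := J) (a := .T1) (b := .XR) (by decide) s1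
  have k2 : s1.at .T1 = (cat n c).reverse := by simp [s1]
  have k2' : s1.at .XR = [] := by simp [s1, at_set, hXR]
  have l2 : (cat n c).length = n * (S + S) := length_cat_of fun i _ => by simp [c]
  rw [k2, k2', List.reverse_reverse, List.append_nil, List.length_reverse, l2] at a2
  refine ((a1.seq a2).mono ?_).of_eq ?_
  · have e4 : n * (16 * S + 3 + 2) ≤ 21 * (n * S) := by nlinarith
    have e5 : n * (S + S) = 2 * (n * S) := by ring
    omega
  · have e5 : (bits (cat n fun q => bitsOf S (x q) ++ List.replicate S false) :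
        List (SSym E)) = cat n c := by
      rw [bits_cat]
      exact cat_congr fun q _ => by simp [bits, c]
    have c2 : (s.set .N1 []).set .T1 [] = s.set .N1 [] :=
      set_of_at (by rw [at_set_ne _ (by decide), hT])
    rw [e5, e1, set_set, c2]

/-! ### Carries: arithmetic -/

/-- The carries. -/
def car (g : ℕ) (z : ℕ → ℕ) : ℕ → ℕ
  | 0 => 0
  | k + 1 => (car g z k + z k) / 2 ^ g

theorem car_lt {g t : ℕ} (hg : 1 ≤ g) {z : ℕ → ℕ} (hz : ∀ i, z i < 2 ^ t) (k : ℕ) :
    car g z k < 2 ^ t := by
  induction k with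
  | zero => exact Nat.two_pow_pos t
  | succ k ih =>
    show (car g z k + z k) / 2 ^ g < 2 ^ t
    apply Nat.div_lt_of_lt_mul
    have h1 := hz k
    have h2 : 2 ≤ 2 ^ g := by
      calc 2 = 2 ^ 1 := by norm_num
        _ ≤ 2 ^ g := Nat.pow_le_pow_right (by norm_num) hg
    nlinarith

theorem rel_bits (g : ℕ) (z : ℕ → ℕ) (k : ℕ) :
    (cat k fun i => bitsOf g (car g z i + z i)) =
      bitsOf (g * k) (∑ i ∈ Finset.range k, z i * 2 ^ (g * i)) ∧
    (∑ i ∈ Finset.range k, z i * 2 ^ (g * i)) / 2 ^ (g * k) = car g z k := by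
  induction k with
  | zero => simp [car]
  | succ k ih =>
    obtain ⟨h1, h2⟩ := ih
    rw [Finset.sum_range_succ]
    set Q := ∑ i ∈ Finset.range k, z i * 2 ^ (g * i) with hQ
    have e1 : (Q + z k * 2 ^ (g * k)) / 2 ^ (g * k) = car g z k + z k := by
      rw [Nat.add_mul_div_right _ _ (by positivity), h2]
    constructor
    · rw [cat_succ, h1, Nat.mul_succ, bitsOf_add, e1]
      congr 1
      rw [bitsOf_eq_iff, Nat.add_mul_mod_self_right]
    · rw [Nat.mul_succ, pow_add, ← Nat.div_div_eq_div_mul, e1]
      rfl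

theorem add_full {t a z : ℕ} (ha : a < 2 ^ t) (hz : z < 2 ^ t) :
    SS.scO SS.x3 SS.mj false (bitsOf t a) (bitsOf t z) ++
      [SS.scC SS.mj false (bitsOf t a) (bitsOf t z)] = bitsOf (t + 1) (a + z) := by
  have h := SS.add_val false (bitsOf t a) (bitsOf t z) (by simp)
  have hl := SS.length_scO SS.x3 SS.mj false (bitsOf t a) (bitsOf t z) (by simp)
  rw [natOf_bitsOf_of_lt ha, natOf_bitsOf_of_lt hz] at h
  simp only [length_bitsOf, Bool.toNat_false, Nat.add_zero] at h hl
  apply natOf_inj (by simp [hl])
  rw [natOf_append, hl, natOf_bitsOf_of_lt (by rw [pow_succ]; omega), ← h]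
  simp [natOf_cons]

theorem bits_app' (l l' : List Bool) : (bits (l ++ l') : List (SSym E)) = bits l ++ bits l' := by
  simp [bits]

/-- The word after the addition. -/
theorem rev_sum {t g a z : ℕ} (hg : 1 ≤ g) (ha : a < 2 ^ t) (hz : z < 2 ^ t) :
    (List.replicate g (sb false) ++ (sb (SS.scC SS.mj false (bitsOf t a) (bitsOf t z)) ::
      (bits (SS.scO SS.x3 SS.mj false (bitsOf t a) (bitsOf t z))).reverse) :
        List (SSym E)).tail = (bits (bitsOf (t + g) (a + z))).reverse := by
  obtain ⟨g, rfl⟩ : ∃ g', g = g' + 1 := ⟨g - 1, by omega⟩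
  have e1 : bitsOf (t + (g + 1)) (a + z) = bitsOf (t + 1) (a + z) ++
      List.replicate g false := by
    rw [show t + (g + 1) = (t + 1) + g by ring, bitsOf_add, Nat.div_eq_of_lt (by
      rw [pow_succ]; omega), bitsOf_zero]
  rw [e1, ← add_full ha hz, bits_app', bits_app', List.reverse_append, List.reverse_append]
  simp [bits, List.replicate_succ]

/-! ### Carries: one coefficient -/

/-- Push the flag on `q` as a bit on `o`. -/
def psh (q o : W) : PW J E :=
  Prog.act fun tp l =>
    if l = Sum.inr o then Op.push (sb (tp (Sum.inr q)).isSome)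
    else if l = Sum.inr q then (if (tp (Sum.inr q)).isSome then Op.pop else Op.keep)
    else Op.keep

theorem r_psh {q o : W} (h : q ≠ o) (s : SW J E) (c : Bool) (hq : s.at q = SS.fl c) :
    Runs (psh q o : PW J E) s ((s.set q []).set o (sb c :: s.at o)) 1 := by
  refine (Runs.act _ s).of_eq ?_
  have h1 : (tops s (Sum.inr q)).isSome = c := by
    rw [tops_apply]
    show (s.at q).head?.isSome = c
    rw [hq, SS.fl_isSome]
  have hq' : s (Sum.inr q) = SS.fl c := hq
  funext m
  simp only [h1]
  unfold SW.set SW.at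
  by_cases e1 : m = Sum.inr o
  · subst e1; simp
  · by_cases e2 : m = Sum.inr q
    · subst e2
      cases c <;> simp [e1, hq', SS.fl]
    · simp [e1, e2]

/-- One coefficient. -/
def relS : PW J E :=
  (SS.scan2 (Sum.inr .T4) (Sum.inr .XR) (Sum.inr .O1) (Sum.inr .F2) SS.x3 SS.mj).seq <|
  (psh .F2 .O1).seq <|
  (Prog.fill (Sum.inr .UU) (sb false) (Sum.inr .O1) (Sum.inr .F3)).seq <|
  (Prog.pop (Sum.inr .O1)).seq <|
  (Prog.rev (Sum.inr .O1) (Sum.inr .T4)).seq <|
  Prog.forr (Sum.inr .UU) (Sum.inr .F3) (Prog.mov (Sum.inr .T4) (Sum.inr .CR))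

theorem relS_spec {g t a z : ℕ} (hg : 1 ≤ g) (ha : a < 2 ^ t) (hz : z < 2 ^ t) {s : SW J E}
    {rest : List (SSym E)} (h1 : s.at .T4 = bits (bitsOf t a))
    (h2 : s.at .XR = bits (bitsOf t z) ++ rest) (h3 : s.at .O1 = []) (h4 : s.at .F2 = [])
    (h5 : s.at .F3 = []) (h6 : s.at .UU = una g) :
    Runs relS s (((s.set .XR rest).set .T4 (bits (bitsOf t ((a + z) / 2 ^ g)))).set .CR
      ((bits (bitsOf g (a + z))).reverse ++ s.at .CR)) (6 * t + 19 * g + 12) := by
  set l1 := SS.scO SS.x3 SS.mj false (bitsOf t a) (bitsOf t z) with hl1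
  set c := SS.scC SS.mj false (bitsOf t a) (bitsOf t z) with hc
  have a1 : Runs (SS.scan2 (Sum.inr .T4) (Sum.inr .XR) (Sum.inr .O1) (Sum.inr .F2) SS.x3
      SS.mj : PW J E) s ((((s.set .T4 []).set .XR rest).set .O1 ((bits l1).reverse ++
        s.at .O1)).set .F2 (SS.fl c)) (3 * (bitsOf t a).length) :=
    SS.Runs.scan2 (i := (Sum.inr .T4 : Loc J ⊕ W)) (j := Sum.inr .XR)
      (o := Sum.inr .O1) (q := Sum.inr .F2) (by simp) (by simp) (by simp) (by simp)
      (by simp) (by simp) SS.x3 SS.mj (bitsOf t a) (bitsOf t z) (by simp) false rest s h1 h2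
      (by show s.at .F2 = _; rw [h4]; rfl)
  set s1 := (((s.set .T4 []).set .XR rest).set .O1 ((bits l1).reverse ++ s.at .O1)).set .F2
    (SS.fl c) with e1
  have a2 := r_psh (J := J) (q := .F2) (o := .O1) (by decide) s1 c (by simp [s1])
  set s2 := (s1.set .F2 []).set .O1 (sb c :: s1.at .O1) with e2
  have a3 := r_fill (J := J) (u := .UU) (b := .O1) (t := .F3) (by decide) (by decide)
    (by decide) (sb false) s2 g (by simp [s2, s1, at_set, h6]) (by simp [s2, s1, at_set, h5])
  set s3 := s2.set .O1 (List.replicate g (sb false) ++ s2.at .O1) with e3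
  have a4 := Runs.pop (Sum.inr .O1 : Loc J ⊕ W) s3
  have k4 : (s3 (Sum.inr .O1)).tail = (bits (bitsOf (t + g) (a + z))).reverse := by
    have : s3.at .O1 = List.replicate g (sb false) ++ (sb c :: (bits l1).reverse) := by
      simp [s3, s2, s1, at_set, h3]
    show (s3.at .O1).tail = _
    rw [this]
    exact rev_sum hg ha hz
  rw [k4] at a4
  set s4 := s3.set .O1 (bits (bitsOf (t + g) (a + z))).reverse with e4
  have a5 := r_rev (J := J) (a := .O1) (b := .T4) (by decide) s4
  have k5 : s4.at .O1 = (bits (bitsOf (t + g) (a + z))).reverse := by simp [s4]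
  have k5' : s4.at .T4 = [] := by simp [s4, s3, s2, s1, at_set]
  rw [k5, k5', List.reverse_reverse, List.append_nil, List.length_reverse, length_bits,
    length_bitsOf] at a5
  set s5 := (s4.set .O1 []).set .T4 (bits (bitsOf (t + g) (a + z))) with e5
  have a6 := r_movs (J := J) (u := .UU) (t := .F3) (x := .T4) (o := .CR) (by decide) (by decide)
    (by decide) (by decide) (by decide) (by decide) s5 (bits (bitsOf g (a + z)))
    (bits (bitsOf t ((a + z) / 2 ^ g))) g (by simp) (by simp [s5, s4, s3, s2, s1, at_set, h6])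
    (by simp [s5, s4, s3, s2, s1, at_set, h5]) (by
      rw [e5, at_set_self, Nat.add_comm t g, bitsOf_add, bits_app'])
  refine ((a1.seq (a2.seq (a3.seq (a4.seq (a5.seq a6))))).mono ?_).of_eq ?_
  · rw [length_bitsOf]; omega
  · refine sw_ext (fun j => by simp [s5, s4, s3, s2, s1]) fun r => ?_
    clear a1 a2 a3 a4 a5 a6 k4 k5 k5'
    simp only [s5, s4, s3, s2, s1, at_set]
    clear e5 e4 e3 e2 e1 s5 s4 s3 s2 s1
    split_ifs <;> simp_all

/-! ### Carries: one word -/

/-- Drop one coefficient. -/
def dropB : PW J E :=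
  (Prog.forr (Sum.inr .WT) (Sum.inr .F3) (Prog.mov (Sum.inr .XR) (Sum.inr .T1))).seq
    (Prog.clear (Sum.inr .T1))

theorem dropB_spec {t : ℕ} {s : SW J E} {l rest : List (SSym E)} (hl : l.length = t)
    (h1 : s.at .XR = l ++ rest) (h2 : s.at .WT = una t) (h3 : s.at .F3 = [])
    (h4 : s.at .T1 = []) : Runs dropB s (s.set .XR rest) (11 * t + 2) := by
  have a1 := r_movs (J := J) (u := .WT) (t := .F3) (x := .XR) (o := .T1) (by decide) (by decide)
    (by decide) (by decide) (by decide) (by decide) s l rest t hl h2 h3 h1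
  have a2 := r_clear (J := J) .T1 ((s.set .XR rest).set .T1 (l.reverse ++ s.at .T1))
  refine ((a1.seq a2).mono ?_).of_eq ?_
  · rw [at_set_self, h4]
    simp only [List.append_nil, List.length_reverse]
    omega
  · refine sw_ext (fun j => by simp) fun r => ?_
    simp only [at_set]
    split_ifs <;> simp_all

/-- One word. -/
def relW : PW J E :=
  (Prog.fill (Sum.inr .WT) (sb false) (Sum.inr .T4) (Sum.inr .F3)).seq <|
  (Prog.forr (Sum.inr .HM) (Sum.inr .F1) relS).seq <|
  (Prog.clear (Sum.inr .T4)).seq <|
  Prog.forr (Sum.inr .HM) (Sum.inr .F1) dropB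

/-- The assumptions for a word. -/
structure RW (s : SW J E) (g t M : ℕ) : Prop where
  uu : s.at .UU = una g
  wt : s.at .WT = una t
  hm : s.at .HM = una M
  t1 : s.at .T1 = []
  t4 : s.at .T4 = []
  o1 : s.at .O1 = []
  f1 : s.at .F1 = []
  f2 : s.at .F2 = []
  f3 : s.at .F3 = []

theorem relW_spec {g t M : ℕ} (hg : 1 ≤ g) {z : ℕ → ℕ} (hz : ∀ i, z i < 2 ^ t) {s : SW J E}
    (h : RW s g t M) {rest : List (SSym E)}
    (h2 : s.at .XR = bits (cat (M + M) fun i => bitsOf t (z i)) ++ rest) :
    Runs relW s ((s.set .XR rest).set .CR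
      ((bits (bitsOf (g * M) (∑ i ∈ Finset.range M, z i * 2 ^ (g * i)))).reverse ++ s.at .CR))
      (M * (17 * t + 19 * g + 28) + 11 * t + 6) := by
  obtain ⟨uu, wt, hm, t1, t4, o1, f1, f2, f3⟩ := h
  have a1 := r_fill (J := J) (u := .WT) (b := .T4) (t := .F3) (by decide) (by decide)
    (by decide) (sb false) s t wt f3
  rw [t4, List.append_nil] at a1
  have z0 : (List.replicate t (sb false) : List (SSym E)) = bits (bitsOf t (car g z 0)) := by
    show _ = bits (bitsOf t 0)
    rw [bitsOf_zero]; simp [bits]
  rw [z0] at a1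
  -- the coefficients
  have e0 : ∀ (N k : ℕ), k < N → (cat (N - k) fun i => bitsOf t (z (k + i))) =
      bitsOf t (z k) ++ cat (N - (k + 1)) (fun i => bitsOf t (z (k + 1 + i))) := by
    intro N k hk
    rw [show N - k = (N - (k + 1)) + 1 by omega, cat_succ']
    congr 2
    funext i
    rw [show k + (i + 1) = k + 1 + i by ring]
  set F : ℕ → SW J E := fun k => ((s.set .XR (bits (cat (M + M - k) fun i =>
    bitsOf t (z (k + i))) ++ rest)).set .T4 (bits (bitsOf t (car g z k)))).set .CR
      ((bits (cat k fun i => bitsOf g (car g z i + z i))).reverse ++ s.at .CR) with hF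
  have a2 := Ps.r_forr (J := J) (u := .HM) (t := .F1) (by decide) relS M F
    (6 * t + 19 * g + 12) (fun k _ => by simp [F, at_set, hm]) (fun k _ => by simp [F, at_set, f1])
    (fun k hk l l' => by
      have b1 := relS_spec (J := J) (E := E) hg (car_lt hg hz k) (hz k)
        (s := ((F k).set .HM l).set .F1 l')
        (rest := bits (cat (M + M - (k + 1)) fun i => bitsOf t (z (k + 1 + i))) ++ rest)
        (by simp [F, at_set]) (by
          simp only [F, at_set, reduceCtorEq, if_true, if_false]
          rw [e0 (M + M) k (by omega), bits_app', List.append_assoc])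
        (by simp [F, at_set, o1]) (by simp [F, at_set, f2]) (by simp [F, at_set, f3])
        (by simp [F, at_set, uu])
      refine b1.of_eq ?_
      have e1 : (cat (k + 1) fun i => bitsOf g (car g z i + z i)) =
        (cat k fun i => bitsOf g (car g z i + z i)) ++ bitsOf g (car g z k + z k) := cat_succ _ _
      have e2 : car g z (k + 1) = (car g z k + z k) / 2 ^ g := rfl
      refine sw_ext (fun j => by simp [F]) fun r => ?_
      simp only [F, at_set, e1, e2, bits_app', List.reverse_append, List.append_assoc]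
      clear b1 a1
      split_ifs <;> simp_all)
  have hF0 : F 0 = s.set .T4 (bits (bitsOf t (car g z 0))) := by
    refine sw_ext (fun j => by simp [F]) fun r => ?_
    simp only [F, at_set, Nat.sub_zero, Nat.zero_add, cat_zero]
    clear a1 a2
    split_ifs <;> simp_all [bits]
  rw [hF0] at a2
  have a3 := r_clear (J := J) .T4 (F M)
  have k3 : (F M).at .T4 = bits (bitsOf t (car g z M)) := by simp [F, at_set]
  rw [k3, length_bits, length_bitsOf] at a3
  -- the other coefficients
  set G : ℕ → SW J E := fun k => ((F M).set .T4 []).set .XR (bits (cat (M - k) fun i =>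
    bitsOf t (z (M + k + i))) ++ rest) with hG
  have a4 := Ps.r_forr (J := J) (u := .HM) (t := .F1) (by decide) dropB M G (11 * t + 2)
    (fun k _ => by simp [G, F, at_set, hm]) (fun k _ => by simp [G, F, at_set, f1])
    (fun k hk l l' => by
      have b1 := dropB_spec (J := J) (E := E) (t := t)
        (s := ((G k).set .HM l).set .F1 l') (l := bits (bitsOf t (z (M + k))))
        (rest := bits (cat (M - (k + 1)) fun i => bitsOf t (z (M + (k + 1) + i))) ++ rest)
        (by simp) (by
          simp only [G, at_set, reduceCtorEq, if_true, if_false]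
          rw [show M - k = (M - (k + 1)) + 1 by omega, cat_succ', bits_app', List.append_assoc]
          congr 4
          funext i
          rw [show M + k + (i + 1) = M + (k + 1) + i by ring])
        (by simp [G, F, at_set, wt]) (by simp [G, F, at_set, f3]) (by simp [G, F, at_set, t1])
      refine b1.of_eq ?_
      refine sw_ext (fun j => by simp [G, F]) fun r => ?_
      simp only [G, at_set]
      clear b1 a1 a2 a3
      split_ifs <;> simp_all)
  have hG0 : G 0 = (F M).set .T4 [] := by
    refine sw_ext (fun j => by simp [G, F]) fun r => ?_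
    simp only [G, F, at_set, Nat.sub_zero, Nat.add_zero]
    rw [show M + M - M = M by omega]
    clear a1 a2 a3 a4
    split_ifs <;> simp_all
  rw [hG0] at a4
  refine ((a1.seq (a2.seq (a3.seq a4))).mono ?_).of_eq ?_
  · have : M * (17 * t + 19 * g + 28) = M * (6 * t + 19 * g + 12 + 7) + M * (11 * t + 2 + 7) := by
      ring
    omega
  · rw [← (rel_bits g z M).1]
    refine sw_ext (fun j => by simp [G, F]) fun r => ?_
    simp only [G, F, at_set, Nat.sub_self, cat_zero]
    clear a1 a2 a3 a4
    split_ifs <;> simp_all [bits]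

/-! ### Carries: all words -/

/-- All words. -/
def relP : PW J E :=
  (Prog.loop (nonempty (Sum.inr .XR)) relW).seq (Prog.rev (Sum.inr .CR) (Sum.inr .N3))

theorem rel_time (n g M t : ℕ) (hg : 1 ≤ g) (ht : t = 3 * (g + 6)) (w2 : 1 ≤ M) :
    n * (M * (17 * t + 19 * g + 28) + 11 * t + 6 + 2) + 1 + 3 * (n * (g * M)) ≤
      700 * (n * (g * M) + 1) := by
  have w3 : M * (17 * t + 19 * g + 28) + 11 * t + 6 + 2 ≤ 644 * (g * M) := by
    have q1 : 17 * t + 19 * g + 28 ≤ 404 * g := by omega
    have q2 : M * (17 * t + 19 * g + 28) ≤ M * (404 * g) := Nat.mul_le_mul_left _ q1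
    have q3 : 11 * t + 6 + 2 ≤ 239 * g := by omega
    have q4 : g ≤ g * M := Nat.le_mul_of_pos_right _ (by omega)
    have q5 : M * (404 * g) = 404 * (g * M) := by ring
    omega
  have w4 : n * (M * (17 * t + 19 * g + 28) + 11 * t + 6 + 2) ≤ n * (644 * (g * M)) :=
    Nat.mul_le_mul_left _ w3
  have w5 : n * (644 * (g * M)) = 644 * (n * (g * M)) := by ring
  omega

theorem relSpec : RelSpec (relP : PW J E) 700 := by
  intro n g z s hg hz hs hU hT hM hN3 hXR
  set t := 3 * (g + 6) with ht
  set M := 2 ^ (g + 5) with hM'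
  have hRW : RW s g t M := ⟨hU, hT, hM, hs.emp2 _ (by decide), hs.emp2 _ (by decide),
    hs.emp2 _ (by decide), hs.emp2 _ (by decide), hs.emp2 _ (by decide), hs.emp2 _ (by decide)⟩
  have hCR : s.at .CR = [] := hs.emp2 _ (by decide)
  set c : ℕ → List (SSym E) :=
    fun q => bits (bitsOf (g * M) (∑ i ∈ Finset.range M, z q i * 2 ^ (g * i))) with hc
  have a3 := r_blocks (J := J) (a := .XR) (o := .CR) (by decide) (body := relW)
    (fun q => (bits (cat (2 ^ (g + 6)) fun i => bitsOf t (z q i)) : List (SSym E))) c
    (M * (17 * t + 19 * g + 28) + 11 * t + 6) n s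
    (fun k _ h => by
      have := congrArg List.length h
      rw [length_bits, length_cat_of (L := t) (fun i _ => by simp)] at this
      simp only [List.length_nil, Nat.mul_eq_zero] at this
      rcases this with h | h
      · exact absurd h (by positivity)
      · omega)
    (fun k _ l o' => by
      have b1 := relW_spec (J := J) (E := E) hg (z := z k) (hz k)
        (s := (s.set .XR (bits (cat (2 ^ (g + 6)) fun i => bitsOf t (z k i)) ++ l)).set .CR o')
        (M := M) (t := t) (by
          obtain ⟨uu, wt, hm, t1, t4, o1, f1, f2, f3⟩ := hRW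
          constructor <;> simpa [at_set]) (rest := l)
        (by
          rw [at_set_ne _ (by decide), at_set_self]
          have : 2 ^ (g + 6) = M + M := by rw [hM', pow_succ 2 (g + 5)]; ring
          rw [this])
      refine b1.of_eq ?_
      refine sw_ext (fun j => by simp) fun r => ?_
      simp only [at_set, c]
      clear b1
      split_ifs <;> simp_all)
    (by rw [hXR]; exact bits_cat _)
  rw [hCR, List.append_nil] at a3
  set s3 := (s.set .XR []).set .CR (cat n c).reverse with e3
  have a4 := r_rev (J := J) (a := .CR) (b := .N3) (by decide) s3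
  have k4 : s3.at .CR = (cat n c).reverse := by simp [s3]
  have k4' : s3.at .N3 = [] := by simp [s3, at_set, hN3]
  have l4 : (cat n c).length = n * (g * M) := length_cat_of fun i _ => by simp [c]
  rw [k4, k4', List.reverse_reverse, List.append_nil, List.length_reverse, l4] at a4
  have w0 : wS g = g * M := by unfold wS; rw [Nat.mul_comm]
  refine ((a3.seq a4).mono ?_).of_eq ?_
  · rw [w0]
    exact rel_time n g M t hg ht Nat.one_le_two_pow
  · have c1 : (ar (wS g) n fun q => (∑ i ∈ Finset.range M,
        z q i * 2 ^ (g * i)) % 2 ^ wS g : List (SSym E)) = cat n c := by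
      unfold ar
      rw [bits_cat]
      refine cat_congr fun q _ => ?_
      rw [bitsOf_mod, w0]
    have c2 : (s.set .XR []).set .CR [] = s.set .XR [] :=
      set_of_at (by rw [at_set_ne _ (by decide), hCR])
    rw [c1, e3, set_set, c2]

end Vale.Agent.P338.GS.PR
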