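import Vale.Agent.P338.GS.TV

/-!
# P338, stage 5: the transposition of words for the main program
-/

namespace Vale.Agent.P338.GS.T3

open Vale.Agent.P338 Vale.Agent.P338.GS

variable {ι E : Type}

/-- The store `s` with the contents `f` of the stacks of the levels. -/
def wst (s : SW (ι ⊕ V3) E) (f : Store (ι ⊕ V3) (SSym E)) : SW (ι ⊕ V3) E
  | Sum.inl (Sum.inl r) => s (Sum.inl (Sum.inl r))
  | Sum.inl (Sum.inr x) => f x
  | Sum.inr w => s (Sum.inr w)

/-- A stack of level 3. -/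
abbrev q3 (v : V3) : Loc (ι ⊕ V3) ⊕ W := Sum.inl (Sum.inr (Sum.inr v))

variable [DecidableEq ι]

theorem wst_up (s : SW (ι ⊕ V3) E) (h : Store V3 (SSym E)) (v : V3) (l : List (SSym E)) :
    Function.update (wst s (up h)) (q3 v) l = wst s (up (Function.update h v l)) := by
  funext x
  rcases x with (r | x) | w
  · simp [wst]
  · by_cases hx : x = Sum.inr v
    · subst hx; simp [wst, up]
    · rw [Function.update_of_ne (by simpa using hx)]
      rcases x with x | v'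
      · rfl
      · have : v' ≠ v := by rintro rfl; exact hx rfl
        simp [wst, up, this]
  · simp [wst]

theorem wst_set (s : SW (ι ⊕ V3) E) (f : Store (ι ⊕ V3) (SSym E)) (w : W) (l : List (SSym E)) :
    Function.update (wst s f) (Sum.inr w) l = wst (s.set w l) f := by
  funext x
  rcases x with (r | x) | w'
  · simp [wst, SW.set]
  · simp [wst, SW.set]
  · by_cases hx : w' = w
    · subst hx; simp [wst, SW.set]
    · simp [wst, SW.set, hx]

/-- Copy a parameter. -/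
theorem cpq_runs (s : SW (ι ⊕ V3) E) (h : Store V3 (SSym E)) (w : W) (v : V3)
    (hw : w ≠ .Q1) (hs : s.at .Q1 = []) :
    Runs (Prog.copyOnto (Sum.inr w) (q3 v) (Sum.inr .Q1)) (wst s (up h))
      (wst s (up (Function.update h v (s.at w ++ h v)))) (6 * (s.at w).length + 1) := by
  have r := Runs.copyOnto (a := (Sum.inr w : Loc (ι ⊕ V3) ⊕ W)) (b := q3 v) (t := Sum.inr .Q1)
    (by simp) (by simpa using hw) (by simp) (wst s (up h)) hs
  refine r.of_eq ?_
  rw [wst_up]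
  rfl

/-- Levels 0 to 3. -/
theorem lift3_runs {p : Prog (ι ⊕ V3) (SSym E)} {f g : Store (ι ⊕ V3) (SSym E)} {T : ℕ} (hp : Runs p f g T)
    (s : SW (ι ⊕ V3) E) :
    Runs (p.map fun x => (Sum.inl (Sum.inr x) : Loc (ι ⊕ V3) ⊕ W)) (wst s f) (wst s g) T :=
  hp.map (fun a b h => by simpa using h) (fun _ => rfl) (fun _ => rfl) (by
    intro k hk
    rcases k with (r | x) | w
    · rfl
    · exact absurd ⟨x, rfl⟩ hk
    · rfl)

/-- Load the data. -/
theorem ldq_runs (s : SW (ι ⊕ V3) E) (h : Store V3 (SSym E)) (hs : s.at .Q1 = [])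
    (hd : h .dr = []) :
    Runs ((Prog.rev (Sum.inr .XR) (Sum.inr .Q1)).seq (Prog.rev (Sum.inr .Q1) (q3 .dr)))
      (wst s (up h)) (wst (s.set .XR []) (up (Function.update h .dr (s.at .XR))))
      (6 * (s.at .XR).length + 1) := by
  have r1 := Runs.rev (i := (Sum.inr .XR : Loc (ι ⊕ V3) ⊕ W)) (j := Sum.inr .Q1) (by simp)
    (wst s (up h))
  have r2 := Runs.rev (i := (Sum.inr .Q1 : Loc (ι ⊕ V3) ⊕ W)) (j := q3 .dr) (by simp)
    (wst ((s.set .XR []).set .Q1 ((s.at .XR).reverse)) (up h))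
  have e1 : Function.update (Function.update (wst s (up h)) (Sum.inr .XR : Loc (ι ⊕ V3) ⊕ W) [])
      (Sum.inr .Q1) ((wst s (up h) (Sum.inr .XR)).reverse ++ wst s (up h) (Sum.inr .Q1)) =
      wst ((s.set .XR []).set .Q1 ((s.at .XR).reverse)) (up h) := by
    rw [wst_set, wst_set]
    have : wst s (up h) (Sum.inr .Q1 : Loc (ι ⊕ V3) ⊕ W) = [] := hs
    rw [this, List.append_nil]
    rfl
  rw [e1] at r1
  have q1 : wst ((s.set .XR []).set .Q1 ((s.at .XR).reverse)) (up h)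
      (Sum.inr .Q1 : Loc (ι ⊕ V3) ⊕ W) = (s.at .XR).reverse := by
    show ((s.set .XR []).set .Q1 ((s.at .XR).reverse)).at .Q1 = _
    rw [at_set_self]
  have q2 : wst ((s.set .XR []).set .Q1 ((s.at .XR).reverse)) (up h)
      (q3 .dr : Loc (ι ⊕ V3) ⊕ W) = [] := hd
  have q4 : (s.set .XR []).set .Q1 [] = s.set .XR [] :=
    set_of_at (by rw [at_set_ne _ (by decide)]; exact hs)
  rw [q1, q2, List.append_nil, List.reverse_reverse, wst_set, wst_up, set_set, q4] at r2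
  refine (r1.seq r2).mono ?_
  have q3' : (wst s (up h) (Sum.inr .XR : Loc (ι ⊕ V3) ⊕ W)).length = (s.at .XR).length := rfl
  rw [q3', List.length_reverse]
  omega

/-- Unload the data. -/
theorem unq_runs (s : SW (ι ⊕ V3) E) (h : Store V3 (SSym E)) (hs : s.at .Q1 = [])
    (hd : s.at .XR = []) :
    Runs ((Prog.rev (q3 .dr) (Sum.inr .Q1)).seq (Prog.rev (Sum.inr .Q1) (Sum.inr .XR)))
      (wst s (up h)) (wst (s.set .XR (h .dr)) (up (Function.update h .dr [])))
      (6 * (h .dr).length + 1) := by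
  have r1 := Runs.rev (i := (q3 .dr : Loc (ι ⊕ V3) ⊕ W)) (j := Sum.inr .Q1) (by simp)
    (wst s (up h))
  have e1 : Function.update (Function.update (wst s (up h)) (q3 .dr : Loc (ι ⊕ V3) ⊕ W) [])
      (Sum.inr .Q1) ((wst s (up h) (q3 .dr)).reverse ++ wst s (up h) (Sum.inr .Q1)) =
      wst (s.set .Q1 ((h .dr).reverse)) (up (Function.update h .dr [])) := by
    rw [wst_up, wst_set]
    have : wst s (up h) (Sum.inr .Q1 : Loc (ι ⊕ V3) ⊕ W) = [] := hs
    rw [this, List.append_nil]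
    rfl
  rw [e1] at r1
  have r2 := Runs.rev (i := (Sum.inr .Q1 : Loc (ι ⊕ V3) ⊕ W)) (j := Sum.inr .XR) (by simp)
    (wst (s.set .Q1 ((h .dr).reverse)) (up (Function.update h .dr [])))
  have q1 : wst (s.set .Q1 ((h .dr).reverse)) (up (Function.update h .dr []))
      (Sum.inr .Q1 : Loc (ι ⊕ V3) ⊕ W) = (h .dr).reverse := by
    show (s.set .Q1 ((h .dr).reverse)).at .Q1 = _
    rw [at_set_self]
  have q2 : wst (s.set .Q1 ((h .dr).reverse)) (up (Function.update h .dr []))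
      (Sum.inr .XR : Loc (ι ⊕ V3) ⊕ W) = [] := by
    show (s.set .Q1 ((h .dr).reverse)).at .XR = _
    rw [at_set_ne _ (by decide)]; exact hd
  rw [q1, q2, List.append_nil, List.reverse_reverse, wst_set, wst_set, set_set,
    set_of_at hs] at r2
  refine (r1.seq r2).mono ?_
  have q3' : (wst s (up h) (q3 .dr : Loc (ι ⊕ V3) ⊕ W)).length = (h .dr).length := rfl
  rw [q3', List.length_reverse]
  omega

/-- Load. -/
def ldq : PW (ι ⊕ V3) E :=
  (Prog.copyOnto (Sum.inr .HX) (q3 .hx) (Sum.inr .Q1)).seq <|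
  (Prog.copyOnto (Sum.inr .UU) (q3 .hu) (Sum.inr .Q1)).seq <|
  (Prog.copyOnto (Sum.inr .VV) (q3 .hv) (Sum.inr .Q1)).seq <|
  (Prog.copyOnto (Sum.inr .HZ) (q3 .hz) (Sum.inr .Q1)).seq <|
  (Prog.copyOnto (Sum.inr .WT) (q3 .ht) (Sum.inr .Q1)).seq <|
  (Prog.copyOnto (Sum.inr .N9) (q3 .g) (Sum.inr .Q1)).seq <|
  (Prog.copyOnto (Sum.inr .LL) (q3 .l) (Sum.inr .Q1)).seq <|
  (Prog.copyOnto (Sum.inr .MM) (q3 .m) (Sum.inr .Q1)).seq <|
  (Prog.rev (Sum.inr .XR) (Sum.inr .Q1)).seq (Prog.rev (Sum.inr .Q1) (q3 .dr))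

/-- Unload. -/
def unq : PW (ι ⊕ V3) E := (Prog.rev (q3 .dr) (Sum.inr .Q1)).seq
  (Prog.rev (Sum.inr .Q1) (Sum.inr .XR))

theorem ldq_spec (s : SW (ι ⊕ V3) E) (hs : s.at .Q1 = []) :
    Runs ldq (wst s (up ({} : TV E).st)) (wst (s.set .XR []) (up ({
      dr := s.at .XR
      hx := s.at .HX
      hu := s.at .UU
      hv := s.at .VV
      hz := s.at .HZ
      ht := s.at .WT
      g := s.at .N9
      l := s.at .LL
      m := s.at .MM } : TV E).st))
      (6 * (s.at .HX).length + 6 * (s.at .UU).length + 6 * (s.at .VV).length +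
        6 * (s.at .HZ).length + 6 * (s.at .WT).length + 6 * (s.at .N9).length +
        6 * (s.at .LL).length + 6 * (s.at .MM).length + 6 * (s.at .XR).length + 30) := by
  have a1 := cpq_runs s ({} : TV E).st .HX .hx (by decide) hs
  rw [TV.up_hx, TV.at_hx, List.append_nil] at a1
  have a2 := cpq_runs s ({ hx := s.at .HX } : TV E).st .UU .hu (by decide) hs
  rw [TV.up_hu, TV.at_hu, List.append_nil] at a2
  have a3 := cpq_runs s ({ hx := s.at .HX, hu := s.at .UU } : TV E).st .VV .hv (by decide) hs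
  rw [TV.up_hv, TV.at_hv, List.append_nil] at a3
  have a4 := cpq_runs s ({ hx := s.at .HX, hu := s.at .UU, hv := s.at .VV } : TV E).st
    .HZ .hz (by decide) hs
  rw [TV.up_hz, TV.at_hz, List.append_nil] at a4
  have a5 := cpq_runs s ({ hx := s.at .HX, hu := s.at .UU, hv := s.at .VV
                           hz := s.at .HZ } : TV E).st .WT .ht (by decide) hs
  rw [TV.up_ht, TV.at_ht, List.append_nil] at a5
  have a6 := cpq_runs s ({ hx := s.at .HX, hu := s.at .UU, hv := s.at .VV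
                           hz := s.at .HZ, ht := s.at .WT } : TV E).st .N9 .g (by decide) hs
  rw [TV.up_g, TV.at_g, List.append_nil] at a6
  have a7 := cpq_runs s ({ hx := s.at .HX, hu := s.at .UU, hv := s.at .VV
                           hz := s.at .HZ, ht := s.at .WT, g := s.at .N9 } : TV E).st
    .LL .l (by decide) hs
  rw [TV.up_l, TV.at_l, List.append_nil] at a7
  have a8 := cpq_runs s ({ hx := s.at .HX, hu := s.at .UU, hv := s.at .VV
                           hz := s.at .HZ, ht := s.at .WT, g := s.at .N9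
                           l := s.at .LL } : TV E).st .MM .m (by decide) hs
  rw [TV.up_m, TV.at_m, List.append_nil] at a8
  have a9 := ldq_runs s ({ hx := s.at .HX, hu := s.at .UU, hv := s.at .VV
                           hz := s.at .HZ, ht := s.at .WT, g := s.at .N9
                           l := s.at .LL, m := s.at .MM } : TV E).st hs rfl
  rw [TV.up_dr] at a9
  exact (a1.seq (a2.seq (a3.seq (a4.seq (a5.seq (a6.seq (a7.seq (a8.seq a9)))))))).mono
    (by omega)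

omit [DecidableEq ι] in
theorem wst_nil (s : SW (ι ⊕ V3) E) (h : ∀ j, s (Sum.inl j) = []) :
    wst s (up ({} : TV E).st) = s := by
  funext x
  rcases x with (r | x) | w
  · rfl
  · have : s (Sum.inl (Sum.inr x)) = [] := h _
    rw [this]
    rcases x with x | v
    · rfl
    · show ({} : TV E).st v = []
      cases v <;> rfl
  · rfl

/-- Numbers. -/
theorem time_le {X u v Z g m D C : ℕ} {Tb Tt : ℕ → ℕ} (hT : ∀ k, 1 ≤ k → Tt k ≤ D * k ^ 2)
    (hg : 1 ≤ g) (h1 : wL g ≤ X * Z * 2 ^ u)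
    (h2 : wL g ≤ X * Z * 2 ^ (v / 2)) (h3 : wL g ≤ X * Z * 2 ^ ((u + v) / 4)) :
    C * (m + Tb m + X * 2 ^ u * 2 ^ v * Z * wS g * g +
        (2 ^ u + 2 ^ v + 2 ^ (u + v - v / 2) + 2 ^ (u + v - (u + v) / 4) + wL g ^ 2) *
          (wS g + Tt (wS g))) ≤
      C * (64 + 4 * (64 + 4096 * D)) *
        (m + Tb m + X * 2 ^ u * 2 ^ v * Z * wL g * g + wL g ^ 4) := by
  have hl : 1 ≤ wL g := Nat.mul_pos (by positivity) hg
  have hS : wS g = 64 * wL g := wS_eq hg
  set P := X * 2 ^ u * 2 ^ v * Z * wL g * g with hP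
  have e0 : wS g + Tt (wS g) ≤ (64 + 4096 * D) * wL g ^ 2 := by
    have := hT (wS g) (by omega)
    have e1 : D * wS g ^ 2 = 4096 * D * wL g ^ 2 := by rw [hS]; ring
    have e2 : wL g ≤ wL g ^ 2 := Nat.le_self_pow (by norm_num) _
    have e3 : (64 + 4096 * D) * wL g ^ 2 = 64 * wL g ^ 2 + 4096 * D * wL g ^ 2 := by ring
    rw [e3]
    omega
  have f0 : ∀ a b, a * b = 2 ^ u * 2 ^ v → wL g ≤ X * Z * b → a * wL g ^ 2 ≤ P := by
    intro a b hab hb
    calc a * wL g ^ 2 = a * wL g * wL g := by ring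
      _ ≤ a * (X * Z * b) * wL g := Nat.mul_le_mul_right _ (Nat.mul_le_mul_left _ hb)
      _ = X * Z * (a * b) * wL g * 1 := by ring
      _ ≤ X * Z * (a * b) * wL g * g := Nat.mul_le_mul_left _ hg
      _ = P := by rw [hab, hP]; ring
  have hv : 2 ^ (v / 2) ≤ 2 ^ v := Nat.pow_le_pow_right (by norm_num) (by omega)
  have f1 : 2 ^ u * wL g ^ 2 ≤ P :=
    f0 _ (2 ^ v) rfl (le_trans h2 (Nat.mul_le_mul_left _ hv))
  have f2 : 2 ^ v * wL g ^ 2 ≤ P := f0 _ (2 ^ u) (Nat.mul_comm _ _) h1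
  have f3 : 2 ^ (u + v - v / 2) * wL g ^ 2 ≤ P :=
    f0 _ (2 ^ (v / 2)) (by rw [← pow_add, ← pow_add]; congr 1; omega) h2
  have f4 : 2 ^ (u + v - (u + v) / 4) * wL g ^ 2 ≤ P :=
    f0 _ (2 ^ ((u + v) / 4)) (by rw [← pow_add, ← pow_add]; congr 1; omega) h3
  have g1 : (2 ^ u + 2 ^ v + 2 ^ (u + v - v / 2) + 2 ^ (u + v - (u + v) / 4) + wL g ^ 2) *
      (wS g + Tt (wS g)) ≤ (64 + 4096 * D) * (4 * P + wL g ^ 4) := by
    calc _ ≤ (2 ^ u + 2 ^ v + 2 ^ (u + v - v / 2) + 2 ^ (u + v - (u + v) / 4) + wL g ^ 2) *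
          ((64 + 4096 * D) * wL g ^ 2) := Nat.mul_le_mul_left _ e0
      _ = (64 + 4096 * D) * (2 ^ u * wL g ^ 2 + 2 ^ v * wL g ^ 2 +
          2 ^ (u + v - v / 2) * wL g ^ 2 + 2 ^ (u + v - (u + v) / 4) * wL g ^ 2 +
            wL g ^ 4) := by ring
      _ ≤ (64 + 4096 * D) * (4 * P + wL g ^ 4) := by
          refine Nat.mul_le_mul_left _ ?_
          generalize 2 ^ u * wL g ^ 2 = A1 at *
          generalize 2 ^ v * wL g ^ 2 = A2 at *
          generalize 2 ^ (u + v - v / 2) * wL g ^ 2 = A3 at *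
          generalize 2 ^ (u + v - (u + v) / 4) * wL g ^ 2 = A4 at *
          omega
  have g2 : X * 2 ^ u * 2 ^ v * Z * wS g * g = 64 * P := by rw [hS, hP]; ring
  rw [g2, Nat.mul_assoc]
  refine Nat.mul_le_mul_left _ ?_
  have e5 : (64 + 4 * (64 + 4096 * D)) * (m + Tb m + P + wL g ^ 4) =
    64 * (m + Tb m) + 64 * P + 64 * wL g ^ 4 + (64 + 4096 * D) * (4 * P + wL g ^ 4) +
      (64 + 4096 * D) * (4 * (m + Tb m) + 3 * wL g ^ 4) := by ring
  rw [e5]
  generalize (64 + 4096 * D) * (4 * P + wL g ^ 4) = A at *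
  generalize (64 + 4096 * D) * (4 * (m + Tb m) + 3 * wL g ^ 4) = B at *
  omega

/-- A program of the levels as a program for the main program. -/
noncomputable def perm2P (p : Prog (ι ⊕ V3) (SSym E)) : PW (ι ⊕ V3) E :=
  ldq.seq ((p.map fun x => (Sum.inl (Sum.inr x) : Loc (ι ⊕ V3) ⊕ W)).seq unq)

/-- `Perm3Spec`, for any type of lower stacks. -/
def Perm3G (p : Prog (ι ⊕ V3) (SSym E)) (Tb Tt : ℕ → ℕ) (C : ℕ) : Prop :=
  ∀ (X u v Z t g m : ℕ) (e : ℕ → ℕ → ℕ → ℕ → ℕ), 1 ≤ X → 6 ≤ u → 6 ≤ v → 1 ≤ Z → 1 ≤ t →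
    1 ≤ g → u + v ≤ wL g → t ≤ wL g → 8064 * (X * 2 ^ u * 2 ^ v * Z * wS g) ≤ m →
    (∀ x i j z, e x i j z < 2 ^ t) →
    Runs p (up (asg [(V3.dr, bits (arr4 X (2 ^ u) (2 ^ v) Z t e)), (V3.hx, una X),
        (V3.hu, una u), (V3.hv, una v), (V3.hz, una Z), (V3.ht, una t), (V3.g, una g),
        (V3.l, una (wL g)), (V3.m, una m)]))
      (up (asg [(V3.dr, bits (arr4 X (2 ^ v) (2 ^ u) Z t fun x j i z => e x i j z))]))
      (C * (m + Tb m + X * 2 ^ u * 2 ^ v * Z * wS g * g +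
        (2 ^ u + 2 ^ v + 2 ^ (u + v - v / 2) + 2 ^ (u + v - (u + v) / 4) + wL g ^ 2) *
          (wS g + Tt (wS g))))

theorem perm2_of {p : Prog (ι ⊕ V3) (SSym E)} {Tb Tt : ℕ → ℕ} {C D : ℕ}
    (h : Perm3G p Tb Tt C) (hT : ∀ k, 1 ≤ k → Tt k ≤ D * k ^ 2) :
    PermSpec2 (perm2P p) Tb (C * (64 + 4 * (64 + 4096 * D)) + 1000) := by
  intro X u v Z t g m e s nX nu nv nZ nt ng huv htl c1 c2 c3 hm hc hw hHX hUU hVV hHZ hWT hLL
    hN9 hMM he hXR
  have hS : wS g = 64 * wL g := wS_eq ng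
  have hQ1 : s.at .Q1 = [] := hw _ (by decide)
  have hm' : 8064 * (X * 2 ^ u * 2 ^ v * Z * wS g) ≤ m := by
    rw [hS]
    calc 8064 * (X * 2 ^ u * 2 ^ v * Z * (64 * wL g)) =
          516096 * (X * 2 ^ u * 2 ^ v * Z * wL g) := by ring
      _ ≤ 600000 * (X * 2 ^ u * 2 ^ v * Z * wL g) := Nat.mul_le_mul_right _ (by norm_num)
      _ ≤ m := hm
  have a1 := ldq_spec s hQ1
  rw [wst_nil s hc.idle] at a1
  have a2 := h X u v Z t g m e nX nu nv nZ nt ng huv htl hm' he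
  have e0 : (asg [(V3.dr, bits (arr4 X (2 ^ u) (2 ^ v) Z t e)), (V3.hx, una X),
      (V3.hu, una u), (V3.hv, una v), (V3.hz, una Z), (V3.ht, una t), (V3.g, una g),
      (V3.l, una (wL g)), (V3.m, una m)] : Store V3 (SSym E)) =
      ({ dr := s.at .XR, hx := s.at .HX, hu := s.at .UU, hv := s.at .VV, hz := s.at .HZ
         ht := s.at .WT, g := s.at .N9, l := s.at .LL, m := s.at .MM } : TV E).st := by
    rw [hXR, hHX, hUU, hVV, hHZ, hWT, hN9, hLL, hMM]
    funext q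
    cases q <;> simp [asg, TV.st]
  have e1 : (asg [(V3.dr, bits (arr4 X (2 ^ v) (2 ^ u) Z t fun x j i z => e x i j z))] :
      Store V3 (SSym E)) =
      ({ dr := bits (arr4 X (2 ^ v) (2 ^ u) Z t fun x j i z => e x i j z) } : TV E).st := by
    funext q
    cases q <;> simp [asg, TV.st]
  rw [e0, e1] at a2
  have a3 := lift3_runs a2 (s.set .XR [])
  have a4 := unq_runs (s.set .XR [])
    ({ dr := bits (arr4 X (2 ^ v) (2 ^ u) Z t fun x j i z => e x i j z) } : TV E).st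
    (by rw [at_set_ne _ (by decide)]; exact hQ1) (at_set_self _ _ _)
  rw [TV.up_dr, set_set, TV.at_dr, wst_nil _ (fun j => by rw [set_inl]; exact hc.idle j)] at a4
  refine (a1.seq (a3.seq a4)).mono ?_
  have l4 : ∀ M N (e : ℕ → ℕ → ℕ → ℕ → ℕ), (bits (arr4 X M N Z t e) : List (SSym E)).length =
      X * M * N * Z * t := by
    intro M N e
    unfold bits arr4
    rw [List.length_map, length_cat_of (L := M * (N * (Z * t))) fun x _ => length_cat_of
      fun i _ => length_cat_of fun j _ => length_cat_of fun z _ => by simp]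
    ring
  rw [hXR, hHX, hUU, hVV, hHZ, hWT, hN9, hLL, hMM, l4, l4]
  simp only [len_una0]
  have b1 := time_le (m := m) (C := C) (Tb := Tb) hT ng c1 c2 c3
  have b2 : X * 2 ^ v * 2 ^ u * Z * t = X * 2 ^ u * 2 ^ v * Z * t := by ring
  have b3 : X * 2 ^ u * 2 ^ v * Z * t ≤ X * 2 ^ u * 2 ^ v * Z * wL g :=
    Nat.mul_le_mul_left _ htl
  have hpos : 1 ≤ X * 2 ^ u * 2 ^ v * Z := Nat.mul_pos (Nat.mul_pos
    (Nat.mul_pos nX (by positivity)) (by positivity)) nZ
  have b4 : wL g ≤ X * 2 ^ u * 2 ^ v * Z * wL g := Nat.le_mul_of_pos_left _ hpos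
  have b5 : X * 2 ^ u * 2 ^ v * Z ≤ X * 2 ^ u * 2 ^ v * Z * wL g :=
    Nat.le_mul_of_pos_right _ (by omega)
  have b6 : X ≤ X * 2 ^ u * 2 ^ v * Z := by
    calc X = X * 1 * 1 * 1 := by ring
      _ ≤ X * 2 ^ u * 2 ^ v * Z := Nat.mul_le_mul (Nat.mul_le_mul (Nat.mul_le_mul_left _
        Nat.one_le_two_pow) Nat.one_le_two_pow) nZ
  have b7 : Z ≤ X * 2 ^ u * 2 ^ v * Z := Nat.le_mul_of_pos_left _ (Nat.mul_pos
    (Nat.mul_pos nX (by positivity)) (by positivity))
  have b8 : g ≤ wL g := by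
    unfold wL
    exact Nat.le_mul_of_pos_left _ (by positivity)
  rw [b2]
  set Q := m + Tb m + X * 2 ^ u * 2 ^ v * Z * wL g * g + wL g ^ 4 with hQ
  have b9 : m ≤ Q := by omega
  have e9 : (C * (64 + 4 * (64 + 4096 * D)) + 1000) * Q =
    C * (64 + 4 * (64 + 4096 * D)) * Q + 1000 * Q := by ring
  rw [e9]
  clear_value Q
  generalize C * (64 + 4 * (64 + 4096 * D)) * Q = G at *
  generalize C * (m + Tb m + X * 2 ^ u * 2 ^ v * Z * wS g * g +
        (2 ^ u + 2 ^ v + 2 ^ (u + v - v / 2) + 2 ^ (u + v - (u + v) / 4) + wL g ^ 2) *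
          (wS g + Tt (wS g))) = G' at *
  generalize X * 2 ^ u * 2 ^ v * Z * t = P1 at *
  generalize X * 2 ^ u * 2 ^ v * Z * wL g = P2 at *
  generalize X * 2 ^ u * 2 ^ v * Z = P3 at *
  clear hT h he
  omega

end Vale.Agent.P338.GS.T3
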