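import Vale.Agent.P338.GS.Pass
import Vale.Agent.P338.GS.Iface2

/-!
# P338, stage 5: pointwise products of two arrays of complex numbers
-/

namespace Vale.Agent.P338.GS.Pwp

open Vale.Agent.P338 Vale.Agent.P338.GS Vale.Agent.P338.GS.IO Vale.Agent.P338.GS.Ps

variable {J E : Type} [DecidableEq J]

/-- The stores of the loop. -/
structure Pv (s : SW J E) (S B : ℕ) : Prop extends Cln0 s where
  ws : s.at .WS = una S
  wb : s.at .WB = una B
  cr : s.at .CR = []
  ci : s.at .CI = []
  er : s.at .ER = []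
  ei : s.at .EI = []
  t1 : s.at .T1 = []
  f4 : s.at .F4 = []

theorem Pv.set {s : SW J E} {S B : ℕ} (h : Pv s S B) {r : W} (hr : r ∉ asc)
    (hr' : r ∉ [W.WS, .WB, .CR, .CI, .ER, .EI, .T1, .F4]) (l : List (SSym E)) :
    Pv (s.set r l) S B := by
  simp only [List.mem_cons, List.not_mem_nil, or_false, not_or] at hr'
  obtain ⟨a1, a2, a3, a4, a5, a6, a7, a8⟩ := hr'
  exact ⟨h.toCln0.set hr l, by rw [at_set_ne _ (Ne.symm a1)]; exact h.ws,
    by rw [at_set_ne _ (Ne.symm a2)]; exact h.wb, by rw [at_set_ne _ (Ne.symm a3)]; exact h.cr,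
    by rw [at_set_ne _ (Ne.symm a4)]; exact h.ci, by rw [at_set_ne _ (Ne.symm a5)]; exact h.er,
    by rw [at_set_ne _ (Ne.symm a6)]; exact h.ei, by rw [at_set_ne _ (Ne.symm a7)]; exact h.t1,
    by rw [at_set_ne _ (Ne.symm a8)]; exact h.f4⟩

variable (cm : W → W → W → W → PW J E)

/-- One product. -/
def elP : PW J E :=
  (tk .XR .ER).seq <| (tk .XI .EI).seq <| (tk .N4 .CR).seq <| (tk .N5 .CI).seq <|
  (cm .ER .EI .CR .CI).seq <|
  (Prog.rev (Sum.inr .ER) (Sum.inr .O1)).seq <| (Prog.rev (Sum.inr .EI) (Sum.inr .O2)).seq <|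
  (Prog.clear (Sum.inr .CR)).seq (Prog.clear (Sum.inr .CI))

/-- The store after one product. -/
def nx (s : SW J E) (r1 r2 r3 r4 o1 o2 : List (SSym E)) : SW J E :=
  (((((s.set .XR r1).set .XI r2).set .N4 r3).set .N5 r4).set .O1 o1).set .O2 o2

variable {cm} {T : ℕ → ℕ} {C : ℕ}

theorem elP_spec (hcm : CmSpec cm T C) {S B : ℕ} (hB : 1 ≤ B) (hS : B < S) {x y : ℕ × ℕ}
    (hx : x.1 < 2 ^ S ∧ x.2 < 2 ^ S) (hy : y.1 < 2 ^ S ∧ y.2 < 2 ^ S) {s : SW J E}
    (h : Pv s S B) {r1 r2 r3 r4 : List (SSym E)} (h1 : s.at .XR = bits (bitsOf S x.1) ++ r1)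
    (h2 : s.at .XI = bits (bitsOf S x.2) ++ r2) (h3 : s.at .N4 = bits (bitsOf S y.1) ++ r3)
    (h4 : s.at .N5 = bits (bitsOf S y.2) ++ r4) :
    Runs (elP cm) s (nx s r1 r2 r3 r4 ((bits (bitsOf S (cmR S B x y).1)).reverse ++ s.at .O1)
      ((bits (bitsOf S (cmR S B x y).2)).reverse ++ s.at .O2)) ((C + 80) * (S + T S)) := by
  have a1 := tk_spec (J := J) (E := E) (x := .XR) (e := .ER) (by decide) (by decide) (by decide)
    (s := s) (S := S) (v := x.1) (rest := r1) h.ws h.f4 h.t1 h.er h1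
  set s1 := (s.set .XR r1).set .ER (wd S x.1) with e1
  have c1 : Cln0 s1 := (h.toCln0.set (by decide) _).set (by decide) _
  have a2 := tk_spec (J := J) (E := E) (x := .XI) (e := .EI) (by decide) (by decide) (by decide)
    (s := s1) (S := S) (v := x.2) (rest := r2) (by simp [s1, at_set, h.ws])
    (by simp [s1, at_set, h.f4]) (by simp [s1, at_set, h.t1])
    (by simp [s1, at_set, h.ei]) (by simp [s1, at_set, h2])
  set s2 := (s1.set .XI r2).set .EI (wd S x.2) with e2
  have c2 : Cln0 s2 := (c1.set (by decide) _).set (by decide) _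
  have a3 := tk_spec (J := J) (E := E) (x := .N4) (e := .CR) (by decide) (by decide) (by decide)
    (s := s2) (S := S) (v := y.1) (rest := r3) (by simp [s2, s1, at_set, h.ws])
    (by simp [s2, s1, at_set, h.f4]) (by simp [s2, s1, at_set, h.t1])
    (by simp [s2, s1, at_set, h.cr]) (by simp [s2, s1, at_set, h3])
  set s3 := (s2.set .N4 r3).set .CR (wd S y.1) with e3
  have c3 : Cln0 s3 := (c2.set (by decide) _).set (by decide) _
  have a4 := tk_spec (J := J) (E := E) (x := .N5) (e := .CI) (by decide) (by decide) (by decide)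
    (s := s3) (S := S) (v := y.2) (rest := r4) (by simp [s3, s2, s1, at_set, h.ws])
    (by simp [s3, s2, s1, at_set, h.f4]) (by simp [s3, s2, s1, at_set, h.t1])
    (by simp [s3, s2, s1, at_set, h.ci]) (by simp [s3, s2, s1, at_set, h4])
  set s4 := (s3.set .N5 r4).set .CI (wd S y.2) with e4
  have c4 : Cln0 s4 := (c3.set (by decide) _).set (by decide) _
  have a5 := hcm S B x y .ER .EI .CR .CI s4 hB hS c4 (by decide) (by decide) hx.1 hx.2 hy.1 hy.2
    (by simp [s4, s3, s2, s1, at_set, h.ws]) (by simp [s4, s3, s2, s1, at_set, h.wb])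
    (by simp [s4, s3, s2, s1, at_set]) (by simp [s4, s3, s2, at_set])
    (by simp [s4, s3, at_set]) (by simp [s4])
  set s5 := (s4.set .ER (wd S (cmR S B x y).1)).set .EI (wd S (cmR S B x y).2) with e5
  have a6 := r_rev (J := J) (a := .ER) (b := .O1) (by decide) s5
  have b6 : s5.at .ER = wd S (cmR S B x y).1 := by simp [s5, at_set]
  have b6' : s5.at .O1 = s.at .O1 := by simp [s5, s4, s3, s2, s1, at_set]
  have w6 : ∀ v, (wd S v : List (SSym E)).length = S := by simp [wd]
  rw [b6, b6', w6] at a6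
  set s6 := (s5.set .ER []).set .O1 ((wd S (cmR S B x y).1).reverse ++ s.at .O1) with e6
  have a7 := r_rev (J := J) (a := .EI) (b := .O2) (by decide) s6
  have b7 : s6.at .EI = wd S (cmR S B x y).2 := by simp [s6, s5, at_set]
  have b7' : s6.at .O2 = s.at .O2 := by simp [s6, s5, s4, s3, s2, s1, at_set]
  rw [b7, b7', w6] at a7
  set s7 := (s6.set .EI []).set .O2 ((wd S (cmR S B x y).2).reverse ++ s.at .O2) with e7
  have a8 := r_clear (J := J) .CR s7
  have b8 : s7.at .CR = wd S y.1 := by simp [s7, s6, s5, s4, s3, at_set]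
  rw [b8, w6] at a8
  set s8 := s7.set .CR [] with e8
  have a9 := r_clear (J := J) .CI s8
  have b9 : s8.at .CI = wd S y.2 := by simp [s8, s7, s6, s5, s4, at_set]
  rw [b9, w6] at a9
  have l1 : (bits (bitsOf S (cmR S B x y).1) : List (SSym E)) = wd S (cmR S B x y).1 := rfl
  have l2 : (bits (bitsOf S (cmR S B x y).2) : List (SSym E)) = wd S (cmR S B x y).2 := rfl
  rw [l1, l2]
  refine ((a1.seq (a2.seq (a3.seq (a4.seq (a5.seq (a6.seq (a7.seq (a8.seq a9)))))))).mono
    ?_).of_eq ?_
  · have e9 : (C + 80) * (S + T S) = C * (S + T S) + 80 * S + 80 * T S := by ring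
    rw [e9]
    omega
  · have q1 := h.er
    have q2 := h.ei
    have q3 := h.cr
    have q4 := h.ci
    clear a1 a2 a3 a4 a5 a6 a7 a8 a9 c1 c2 c3 c4 b6 b6' b7 b7' b8 b9 w6 l1 l2 h1 h2 h3 h4 hx hy hcm
    simp only [s8, s7, s6, s5, s4, s3, s2, s1, nx]
    clear e8 s8 e7 s7 e6 s6 e5 s5 e4 s4 e3 s3 e2 s2 e1 s1
    generalize wd S (cmR S B x y).1 = u1
    generalize wd S (cmR S B x y).2 = u2
    generalize wd S x.1 = u3
    generalize wd S x.2 = u4
    generalize wd S y.1 = u5
    generalize wd S y.2 = u6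
    refine sw_ext (fun j => by simp) fun r => ?_
    cases r <;> simp only [at_set, reduceCtorEq, if_true, if_false] <;>
      first | rfl | exact q1.symm | exact q2.symm | exact q3.symm | exact q4.symm

variable (cm) in
/-- All products. -/
def lpP : PW J E := Prog.loop (nonempty (Sum.inr .XR)) (elP cm)

theorem ar_succ (S n : ℕ) (x : ℕ → ℕ) : (ar S (n + 1) x : List (SSym E)) =
    bits (bitsOf S (x 0)) ++ ar S n fun q => x (q + 1) := by
  unfold ar
  rw [cat_succ', bits_app]

theorem lpP_spec (hcm : CmSpec cm T C) {S B : ℕ} (hB : 1 ≤ B) (hS : B < S) (n : ℕ) :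
    ∀ (x y : ℕ → ℕ × ℕ), (∀ q, (x q).1 < 2 ^ S ∧ (x q).2 < 2 ^ S) →
    (∀ q, (y q).1 < 2 ^ S ∧ (y q).2 < 2 ^ S) → ∀ s : SW J E, Pv s S B →
    s.at .XR = ar S n (fun q => (x q).1) → s.at .XI = ar S n (fun q => (x q).2) →
    s.at .N4 = ar S n (fun q => (y q).1) → s.at .N5 = ar S n (fun q => (y q).2) →
    Runs (lpP cm) s (nx s [] [] [] []
      ((ar S n fun q => (cmR S B (x q) (y q)).1).reverse ++ s.at .O1)
      ((ar S n fun q => (cmR S B (x q) (y q)).2).reverse ++ s.at .O2))
      (n * ((C + 90) * (S + T S))) := by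
  induction n with
  | zero =>
    intro x y _ _ s _ h1 h2 h3 h4
    have e0 : ∀ f : ℕ → ℕ, (ar S 0 f : List (SSym E)) = [] := fun _ => rfl
    rw [e0] at h1 h2 h3 h4
    refine ((Runs.loopF (by
      have : s (Sum.inr .XR) = [] := h1
      simp [this])).of_eq ?_).mono (by omega)
    refine sw_ext (fun j => by simp [nx]) fun r => ?_
    simp only [nx, at_set, e0]
    split_ifs <;> simp_all
  | succ n ih =>
    intro x y hx hy s h h1 h2 h3 h4
    rw [ar_succ] at h1 h2 h3 h4
    have a1 := elP_spec hcm hB hS (hx 0) (hy 0) h h1 h2 h3 h4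
    set s1 := nx s (ar S n fun q => (x (q + 1)).1) (ar S n fun q => (x (q + 1)).2)
      (ar S n fun q => (y (q + 1)).1) (ar S n fun q => (y (q + 1)).2)
      ((bits (bitsOf S (cmR S B (x 0) (y 0)).1)).reverse ++ s.at .O1)
      ((bits (bitsOf S (cmR S B (x 0) (y 0)).2)).reverse ++ s.at .O2) with e1
    have h' : Pv s1 S B := (((((h.set (by decide) (by decide) _).set (by decide)
      (by decide) _).set (by decide) (by decide) _).set (by decide) (by decide) _).set
      (by decide) (by decide) _).set (by decide) (by decide) _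
    have a2 := ih (fun q => x (q + 1)) (fun q => y (q + 1)) (fun q => hx _) (fun q => hy _) s1 h'
      (by simp [s1, nx, at_set]) (by simp [s1, nx, at_set]) (by simp [s1, nx, at_set])
      (by simp [s1, nx, at_set])
    have hne : nonempty (Sum.inr W.XR) (tops s) = true := by
      obtain ⟨S', rfl⟩ : ∃ S', S = S' + 1 := ⟨S - 1, by omega⟩
      have : s (Sum.inr .XR) = bits (bitsOf (S' + 1) (x 0).1) ++
        ar (S' + 1) n fun q => (x (q + 1)).1 := h1
      rw [nonempty_tops, this, bitsOf_succ]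
      simp [bits]
    refine ((Runs.loopT (c := nonempty (Sum.inr W.XR)) (p := elP cm) hne a1 a2).mono ?_).of_eq ?_
    · have e9 : (n + 1) * ((C + 90) * (S + T S)) = n * ((C + 90) * (S + T S)) +
        ((C + 80) * (S + T S) + 10 * (S + T S)) := by ring
      rw [e9]
      omega
    · refine sw_ext (fun j => by simp [s1, nx]) fun r => ?_
      have e3 : ∀ f : ℕ → ℕ, (ar S (n + 1) f : List (SSym E)).reverse =
          (ar S n fun q => f (q + 1)).reverse ++ (bits (bitsOf S (f 0))).reverse := by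
        intro f
        rw [ar_succ, List.reverse_append]
      rw [e3, e3]
      clear a1 a2 ih h1 h2 h3 h4 hne e3 h' hx hy
      simp only [s1, nx, at_set]
      split_ifs <;> first
        | rfl
        | exact (List.append_assoc _ _ _).symm
        | simp_all

variable (cm) in
/-- Pointwise products. -/
def pwP : PW J E := (lpP cm).seq <|
  (Prog.rev (Sum.inr .O1) (Sum.inr .XR)).seq (Prog.rev (Sum.inr .O2) (Sum.inr .XI))

theorem len_ar (S n : ℕ) (x : ℕ → ℕ) : (ar S n x : List (SSym E)).length = n * S := by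
  have : (cat n fun q => bitsOf S (x q)).length = n * S := length_cat_of fun i _ => by simp
  simp [ar, this]

/-- Package S5-PW. -/
theorem pwSpec (hcm : CmSpec cm T C) : PwSpec (pwP cm) T (C + 100) := by
  intro n S B x y s hB hS hs ws wb hx hy h1 h2 h3 h4
  have f : ∀ r ∈ psc, s.at r = [] := hs.emp2
  have h : Pv s S B := ⟨hs.toCln0, ws, wb, f _ (by decide), f _ (by decide), f _ (by decide),
    f _ (by decide), f _ (by decide), f _ (by decide)⟩
  have a1 := lpP_spec hcm hB hS n x y hx hy s h h1 h2 h3 h4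
  have g1 : s.at .O1 = [] := f _ (by decide)
  have g2 : s.at .O2 = [] := f _ (by decide)
  rw [g1, g2, List.append_nil, List.append_nil] at a1
  set s1 := nx s [] [] [] [] (ar S n fun q => (cmR S B (x q) (y q)).1).reverse
    (ar S n fun q => (cmR S B (x q) (y q)).2).reverse with e1
  have a2 := r_rev (J := J) (a := .O1) (b := .XR) (by decide) s1
  have l2 : (s1.at .O1).length = n * S := by simp [s1, nx, at_set, len_ar]
  rw [l2] at a2
  set s2 := (s1.set .O1 []).set .XR ((s1.at .O1).reverse ++ s1.at .XR) with e2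
  have a3 := r_rev (J := J) (a := .O2) (b := .XI) (by decide) s2
  have l3 : (s2.at .O2).length = n * S := by simp [s2, s1, nx, at_set, len_ar]
  rw [l3] at a3
  refine ((a1.seq (a2.seq a3)).mono ?_).of_eq ?_
  · have e9 : (C + 100) * (n * (S + T S) + 1) = n * ((C + 90) * (S + T S)) + 10 * (n * S) +
        10 * (n * T S) + (C + 100) := by ring
    rw [e9]
    omega
  · refine sw_ext (fun j => by simp [s2, s1, nx]) fun r => ?_
    clear a1 a2 a3 l2 l3
    simp only [s2, s1, nx, at_set]
    clear e2 s2 e1 s1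
    split_ifs <;> simp_all

end Vale.Agent.P338.GS.Pwp
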