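import Vale.Agent.P338.H921.S2Avail
import Vale.Agent.P338.TopLib

/-!
# P338: the school method as a called program
-/

namespace Vale.Agent.P338.SS

open Vale.Agent.P338

variable {E : Type}

/-! ### The program on its own stacks -/

/-- The school method: the operands on `AX` and `AY`, the product on `AZ`. -/
def schoolP : PQ E :=
  ((Prog.tag Q.AX Q.O 1 Q.WW mk).seq ((Prog.rev Q.O Q.X).seq
    ((Prog.rev Q.AY Q.O).seq (Prog.rev Q.O Q.Y)))).seq
    (basePair.seq ((Prog.rev Q.O Q.AZ).seq (Prog.clear Q.WW)))

/-- The specification of a multiplication program that takes time `T`. -/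
def MainT (p : PQ E) (T : ℕ → ℕ) : Prop :=
  ∀ (m : ℕ) (xs ys : List Bool) (s : SQ E), 1 ≤ m → xs.length = m → ys.length = m →
    s Q.AX = bits xs → s Q.AY = bits ys → (∀ r : Q, r ≠ Q.AX → r ≠ Q.AY → s r = []) →
    Runs p s (Function.update (Function.update (Function.update s Q.AX []) Q.AY []) Q.AZ
      (bits (bitsOf (2 * m) (natOf xs * natOf ys)))) (T m)

/-- The stores of the program. -/
def scst (ax ay az w : List (SSym E)) : SQ E := fun r =>
  match r with
  | Q.AX => ax
  | Q.AY => ay
  | Q.AZ => az
  | Q.WW => w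
  | _ => []

theorem school_main : MainT (schoolP : PQ E) (fun m => 150 * m ^ 2) := by
  intro m xs ys s hm hx hy hax hay hemp
  have hxl : natOf xs < 2 ^ m := by rw [← hx]; exact natOf_lt xs
  have hyl : natOf ys < 2 ^ m := by rw [← hy]; exact natOf_lt ys
  have hxb : xs = bitsOf m (natOf xs) := by rw [← hx]; exact (bitsOf_natOf xs).symm
  have hyb : ys = bitsOf m (natOf ys) := by rw [← hy]; exact (bitsOf_natOf ys).symm
  obtain ⟨z, hz⟩ : ∃ z : List (SSym E), z = bits (bitsOf (2 * m) (natOf xs * natOf ys)) :=
    ⟨_, rfl⟩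
  have hzl : z.length = 2 * m := by rw [hz, length_bits, length_bitsOf]
  have hs : s = bst (scst (bits xs) (bits ys) [] []) [] [] [] [] [] [] [] [] [] := by
    funext r
    by_cases h1 : r = Q.AX
    · subst h1; simp [bst, scst, hax]
    by_cases h2 : r = Q.AY
    · subst h2; simp [bst, scst, hay]
    have h3 := hemp r h1 h2
    cases r <;> first | exact absurd rfl h1 | exact absurd rfl h2 | exact h3
  have r1 := Runs.tag (x := Q.AX) (y := Q.O) (i := Q.WW) (by decide) (by decide) (by decide) 1
    (mk : SSym E) s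
  have r2 := Runs.rev (i := Q.O) (j := Q.X) (by decide)
    (bst (scst [] (bits ys) [] (una m)) [] [] (bits xs : List (SSym E)).reverse
      [] [] [] [] [] [])
  have r3 := Runs.rev (i := Q.AY) (j := Q.O) (by decide)
    (bst (scst [] (bits ys) [] (una m)) (bits xs : List (SSym E)) [] [] [] [] [] [] [] [])
  have r4 := Runs.rev (i := Q.O) (j := Q.Y) (by decide)
    (bst (scst [] [] [] (una m)) (bits xs : List (SSym E)) [] (bits ys).reverse
      [] [] [] [] [] [])
  have r5 := runs_basePair (scst [] [] [] (una m) : SQ E) m (natOf xs) (natOf ys) [] [] []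
    hxl hyl rfl rfl rfl
  rw [← hxb, ← hyb, ← hz, List.append_nil, List.append_nil, List.append_nil] at r5
  have r6 := Runs.rev (i := Q.O) (j := Q.AZ) (by decide)
    (bst (scst [] [] [] (una m)) [] [] z.reverse [] [] [] [] [] [])
  have r7 := Runs.clear Q.WW (bst (scst [] [] z (una m)) [] [] [] [] [] [] [] [] [])
  have q := ((r1.of_eq (s'' := bst (scst [] (bits ys) [] (una m)) [] []
      (bits xs : List (SSym E)).reverse [] [] [] [] [] []) ?_).seq
    ((r2.of_eq (s'' := bst (scst [] (bits ys) [] (una m)) (bits xs : List (SSym E)) [] []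
      [] [] [] [] [] []) ?_).seq
    ((r3.of_eq (s'' := bst (scst [] [] [] (una m)) (bits xs : List (SSym E)) []
      (bits ys).reverse [] [] [] [] [] []) ?_).seq
    (r4.of_eq (s'' := bst (scst [] [] [] (una m)) (bits xs : List (SSym E)) (bits ys) []
      [] [] [] [] [] []) ?_)))).seq
    (r5.seq ((r6.of_eq (s'' := bst (scst [] [] z (una m)) [] [] [] [] [] [] [] [] []) ?_).seq
      r7))
  · refine (q.mono ?_).of_eq ?_
    · rw [hax]
      simp only [bst, scst, List.length_reverse, length_bits, length_una, hzl, hx, hy]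
      nlinarith [Nat.mul_le_mul hm hm]
    · rw [hs, ← hz]
      funext r
      cases r <;> simp [bst, scst]
  · rw [hs]
    funext r
    cases r <;> simp [bst, scst, una, hx]
  · funext r
    cases r <;> simp [bst, scst]
  · funext r
    cases r <;> simp [bst, scst]
  · funext r
    cases r <;> simp [bst, scst]
  · funext r
    cases r <;> simp [bst, scst]

/-! ### The called program -/

variable {J : Type} [DecidableEq J]

/-- A multiplication program that takes time `C * T m`, as a called program. -/
theorem ssCall_specT {p : PQ E} {T : ℕ → ℕ} {C : ℕ} (hp : MainT p fun m => C * T m)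
    {ι : Q → J} (hι : Function.Injective ι) : CallFullSpec (ssCall ι p) T (C + 40) := by
  intro m xs ys s hm hx hy hidle hemp hax hay
  replace hidle : ∀ j : J, s (Sum.inr j) = [] := hidle
  have haz : s (Sum.inl R.AZ) = [] := hemp R.AZ (by simp)
  replace hax : s (Sum.inl R.AX) = bits xs := hax
  replace hay : s (Sum.inl R.AY) = bits ys := hay
  have hne : ∀ q q' : Q, q ≠ q' → qn ι q ≠ qn ι q' := fun q q' h h' => h (qn_injective hι h')
  have e1 := hne Q.AX Q.AY (by decide)
  have e3 := hne Q.AX Q.O (by decide)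
  have e6 := hne Q.AZ Q.O (by decide)
  have hq : ∀ q, s (qn ι q) = [] := fun q => hidle _
  have hl : ∀ (r : R) (q : Q), (Sum.inl r : Loc J) ≠ qn ι q := fun r q => by simp [qn]
  have hr : ∀ (r : R) (q : Q), qn ι q ≠ (Sum.inl r : Loc J) := fun r q => by simp [qn]
  have e5 := hne Q.AY Q.O (by decide)
  obtain ⟨z, hz⟩ : ∃ z : List Bool, z = bitsOf (2 * m) (natOf xs * natOf ys) := ⟨_, rfl⟩
  rw [← hz]
  have r1 := mvl_runs (hl R.AX Q.AX) (hl R.AX Q.O) e3 s (bits xs) hax (hq _) (hq _)
  set s1 : St J E := Function.update (Function.update s (Sum.inl R.AX) []) (qn ι Q.AX) (bits xs)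
    with hs1
  have r2 := mvl_runs (hl R.AY Q.AY) (hl R.AY Q.O) e5 s1 (bits ys)
    (by simp [hs1, hay, hl]) (by simp [hs1, hq, hr, e1.symm]) (by simp [hs1, hq, hr, e3.symm])
  set s2 : St J E := Function.update (Function.update s1 (Sum.inl R.AY) []) (qn ι Q.AY)
    (bits ys) with hs2
  have hsm := hp m xs ys (fun q => s2 (qn ι q)) hm hx hy
    (by simp [hs2, hs1, hr, e1]) (by simp [hs2])
    (by
      intro q h1 h2
      have f1 := hne q Q.AX h1
      have f2 := hne q Q.AY h2
      simp [hs2, hs1, hr, f1, f2, hq])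
  rw [← hz] at hsm
  set s3 : St J E := Function.update (Function.update (Function.update s (Sum.inl R.AX) [])
    (Sum.inl R.AY) []) (qn ι Q.AZ) (bits z) with hs3
  have r3 : Runs (p.map (qn ι)) s2 s3 (C * T m) := by
    refine hsm.map (qn_injective hι) (fun _ => rfl) ?_ ?_
    · intro q
      by_cases h1 : q = Q.AZ
      · subst h1; simp [hs3]
      have f1 := hne q Q.AZ h1
      rw [Function.update_of_ne h1]
      have f3 : s3 (qn ι q) = [] := by
        simp [hs3, f1, hr, hq]
      rw [f3]
      by_cases h2 : q = Q.AY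
      · subst h2; simp
      rw [Function.update_of_ne h2]
      by_cases h3 : q = Q.AX
      · subst h3; simp
      rw [Function.update_of_ne h3]
      simp [hs2, hs1, hne q Q.AY h2, hne q Q.AX h3, hr, hq]
    · intro k hk
      have g : ∀ q, k ≠ qn ι q := fun q h => hk ⟨q, h.symm⟩
      rw [hs3, hs2, hs1, Function.update_of_ne (g _), Function.update_of_ne (g _)]
      simp only [Function.update_apply, if_neg (g Q.AX)]
  have r4 := mvl_runs (hr R.AZ Q.AZ) e6 (hl R.AZ Q.O) s3 (bits z) (by simp [hs3])
    (by simp [hs3, hl, haz]) (by simp [hs3, e6.symm, hr, hq])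
  refine ((r1.seq (r2.seq (r3.seq r4))).mono ?_).of_eq ?_
  · have l3 : z.length = 2 * m := by rw [hz, length_bitsOf]
    rw [length_bits, length_bits, length_bits, hx, hy, l3]
    have e9 : (C + 40) * (m + T m) = C * m + C * T m + 40 * m + 40 * T m := by ring
    rw [e9]
    have : 0 ≤ C * m := Nat.zero_le _
    omega
  · rw [hs3]
    funext k
    by_cases g : k = qn ι Q.AZ
    · subst g
      simp [hr, hq]
    · simp only [St.set, Function.update_apply, if_neg g]

end Vale.Agent.P338.SS

namespace Vale.Agent.P338.S2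

open Vale.Agent.P338

/-- The school method. -/
theorem hasCall_school : HasCall fun m => m ^ 2 :=
  ⟨SS.Q, Empty, inferInstance, inferInstance, inferInstance, _, _,
    SS.ssCall_specT SS.school_main Function.injective_id⟩

end Vale.Agent.P338.S2
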