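import Vale.Agent.P338.GS.Iface2

/-!
# P338, stage 5: the interface of the transform, level 3
-/

namespace Vale.Agent.P338.GS

open Vale.Agent.P338

variable {J E : Type} [DecidableEq J]

/-- The contents after the transform. -/
def trOut (X r Z g : ℕ) (c : ℕ → ℕ × ℕ) (e : ℕ → ℕ → ℕ → ℕ × ℕ) (h : Store V3 (SSym E)) :
    Store V3 (SSym E)
  | .dr => bits (arr3 X r Z (wS g) fun x k z =>
      (dftA (wS g) (20 * wL g) r c (fun i => e x i z) k).1)
  | .di => bits (arr3 X r Z (wS g) fun x k z =>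
      (dftA (wS g) (20 * wL g) r c (fun i => e x i z) k).2)
  | .cr => []
  | .ci => []
  | .a1 => []
  | .a2 => []
  | .a3 => []
  | v => h v

/-- The transform with the chirp array on `cr`, `ci`; `X`, `r`, `Z` on `a1`, `a2`, `a3`. -/
def TrSpec (p : P3 J E) (Tb : ℕ → ℕ) (C : ℕ) : Prop :=
  ∀ (X r Z g m : ℕ) (c : ℕ → ℕ × ℕ) (e : ℕ → ℕ → ℕ → ℕ × ℕ) (h : Store V3 (SSym E)),
    1 ≤ X → 1 ≤ r → 1 ≤ Z → 1 ≤ g → r < 2 ^ (wS g - 1) → 8064 * (X * r * Z * wS g) ≤ m →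
    (∀ x i z, (e x i z).1 < 2 ^ wS g) → (∀ x i z, (e x i z).2 < 2 ^ wS g) →
    (∀ i, (c i).1 < 2 ^ wS g) → (∀ i, (c i).2 < 2 ^ wS g) →
    h V3.dr = bits (arr3 X r Z (wS g) fun x i z => (e x i z).1) →
    h V3.di = bits (arr3 X r Z (wS g) fun x i z => (e x i z).2) →
    h V3.cr = ar (wS g) r (fun i => (c i).1) → h V3.ci = ar (wS g) r (fun i => (c i).2) →
    h V3.a1 = una X → h V3.a2 = una r → h V3.a3 = una Z → h V3.g = una g →
    h V3.l = una (wL g) → h V3.m = una m → h V3.t = [] → h V3.e = [] → h V3.f = [] →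
    Runs p (up h) (up (trOut X r Z g c e h)) (C * (m + Tb m + X * r * Z * wS g * g))

end Vale.Agent.P338.GS
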