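import Vale.Agent.P338.GS.TCalls
import Vale.Agent.P338.GS.TrSpec

/-!
# P338, stage 5: the transform, level 3
-/

namespace Vale.Agent.P338.GS.Tr3

open Vale.Agent.P338 Vale.Agent.P338.GS Vale.Agent.P338.GS.T3

variable {J E : Type} [DecidableEq J]

/-- The stores of this file. -/
def stT (dr di cr ci a1 a2 a3 e f : List (SSym E)) (h : Store V3 (SSym E)) :
    Store V3 (SSym E)
  | .dr => dr
  | .di => di
  | .cr => cr
  | .ci => ci
  | .a1 => a1
  | .a2 => a2
  | .a3 => a3
  | .e => e
  | .f => f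
  | v => h v

/-- Multiplication by the chirps, stacks. -/
def expL : List (Bool × V3 × I2 J) :=
  [(true, .dr, k2 .dr), (true, .di, k2 .di), (true, .cr, k2 .cr), (true, .ci, k2 .ci),
    (true, .a1, k2 .zx), (true, .a2, k2 .zr), (true, .a3, k2 .zz), (true, .g, k2 .g),
    (true, .l, k2 .l), (true, .m, k2 .m)]

/-- Multiplication by the chirps, stacks. -/
def expO : List (I2 J × V3) :=
  [(k2 .dr, .dr), (k2 .di, .di), (k2 .cr, .cr), (k2 .ci, .ci),
    (k2 .zx, .a1), (k2 .zr, .a2), (k2 .zz, .a3), (k2 .g, .g), (k2 .l, .l), (k2 .m, .m)]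

/-- Multiplication by the chirps. -/
noncomputable def expC (ex : P2 J E) : P3 J E := callP V3.t expL ex expO

section

variable {X r Z g m : ℕ} {c : ℕ → ℕ × ℕ} {h : Store V3 (SSym E)}

theorem len_arr3 (X r Z S : ℕ) (e : ℕ → ℕ → ℕ → ℕ) :
    (bits (arr3 X r Z S e) : List (SSym E)).length = X * r * Z * S := by
  unfold arr3 bits
  rw [List.length_map, length_cat_of (L := r * (Z * S)) fun i _ => by
    rw [length_cat_of (L := Z * S) fun i _ => by
      rw [length_cat_of (L := S) fun i _ => length_bitsOf _ _]]]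
  ring

theorem expC_runs {ex : P2 J E} {Tb : ℕ → ℕ} {C : ℕ} (hex : ExpSpec ex Tb C)
    (hX : 1 ≤ X) (hr : 1 ≤ r) (hZ : 1 ≤ Z) (hg : 1 ≤ g)
    (hm : 8064 * (X * r * Z * wS g) ≤ m) {e : ℕ → ℕ → ℕ → ℕ × ℕ}
    (he1 : ∀ x i z, (e x i z).1 < 2 ^ wS g) (he2 : ∀ x i z, (e x i z).2 < 2 ^ wS g)
    (hc1 : ∀ i, (c i).1 < 2 ^ wS g) (hc2 : ∀ i, (c i).2 < 2 ^ wS g)
    (h1 : h V3.g = una g) (h2 : h V3.l = una (wL g)) (h3 : h V3.m = una m)
    (h4 : h V3.t = []) :
    Runs (expC ex) (up (stT (bits (arr3 X r Z (wS g) fun x i z => (e x i z).1))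
        (bits (arr3 X r Z (wS g) fun x i z => (e x i z).2))
        (ar (wS g) r fun i => (c i).1) (ar (wS g) r fun i => (c i).2) (una X) (una r) (una Z)
        [] [] h))
      (up (stT (bits (arr3 X r Z (wS g) fun x i z =>
          (cmR (wS g) (20 * wL g) (e x i z) (c i)).1))
        (bits (arr3 X r Z (wS g) fun x i z => (cmR (wS g) (20 * wL g) (e x i z) (c i)).2))
        (ar (wS g) r fun i => (c i).1) (ar (wS g) r fun i => (c i).2) (una X) (una r) (una Z)
        [] [] h)) ((C + 50) * (m + Tb m + X * r * Z * wS g * g)) := by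
  have a := asg2' (hex X r Z g m c e hX hr hZ hg hm he1 he2 hc1 hc2)
  have c1 := call_runs (ι := I2 J) V3.t expL expO
    (stT (bits (arr3 X r Z (wS g) fun x i z => (e x i z).1))
        (bits (arr3 X r Z (wS g) fun x i z => (e x i z).2))
        (ar (wS g) r fun i => (c i).1) (ar (wS g) r fun i => (c i).2) (una X) (una r) (una Z)
        [] [] h)
    (stT (bits (arr3 X r Z (wS g) fun x i z =>
          (cmR (wS g) (20 * wL g) (e x i z) (c i)).1))
        (bits (arr3 X r Z (wS g) fun x i z => (cmR (wS g) (20 * wL g) (e x i z) (c i)).2))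
        (ar (wS g) r fun i => (c i).1) (ar (wS g) r fun i => (c i).2) (una X) (una r) (una Z)
        [] [] h) (p := ex) (T := C * (m + Tb m + X * r * Z * wS g * g)) (by
      simp only [ldl, unl, expL, expO, List.map_cons, List.map_nil, stT, h1, h2, h3]
      exact a) h4 (by simp [expL]) (by simp [expL]) (by simp [expL]) (by simp [expO])
      (by simp [expO]) (by simp [expO]) (by
        intro v hv
        simp only [expO, List.map_cons, List.map_nil, List.mem_cons, List.not_mem_nil,
          or_false] at hv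
        rcases hv with rfl | rfl | rfl | rfl | rfl | rfl | rfl | rfl | rfl | rfl <;> rfl)
  refine (c1.mono ?_).of_eq ?_
  · simp only [ldt, unt, expL, expO, List.map_cons, List.map_nil, List.sum_cons,
      List.sum_nil, stT, h1, h2, h3, len_una, len_ar0, len_arr3]
    have k1 : X ≤ X * r := Nat.le_mul_of_pos_right _ hr
    have k2 : r ≤ X * r := Nat.le_mul_of_pos_left _ hX
    have k3 : X * r ≤ X * r * Z := Nat.le_mul_of_pos_right _ hZ
    have k4 : Z ≤ X * r * Z := Nat.le_mul_of_pos_left _ (Nat.mul_pos hX hr)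
    have l2 : g ≤ wL g := by
      unfold wL; exact Nat.le_mul_of_pos_left _ (by positivity)
    have l1 : wL g ≤ wS g := by rw [wS_eq hg]; omega
    have k5 : X * r * Z ≤ X * r * Z * wS g := Nat.le_mul_of_pos_right _ (by omega)
    have k6 : wS g ≤ X * r * Z * wS g :=
      Nat.le_mul_of_pos_left _ (Nat.mul_pos (Nat.mul_pos hX hr) hZ)
    have k7 : r * wS g ≤ X * r * Z * wS g := Nat.mul_le_mul_right _ (k2.trans k3)
    have l5 : (C + 50) * (m + Tb m + X * r * Z * wS g * g) =
      C * (m + Tb m + X * r * Z * wS g * g) +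
      50 * m + 50 * Tb m + 50 * (X * r * Z * wS g * g) := by ring
    rw [l5]
    generalize C * (m + Tb m + X * r * Z * wS g * g) = A
    generalize X * r * Z * wS g * g = A' at *
    generalize X * r * Z * wS g = Q at *
    generalize X * r * Z = Q' at *
    generalize X * r = Q'' at *
    generalize r * wS g = Q3 at *
    linarith
  · congr 1
    funext v; cases v <;> rfl

/-- The kernel, stacks. -/
def krL : List (Bool × V3 × I2 J) :=
  [(false, .cr, k0 .N1), (false, .ci, k0 .N2), (false, .l, k0 .LL)]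

/-- The kernel, stacks. -/
def krO : List (I2 J × V3) := [(k0 .KR, .e), (k0 .KI, .f)]

/-- The kernel. -/
noncomputable def krC (kr : PW J E) : P3 J E := callP V3.t krL (lf0 kr) krO

theorem krC_runs {kr : PW J E} {Tb : ℕ → ℕ} {C : ℕ} (hkr : KrSpec kr C)
    (hX : 1 ≤ X) (hr : 1 ≤ r) (hZ : 1 ≤ Z) (hg : 1 ≤ g)
    (hm : 8064 * (X * r * Z * wS g) ≤ m)
    (hc1 : ∀ i, (c i).1 < 2 ^ wS g) (hc2 : ∀ i, (c i).2 < 2 ^ wS g)
    (h2 : h V3.l = una (wL g)) (h4 : h V3.t = []) (dr di a1 a2 a3 : List (SSym E)) :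
    Runs (krC kr) (up (stT dr di (ar (wS g) r fun i => (c i).1) (ar (wS g) r fun i => (c i).2)
        a1 a2 a3 [] [] h))
      (up (stT dr di (ar (wS g) r fun i => (c i).1) (ar (wS g) r fun i => (c i).2)
        a1 a2 a3 (ar (wS g) (2 * r - 1) fun j => (cjR (wS g) (c ((j + 1) % r))).1)
        (ar (wS g) (2 * r - 1) fun j => (cjR (wS g) (c ((j + 1) % r))).2) h))
      ((C + 50) * (m + Tb m + X * r * Z * wS g * g)) := by
  have eS := wS_eq hg
  have l2 : g ≤ wL g := by
    unfold wL; exact Nat.le_mul_of_pos_left _ (by positivity)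
  have a := asg2 (hkr r (wL g) c hr (by omega) (by rw [← eS]; exact hc1)
    (by rw [← eS]; exact hc2))
  rw [← eS] at a
  have c1 := call_runs (ι := I2 J) V3.t krL krO
    (stT dr di (ar (wS g) r fun i => (c i).1) (ar (wS g) r fun i => (c i).2)
        a1 a2 a3 [] [] h)
    (stT dr di (ar (wS g) r fun i => (c i).1) (ar (wS g) r fun i => (c i).2)
        a1 a2 a3 (ar (wS g) (2 * r - 1) fun j => (cjR (wS g) (c ((j + 1) % r))).1)
        (ar (wS g) (2 * r - 1) fun j => (cjR (wS g) (c ((j + 1) % r))).2) h)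
    (p := lf0 kr) (T := C * (r * wL g)) (by
      simp only [ldl, unl, krL, krO, List.map_cons, List.map_nil, stT, h2]
      exact a) h4 (by simp [krL]) (by simp [krL]) (by simp [krL]) (by simp [krO])
      (by simp [krO]) (by simp [krO]) (by
        intro v hv
        simp only [krO, List.map_cons, List.map_nil, List.mem_cons, List.not_mem_nil,
          or_false] at hv
        rcases hv with rfl | rfl <;> rfl)
  refine (c1.mono ?_).of_eq ?_
  · simp only [ldt, unt, krL, krO, List.map_cons, List.map_nil, List.sum_cons,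
      List.sum_nil, stT, h2, len_una, len_ar0]
    have k2 : r ≤ X * r := Nat.le_mul_of_pos_left _ hX
    have k3 : X * r ≤ X * r * Z := Nat.le_mul_of_pos_right _ hZ
    have l1 : wL g ≤ wS g := by rw [wS_eq hg]; omega
    have k6 : wS g ≤ X * r * Z * wS g :=
      Nat.le_mul_of_pos_left _ (Nat.mul_pos (Nat.mul_pos hX hr) hZ)
    have k7 : r * wS g ≤ X * r * Z * wS g := Nat.mul_le_mul_right _ (k2.trans k3)
    have k8 : r * wL g ≤ r * wS g := Nat.mul_le_mul_left _ l1
    have k9 : (2 * r - 1) * wS g ≤ 2 * (r * wS g) := by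
      rw [← Nat.mul_assoc]; exact Nat.mul_le_mul_right _ (by omega)
    have l5 : (C + 50) * (m + Tb m + X * r * Z * wS g * g) =
      C * (m + Tb m + X * r * Z * wS g * g) +
      50 * m + 50 * Tb m + 50 * (X * r * Z * wS g * g) := by ring
    have l6 : C * (r * wL g) ≤ C * (m + Tb m + X * r * Z * wS g * g) :=
      Nat.mul_le_mul_left _ (by omega)
    rw [l5]
    generalize C * (m + Tb m + X * r * Z * wS g * g) = A at *
    generalize C * (r * wL g) = A'' at *
    generalize X * r * Z * wS g * g = A' at *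
    generalize X * r * Z * wS g = Q at *
    generalize (2 * r - 1) * wS g = Q4 at *
    generalize r * wL g = Q5 at *
    generalize r * wS g = Q3 at *
    have hl : 1 ≤ wL g := by omega
    clear eS hc1 hc2 a c1 k2 k3 hX hr hZ l5
    linarith
  · congr 1
    funext v; cases v <;> rfl

/-- The convolution, stacks. -/
def cvL : List (Bool × V3 × I2 J) :=
  [(true, .dr, k0 .XR), (true, .di, k0 .XI), (true, .e, k0 .KR), (true, .f, k0 .KI),
    (false, .a1, k0 .HX), (false, .a2, k0 .HR), (false, .a3, k0 .HZ), (false, .l, k0 .LL),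
    (false, .m, k0 .MM)]

/-- The convolution, stacks. -/
def cvO : List (I2 J × V3) := [(k0 .XR, .dr), (k0 .XI, .di)]

/-- The convolution. -/
noncomputable def cvC' (cv : PW J E) : P3 J E := callP V3.t cvL (lf0 cv) cvO

theorem cvC_runs {cv : PW J E} {Tb : ℕ → ℕ} {C : ℕ} (hcv : CvPSpec cv Tb C)
    (hX : 1 ≤ X) (hr : 1 ≤ r) (hZ : 1 ≤ Z) (hg : 1 ≤ g) (hrS : r < 2 ^ (wS g - 1))
    (hm : 8064 * (X * r * Z * wS g) ≤ m) {κ : ℕ → ℕ × ℕ} {e : ℕ → ℕ → ℕ → ℕ × ℕ}
    (he1 : ∀ x i z, (e x i z).1 < 2 ^ wS g) (he2 : ∀ x i z, (e x i z).2 < 2 ^ wS g)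
    (hk1 : ∀ i, (κ i).1 < 2 ^ wS g) (hk2 : ∀ i, (κ i).2 < 2 ^ wS g)
    (h2 : h V3.l = una (wL g)) (h3 : h V3.m = una m) (h4 : h V3.t = [])
    (cr ci : List (SSym E)) :
    Runs (cvC' cv) (up (stT (bits (arr3 X r Z (wS g) fun x i z => (e x i z).1))
        (bits (arr3 X r Z (wS g) fun x i z => (e x i z).2)) cr ci (una X) (una r) (una Z)
        (ar (wS g) (2 * r - 1) fun j => (κ j).1) (ar (wS g) (2 * r - 1) fun j => (κ j).2) h))
      (up (stT (bits (arr3 X r Z (wS g) fun x k z =>
          (cvC (wS g) (20 * wL g) r κ (fun i => e x i z) k).1))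
        (bits (arr3 X r Z (wS g) fun x k z =>
          (cvC (wS g) (20 * wL g) r κ (fun i => e x i z) k).2)) cr ci
          (una X) (una r) (una Z) [] [] h))
      ((C + 50) * (m + Tb m + X * r * Z * wS g * g)) := by
  have eS := wS_eq hg
  have l2 : g ≤ wL g := by
    unfold wL; exact Nat.le_mul_of_pos_left _ (by positivity)
  have e576 : 576 * (X * r * Z * wL g) ≤ m := by
    have : 8064 * (X * r * Z * wS g) = 576 * (X * r * Z * wL g) + 515520 * (X * r * Z * wL g) := by
      rw [eS]; ring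
    omega
  have a := asg2 (hcv X r Z (wL g) m κ e hX hr hZ (by omega) (by rw [← eS]; exact hrS) e576
    (by rw [← eS]; exact he1) (by rw [← eS]; exact he2) (by rw [← eS]; exact hk1)
    (by rw [← eS]; exact hk2))
  rw [← eS] at a
  have c1 := call_runs (ι := I2 J) V3.t cvL cvO
    (stT (bits (arr3 X r Z (wS g) fun x i z => (e x i z).1))
        (bits (arr3 X r Z (wS g) fun x i z => (e x i z).2)) cr ci (una X) (una r) (una Z)
        (ar (wS g) (2 * r - 1) fun j => (κ j).1) (ar (wS g) (2 * r - 1) fun j => (κ j).2) h)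
    (stT (bits (arr3 X r Z (wS g) fun x k z =>
          (cvC (wS g) (20 * wL g) r κ (fun i => e x i z) k).1))
        (bits (arr3 X r Z (wS g) fun x k z =>
          (cvC (wS g) (20 * wL g) r κ (fun i => e x i z) k).2)) cr ci
          (una X) (una r) (una Z) [] [] h)
    (p := lf0 cv) (T := C * (m + Tb m)) (by
      simp only [ldl, unl, cvL, cvO, List.map_cons, List.map_nil, stT, h2, h3]
      exact a) h4 (by simp [cvL]) (by simp [cvL]) (by simp [cvL]) (by simp [cvO])
      (by simp [cvO]) (by simp [cvO]) (by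
        intro v hv
        simp only [cvO, List.map_cons, List.map_nil, List.mem_cons, List.not_mem_nil,
          or_false] at hv
        rcases hv with rfl | rfl <;> rfl)
  refine (c1.mono ?_).of_eq ?_
  · simp only [ldt, unt, cvL, cvO, List.map_cons, List.map_nil, List.sum_cons,
      List.sum_nil, stT, h2, h3, len_una, len_ar0, len_arr3]
    have k1 : X ≤ X * r := Nat.le_mul_of_pos_right _ hr
    have k2 : r ≤ X * r := Nat.le_mul_of_pos_left _ hX
    have k3 : X * r ≤ X * r * Z := Nat.le_mul_of_pos_right _ hZ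
    have k4 : Z ≤ X * r * Z := Nat.le_mul_of_pos_left _ (Nat.mul_pos hX hr)
    have l1 : wL g ≤ wS g := by rw [wS_eq hg]; omega
    have k5 : X * r * Z ≤ X * r * Z * wS g := Nat.le_mul_of_pos_right _ (by omega)
    have k6 : wS g ≤ X * r * Z * wS g :=
      Nat.le_mul_of_pos_left _ (Nat.mul_pos (Nat.mul_pos hX hr) hZ)
    have k7 : r * wS g ≤ X * r * Z * wS g := Nat.mul_le_mul_right _ (k2.trans k3)
    have k9 : (2 * r - 1) * wS g ≤ 2 * (r * wS g) := by
      rw [← Nat.mul_assoc]; exact Nat.mul_le_mul_right _ (by omega)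
    have l5 : (C + 50) * (m + Tb m + X * r * Z * wS g * g) =
      C * (m + Tb m + X * r * Z * wS g * g) +
      50 * m + 50 * Tb m + 50 * (X * r * Z * wS g * g) := by ring
    have l6 : C * (m + Tb m) ≤ C * (m + Tb m + X * r * Z * wS g * g) :=
      Nat.mul_le_mul_left _ (by omega)
    rw [l5]
    have hl : 1 ≤ wL g := by omega
    generalize C * (m + Tb m + X * r * Z * wS g * g) = A at *
    generalize C * (m + Tb m) = A'' at *
    generalize X * r * Z * wS g * g = A' at *
    generalize X * r * Z * wS g = Q at *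
    generalize (2 * r - 1) * wS g = Q4 at *
    generalize r * wS g = Q3 at *
    generalize X * r * Z = Q' at *
    generalize X * r = Q'' at *
    clear eS e576 he1 he2 hk1 hk2 a c1 l5
    linarith
  · congr 1
    funext v; cases v <;> rfl

end

/-- The transform. -/
noncomputable def trP (ex : P2 J E) (kr cv : PW J E) : P3 J E :=
  (expC ex).seq <| (krC kr).seq <| (cvC' cv).seq <| (expC ex).seq <|
    (Prog.map Sum.inr (Prog.clear V3.cr)).seq <| (Prog.map Sum.inr (Prog.clear V3.ci)).seq <|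
    (Prog.map Sum.inr (Prog.clear V3.a1)).seq <| (Prog.map Sum.inr (Prog.clear V3.a2)).seq <|
    Prog.map Sum.inr (Prog.clear V3.a3)

theorem trSpec {ex : P2 J E} {kr cv : PW J E} {Tb : ℕ → ℕ} {C₁ C₂ C₃ : ℕ}
    (hex : ExpSpec ex Tb C₁) (hkr : KrSpec kr C₂) (hcv : CvPSpec cv Tb C₃) :
    TrSpec (trP ex kr cv) Tb (2 * C₁ + C₂ + C₃ + 250) := by
  intro X r Z g m c e h hX hr hZ hg hrS hm he1 he2 hc1 hc2 hdr hdi hcr hci ha1 ha2 ha3 h1 h2
    h3 h4 h5 h6
  have eS := wS_eq hg
  have hBS : 20 * wL g ≤ wS g := by omega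
  set S := wS g with dS
  set B := 20 * wL g with dB
  have e0 : h = stT (bits (arr3 X r Z S fun x i z => (e x i z).1))
      (bits (arr3 X r Z S fun x i z => (e x i z).2)) (ar S r fun i => (c i).1)
      (ar S r fun i => (c i).2) (una X) (una r) (una Z) [] [] h := by
    funext v; cases v <;> first | rfl | assumption
  have a1 := expC_runs (J := J) hex hX hr hZ hg hm he1 he2 hc1 hc2 h1 h2 h3 h4
  rw [← e0] at a1
  have a2 := krC_runs (J := J) (Tb := Tb) hkr hX hr hZ hg hm hc1 hc2 h2 h4
    (bits (arr3 X r Z S fun x i z => (cmR S B (e x i z) (c i)).1))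
    (bits (arr3 X r Z S fun x i z => (cmR S B (e x i z) (c i)).2)) (una X) (una r) (una Z)
  have a3 := cvC_runs (J := J) hcv hX hr hZ hg hrS hm
    (κ := fun j => cjR S (c ((j + 1) % r))) (e := fun x i z => cmR S B (e x i z) (c i))
    (fun _ _ _ => (cmR_lt hBS _ _).1) (fun _ _ _ => (cmR_lt hBS _ _).2)
    (fun _ => hc1 _) (fun _ => sbR_lt _ _ _) h2 h3 h4 (ar S r fun i => (c i).1)
    (ar S r fun i => (c i).2)
  have a4 := expC_runs (J := J) hex hX hr hZ hg hm (e := fun x k z =>
    cvC S B r (fun j => cjR S (c ((j + 1) % r))) (fun i => cmR S B (e x i z) (c i)) k)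
    (fun _ _ _ => (cvC_lt hBS _ _ _ _).1) (fun _ _ _ => (cvC_lt hBS _ _ _ _).2)
    hc1 hc2 h1 h2 h3 h4
  set DR := (bits (arr3 X r Z S fun x k z => (dftA S B r c (fun i => e x i z) k).1) :
    List (SSym E)) with dDR
  set DI := (bits (arr3 X r Z S fun x k z => (dftA S B r c (fun i => e x i z) k).2) :
    List (SSym E)) with dDI
  have a5 := vlift_runs (VC.clr (a := V3.cr) (s := stT DR DI (ar S r fun i => (c i).1)
      (ar S r fun i => (c i).2) (una X) (una r) (una Z) [] [] h)
    (s' := stT DR DI [] (ar S r fun i => (c i).2) (una X) (una r) (una Z) [] [] h)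
    (by funext v; cases v <;> rfl)) (fun _ : I2 J => [])
  have a6 := vlift_runs (VC.clr (a := V3.ci)
    (s := stT DR DI [] (ar S r fun i => (c i).2) (una X) (una r) (una Z) [] [] h)
    (s' := stT DR DI [] [] (una X) (una r) (una Z) [] [] h)
    (by funext v; cases v <;> rfl)) (fun _ : I2 J => [])
  have a7 := vlift_runs (VC.clr (a := V3.a1)
    (s := stT DR DI [] [] (una X) (una r) (una Z) [] [] h)
    (s' := stT DR DI [] [] [] (una r) (una Z) [] [] h)
    (by funext v; cases v <;> rfl)) (fun _ : I2 J => [])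
  have a8 := vlift_runs (VC.clr (a := V3.a2)
    (s := stT DR DI [] [] [] (una r) (una Z) [] [] h)
    (s' := stT DR DI [] [] [] [] (una Z) [] [] h)
    (by funext v; cases v <;> rfl)) (fun _ : I2 J => [])
  have a9 := vlift_runs (VC.clr (a := V3.a3)
    (s := stT DR DI [] [] [] [] (una Z) [] [] h)
    (s' := stT DR DI [] [] [] [] [] [] [] h)
    (by funext v; cases v <;> rfl)) (fun _ : I2 J => [])
  refine ((a1.seq (a2.seq (a3.seq (a4.seq (a5.seq (a6.seq (a7.seq (a8.seq a9)))))))).mono
    ?_).of_eq ?_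
  · simp only [stT, len_una, len_ar0]
    have k1 : X ≤ X * r := Nat.le_mul_of_pos_right _ hr
    have k2 : r ≤ X * r := Nat.le_mul_of_pos_left _ hX
    have k3 : X * r ≤ X * r * Z := Nat.le_mul_of_pos_right _ hZ
    have k4 : Z ≤ X * r * Z := Nat.le_mul_of_pos_left _ (Nat.mul_pos hX hr)
    have l2 : g ≤ wL g := by
      unfold wL; exact Nat.le_mul_of_pos_left _ (by positivity)
    have k5 : X * r * Z ≤ X * r * Z * S := Nat.le_mul_of_pos_right _ (by omega)
    have k7 : r * S ≤ X * r * Z * S := Nat.mul_le_mul_right _ (k2.trans k3)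
    have l5 : (2 * C₁ + C₂ + C₃ + 250) * (m + Tb m + X * r * Z * S * g) =
      2 * ((C₁ + 50) * (m + Tb m + X * r * Z * S * g)) +
      (C₂ + 50) * (m + Tb m + X * r * Z * S * g) +
      (C₃ + 50) * (m + Tb m + X * r * Z * S * g) +
      50 * m + 50 * Tb m + 50 * (X * r * Z * S * g) := by ring
    rw [l5]
    generalize (C₁ + 50) * (m + Tb m + X * r * Z * S * g) = A₁ at *
    generalize (C₂ + 50) * (m + Tb m + X * r * Z * S * g) = A₂ at *
    generalize (C₃ + 50) * (m + Tb m + X * r * Z * S * g) = A₃ at *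
    generalize X * r * Z * S * g = A' at *
    generalize X * r * Z * S = Q at *
    generalize r * S = Q3 at *
    generalize X * r * Z = Q' at *
    generalize X * r = Q'' at *
    clear a1 a2 a3 a4 a5 a6 a7 a8 a9 l5 e0 he1 he2 hc1 hc2 hdr hdi hcr hci eS dS dB dDR dDI
    linarith
  · show up _ = up _
    congr 1
    funext v; cases v <;> first | rfl | exact h5.symm | exact h6.symm

end Vale.Agent.P338.GS.Tr3
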