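import Vale.Agent.P338.GS.Base
import Vale.Agent.P338.SSRedA

/-!
# P338, matrices of every shape: the first and the last pass
-/

namespace Vale.Agent.P338.GS.IO

open Vale.Agent.P338 Vale.Agent.P338.GS

variable {J E : Type} [DecidableEq J]

/-! ### Simple commands -/

theorem r_fill {u b t : W} (hub : u ≠ b) (hut : u ≠ t) (hbt : b ≠ t) (a : SSym E)
    (s : SW J E) (n : ℕ) (hu : s.at u = una n) (ht : s.at t = []) :
    Runs (Prog.fill (Sum.inr u) a (Sum.inr b) (Sum.inr t) : PW J E) s
      (s.set b (List.replicate n a ++ s.at b)) (8 * n + 1) :=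
  Runs.fill (by simpa using hub) (by simpa using hut) (by simpa using hbt) a mk s n hu ht

theorem r_movs {u t x o : W} (hut : u ≠ t) (hux : u ≠ x) (huo : u ≠ o) (htx : t ≠ x)
    (hto : t ≠ o) (hxo : x ≠ o) (s : SW J E) (l rest : List (SSym E)) (n : ℕ)
    (hl : l.length = n) (hu : s.at u = una n) (ht : s.at t = []) (hx : s.at x = l ++ rest) :
    Runs (Prog.forr (Sum.inr u) (Sum.inr t) (Prog.mov (Sum.inr x) (Sum.inr o)) : PW J E) s
      ((s.set x rest).set o (l.reverse ++ s.at o)) (8 * n + 1) :=
  SS.Runs.movs (by simpa using hut) (by simpa using hux) (by simpa using huo)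
    (by simpa using htx) (by simpa using hto) (by simpa using hxo) s l rest n hl hu ht hx

theorem r_copy {a b t : W} (hab : a ≠ b) (hat : a ≠ t) (hbt : b ≠ t) (s : SW J E)
    (ht : s.at t = []) :
    Runs (Prog.copyOnto (Sum.inr a) (Sum.inr b) (Sum.inr t) : PW J E) s
      (s.set b (s.at a ++ s.at b)) (6 * (s.at a).length + 1) :=
  Runs.copyOnto (by simpa using hab) (by simpa using hat) (by simpa using hbt) s ht

theorem r_clear (a : W) (s : SW J E) :
    Runs (Prog.clear (Sum.inr a) : PW J E) s (s.set a []) (3 * (s.at a).length) :=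
  Runs.clear _ s

theorem r_rev {a b : W} (hab : a ≠ b) (s : SW J E) :
    Runs (Prog.rev (Sum.inr a) (Sum.inr b) : PW J E) s
      ((s.set a []).set b ((s.at a).reverse ++ s.at b)) (3 * (s.at a).length) :=
  Runs.rev (by simpa using hab) s

/-- Pop `b` once for every symbol of `u`. -/
theorem r_sub {u b t : W} (hub : u ≠ b) (hut : u ≠ t) (hbt : b ≠ t) (s : SW J E) (n m : ℕ)
    (hu : s.at u = una n) (ht : s.at t = []) (hb : s.at b = una m) :
    Runs (Prog.forr (Sum.inr u) (Sum.inr t) (Prog.pop (Sum.inr b)) : PW J E) s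
      (s.set b (una (m - n))) (8 * n + 1) := by
  have hut' : (Sum.inr u : Loc J ⊕ W) ≠ Sum.inr t := by simpa using hut
  have h := Runs.forr' hut' (body := (Prog.pop (Sum.inr b) : PW J E)) n mk
    (fun k => s.set b (una (m - k))) (fun _ => 1)
    (fun k _ => by
      have := at_set_ne s hub (una (m - k))
      unfold SW.at at this hu
      rw [this, hu]; rfl)
    (fun k _ => by
      have := at_set_ne s hbt.symm (una (m - k))
      unfold SW.at at this ht
      rw [this, ht])
    (by
      intro k hk l l'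
      refine (Runs.pop (Sum.inr b) _).of_eq ?_
      have e : (una (m - (k + 1)) : List (SSym E)) = (una (m - k)).tail := by
        rw [show m - (k + 1) = m - k - 1 by omega]; simp [una]
      rw [e]
      have h1 : (Sum.inr b : Loc J ⊕ W) ≠ Sum.inr t := by simpa using hbt
      have h2 : (Sum.inr u : Loc J ⊕ W) ≠ Sum.inr b := by simpa using hub
      unfold SW.set
      funext q
      simp only [Function.update_apply]
      split_ifs <;> simp_all)
  simp only [Finset.sum_const, Finset.card_range, smul_eq_mul] at h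
  have e : s.set b (una (m - 0)) = s := by rw [Nat.sub_zero]; exact set_of_at hb
  rw [e] at h
  exact h.mono (by omega)

/-! ### The first pass -/

/-- The treatment of one word. -/
def inB : PW J E :=
  (Prog.fill (Sum.inr .WB) (sb false) (Sum.inr .CR) (Sum.inr .F1)).seq <|
  (Prog.forr (Sum.inr .WT) (Sum.inr .F1) (Prog.mov (Sum.inr .XR) (Sum.inr .CR))).seq <|
  (Prog.copyOnto (Sum.inr .WS) (Sum.inr .T1) (Sum.inr .F1)).seq <|
  (Prog.forr (Sum.inr .WB) (Sum.inr .F1) (Prog.pop (Sum.inr .T1))).seq <|
  (Prog.forr (Sum.inr .WT) (Sum.inr .F1) (Prog.pop (Sum.inr .T1))).seq <|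
  (Prog.fill (Sum.inr .T1) (sb false) (Sum.inr .CR) (Sum.inr .F1)).seq <|
  (Prog.clear (Sum.inr .T1)).seq <|
  Prog.fill (Sum.inr .WS) (sb false) (Sum.inr .XI) (Sum.inr .F1)

theorem rev_word {t S B : ℕ} (h : t + B ≤ S) {e : ℕ} (he : e < 2 ^ t) :
    (bits (bitsOf S (e * 2 ^ B)) : List (SSym E)).reverse =
      List.replicate (S - B - t) (sb false) ++ ((bits (bitsOf t e)).reverse ++
        List.replicate B (sb false)) := by
  have e1 : bitsOf S (e * 2 ^ B) = List.replicate B false ++ (bitsOf t e ++
      List.replicate (S - B - t) false) := by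
    have : S = B + (t + (S - B - t)) := by omega
    conv_lhs => rw [this]
    rw [bitsOf_add, bitsOf_add]
    congr 1
    · rw [← bitsOf_mod, Nat.mul_mod_left, bitsOf_zero]
    · rw [Nat.mul_div_cancel _ (by positivity), Nat.div_eq_of_lt he, bitsOf_zero]
  rw [e1]
  simp [bits, List.map_append, List.reverse_append, List.append_assoc]

theorem inB_spec {t S B : ℕ} (ht : 1 ≤ t) (hS : t + B ≤ S) {s : SW J E}
    (hF : s.at .F1 = []) (hT : s.at .T1 = [])
    (h1 : s.at .WS = una S) (h2 : s.at .WB = una B) (h3 : s.at .WT = una t) {e : ℕ}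
    (he : e < 2 ^ t) {rest : List (SSym E)} (hX : s.at .XR = bits (bitsOf t e) ++ rest) :
    Runs inB s (((s.set .XR rest).set .CR
      ((bits (bitsOf S (e * 2 ^ B))).reverse ++ s.at .CR)).set .XI
        (List.replicate S (sb false) ++ s.at .XI)) (60 * S) := by
  have a1 := r_fill (J := J) (u := .WB) (b := .CR) (t := .F1) (by decide) (by decide)
    (by decide) (sb false) s B h2 hF
  set s1 := s.set .CR (List.replicate B (sb false) ++ s.at .CR) with e1
  have a2 := r_movs (J := J) (u := .WT) (t := .F1) (x := .XR) (o := .CR) (by decide) (by decide)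
    (by decide) (by decide) (by decide) (by decide) s1 (bits (bitsOf t e)) rest t (by simp)
    (by simp [s1, at_set, h3]) (by simp [s1, at_set, hF]) (by simp [s1, at_set, hX])
  set s2 := (s1.set .XR rest).set .CR ((bits (bitsOf t e)).reverse ++ s1.at .CR) with e2
  have a3 := r_copy (J := J) (a := .WS) (b := .T1) (t := .F1) (by decide) (by decide)
    (by decide) s2 (by simp [s2, s1, at_set, hF])
  have b3 : s2.at .WS ++ s2.at .T1 = una S := by simp [s2, s1, at_set, hT, h1]
  have c3 : (s2.at .WS).length = S := by simp [s2, s1, at_set, h1]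
  rw [b3, c3] at a3
  set s3 := s2.set .T1 (una S) with e3
  have a4 := r_sub (J := J) (u := .WB) (b := .T1) (t := .F1) (by decide) (by decide)
    (by decide) s3 B S (by simp [s3, s2, s1, at_set, h2]) (by simp [s3, s2, s1, at_set, hF])
    (by simp [s3])
  set s4 := s3.set .T1 (una (S - B)) with e4
  have a5 := r_sub (J := J) (u := .WT) (b := .T1) (t := .F1) (by decide) (by decide)
    (by decide) s4 t (S - B) (by simp [s4, s3, s2, s1, at_set, h3])
    (by simp [s4, s3, s2, s1, at_set, hF]) (by simp [s4])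
  set s5 := s4.set .T1 (una (S - B - t)) with e5
  have a6 := r_fill (J := J) (u := .T1) (b := .CR) (t := .F1) (by decide) (by decide)
    (by decide) (sb false) s5 (S - B - t) (by simp [s5])
    (by simp [s5, s4, s3, s2, s1, at_set, hF])
  set s6 := s5.set .CR (List.replicate (S - B - t) (sb false) ++ s5.at .CR) with e6
  have a7 := r_clear (J := J) .T1 s6
  have c7 : (s6.at .T1).length = S - B - t := by simp [s6, s5, at_set]
  rw [c7] at a7
  set s7 := s6.set .T1 [] with e7
  have a8 := r_fill (J := J) (u := .WS) (b := .XI) (t := .F1) (by decide) (by decide)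
    (by decide) (sb false) s7 S (by simp [s7, s6, s5, s4, s3, s2, s1, at_set, h1])
    (by simp [s7, s6, s5, s4, s3, s2, s1, at_set, hF])
  refine ((a1.seq (a2.seq (a3.seq (a4.seq (a5.seq (a6.seq (a7.seq a8))))))).mono
    (by omega)).of_eq ?_
  refine sw_ext (fun j => by simp [s7, s6, s5, s4, s3, s2, s1]) fun r => ?_
  rw [rev_word hS he]
  simp only [s7, s6, s5, s4, s3, s2, s1, at_set]
  split_ifs <;> simp_all

/-- The first pass, except for the last reversal. -/
def inL : PW J E := Prog.loop (nonempty (Sum.inr .XR)) inB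

theorem inL_spec {t S B : ℕ} (ht : 1 ≤ t) (hS : t + B ≤ S) (n : ℕ) : ∀ (e : ℕ → ℕ)
    (s : SW J E), s.at .F1 = [] → s.at .T1 = [] → s.at .WS = una S → s.at .WB = una B →
    s.at .WT = una t → (∀ k, e k < 2 ^ t) →
    s.at .XR = bits (cat n fun k => bitsOf t (e k)) →
    Runs inL s (((s.set .XR []).set .CR
      ((bits (cat n fun k => bitsOf S (e k * 2 ^ B))).reverse ++ s.at .CR)).set .XI
        (List.replicate (n * S) (sb false) ++ s.at .XI)) (62 * (n * S)) := by
  induction n with
  | zero =>
    intro e s _ _ _ _ _ _ hX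
    have hX' : s.at .XR = [] := by rw [hX]; rfl
    refine ((Runs.loopF (by
      have : s (Sum.inr .XR) = [] := hX'
      simp [this])).of_eq ?_).mono (by omega)
    refine sw_ext (fun j => by simp) fun r => ?_
    simp only [at_set, cat_zero]
    split_ifs <;> simp_all [bits]
  | succ n ih =>
    intro e s hF hT h1 h2 h3 he hX
    rw [cat_succ'] at hX
    have hX' : s.at .XR = bits (bitsOf t (e 0)) ++ bits (cat n fun k => bitsOf t (e (k + 1))) := by
      rw [hX]; simp [bits]
    have a1 := inB_spec ht hS hF hT h1 h2 h3 (he 0) hX'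
    have a2 := ih (fun k => e (k + 1)) (((s.set .XR (bits (cat n fun k => bitsOf t
      (e (k + 1))))).set .CR ((bits (bitsOf S (e 0 * 2 ^ B))).reverse ++ s.at .CR)).set .XI
        (List.replicate S (sb false) ++ s.at .XI))
      (by simp [at_set, hF]) (by simp [at_set, hT]) (by simp [at_set, h1])
      (by simp [at_set, h2]) (by simp [at_set, h3]) (fun k => he (k + 1)) (by simp [at_set])
    have hne : nonempty (Sum.inr W.XR) (tops s) = true := by
      obtain ⟨t', rfl⟩ : ∃ t', t = t' + 1 := ⟨t - 1, by omega⟩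
      have : s (Sum.inr .XR) = bits (bitsOf (t' + 1) (e 0)) ++
        bits (cat n fun k => bitsOf (t' + 1) (e (k + 1))) := hX'
      rw [nonempty_tops, this, bitsOf_succ]
      simp [bits]
    refine ((Runs.loopT (c := nonempty (Sum.inr W.XR)) (p := inB) hne a1 a2).mono ?_).of_eq ?_
    · have : 1 ≤ S := by omega
      nlinarith
    · refine sw_ext (fun j => by simp) fun r => ?_
      rw [cat_succ']
      have e3 : (bits (bitsOf S (e 0 * 2 ^ B) ++ cat n fun k => bitsOf S (e (k + 1) * 2 ^ B)) :
        List (SSym E)).reverse = (bits (cat n fun k => bitsOf S (e (k + 1) * 2 ^ B))).reverse ++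
          (bits (bitsOf S (e 0 * 2 ^ B))).reverse := by simp [bits]
      have e4 : (List.replicate ((n + 1) * S) (sb false) : List (SSym E)) =
        List.replicate (n * S) (sb false) ++ List.replicate S (sb false) := by
        rw [← List.replicate_add]; congr 1; ring
      rw [e3, e4]
      clear a1 a2 ih hX hX' e3 e4 hne
      simp only [at_set]
      split_ifs <;> first
        | rfl
        | exact (List.append_assoc _ _ _).symm
        | simp_all

/-- The first pass. -/
def inP : PW J E := inL.seq (Prog.rev (Sum.inr .CR) (Sum.inr .XR))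

theorem inSpec : InSpec (inP : PW J E) 70 := by
  intro n t S B e s ht hS hs h1 h2 h3 hI he hX
  have hF : s.at .F1 = [] := hs.emp2 .F1 (by decide)
  have hT : s.at .T1 = [] := hs.emp2 .T1 (by decide)
  have hC : s.at .CR = [] := hs.emp2 .CR (by decide)
  have a1 := inL_spec ht (by omega) n e s hF hT h1 h2 h3 he hX
  have a2 := r_rev (J := J) (a := .CR) (b := .XR) (by decide) (((s.set .XR []).set .CR
      ((bits (cat n fun k => bitsOf S (e k * 2 ^ B))).reverse ++ s.at .CR)).set .XI
        (List.replicate (n * S) (sb false) ++ s.at .XI))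
  refine ((a1.seq a2).mono ?_).of_eq ?_
  · have : (cat n fun k => bitsOf S (e k * 2 ^ B)).length = n * S :=
      length_cat_of fun i _ => by simp
    simp only [at_set, hC]
    simp [this]
    omega
  · refine sw_ext (fun j => by simp) fun r => ?_
    have e1 : (bits (cat n fun _ => bitsOf S 0) : List (SSym E)) =
      List.replicate (n * S) (sb false) := by
      have : (cat n fun _ => bitsOf S 0) = List.replicate (n * S) false := by
        rw [show (fun _ : ℕ => bitsOf S 0) = fun _ => List.replicate S false from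
          funext fun _ => bitsOf_zero S, cat_replicate]
      rw [this]; simp [bits]
    rw [e1]
    simp only [at_set]
    split_ifs <;> simp_all

/-! ### The last pass -/

/-- The scan of `|u|` bits of `x`. -/
theorem r_scan {u t x o q : W} (hut : u ≠ t) (hux : u ≠ x) (huo : u ≠ o) (huq : u ≠ q)
    (htx : t ≠ x) (hto : t ≠ o) (htq : t ≠ q) (hxo : x ≠ o) (hxq : x ≠ q) (hoq : o ≠ q)
    (f g : Bool → Bool → Bool) (as : List Bool) (s : SW J E) (c : Bool)
    (rest : List (SSym E)) (n : ℕ) (hn : as.length = n) (hu : s.at u = una n)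
    (ht : s.at t = []) (hx : s.at x = bits as ++ rest) (hq : s.at q = SS.fl c) :
    Runs (Prog.forr (Sum.inr u) (Sum.inr t)
      (SS.st1 (Sum.inr x) (Sum.inr o) (Sum.inr q) f g) : PW J E) s
      (((s.set x rest).set o ((bits (SS.siO f g c as)).reverse ++ s.at o)).set q
        (SS.fl (SS.siC g c as))) (8 * n + 1) := by
  subst hn
  have hut' : (Sum.inr u : Loc J ⊕ W) ≠ Sum.inr t := by simpa using hut
  have h := Runs.forr' hut' (body := (SS.st1 (Sum.inr x) (Sum.inr o) (Sum.inr q) f g : PW J E))
    as.length mk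
    (fun k => ((s.set x (bits (as.drop k) ++ rest)).set o
      ((bits (SS.siO f g c (as.take k))).reverse ++ s.at o)).set q
        (SS.fl (SS.siC g c (as.take k)))) (fun _ => 1)
    (fun k _ => by
      have : (((s.set x (bits (as.drop k) ++ rest)).set o
      ((bits (SS.siO f g c (as.take k))).reverse ++ s.at o)).set q
        (SS.fl (SS.siC g c (as.take k)))).at u = una as.length := by
        rw [at_set_ne _ huq, at_set_ne _ huo, at_set_ne _ hux, hu]
      exact this)
    (fun k _ => by
      have : (((s.set x (bits (as.drop k) ++ rest)).set o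
      ((bits (SS.siO f g c (as.take k))).reverse ++ s.at o)).set q
        (SS.fl (SS.siC g c (as.take k)))).at t = [] := by
        rw [at_set_ne _ htq, at_set_ne _ hto, at_set_ne _ htx, ht]
      exact this)
    (by
      intro k hk l l'
      have e1 : as.drop k = as[k] :: as.drop (k + 1) := List.drop_eq_getElem_cons hk
      have e2 : as.take (k + 1) = as.take k ++ [as[k]] := by
        rw [List.take_add_one, List.getElem?_eq_getElem hk]; simp
      have e3 : ∀ (l : List Bool) (a c : Bool), SS.siO f g c (l ++ [a]) =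
          SS.siO f g c l ++ [f a (SS.siC g c l)] := by
        intro l a
        induction l with
        | nil => intro c; rfl
        | cons b l ih => intro c; simp [SS.siO, SS.siC, ih]
      have e4 : ∀ (l : List Bool) (a c : Bool), SS.siC g c (l ++ [a]) =
          g a (SS.siC g c l) := by
        intro l a
        induction l with
        | nil => intro c; rfl
        | cons b l ih => intro c; simp [SS.siC, ih]
      have i1 : (Sum.inr x : Loc J ⊕ W) ≠ Sum.inr o := by simpa using hxo
      have i2 : (Sum.inr x : Loc J ⊕ W) ≠ Sum.inr q := by simpa using hxq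
      have i3 : (Sum.inr o : Loc J ⊕ W) ≠ Sum.inr q := by simpa using hoq
      have i4 : (Sum.inr u : Loc J ⊕ W) ≠ Sum.inr x := by simpa using hux
      have i5 : (Sum.inr u : Loc J ⊕ W) ≠ Sum.inr o := by simpa using huo
      have i6 : (Sum.inr u : Loc J ⊕ W) ≠ Sum.inr q := by simpa using huq
      have i7 : (Sum.inr t : Loc J ⊕ W) ≠ Sum.inr x := by simpa using htx
      have i8 : (Sum.inr t : Loc J ⊕ W) ≠ Sum.inr o := by simpa using hto
      have i9 : (Sum.inr t : Loc J ⊕ W) ≠ Sum.inr q := by simpa using htq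
      refine (SS.Runs.st1 i1 i2 i3 f g _ (as[k]) (SS.siC g c (as.take k))
        (bits (as.drop (k + 1)) ++ rest) ?_ ?_).of_eq ?_
      · rw [Function.update_of_ne i7.symm, Function.update_of_ne i4.symm]
        unfold SW.set
        rw [Function.update_of_ne i2, Function.update_of_ne i1, Function.update_self, e1]
        rfl
      · rw [Function.update_of_ne i9.symm, Function.update_of_ne i6.symm]
        unfold SW.set
        rw [Function.update_self]
      · rw [e2, e3, e4]
        unfold SW.set
        funext m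
        simp only [Function.update_apply]
        split_ifs <;> simp_all [bits])
  simp only [Finset.sum_const, Finset.card_range, smul_eq_mul] at h
  have e0 : ((s.set x (bits (as.drop 0) ++ rest)).set o
      ((bits (SS.siO f g c (as.take 0))).reverse ++ s.at o)).set q
        (SS.fl (SS.siC g c (as.take 0))) = s := by
    have k1 : s.set x (bits (as.drop 0) ++ rest) = s := set_of_at (by rw [hx]; rfl)
    have k2 : s.set o ((bits (SS.siO f g c (as.take 0))).reverse ++ s.at o) = s :=
      set_of_at (by simp [SS.siO, bits])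
    have k3 : s.set q (SS.fl (SS.siC g c (as.take 0))) = s :=
      set_of_at (by rw [hq]; simp [SS.siC])
    rw [k1, k2, k3]
  rw [e0, List.drop_length, List.take_length] at h
  exact h.mono (by omega)

/-- The value of a scan that adds a bit. -/
theorem siO_inc (t y : ℕ) (c : Bool) :
    SS.siO (fun a c => a ^^ c) (fun a c => a && c) c (bitsOf t y) = bitsOf t (y + c.toNat) := by
  have h1 := SS.inc_val c (bitsOf t y)
  rw [natOf_bitsOf, length_bitsOf] at h1
  refine natOf_inj (by rw [SS.length_siO]; simp) ?_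
  rw [natOf_bitsOf]
  have h2 := natOf_lt (SS.siO (fun a c => a ^^ c) (fun a c => a && c) c (bitsOf t y))
  rw [SS.length_siO, length_bitsOf] at h2
  have h3 : (natOf (SS.siO (fun a c => a ^^ c) (fun a c => a && c) c (bitsOf t y)) +
    2 ^ t * (SS.siC (fun a c => a && c) c (bitsOf t y)).toNat) % 2 ^ t =
      (y % 2 ^ t + c.toNat) % 2 ^ t := by rw [h1]
  rw [Nat.add_mul_mod_self_left, Nat.mod_eq_of_lt h2, Nat.mod_add_mod] at h3
  exact h3

/-- The last bit. -/
theorem siC_last (b x : ℕ) (c : Bool) :
    SS.siC (fun a _ => a) c (bitsOf (b + 1) x) = x.testBit b := by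
  have e4 : ∀ (l : List Bool) (a c : Bool), SS.siC (fun a _ => a) c (l ++ [a]) = a := by
    intro l a
    induction l with
    | nil => intro c; rfl
    | cons b l ih => intro c; simp [SS.siC, ih]
  rw [bitsOf_succ_right, e4]

theorem rnd_eq {S B' t : ℕ} (hB : 1 ≤ B') (hS : t + B' ≤ S) (x : ℕ) :
    bitsOf t (rnd S B' t x) = bitsOf t (x / 2 ^ B' + (x.testBit (B' - 1)).toNat) := by
  obtain ⟨b, rfl⟩ : ∃ b, B' = b + 1 := ⟨B' - 1, by omega⟩
  rw [bitsOf_eq_iff]
  unfold rnd
  rw [Nat.mod_mod, Nat.add_sub_cancel]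
  have e1 : ∀ z : ℕ, z % 2 ^ S / 2 ^ (b + 1) % 2 ^ t = z / 2 ^ (b + 1) % 2 ^ t := by
    intro z
    have : 2 ^ S = 2 ^ (b + 1) * 2 ^ (S - (b + 1)) := by rw [← pow_add]; congr 1; omega
    rw [this, Nat.mod_mul_right_div_self]
    exact Nat.mod_mod_of_dvd _ (pow_dvd_pow 2 (by omega))
  rw [e1]
  congr 1
  have e2 : x / 2 ^ b = 2 * (x / 2 ^ (b + 1)) + (x.testBit b).toNat := by
    rw [Nat.toNat_testBit]
    have : x / 2 ^ (b + 1) = x / 2 ^ b / 2 := by rw [pow_succ, Nat.div_div_eq_div_mul]
    rw [this]; omega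
  have e3 : (x + 2 ^ b) / 2 ^ (b + 1) = (x / 2 ^ b + 1) / 2 := by
    rw [pow_succ, ← Nat.div_div_eq_div_mul, Nat.add_div_right _ (by positivity)]
  rw [e3, e2]
  have : (x.testBit b).toNat ≤ 1 := Bool.toNat_le _
  omega

/-- The treatment of one number. -/
def outB : PW J E :=
  (Prog.forr (Sum.inr .WP) (Sum.inr .F1) (SS.st1 (Sum.inr .XR) (Sum.inr .DR) (Sum.inr .T1)
    (fun _ _ => false) (fun a _ => a))).seq <|
  (Prog.clear (Sum.inr .DR)).seq <|
  (Prog.forr (Sum.inr .WT) (Sum.inr .F1) (SS.st1 (Sum.inr .XR) (Sum.inr .CR) (Sum.inr .T1)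
    (fun a c => a ^^ c) (fun a c => a && c))).seq <|
  (Prog.clear (Sum.inr .T1)).seq <|
  (Prog.copyOnto (Sum.inr .WS) (Sum.inr .T1) (Sum.inr .F1)).seq <|
  (Prog.forr (Sum.inr .WP) (Sum.inr .F1) (Prog.pop (Sum.inr .T1))).seq <|
  (Prog.forr (Sum.inr .WT) (Sum.inr .F1) (Prog.pop (Sum.inr .T1))).seq <|
  (Prog.forr (Sum.inr .T1) (Sum.inr .F1) (Prog.mov (Sum.inr .XR) (Sum.inr .DR))).seq <|
  (Prog.clear (Sum.inr .T1)).seq <|
  Prog.clear (Sum.inr .DR)

theorem outB_spec {t S B' : ℕ} (hB : 1 ≤ B') (hS : t + B' ≤ S) {s : SW J E}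
    (hF : s.at .F1 = []) (hT : s.at .T1 = []) (hD : s.at .DR = [])
    (h1 : s.at .WS = una S) (h2 : s.at .WP = una B') (h3 : s.at .WT = una t) {x : ℕ}
    {rest : List (SSym E)} (hX : s.at .XR = bits (bitsOf S x) ++ rest) :
    Runs outB s ((s.set .XR rest).set .CR
      ((bits (bitsOf t (rnd S B' t x))).reverse ++ s.at .CR)) (80 * S) := by
  obtain ⟨b, rfl⟩ : ∃ b, B' = b + 1 := ⟨B' - 1, by omega⟩
  rw [rnd_eq hB hS, Nat.add_sub_cancel]
  have hw : bitsOf S x = bitsOf (b + 1) x ++ (bitsOf t (x / 2 ^ (b + 1)) ++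
      bitsOf (S - (b + 1) - t) (x / 2 ^ (b + 1) / 2 ^ t)) := by
    rw [← bitsOf_add, ← bitsOf_add]; congr 1; omega
  set L1 : List Bool := bitsOf (b + 1) x with hL1
  set L2 : List Bool := bitsOf t (x / 2 ^ (b + 1)) with hL2
  set L3 : List Bool := bitsOf (S - (b + 1) - t) (x / 2 ^ (b + 1) / 2 ^ t) with hL3
  have l1 : L1.length = b + 1 := by simp [hL1]
  have l2 : L2.length = t := by simp [hL2]
  have l3 : L3.length = S - (b + 1) - t := by simp [hL3]
  have hX' : s.at .XR = bits L1 ++ (bits L2 ++ (bits L3 ++ rest)) := by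
    rw [hX, hw]; simp [bits, List.append_assoc]
  have a1 := r_scan (J := J) (u := .WP) (t := .F1) (x := .XR) (o := .DR) (q := .T1)
    (by decide) (by decide) (by decide) (by decide) (by decide) (by decide) (by decide)
    (by decide) (by decide) (by decide) (fun _ _ => false) (fun a _ => a) L1 s false
    (bits L2 ++ (bits L3 ++ rest)) (b + 1) l1 h2 hF hX' (by rw [hT]; rfl)
  rw [hL1, siC_last, ← hL1] at a1
  set c : Bool := x.testBit b with hc
  set s1 := ((s.set .XR (bits L2 ++ (bits L3 ++ rest))).set .DR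
    ((bits (SS.siO (fun _ _ => false) (fun a _ => a) false L1)).reverse ++ s.at .DR)).set .T1
      (SS.fl c) with e1
  have a2 := r_clear (J := J) .DR s1
  have c2 : (s1.at .DR).length = b + 1 := by
    simp [s1, at_set, hD, SS.length_siO, l1]
  rw [c2] at a2
  set s2 := s1.set .DR [] with e2
  have a3 := r_scan (J := J) (u := .WT) (t := .F1) (x := .XR) (o := .CR) (q := .T1)
    (by decide) (by decide) (by decide) (by decide) (by decide) (by decide) (by decide)
    (by decide) (by decide) (by decide) (fun a c => a ^^ c) (fun a c => a && c) L2 s2 c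
    (bits L3 ++ rest) t l2 (by simp [s2, s1, at_set, h3]) (by simp [s2, s1, at_set, hF])
    (by simp [s2, s1, at_set]) (by simp [s2, s1, at_set])
  rw [hL2, siO_inc, ← hL2] at a3
  set s3 := ((s2.set .XR (bits L3 ++ rest)).set .CR
    ((bits (bitsOf t (x / 2 ^ (b + 1) + c.toNat))).reverse ++ s2.at .CR)).set .T1
      (SS.fl (SS.siC (fun a c => a && c) c L2)) with e3
  have a4 := r_clear (J := J) .T1 s3
  have c4 : 3 * (s3.at .T1).length ≤ 3 := by
    simp only [s3, at_set_self]
    cases SS.siC (fun a c => a && c) c L2 <;> simp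
  set s4 := s3.set .T1 [] with e4
  have a5 := r_copy (J := J) (a := .WS) (b := .T1) (t := .F1) (by decide) (by decide)
    (by decide) s4 (by simp [s4, s3, s2, s1, at_set, hF])
  have b5 : s4.at .WS ++ s4.at .T1 = una S := by simp [s4, s3, s2, s1, at_set, h1]
  have c5 : (s4.at .WS).length = S := by simp [s4, s3, s2, s1, at_set, h1]
  rw [b5, c5] at a5
  set s5 := s4.set .T1 (una S) with e5
  have a6 := r_sub (J := J) (u := .WP) (b := .T1) (t := .F1) (by decide) (by decide)
    (by decide) s5 (b + 1) S (by simp [s5, s4, s3, s2, s1, at_set, h2])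
    (by simp [s5, s4, s3, s2, s1, at_set, hF]) (by simp [s5])
  set s6 := s5.set .T1 (una (S - (b + 1))) with e6
  have a7 := r_sub (J := J) (u := .WT) (b := .T1) (t := .F1) (by decide) (by decide)
    (by decide) s6 t (S - (b + 1)) (by simp [s6, s5, s4, s3, s2, s1, at_set, h3])
    (by simp [s6, s5, s4, s3, s2, s1, at_set, hF]) (by simp [s6])
  set s7 := s6.set .T1 (una (S - (b + 1) - t)) with e7
  have a8 := r_movs (J := J) (u := .T1) (t := .F1) (x := .XR) (o := .DR) (by decide)
    (by decide) (by decide) (by decide) (by decide) (by decide) s7 (bits L3) rest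
    (S - (b + 1) - t) (by simp [l3]) (by simp [s7])
    (by simp [s7, s6, s5, s4, s3, s2, s1, at_set, hF])
    (by simp [s7, s6, s5, s4, s3, at_set])
  set s8 := (s7.set .XR rest).set .DR ((bits L3).reverse ++ s7.at .DR) with e8
  have a9 := r_clear (J := J) .T1 s8
  have c9 : (s8.at .T1).length = S - (b + 1) - t := by simp [s8, s7, at_set]
  rw [c9] at a9
  set s9 := s8.set .T1 [] with e9
  have a10 := r_clear (J := J) .DR s9
  have c10 : (s9.at .DR).length = S - (b + 1) - t := by
    simp [s9, s8, s7, s6, s5, s4, s3, s2, at_set, l3]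
  rw [c10] at a10
  refine ((a1.seq (a2.seq (a3.seq (a4.seq (a5.seq (a6.seq (a7.seq (a8.seq (a9.seq
    a10))))))))).mono (by omega)).of_eq ?_
  refine sw_ext (fun j => by simp [s9, s8, s7, s6, s5, s4, s3, s2, s1]) fun r => ?_
  simp only [s9, s8, s7, s6, s5, s4, s3, s2, s1, at_set]
  clear a1 a2 a3 a4 a5 a6 a7 a8 a9 a10
  split_ifs <;> simp_all

/-- The last pass, except for the last reversal. -/
def outL : PW J E := Prog.loop (nonempty (Sum.inr .XR)) outB

theorem outL_spec {t S B' : ℕ} (hB : 1 ≤ B') (hS : t + B' ≤ S) (n : ℕ) : ∀ (e : ℕ → ℕ)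
    (s : SW J E), s.at .F1 = [] → s.at .T1 = [] → s.at .DR = [] → s.at .WS = una S →
    s.at .WP = una B' → s.at .WT = una t →
    s.at .XR = bits (cat n fun k => bitsOf S (e k)) →
    Runs outL s ((s.set .XR []).set .CR
      ((bits (cat n fun k => bitsOf t (rnd S B' t (e k)))).reverse ++ s.at .CR))
      (82 * (n * S)) := by
  induction n with
  | zero =>
    intro e s _ _ _ _ _ _ hX
    have hX' : s.at .XR = [] := by rw [hX]; rfl
    refine ((Runs.loopF (by
      have : s (Sum.inr .XR) = [] := hX'
      simp [this])).of_eq ?_).mono (by omega)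
    refine sw_ext (fun j => by simp) fun r => ?_
    simp only [at_set, cat_zero]
    split_ifs <;> simp_all [bits]
  | succ n ih =>
    intro e s hF hT hD h1 h2 h3 hX
    rw [cat_succ'] at hX
    have hX' : s.at .XR = bits (bitsOf S (e 0)) ++ bits (cat n fun k => bitsOf S (e (k + 1))) := by
      rw [hX]; simp [bits]
    have a1 := outB_spec hB hS hF hT hD h1 h2 h3 hX'
    have a2 := ih (fun k => e (k + 1)) ((s.set .XR (bits (cat n fun k => bitsOf S
      (e (k + 1))))).set .CR ((bits (bitsOf t (rnd S B' t (e 0)))).reverse ++ s.at .CR))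
      (by simp [at_set, hF]) (by simp [at_set, hT]) (by simp [at_set, hD])
      (by simp [at_set, h1]) (by simp [at_set, h2]) (by simp [at_set, h3]) (by simp [at_set])
    have hne : nonempty (Sum.inr W.XR) (tops s) = true := by
      obtain ⟨S', rfl⟩ : ∃ S', S = S' + 1 := ⟨S - 1, by omega⟩
      have : s (Sum.inr .XR) = bits (bitsOf (S' + 1) (e 0)) ++
        bits (cat n fun k => bitsOf (S' + 1) (e (k + 1))) := hX'
      rw [nonempty_tops, this, bitsOf_succ]
      simp [bits]
    refine ((Runs.loopT (c := nonempty (Sum.inr W.XR)) (p := outB) hne a1 a2).mono ?_).of_eq ?_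
    · have : 1 ≤ S := by omega
      nlinarith
    · refine sw_ext (fun j => by simp) fun r => ?_
      rw [cat_succ']
      have e3 : (bits (bitsOf t (rnd S B' t (e 0)) ++ cat n fun k => bitsOf t (rnd S B' t
        (e (k + 1)))) : List (SSym E)).reverse = (bits (cat n fun k => bitsOf t (rnd S B' t
          (e (k + 1))))).reverse ++ (bits (bitsOf t (rnd S B' t (e 0)))).reverse := by
        simp [bits]
      rw [e3]
      clear a1 a2 ih hX hX' e3 hne
      simp only [at_set]
      split_ifs <;> first
        | rfl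
        | exact (List.append_assoc _ _ _).symm

/-- The last pass. -/
def outP : PW J E :=
  outL.seq ((Prog.rev (Sum.inr .CR) (Sum.inr .XR)).seq (Prog.clear (Sum.inr .XI)))

theorem outSpec : OutSpec (outP : PW J E) 100 := by
  intro n t S B' e e' s ht hB hS hs h1 h2 h3 he hX hI
  have hF : s.at .F1 = [] := hs.emp2 .F1 (by decide)
  have hT : s.at .T1 = [] := hs.emp2 .T1 (by decide)
  have hD : s.at .DR = [] := hs.emp2 .DR (by decide)
  have hC : s.at .CR = [] := hs.emp2 .CR (by decide)
  have a1 := outL_spec hB hS n e s hF hT hD h1 h2 h3 hX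
  set s1 := (s.set .XR []).set .CR
    ((bits (cat n fun k => bitsOf t (rnd S B' t (e k)))).reverse ++ s.at .CR) with e1
  have a2 := r_rev (J := J) (a := .CR) (b := .XR) (by decide) s1
  have a3 := r_clear (J := J) .XI ((s1.set .CR []).set .XR ((s1.at .CR).reverse ++ s1.at .XR))
  refine ((a1.seq (a2.seq a3)).mono ?_).of_eq ?_
  · have e1 : (cat n fun k => bitsOf t (rnd S B' t (e k))).length = n * t :=
      length_cat_of fun i _ => by simp
    have e2 : (cat n fun k => bitsOf S (e' k)).length = n * S :=
      length_cat_of fun i _ => by simp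
    have e3 : n * t ≤ n * S := Nat.mul_le_mul_left _ (by omega)
    simp only [s1, at_set, hC, hI]
    simp [e1, e2]
    omega
  · refine sw_ext (fun j => by simp [s1]) fun r => ?_
    clear a1 a2 a3
    simp only [s1, at_set]
    split_ifs <;> simp_all

end Vale.Agent.P338.GS.IO
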