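import Vale.Agent.P338.GS.P3Main
import Vale.Agent.P338.GS.Perm2
import Vale.Agent.P338.GS.Tr
import Vale.Agent.P338.GS.Cf
import Vale.Agent.P338.GS.Exp
import Vale.Agent.P338.GS.KrCv
import Vale.Agent.P338.GS.Cma
import Vale.Agent.P338.GS.Bm
import Vale.Agent.P338.GS.BmPure
import Vale.Agent.P338.GS.PM2
import Vale.Agent.P338.GS.PadRel
import Vale.Agent.P338.GS.PwPass
import Vale.Agent.P338.GS.School
import Vale.Agent.P338.H549.Rep
import Vale.Agent.P338.GS.RootMain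
import Vale.Agent.P338.GS.MCall
import Vale.Agent.P338.GS.TwPass
import Vale.Agent.P338.GS.Ar
import Vale.Agent.P338.GS.Ker
import Vale.Agent.P338.GS.Conv
import Vale.Agent.P338.H921.T2G

/-!
# P338, matrices of every shape: the program for the transposition of words is available,
second form
-/

namespace Vale.Agent.P338.GS

open Vale.Agent.P338

theorem finite_of_list {V : Type} (L : List V) (h : ∀ v, v ∈ L) : Finite V :=
  Set.finite_univ_iff.1 ((List.finite_toSet L).subset fun v _ => h v)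

theorem finite_V1 : Finite V1 :=
  finite_of_list [.xr, .xi, .yr, .yi, .zr, .zi, .n, .g, .l, .m, .t, .a, .b, .c, .d]
    fun v => by cases v <;> decide

theorem finite_V2 : Finite V2 :=
  finite_of_list [.dr, .di, .cr, .ci, .er, .ei, .fr, .fi, .zx, .zr, .zz, .m1, .n1, .n0, .k1,
    .k0, .kk, .n, .g, .l, .m, .t, .a, .b, .c, .d, .e, .f, .h]
    fun v => by cases v <;> decide

theorem finite_V3 : Finite V3 :=
  finite_of_list [.dr, .di, .cr, .ci, .er, .ei, .hx, .hu, .hv, .hz, .ht, .g, .l, .m, .t,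
    .a, .b, .c, .d, .e, .f, .a1, .a2, .a3, .a4, .a5, .a6, .a7, .a8]
    fun v => by cases v <;> decide

theorem avail_lift {ι E : Type} [DecidableEq ι] [Finite ι] [Finite E]
    {p : Prog (ι ⊕ V3) (SSym E)} {Tb Tt : ℕ → ℕ} {C D : ℕ} (h : T3.Perm3G p Tb Tt C)
    (hT : ∀ k, 1 ≤ k → Tt k ≤ D * k ^ 2) : Top.AvailG2 Tb := by
  have := finite_V3
  exact ⟨ι ⊕ V3, E, inferInstance, inferInstance, inferInstance, _, _, T3.perm2_of h hT⟩

theorem avail_lvl {J E : Type} [DecidableEq J] [Finite J] [Finite E] {p : P3 J E}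
    {Tb Tt : ℕ → ℕ} {C D : ℕ} (h : Perm3Spec p Tb Tt C)
    (hT : ∀ k, 1 ≤ k → Tt k ≤ D * k ^ 2) : Top.AvailG2 Tb := by
  have := finite_V1
  have := finite_V2
  have : Finite (Loc J ⊕ W) := inferInstance
  exact avail_lift (ι := ((Loc J ⊕ W) ⊕ V1) ⊕ V2) h hT

theorem availG2_of {Tb : ℕ → ℕ} (h1 : S2.HasCall Tb) : Top.AvailG2 Tb := by
  obtain ⟨J1, E1, _, _, _, c1, C1, h1⟩ := h1
  obtain ⟨J2, E2, _, _, _, c2, C2, h2⟩ := S2.hasCall_school
  obtain ⟨g1, g2⟩ := callFull_two h1 h2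
  have hT : ∀ k : ℕ, 1 ≤ k → (fun m : ℕ => m ^ 2) k ≤ 1 * k ^ 2 := fun k _ => by simp
  have m1 := mcall_spec g1
  have m2 := mcall_spec g2
  have hcm := Ar.cm_spec m2
  have hch := Ps.chirpP_spec hcm
  have htw := Ps.twP_spec hcm
  have hdft := dft_spec hch Ar.cj_spec (Ker.kerSpec hcm) (CV.convSpec m1)
  obtain ⟨Cb, hbm⟩ := Bm.bm_of PR.padSpec IO.inSpec (Root.rootSpec fun m => m ^ 2)
    Ar.cj_spec hdft (Pwp.pwSpec hcm) IO.outSpec PR.relSpec hT BP.bmPure2
  have hcma := cmaSpec hbm El.elSub El.elAdd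
  have hsq := Sq.seqCh IO.inSpec (Root.rootSpec fun m => m ^ 2) Ar.cj_spec hch
  have hst := Sq.seqTw IO.inSpec (Root.rootSpec fun m => m ^ 2) Ar.cj_spec htw
  have hex := H744.expSpec RP.repSpec hcma
  have htr := Tr3.trSpec hex Kc.kr_spec (Kc.cvP (CV.convSpec m1))
  have h3 := T3.perm3_spec PM.permPure2 (Kc.inP IO.inSpec) hsq htr
    (twf_spec hst RP.repSpec hcma) hex (cf_spec hst hsq RP.repSpec hcma)
    (Kc.outP IO.outSpec)
  exact avail_lvl h3 hT

end Vale.Agent.P338.GS
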