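import Vale.Agent.P338.GS.Iface

/-!
# P338, matrices of every shape: stores
-/

namespace Vale.Agent.P338.GS

open Vale.Agent.P338

variable {J E : Type} [DecidableEq J]

/-! ### Changing stores -/

@[simp] theorem at_set_self (s : SW J E) (r : W) (l : List (SSym E)) : (s.set r l).at r = l := by
  simp [SW.at, SW.set]

theorem at_set_ne (s : SW J E) {r q : W} (h : q ≠ r) (l : List (SSym E)) :
    (s.set r l).at q = s.at q := by
  simp [SW.at, SW.set, h]

theorem at_set (s : SW J E) (r q : W) (l : List (SSym E)) :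
    (s.set r l).at q = if q = r then l else s.at q := by
  by_cases h : q = r
  · subst h; simp
  · rw [at_set_ne _ h, if_neg h]

@[simp] theorem set_inl (s : SW J E) (r : W) (l : List (SSym E)) (j : Loc J) :
    s.set r l (Sum.inl j) = s (Sum.inl j) := by
  simp [SW.set]

@[simp] theorem set_set (s : SW J E) (r : W) (l l' : List (SSym E)) :
    (s.set r l).set r l' = s.set r l' := by
  simp [SW.set]

theorem set_comm (s : SW J E) {r q : W} (h : r ≠ q) (l l' : List (SSym E)) :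
    (s.set r l).set q l' = (s.set q l').set r l := by
  unfold SW.set
  exact Function.update_comm (by simpa using h) _ _ _

theorem set_at (s : SW J E) (r : W) : s.set r (s.at r) = s := by
  unfold SW.set SW.at
  exact Function.update_eq_self _ _

theorem set_of_at {s : SW J E} {r : W} {l : List (SSym E)} (h : s.at r = l) : s.set r l = s := by
  rw [← h, set_at]

omit [DecidableEq J] in
/-- Equality of stores. -/
theorem sw_ext {s s' : SW J E} (h : ∀ j, s (Sum.inl j) = s' (Sum.inl j))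
    (h' : ∀ r : W, s.at r = s'.at r) : s = s' := by
  funext k
  rcases k with j | r
  · exact h j
  · exact h' r

/-! ### Clean stores -/

theorem Cln0.set {s : SW J E} (h : Cln0 s) {r : W} (hr : r ∉ asc) (l : List (SSym E)) :
    Cln0 (s.set r l) :=
  ⟨fun j => by rw [set_inl]; exact h.idle j, fun q hq => by
    rw [at_set_ne _ (by rintro rfl; exact hr hq)]; exact h.emp q hq⟩

theorem Cln.set {s : SW J E} (h : Cln s) {r : W} (hr : r ∉ asc ++ psc) (l : List (SSym E)) :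
    Cln (s.set r l) := by
  rw [List.mem_append, not_or] at hr
  exact ⟨h.toCln0.set hr.1 l, fun q hq => by
    rw [at_set_ne _ (by rintro rfl; exact hr.2 hq)]; exact h.emp2 q hq⟩

/-- Stacks that do not belong to the environment. -/
def envL : List W := asc ++ psc ++ [W.HX, .HR, .HZ, .WS, .WB, .PR, .PI]

theorem Env.set {s : SW J E} {X r Z S B : ℕ} {ρ : ℕ × ℕ} (h : Env s X r Z S B ρ) {q : W}
    (hq : q ∉ envL) (l : List (SSym E)) : Env (s.set q l) X r Z S B ρ := by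
  have h1 : q ∉ asc ++ psc ∧ q ∉ [W.HX, .HR, .HZ, .WS, .WB, .PR, .PI] := by
    simpa [envL, not_or, and_assoc] using hq
  have h2 := h1.2
  simp only [List.mem_cons, List.not_mem_nil, or_false, not_or] at h2
  obtain ⟨a1, a2, a3, a4, a5, a6, a7⟩ := h2
  exact ⟨h.toCln.set h1.1 l, by rw [at_set_ne _ (Ne.symm a1)]; exact h.hx,
    by rw [at_set_ne _ (Ne.symm a2)]; exact h.hr, by rw [at_set_ne _ (Ne.symm a3)]; exact h.hz,
    by rw [at_set_ne _ (Ne.symm a4)]; exact h.ws, by rw [at_set_ne _ (Ne.symm a5)]; exact h.wb,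
    by rw [at_set_ne _ (Ne.symm a6)]; exact h.pr, by rw [at_set_ne _ (Ne.symm a7)]; exact h.pi⟩

/-- Change of the root. -/
theorem Env.setPI {s : SW J E} {X r Z S B : ℕ} {ρ : ℕ × ℕ} (h : Env s X r Z S B ρ) (y : ℕ) :
    Env (s.set .PI (wd S y)) X r Z S B (ρ.1, y) :=
  ⟨h.toCln.set (by decide) _, by rw [at_set_ne _ (by decide)]; exact h.hx,
    by rw [at_set_ne _ (by decide)]; exact h.hr, by rw [at_set_ne _ (by decide)]; exact h.hz,
    by rw [at_set_ne _ (by decide)]; exact h.ws, by rw [at_set_ne _ (by decide)]; exact h.wb,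
    by rw [at_set_ne _ (by decide)]; exact h.pr, at_set_self ..⟩

/-! ### Residues -/

theorem sbR_lt (S x y : ℕ) : sbR S x y < 2 ^ S := Nat.mod_lt _ (by positivity)

theorem adR_lt (S x y : ℕ) : adR S x y < 2 ^ S := Nat.mod_lt _ (by positivity)

theorem muR_lt (S x y : ℕ) : muR S x y < 2 ^ S := Nat.mod_lt _ (by positivity)

theorem asr_lt {S B x : ℕ} (hS : B ≤ S) (hx : x < 2 ^ S) : asr S B x < 2 ^ S := by
  unfold asr
  have e1 : 2 ^ S = 2 ^ (S - B) * 2 ^ B := by rw [← pow_add]; congr 1; omega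
  have h1 : x / 2 ^ B < 2 ^ (S - B) := by
    rw [Nat.div_lt_iff_lt_mul (by positivity), ← e1]; exact hx
  have h2 : 2 ^ (S - B) ≤ 2 ^ S := Nat.pow_le_pow_right (by norm_num) (by omega)
  split_ifs
  · omega
  · omega

theorem cmR_lt {S B : ℕ} (hS : B ≤ S) (x y : ℕ × ℕ) :
    (cmR S B x y).1 < 2 ^ S ∧ (cmR S B x y).2 < 2 ^ S :=
  ⟨asr_lt hS (sbR_lt ..), asr_lt hS (adR_lt ..)⟩

theorem cvC_lt {S B : ℕ} (hS : B ≤ S) (r : ℕ) (κ a : ℕ → ℕ × ℕ) (k : ℕ) :
    (cvC S B r κ a k).1 < 2 ^ S ∧ (cvC S B r κ a k).2 < 2 ^ S :=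
  ⟨asr_lt hS (sbR_lt ..), asr_lt hS (adR_lt ..)⟩

theorem dft_lt {S B : ℕ} (hS : B ≤ S) (r : ℕ) (ρ : ℕ × ℕ) (a : ℕ → ℕ × ℕ) (k : ℕ) :
    (dft S B r ρ a k).1 < 2 ^ S ∧ (dft S B r ρ a k).2 < 2 ^ S := cmR_lt hS _ _

theorem sbR_sbR {S x : ℕ} (hx : x < 2 ^ S) : sbR S 0 (sbR S 0 x) = x := by
  unfold sbR
  rw [Nat.zero_add, Nat.zero_add, Nat.mod_eq_of_lt hx, Nat.mod_mod]
  rcases Nat.eq_zero_or_pos x with rfl | h
  · simp
  · rw [Nat.mod_eq_of_lt (show 2 ^ S - x < 2 ^ S by omega)]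
    rw [show 2 ^ S - (2 ^ S - x) = x by omega, Nat.mod_eq_of_lt hx]

theorem chs_lt {S B : ℕ} (hS : B < S) {ρ : ℕ × ℕ} (h1 : ρ.1 < 2 ^ S) (h2 : ρ.2 < 2 ^ S)
    (k : ℕ) : ((chs S B ρ k).1.1 < 2 ^ S ∧ (chs S B ρ k).1.2 < 2 ^ S) ∧
      (chs S B ρ k).2.1 < 2 ^ S ∧ (chs S B ρ k).2.2 < 2 ^ S := by
  cases k with
  | zero => exact ⟨⟨Nat.pow_lt_pow_right (by norm_num) hS, by simp [chs]⟩, h1, h2⟩
  | succ k => exact ⟨cmR_lt hS.le _ _, cmR_lt hS.le _ _⟩

theorem ch_lt {S B : ℕ} (hS : B < S) {ρ : ℕ × ℕ} (h1 : ρ.1 < 2 ^ S) (h2 : ρ.2 < 2 ^ S)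
    (k : ℕ) : (ch S B ρ k).1 < 2 ^ S ∧ (ch S B ρ k).2 < 2 ^ S := (chs_lt hS h1 h2 k).1

theorem rt_le (B k : ℕ) : (rt B k).1 ≤ 2 ^ B ∧ (rt B k).2 ≤ 2 ^ B := by
  induction k with
  | zero => exact ⟨Nat.zero_le _, le_rfl⟩
  | succ k ih =>
    have key : ∀ a : ℕ, a ≤ 2 * 2 ^ B → Nat.sqrt (a * 2 ^ (B - 1)) ≤ 2 ^ B := by
      intro a ha
      have h1 : a * 2 ^ (B - 1) < (2 ^ B + 1) * (2 ^ B + 1) := by
        have h2 : a * 2 ^ (B - 1) ≤ 2 * 2 ^ B * 2 ^ (B - 1) := Nat.mul_le_mul_right _ ha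
        have h3 : 2 * 2 ^ B * 2 ^ (B - 1) ≤ 2 * (2 ^ B * 2 ^ B) := by
          have : 2 ^ (B - 1) ≤ 2 ^ B := Nat.pow_le_pow_right (by norm_num) (by omega)
          calc 2 * 2 ^ B * 2 ^ (B - 1) ≤ 2 * 2 ^ B * 2 ^ B := Nat.mul_le_mul_left _ this
            _ = _ := by ring
        rcases Nat.eq_zero_or_pos B with rfl | hB
        · simp at h2 ⊢; omega
        · have e : 2 ^ B = 2 * 2 ^ (B - 1) := by rw [← pow_succ']; congr 1; omega
          calc a * 2 ^ (B - 1) ≤ 2 * 2 ^ B * 2 ^ (B - 1) := h2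
            _ = 2 ^ B * 2 ^ B := by
              rw [show 2 * 2 ^ B * 2 ^ (B - 1) = 2 ^ B * (2 * 2 ^ (B - 1)) by ring, ← e]
            _ < (2 ^ B + 1) * (2 ^ B + 1) := by nlinarith [Nat.one_le_two_pow (n := B)]
      have h4 := Nat.sqrt_lt.2 h1
      omega
    exact ⟨key _ (by have := ih.1; omega), key _ (by omega)⟩

/-! ### The data -/

theorem arr3_congr {X r Z S : ℕ} {e e' : ℕ → ℕ → ℕ → ℕ}
    (h : ∀ x < X, ∀ i < r, ∀ z < Z, e x i z = e' x i z) : arr3 X r Z S e = arr3 X r Z S e' :=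
  cat_congr fun x hx => cat_congr fun i hi => cat_congr fun z hz => by rw [h x hx i hi z hz]

theorem arr4_congr {X M N Z S : ℕ} {e e' : ℕ → ℕ → ℕ → ℕ → ℕ}
    (h : ∀ x < X, ∀ i < M, ∀ j < N, ∀ z < Z, e x i j z = e' x i j z) :
    arr4 X M N Z S e = arr4 X M N Z S e' :=
  cat_congr fun x hx => cat_congr fun i hi => cat_congr fun j hj => cat_congr fun z hz => by
    rw [h x hx i hi j hj z hz]

/-- The digits `x`, `i` as one digit. -/
theorem arr4_in (X M N Z S : ℕ) (e : ℕ → ℕ → ℕ → ℕ → ℕ) :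
    arr4 X M N Z S e = arr3 (X * M) N Z S fun k j z => e (k / M) (k % M) j z := by
  unfold arr4 arr3
  rw [cat_mul]
  refine cat_congr fun x _ => cat_congr fun i hi => ?_
  have e1 : (x * M + i) / M = x := by
    rw [Nat.mul_comm, Nat.mul_add_div (by omega), Nat.div_eq_of_lt hi, Nat.add_zero]
  have e2 : (x * M + i) % M = i := by
    rw [Nat.mul_comm, Nat.mul_add_mod, Nat.mod_eq_of_lt hi]
  simp only [e1, e2]

/-- The digits `j`, `z` as one digit. -/
theorem arr4_out (X M N Z S : ℕ) (e : ℕ → ℕ → ℕ → ℕ → ℕ) :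
    arr4 X M N Z S e = arr3 X M (N * Z) S fun x i k => e x i (k / Z) (k % Z) := by
  unfold arr4 arr3
  refine cat_congr fun x _ => cat_congr fun i _ => ?_
  rw [cat_mul]
  refine cat_congr fun j _ => cat_congr fun z hz => ?_
  have e1 : (j * Z + z) / Z = j := by
    rw [Nat.mul_comm, Nat.mul_add_div (by omega), Nat.div_eq_of_lt hz, Nat.add_zero]
  have e2 : (j * Z + z) % Z = z := by
    rw [Nat.mul_comm, Nat.mul_add_mod, Nat.mod_eq_of_lt hz]
  simp only [e1, e2]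

/-- The digits `i`, `j` as one digit. -/
theorem arr4_mid (X M N Z S : ℕ) (e : ℕ → ℕ → ℕ → ℕ → ℕ) :
    arr4 X M N Z S e = arr3 X (M * N) Z S fun x k z => e x (k / N) (k % N) z := by
  unfold arr4 arr3
  refine cat_congr fun x _ => ?_
  rw [cat_mul]
  refine cat_congr fun i _ => cat_congr fun j hj => ?_
  have e1 : (i * N + j) / N = i := by
    rw [Nat.mul_comm, Nat.mul_add_div (by omega), Nat.div_eq_of_lt hj, Nat.add_zero]
  have e2 : (i * N + j) % N = j := by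
    rw [Nat.mul_comm, Nat.mul_add_mod, Nat.mod_eq_of_lt hj]
  simp only [e1, e2]

/-- All digits as one digit. -/
theorem arr4_flat (X M N Z S : ℕ) (e : ℕ → ℕ → ℕ → ℕ → ℕ) :
    arr4 X M N Z S e = cat (X * M * N * Z) fun k =>
      bitsOf S (e (k / Z / N / M) (k / Z / N % M) (k / Z % N) (k % Z)) := by
  rw [arr4_in]
  unfold arr3
  rw [cat_mul (X * M * N), cat_mul (X * M)]
  refine cat_congr fun y _ => cat_congr fun j hj => cat_congr fun z hz => ?_
  have e1 : ((y * N + j) * Z + z) / Z = y * N + j := by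
    rw [Nat.mul_comm, Nat.mul_add_div (by omega), Nat.div_eq_of_lt hz, Nat.add_zero]
  have e2 : ((y * N + j) * Z + z) % Z = z := by
    rw [Nat.mul_comm, Nat.mul_add_mod, Nat.mod_eq_of_lt hz]
  have e3 : (y * N + j) / N = y := by
    rw [Nat.mul_comm, Nat.mul_add_div (by omega), Nat.div_eq_of_lt hj, Nat.add_zero]
  have e4 : (y * N + j) % N = j := by
    rw [Nat.mul_comm, Nat.mul_add_mod, Nat.mod_eq_of_lt hj]
  rw [e1, e2, e3, e4]

end Vale.Agent.P338.GS
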