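import Vale.Agent.P338.GS.Iface2

/-!
# P338, stage 5: the product of two words from the products of their chunks
-/

namespace Vale.Agent.P338.GS.Bm

open Vale.Agent.P338 Vale.Agent.P338.GS Finset

/-- A number is the sum of its digits. -/
theorem sum_digits (g x n : ℕ) :
    ∑ i ∈ range n, (x / 2 ^ (g * i) % 2 ^ g) * 2 ^ (g * i) = x % 2 ^ (g * n) := by
  induction n with
  | zero => simp [Nat.mod_one]
  | succ n ih =>
    rw [sum_range_succ, ih, Nat.mul_succ, pow_add, Nat.mod_mul]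
    ring

theorem chk_sum {g x : ℕ} (hx : x < 2 ^ wS g) :
    ∑ i ∈ range (2 ^ (g + 5)), chk g x i * 2 ^ (g * i) = x := by
  have h1 : ∑ i ∈ range (2 ^ (g + 5)), chk g x i * 2 ^ (g * i) =
      ∑ i ∈ range (2 ^ (g + 5)), (x / 2 ^ (g * i) % 2 ^ g) * 2 ^ (g * i) := by
    refine sum_congr rfl fun i hi => ?_
    unfold chk
    rw [if_pos (mem_range.mp hi)]
  rw [h1, sum_digits, Nat.mod_eq_of_lt]
  rwa [Nat.mul_comm]

/-- The product modulo `2 ^ (g * n)`. -/
theorem conv_mod (g n : ℕ) (a b : ℕ → ℕ) :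
    (∑ t ∈ range n, (∑ i ∈ range (t + 1), a i * b (t - i)) * 2 ^ (g * t)) % 2 ^ (g * n) =
      ((∑ i ∈ range n, a i * 2 ^ (g * i)) * (∑ j ∈ range n, b j * 2 ^ (g * j))) %
        2 ^ (g * n) := by
  have h1 : ∑ t ∈ range n, (∑ i ∈ range (t + 1), a i * b (t - i)) * 2 ^ (g * t) =
      ∑ t ∈ range n, ∑ i ∈ range (t + 1), (fun i j => a i * b j * 2 ^ (g * (i + j))) i (t - i) := by
    refine sum_congr rfl fun t _ => ?_
    rw [sum_mul]
    refine sum_congr rfl fun i hi => ?_
    rw [mem_range] at hi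
    show _ = a i * b (t - i) * 2 ^ (g * (i + (t - i)))
    rw [Nat.add_sub_cancel' (by omega)]
  rw [h1, sum_range_diag_flip n (fun i j => a i * b j * 2 ^ (g * (i + j))), sum_mul]
  refine Nat.ModEq.sum fun i hi => ?_
  rw [mem_range] at hi
  rw [mul_sum]
  have h2 : ∑ j ∈ range n, a i * 2 ^ (g * i) * (b j * 2 ^ (g * j)) =
      ∑ j ∈ range (n - i), a i * b j * 2 ^ (g * (i + j)) +
        ∑ j ∈ range i, a i * b (n - i + j) * 2 ^ (g * j) * 2 ^ (g * n) := by
    have h3 : n = (n - i) + i := by omega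
    conv_lhs => rw [h3]
    rw [sum_range_add]
    congr 1
    · refine sum_congr rfl fun j _ => ?_
      rw [Nat.mul_add, pow_add]
      ring
    · refine sum_congr rfl fun j _ => ?_
      have h4 : g * i + g * (n - i + j) = g * j + g * n := by
        rw [← Nat.mul_add, ← Nat.mul_add]; congr 1; omega
      calc a i * 2 ^ (g * i) * (b (n - i + j) * 2 ^ (g * (n - i + j)))
          = a i * b (n - i + j) * 2 ^ (g * i + g * (n - i + j)) := by rw [pow_add]; ring
        _ = _ := by rw [h4, pow_add]; ring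
  rw [h2, ← sum_mul]
  exact (Nat.add_mul_mod_self_right _ _ _).symm

/-- The exact product of words from the exact coefficients. -/
theorem bmPure2_of (h : BmPure) : BmPure2 := by
  intro g x y hg hx hy
  have h1 : ∑ t ∈ range (2 ^ (g + 5)), czt g x y t * 2 ^ (g * t) =
      ∑ t ∈ range (2 ^ (g + 5)),
        (∑ i ∈ range (t + 1), chk g x i * chk g y (t - i)) * 2 ^ (g * t) := by
    refine sum_congr rfl fun t ht => ?_
    rw [mem_range] at ht
    rw [h g x y hg hx hy t (lt_of_lt_of_le ht (Nat.pow_le_pow_right (by norm_num) (by omega)))]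
  have h2 : wS g = g * 2 ^ (g + 5) := Nat.mul_comm ..
  have h3 := conv_mod g (2 ^ (g + 5)) (chk g x) (chk g y)
  rw [chk_sum hx, chk_sum hy, ← h2] at h3
  rw [h1]
  exact h3

end Vale.Agent.P338.GS.Bm
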