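import Vale.Agent.P338.GS.BmV

/-!
# P338, stage 5: products of many words, commands and data
-/

namespace Vale.Agent.P338.GS.Bm

open Vale.Agent.P338 Vale.Agent.P338.GS

variable {J E : Type}

/-! ### Data -/

theorem bitsOf_chunks (k L x : ℕ) : bitsOf (k * L) x = cat k fun i => bitsOf L (x / 2 ^ (L * i)) := by
  induction k with
  | zero => simp
  | succ k ih =>
    rw [Nat.succ_mul, bitsOf_add, ih, cat_succ, Nat.mul_comm L k]

theorem pad_list {n g : ℕ} (x : ℕ → ℕ) :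
    (cat n fun q => bitsOf (wS g) (x q) ++ List.replicate (wS g) false) =
      cat (n * 2 ^ (g + 6)) fun k => bitsOf g (chk g (x (k / 2 ^ (g + 6))) (k % 2 ^ (g + 6))) := by
  rw [cat_mul]
  refine cat_congr fun q _ => ?_
  have e : 2 ^ (g + 6) = 2 ^ (g + 5) + 2 ^ (g + 5) := by ring
  have e1 : ∀ i < 2 ^ (g + 6), (q * 2 ^ (g + 6) + i) / 2 ^ (g + 6) = q := by
    intro i hi
    rw [Nat.mul_comm, Nat.mul_add_div (by positivity), Nat.div_eq_of_lt hi, Nat.add_zero]
  have e2 : ∀ i < 2 ^ (g + 6), (q * 2 ^ (g + 6) + i) % 2 ^ (g + 6) = i := by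
    intro i hi
    rw [Nat.mul_comm, Nat.mul_add_mod, Nat.mod_eq_of_lt hi]
  have e3 : (cat (2 ^ (g + 6)) fun j => bitsOf g (chk g (x ((q * 2 ^ (g + 6) + j) / 2 ^ (g + 6)))
      ((q * 2 ^ (g + 6) + j) % 2 ^ (g + 6)))) =
      cat (2 ^ (g + 6)) fun j => bitsOf g (chk g (x q) j) :=
    cat_congr fun j hj => by rw [e1 j hj, e2 j hj]
  rw [e3, e, cat_add]
  congr 1
  · unfold wS
    rw [bitsOf_chunks]
    refine cat_congr fun i hi => ?_
    unfold chk
    rw [if_pos hi, bitsOf_mod]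
  · unfold wS
    rw [← cat_replicate]
    refine cat_congr fun i _ => ?_
    unfold chk
    rw [if_neg (by omega), bitsOf_zero]

theorem arr3_one (X r S : ℕ) (f : ℕ → ℕ → ℕ) :
    arr3 X r 1 S (fun x i _ => f x i) = cat (X * r) fun k => bitsOf S (f (k / r) (k % r)) := by
  rw [cat_mul]
  unfold arr3
  refine cat_congr fun x _ => cat_congr fun i hi => ?_
  rw [cat_one]
  have e3 : (x * r + i) / r = x := by
    rw [Nat.mul_comm, Nat.mul_add_div (by omega), Nat.div_eq_of_lt hi, Nat.add_zero]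
  have e4 : (x * r + i) % r = i := by
    rw [Nat.mul_comm, Nat.mul_add_mod, Nat.mod_eq_of_lt hi]
  rw [e3, e4]

/-! ### Commands -/

/-- Parameters. -/
def cB0a : List (GC E) :=
  [.cp .UU .N6, .push .N6 mk, .push .N6 mk, .push .N6 mk, .push .N6 mk, .push .N6 mk,
    .push .N6 mk, .push .HZ mk]

/-- Parameters. -/
def cB0b : List (GC E) :=
  [.cp .UU .N7, .push .N7 mk, .push .N7 mk, .push .N7 mk, .push .N7 mk,
    .push .N7 mk, .pw2 .N7 .HM, .clr .N7, .pw2 .N6 .HR]

/-- Parameters. -/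
def cB0c : List (GC E) :=
  [.mul .HM .UU .WS, .rev .N1 .Q1, .rev .Q1 .N3, .rev .N2 .Q1, .rev .Q1 .N1]

/-- After the first padding. -/
def cB1 : List (GC E) :=
  [.clr .WS, .scl 64 .N6 .WS, .scl 20 .N6 .WB, .cp .WB .WP, .cp .N6 .WP, .cp .UU .WT]

/-- Before the root. -/
def cB2 : List (GC E) :=
  [.cp .UU .F1, .push .F1 mk, .push .F1 mk, .push .F1 mk, .push .F1 mk, .push .F1 mk]

/-- After the first transform. -/
def cB3 : List (GC E) :=
  [.rev .XR .Q1, .rev .Q1 .N4, .rev .XI .Q1, .rev .Q1 .N5, .rev .N3 .Q1, .rev .Q1 .N1,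
    .clr .WS, .mul .HM .UU .WS]

/-- After the second padding. -/
def cB4 : List (GC E) := [.clr .WS, .scl 64 .N6 .WS]

/-- Before the last pass. -/
def cB5 : List (GC E) := [.clr .WT, .scl 3 .N6 .WT]

/-- At the end. -/
def cB6 : List (GC E) :=
  [.clr .HX, .clr .HR, .clr .HZ, .clr .HM, .clr .WS, .clr .WB, .clr .WP, .clr .WT, .clr .UU,
    .clr .MM, .clr .PR, .clr .PI, .clr .N6]

@[simp] theorem cons_una (n : ℕ) : (mk :: una n : List (SSym E)) = una (n + 1) := rfl

@[simp] theorem cons_nil_una : ([mk] : List (SSym E)) = una 1 := rfl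

variable [DecidableEq J]

section

variable (p : BV E)

omit [DecidableEq J] in
@[simp] theorem BV.at_F4 : (p.st : SW J E).at .F4 = [] := rfl
omit [DecidableEq J] in
@[simp] theorem BV.at_F5 : (p.st : SW J E).at .F5 = [] := rfl
omit [DecidableEq J] in
@[simp] theorem BV.at_F6 : (p.st : SW J E).at .F6 = [] := rfl

end

/-- The contents during the computation. -/
def bs (n g m : ℕ) (xr xi ws wb wp wt pr pi f1 n1 n3 n4 n5 : List (SSym E)) : BV E :=
  { xr := xr, xi := xi, hx := una n, hr := una (2 ^ (g + 6)), hz := una 1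
    hm := una (2 ^ (g + 5)), ws := ws, wb := wb, wp := wp, wt := wt, uu := una g, mm := una m
    pr := pr, pi := pi, f1 := f1, n1 := n1, n3 := n3, n4 := n4, n5 := n5, n6 := una (g + 6) }

theorem cB0a_runs (n g m : ℕ) (x y : List (SSym E)) :
    Runs (gcs cB0a : PW J E)
      (({ hx := una n, uu := una g, mm := una m, n1 := x, n2 := y } : BV E).st)
      (({ hx := una n, uu := una g, mm := una m, n1 := x, n2 := y, n6 := una (g + 6)
          hz := una 1 } : BV E).st) (6 * g + 20) := by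
  have h := gcs_spec (cB0a : List (GC E))
    (({ hx := una n, uu := una g, mm := una m, n1 := x, n2 := y } : BV E).st : SW J E) (by
    simp [cB0a, goks, GC.ok, GC.eff])
  refine (h.mono ?_).of_eq ?_
  · simp only [cB0a, gcosts, GC.cost, GC.eff, BV.set_N6, BV.at_N6, BV.at_HZ, BV.set_HZ,
      BV.at_UU, len_una, List.append_nil, cons_una, cons_nil_una]
    omega
  · simp only [cB0a, geffs, GC.eff, BV.set_N6, BV.at_N6, BV.set_HZ, BV.at_HZ, BV.at_UU,
      List.append_nil, cons_una, cons_nil_una]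

theorem cB0b_runs (n g m : ℕ) (x y : List (SSym E)) :
    Runs (gcs cB0b : PW J E)
      (({ hx := una n, uu := una g, mm := una m, n1 := x, n2 := y, n6 := una (g + 6)
          hz := una 1 } : BV E).st)
      (({ hx := una n, uu := una g, mm := una m, n1 := x, n2 := y, n6 := una (g + 6)
          hz := una 1, hm := una (2 ^ (g + 5)), hr := una (2 ^ (g + 6)) } : BV E).st)
      (200 * 2 ^ (g + 5)) := by
  have h := gcs_spec (cB0b : List (GC E))
    (({ hx := una n, uu := una g, mm := una m, n1 := x, n2 := y, n6 := una (g + 6)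
        hz := una 1 } : BV E).st : SW J E) (by
    simp [cB0b, goks, GC.ok, GC.eff])
  refine (h.mono ?_).of_eq ?_
  · simp only [cB0b, gcosts, GC.cost, GC.eff, BV.set_N7, BV.at_N7, BV.at_N6,
      BV.set_HM, BV.at_UU, len_una, List.append_nil, cons_una]
    have e1 : 2 ^ (g + 1 + 1 + 1 + 1 + 1) = 2 ^ (g + 5) := rfl
    have e2 : 2 ^ (g + 6) = 2 * 2 ^ (g + 5) := by ring
    have e3 : g + 5 < 2 ^ (g + 5) := Nat.lt_two_pow_self
    have e4 : 2 ^ 6 ≤ 2 ^ (g + 6) := Nat.pow_le_pow_right (by norm_num) (by omega)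
    rw [e1]
    omega
  · simp only [cB0b, geffs, GC.eff, BV.set_N7, BV.at_N7, BV.at_N6, BV.set_HR,
      BV.set_HM, BV.at_UU, len_una, List.append_nil, cons_una]

theorem cB0c_runs (n g m : ℕ) (x y : List (SSym E)) :
    Runs (gcs cB0c : PW J E)
      (({ hx := una n, uu := una g, mm := una m, n1 := x, n2 := y, n6 := una (g + 6)
          hz := una 1, hm := una (2 ^ (g + 5)), hr := una (2 ^ (g + 6)) } : BV E).st)
      ((bs n g m [] [] (una (wS g)) [] [] [] [] [] [] y x [] []).st)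
      (18 * (2 ^ (g + 5) * (g + 1)) + 6 * x.length + 6 * y.length + 10) := by
  have h := gcs_spec (cB0c : List (GC E))
    (({ hx := una n, uu := una g, mm := una m, n1 := x, n2 := y, n6 := una (g + 6)
        hz := una 1, hm := una (2 ^ (g + 5)), hr := una (2 ^ (g + 6)) } : BV E).st : SW J E) (by
    simp [cB0c, goks, GC.ok, GC.eff])
  refine (h.mono ?_).of_eq ?_
  · simp only [cB0c, gcosts, GC.cost, GC.eff, BV.set_WS, BV.at_WS, BV.set_Q1, BV.at_Q1,
      BV.set_N1, BV.at_N1, BV.set_N2, BV.at_N2, BV.set_N3, BV.at_N3,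
      BV.at_HM, BV.at_UU, len_una, List.append_nil, List.length_reverse]
    have e5 : 2 ^ (g + 5) * (g * 10 + 8) ≤ 18 * (2 ^ (g + 5) * (g + 1)) := by
      have : g * 10 + 8 ≤ 18 * (g + 1) := by omega
      calc 2 ^ (g + 5) * (g * 10 + 8) ≤ 2 ^ (g + 5) * (18 * (g + 1)) := Nat.mul_le_mul_left _ this
        _ = _ := by ring
    omega
  · simp only [cB0c, geffs, GC.eff, BV.set_WS, BV.at_WS, BV.set_Q1, BV.at_Q1,
      BV.set_N1, BV.at_N1, BV.set_N2, BV.at_N2, BV.set_N3, BV.at_N3,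
      BV.at_HM, BV.at_UU, len_una, List.append_nil, List.reverse_reverse]
    rfl

section

variable (n g m : ℕ) (xr xi ws wb wp wt pr pi f1 n1 n3 n4 n5 : List (SSym E))

theorem cB1_runs :
    Runs (gcs cB1 : PW J E)
      ((bs n g m xr xi (una (wS g)) [] [] [] pr pi f1 n1 n3 n4 n5).st)
      ((bs n g m xr xi (una (64 * (g + 6))) (una (20 * (g + 6)))
        (una (20 * (g + 6) + (g + 6))) (una g) pr pi f1 n1 n3 n4 n5).st)
      (3 * wS g + 400 * (g + 6)) := by
  have h := gcs_spec (cB1 : List (GC E))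
    ((bs n g m xr xi (una (wS g)) [] [] [] pr pi f1 n1 n3 n4 n5).st : SW J E) (by
    simp [cB1, goks, GC.ok, GC.eff, bs])
  refine (h.mono ?_).of_eq ?_
  · simp only [cB1, bs, gcosts, GC.cost, GC.eff, BV.set_WS, BV.at_WS, BV.set_WB, BV.at_WB,
      BV.set_WP, BV.at_WP, BV.at_N6, BV.at_UU, len_una, List.append_nil]
    omega
  · simp only [cB1, bs, geffs, GC.eff, BV.set_WS, BV.at_WS, BV.set_WB, BV.at_WB,
      BV.set_WP, BV.at_WP, BV.set_WT, BV.at_WT, BV.at_N6, BV.at_UU, len_una, List.append_nil,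
      una_app]
    congr 2
    · rw [Nat.mul_comm]
    · rw [Nat.mul_comm]
    · congr 1
      ring

theorem cB2_runs :
    Runs (gcs cB2 : PW J E)
      ((bs n g m xr xi ws wb wp wt pr pi [] n1 n3 n4 n5).st)
      ((bs n g m xr xi ws wb wp wt pr pi (una (g + 5)) n1 n3 n4 n5).st) (6 * g + 20) := by
  have h := gcs_spec (cB2 : List (GC E))
    ((bs n g m xr xi ws wb wp wt pr pi [] n1 n3 n4 n5).st : SW J E) (by
    simp [cB2, goks, GC.ok, GC.eff, bs])
  refine (h.mono ?_).of_eq ?_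
  · simp only [cB2, bs, gcosts, GC.cost, BV.at_UU, len_una]
    omega
  · simp only [cB2, bs, geffs, GC.eff, BV.set_F1, BV.at_F1, BV.at_UU, List.append_nil, cons_una]

theorem cB3_runs :
    Runs (gcs cB3 : PW J E)
      ((bs n g m xr xi (una (64 * (g + 6))) wb wp wt pr pi f1 [] n3 [] []).st)
      ((bs n g m [] [] (una (wS g)) wb wp wt pr pi f1 n3 [] xr xi).st)
      (6 * xr.length + 6 * xi.length + 6 * n3.length + 192 * (g + 6) +
        18 * (2 ^ (g + 5) * (g + 1)) + 20) := by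
  have h := gcs_spec (cB3 : List (GC E))
    ((bs n g m xr xi (una (64 * (g + 6))) wb wp wt pr pi f1 [] n3 [] []).st : SW J E) (by
    simp [cB3, goks, GC.ok, GC.eff, bs])
  refine (h.mono ?_).of_eq ?_
  · simp only [cB3, bs, gcosts, GC.cost, GC.eff, BV.set_WS, BV.at_WS, BV.set_Q1, BV.at_Q1,
      BV.set_N1, BV.at_N1, BV.set_N4, BV.at_N4, BV.set_N3, BV.at_N3, BV.set_N5, BV.at_N5,
      BV.set_XR, BV.at_XR, BV.set_XI, BV.at_XI,
      BV.at_HM, BV.at_UU, len_una, List.append_nil, List.length_reverse]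
    have e5 : 2 ^ (g + 5) * (g * 10 + 8) ≤ 18 * (2 ^ (g + 5) * (g + 1)) := by
      have : g * 10 + 8 ≤ 18 * (g + 1) := by omega
      calc 2 ^ (g + 5) * (g * 10 + 8) ≤ 2 ^ (g + 5) * (18 * (g + 1)) := Nat.mul_le_mul_left _ this
        _ = _ := by ring
    omega
  · simp only [cB3, bs, geffs, GC.eff, BV.set_WS, BV.at_WS, BV.set_Q1, BV.at_Q1,
      BV.set_N1, BV.at_N1, BV.set_N4, BV.at_N4, BV.set_N3, BV.at_N3, BV.set_N5, BV.at_N5,
      BV.set_XR, BV.at_XR, BV.set_XI, BV.at_XI,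
      BV.at_HM, BV.at_UU, len_una, List.append_nil, List.reverse_reverse]
    rfl

theorem cB4_runs :
    Runs (gcs cB4 : PW J E)
      ((bs n g m xr xi (una (wS g)) wb wp wt pr pi f1 n1 n3 n4 n5).st)
      ((bs n g m xr xi (una (64 * (g + 6))) wb wp wt pr pi f1 n1 n3 n4 n5).st)
      (3 * wS g + 140 * (g + 6)) := by
  have h := gcs_spec (cB4 : List (GC E))
    ((bs n g m xr xi (una (wS g)) wb wp wt pr pi f1 n1 n3 n4 n5).st : SW J E) (by
    simp [cB4, goks, GC.ok, GC.eff, bs])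
  refine (h.mono ?_).of_eq ?_
  · simp only [cB4, bs, gcosts, GC.cost, GC.eff, BV.set_WS, BV.at_WS, BV.at_N6, len_una]
    omega
  · simp only [cB4, bs, geffs, GC.eff, BV.set_WS, BV.at_WS, BV.at_N6, len_una, List.append_nil]
    congr 2
    rw [Nat.mul_comm]

theorem cB5_runs :
    Runs (gcs cB5 : PW J E)
      ((bs n g m xr xi ws wb wp (una g) pr pi f1 n1 n3 n4 n5).st)
      ((bs n g m xr xi ws wb wp (una (3 * (g + 6))) pr pi f1 n1 n3 n4 n5).st)
      (20 * (g + 6)) := by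
  have h := gcs_spec (cB5 : List (GC E))
    ((bs n g m xr xi ws wb wp (una g) pr pi f1 n1 n3 n4 n5).st : SW J E) (by
    simp [cB5, goks, GC.ok, GC.eff, bs])
  refine (h.mono ?_).of_eq ?_
  · simp only [cB5, bs, gcosts, GC.cost, GC.eff, BV.set_WT, BV.at_WT, BV.at_N6, len_una]
    omega
  · simp only [cB5, bs, geffs, GC.eff, BV.set_WT, BV.at_WT, BV.at_N6, len_una, List.append_nil]
    congr 2
    rw [Nat.mul_comm]

theorem cB6_runs :
    Runs (gcs cB6 : PW J E)
      ((bs n g m [] [] ws wb wp wt pr pi [] [] n3 [] []).st)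
      (({ n3 := n3 } : BV E).st)
      (3 * n + 6 * 2 ^ (g + 6) + 3 * ws.length + 3 * wb.length + 3 * wp.length +
        3 * wt.length + 3 * g + 3 * m + 3 * pr.length + 3 * pi.length + 3 * (g + 6) + 20) := by
  have h := gcs_spec (cB6 : List (GC E))
    ((bs n g m [] [] ws wb wp wt pr pi [] [] n3 [] []).st : SW J E) (by
    simp [cB6, goks, GC.ok])
  refine (h.mono ?_).of_eq ?_
  · simp only [cB6, bs, gcosts, GC.cost, GC.eff, BV.set_HX, BV.at_HX, BV.set_HR, BV.at_HR,
      BV.set_HZ, BV.at_HZ, BV.set_HM, BV.at_HM, BV.set_WS, BV.at_WS, BV.set_WB, BV.at_WB,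
      BV.set_WP, BV.at_WP, BV.set_WT, BV.at_WT, BV.set_UU, BV.at_UU, BV.set_MM, BV.at_MM,
      BV.set_PR, BV.at_PR, BV.set_PI, BV.at_PI, BV.at_N6, len_una]
    have e2 : 2 ^ (g + 6) = 2 * 2 ^ (g + 5) := by ring
    omega
  · simp only [cB6, bs, geffs, GC.eff, BV.set_HX, BV.set_HR, BV.set_HZ, BV.set_HM, BV.set_WS,
      BV.set_WB, BV.set_WP, BV.set_WT, BV.set_UU, BV.set_MM, BV.set_PR, BV.set_PI, BV.set_N6]

end

end Vale.Agent.P338.GS.Bm
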