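import Vale.Agent.P338.GS.BmCmd

/-!
# P338, stage 5: products of many words, the steps
-/

namespace Vale.Agent.P338.GS.Bm

open Vale.Agent.P338 Vale.Agent.P338.GS

variable {J E : Type} [DecidableEq J]

/-- The number of bits of our numbers. -/
abbrev bS (g : ℕ) : ℕ := 64 * (g + 6)

/-- The scaling factor. -/
abbrev bB (g : ℕ) : ℕ := 20 * (g + 6)

/-- The root of the first transforms. -/
def rho (g : ℕ) : ℕ × ℕ := cjR (bS g) (rt (bB g) (g + 5))

/-- The array of pairs, first components. -/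
def pa (g n : ℕ) (e : ℕ → ℕ → ℕ × ℕ) : List (SSym E) :=
  ar (bS g) (n * 2 ^ (g + 6)) fun k => (e (k / 2 ^ (g + 6)) (k % 2 ^ (g + 6))).1

/-- The array of pairs, second components. -/
def pb (g n : ℕ) (e : ℕ → ℕ → ℕ × ℕ) : List (SSym E) :=
  ar (bS g) (n * 2 ^ (g + 6)) fun k => (e (k / 2 ^ (g + 6)) (k % 2 ^ (g + 6))).2

theorem pa_eq (g n : ℕ) (e : ℕ → ℕ → ℕ × ℕ) :
    (pa g n e : List (SSym E)) = bits (arr3 n (2 ^ (g + 6)) 1 (bS g) fun x i _ => (e x i).1) := by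
  unfold pa ar
  rw [arr3_one n (2 ^ (g + 6)) (bS g) fun x i => (e x i).1]

theorem pb_eq (g n : ℕ) (e : ℕ → ℕ → ℕ × ℕ) :
    (pb g n e : List (SSym E)) = bits (arr3 n (2 ^ (g + 6)) 1 (bS g) fun x i _ => (e x i).2) := by
  unfold pb ar
  rw [arr3_one n (2 ^ (g + 6)) (bS g) fun x i => (e x i).2]

theorem chk_lt (g x i : ℕ) : chk g x i < 2 ^ g := by
  unfold chk
  split_ifs
  · exact Nat.mod_lt _ (by positivity)
  · positivity

theorem pow_lt_pow_S (g : ℕ) : 2 ^ (g + 6) < 2 ^ (bS g - 1) :=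
  Nat.pow_lt_pow_right (by norm_num) (by unfold bS; omega)

section

variable (n g m : ℕ) (ws wb wp wt pr pi n1 n3 n4 n5 : List (SSym E))

/-- Padding. -/
theorem pad_step {pad : PW J E} {C : ℕ} (h : PadSpec pad C) (hg : 1 ≤ g) (y : ℕ → ℕ) :
    Runs pad
      ((bs n g m [] [] (una (wS g)) wb wp wt pr pi [] (ar (wS g) n y) n3 n4 n5).st)
      ((bs n g m (ar g (n * 2 ^ (g + 6)) fun k => chk g (y (k / 2 ^ (g + 6))) (k % 2 ^ (g + 6)))
        [] (una (wS g)) wb wp wt pr pi [] [] n3 n4 n5).st) (C * (n * wS g + 1)) := by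
  have hS : 1 ≤ wS g := Nat.mul_pos (by positivity) hg
  have r := h n (wS g) y
    ((bs n g m [] [] (una (wS g)) wb wp wt pr pi [] (ar (wS g) n y) n3 n4 n5).st) hS
    (BV.cln _ rfl) rfl rfl rfl
  refine r.of_eq ?_
  simp only [bs, BV.set_N1, BV.set_XR]
  rw [pad_list]
  rfl

/-- First pass. -/
theorem in_step {inp : PW J E} {C : ℕ} (h : InSpec inp C) (hg : 1 ≤ g) (y : ℕ → ℕ) :
    Runs inp
      ((bs n g m (ar g (n * 2 ^ (g + 6)) fun k =>
          chk g (y (k / 2 ^ (g + 6))) (k % 2 ^ (g + 6))) []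
        (una (bS g)) (una (bB g)) wp (una g) pr pi [] n1 n3 n4 n5).st)
      ((bs n g m (pa g n fun q i => (chk g (y q) i * 2 ^ bB g, 0))
        (pb g n fun q i => (chk g (y q) i * 2 ^ bB g, 0))
        (una (bS g)) (una (bB g)) wp (una g) pr pi [] n1 n3 n4 n5).st)
      (C * (n * 2 ^ (g + 6) * bS g + 1)) := by
  have r := h (n * 2 ^ (g + 6)) g (bS g) (bB g)
    (fun k => chk g (y (k / 2 ^ (g + 6))) (k % 2 ^ (g + 6)))
    ((bs n g m (ar g (n * 2 ^ (g + 6)) fun k =>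
          chk g (y (k / 2 ^ (g + 6))) (k % 2 ^ (g + 6))) []
        (una (bS g)) (una (bB g)) wp (una g) pr pi [] n1 n3 n4 n5).st) hg (by unfold bS bB; omega)
    (BV.cln _ rfl) rfl rfl rfl rfl (fun k => chk_lt _ _ _) rfl
  refine r.of_eq ?_
  simp only [bs, BV.set_XI, BV.set_XR]
  rfl

/-- The root and its conjugate. -/
theorem root_step {root cj : PW J E} {T : ℕ → ℕ} {C C' : ℕ} (h : RootSpec root T C)
    (h' : CjSpec cj C') (xr xi : List (SSym E)) :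
    Runs (root.seq cj)
      ((bs n g m xr xi (una (bS g)) (una (bB g)) wp wt [] [] (una (g + 5)) n1 n3 n4 n5).st)
      ((bs n g m xr xi (una (bS g)) (una (bB g)) wp wt (wd (bS g) (rho g).1)
        (wd (bS g) (rho g).2) [] n1 n3 n4 n5).st)
      (C * ((g + 5 + 1) * bB g * (bS g + T (bS g))) + C' * bS g + 1) := by
  have r := h (bS g) (bB g) (g + 5)
    ((bs n g m xr xi (una (bS g)) (una (bB g)) wp wt [] [] (una (g + 5)) n1 n3 n4 n5).st)
    (by unfold bB; omega) (by unfold bS bB; omega) (BV.cln0 _) rfl rfl rfl (by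
      intro q hq
      simp only [List.mem_cons, List.not_mem_nil, or_false] at hq
      rcases hq with rfl | rfl | rfl | rfl | rfl | rfl | rfl | rfl | rfl | rfl | rfl | rfl |
        rfl | rfl | rfl <;> rfl)
  have hB : bB g < bS g := by unfold bS bB; omega
  have hl := rt_le (bB g) (g + 5)
  have hlt : 2 ^ bB g < 2 ^ bS g := Nat.pow_lt_pow_right (by norm_num) hB
  simp only [bs, BV.set_F1, BV.set_PR, BV.set_PI] at r
  have r' := h' (bS g) (rt (bB g) (g + 5)).2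
    ((bs n g m xr xi (una (bS g)) (una (bB g)) wp wt (wd (bS g) (rt (bB g) (g + 5)).1)
        (wd (bS g) (rt (bB g) (g + 5)).2) [] n1 n3 n4 n5).st)
    (by unfold bS; omega) (BV.cln0 _) (lt_of_le_of_lt hl.2 hlt) rfl rfl
  refine ((r.seq r').mono (by omega)).of_eq ?_
  simp only [bs, BV.set_PI, rho, cjR]

/-- The conjugate of the root. -/
theorem cj_step {cj : PW J E} {C' : ℕ} (h' : CjSpec cj C') (xr xi : List (SSym E)) :
    Runs cj
      ((bs n g m xr xi (una (bS g)) wb wp wt (wd (bS g) (rho g).1)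
        (wd (bS g) (rho g).2) [] n1 n3 n4 n5).st)
      ((bs n g m xr xi (una (bS g)) wb wp wt (wd (bS g) (rt (bB g) (g + 5)).1)
        (wd (bS g) (rt (bB g) (g + 5)).2) [] n1 n3 n4 n5).st)
      (C' * bS g) := by
  have hB : bB g < bS g := by unfold bS bB; omega
  have hl := rt_le (bB g) (g + 5)
  have hlt : 2 ^ bB g < 2 ^ bS g := Nat.pow_lt_pow_right (by norm_num) hB
  have e : sbR (bS g) 0 (rho g).2 = (rt (bB g) (g + 5)).2 := by
    simp only [rho, cjR]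
    exact sbR_sbR (lt_of_le_of_lt hl.2 hlt)
  have e' : (rho g).1 = (rt (bB g) (g + 5)).1 := by simp only [rho, cjR]
  have e2 : (rho g).2 < 2 ^ bS g := sbR_lt ..
  rw [e'] at *
  generalize (rho g).2 = y at *
  generalize rt (bB g) (g + 5) = z at *
  have r' := h' (bS g) y
    ((bs n g m xr xi (una (bS g)) wb wp wt (wd (bS g) z.1) (wd (bS g) y) [] n1 n3 n4 n5).st)
    (by unfold bS; omega) (BV.cln0 _) e2 rfl rfl
  rw [e] at r'
  refine r'.of_eq ?_
  simp only [bs, BV.set_PI]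

/-- The transform. -/
theorem dft_step {dp : PW J E} {Tb Tt : ℕ → ℕ} {C : ℕ} (h : DftSpec dp Tb Tt C)
    (ρ : ℕ × ℕ) (e : ℕ → ℕ → ℕ × ℕ) (hn : 1 ≤ n) (h1 : ρ.1 < 2 ^ bS g) (h2 : ρ.2 < 2 ^ bS g)
    (he1 : ∀ q i, (e q i).1 < 2 ^ bS g) (he2 : ∀ q i, (e q i).2 < 2 ^ bS g)
    (hm : 9 * (n * 2 ^ (g + 6) * 1 * bS g) ≤ m) :
    Runs dp
      ((bs n g m (pa g n e) (pb g n e) (una (bS g)) (una (bB g)) wp wt (wd (bS g) ρ.1)
        (wd (bS g) ρ.2) [] n1 n3 n4 n5).st)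
      ((bs n g m (pa g n fun q k => dft (bS g) (bB g) (2 ^ (g + 6)) ρ (e q) k)
        (pb g n fun q k => dft (bS g) (bB g) (2 ^ (g + 6)) ρ (e q) k)
        (una (bS g)) (una (bB g)) wp wt (wd (bS g) ρ.1) (wd (bS g) ρ.2) [] n1 n3 n4 n5).st)
      (C * (m + Tb m + n * 2 ^ (g + 6) * 1 * (bS g + Tt (bS g)))) := by
  have r := h n (2 ^ (g + 6)) 1 (bS g) (bB g) m ρ (fun q i _ => e q i)
    ((bs n g m (pa g n e) (pb g n e) (una (bS g)) (una (bB g)) wp wt (wd (bS g) ρ.1)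
        (wd (bS g) ρ.2) [] n1 n3 n4 n5).st)
    ⟨hn, Nat.one_le_two_pow, le_rfl, by unfold bB; omega, by unfold bS bB; omega,
      pow_lt_pow_S g, h1, h2⟩
    ⟨BV.cln _ rfl, rfl, rfl, rfl, rfl, rfl, rfl, rfl⟩ hm rfl rfl rfl
    (fun q i _ => he1 q i) (fun q i _ => he2 q i) (pa_eq g n e) (pb_eq g n e)
  refine r.of_eq ?_
  simp only [bs, BV.set_XR, BV.set_XI]
  rw [pa_eq, pb_eq]

/-- The products. -/
theorem pw_step {pw : PW J E} {T : ℕ → ℕ} {C : ℕ} (h : PwSpec pw T C)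
    (e e' : ℕ → ℕ → ℕ × ℕ)
    (he1 : ∀ q i, (e q i).1 < 2 ^ bS g) (he2 : ∀ q i, (e q i).2 < 2 ^ bS g)
    (he3 : ∀ q i, (e' q i).1 < 2 ^ bS g) (he4 : ∀ q i, (e' q i).2 < 2 ^ bS g) :
    Runs pw
      ((bs n g m (pa g n e) (pb g n e) (una (bS g)) (una (bB g)) wp wt pr pi [] n1 n3
        (pa g n e') (pb g n e')).st)
      ((bs n g m (pa g n fun q i => cmR (bS g) (bB g) (e q i) (e' q i))
        (pb g n fun q i => cmR (bS g) (bB g) (e q i) (e' q i))
        (una (bS g)) (una (bB g)) wp wt pr pi [] n1 n3 [] []).st)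
      (C * (n * 2 ^ (g + 6) * (bS g + T (bS g)) + 1)) := by
  have r := h (n * 2 ^ (g + 6)) (bS g) (bB g)
    (fun k => e (k / 2 ^ (g + 6)) (k % 2 ^ (g + 6)))
    (fun k => e' (k / 2 ^ (g + 6)) (k % 2 ^ (g + 6)))
    ((bs n g m (pa g n e) (pb g n e) (una (bS g)) (una (bB g)) wp wt pr pi [] n1 n3
        (pa g n e') (pb g n e')).st) (by unfold bB; omega) (by unfold bS bB; omega)
    (BV.cln _ rfl) rfl rfl (fun k => ⟨he1 _ _, he2 _ _⟩) (fun k => ⟨he3 _ _, he4 _ _⟩)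
    rfl rfl rfl rfl
  refine r.of_eq ?_
  simp only [bs, BV.set_XR, BV.set_XI, BV.set_N4, BV.set_N5]
  rfl

/-- The last pass. -/
theorem out_step {outp : PW J E} {C : ℕ} (h : OutSpec outp C) (e : ℕ → ℕ → ℕ × ℕ)
    (he1 : ∀ q i, (e q i).1 < 2 ^ bS g) :
    Runs outp
      ((bs n g m (pa g n e) (pb g n e) (una (bS g)) wb (una (bB g + (g + 6)))
        (una (3 * (g + 6))) pr pi [] n1 n3 n4 n5).st)
      ((bs n g m (bits (cat (n * 2 ^ (g + 6)) fun k => bitsOf (3 * (g + 6))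
          (rnd (bS g) (bB g + (g + 6)) (3 * (g + 6))
            (e (k / 2 ^ (g + 6)) (k % 2 ^ (g + 6))).1)))
        [] (una (bS g)) wb (una (bB g + (g + 6)))
        (una (3 * (g + 6))) pr pi [] n1 n3 n4 n5).st)
      (C * (n * 2 ^ (g + 6) * bS g + 1)) := by
  have r := h (n * 2 ^ (g + 6)) (3 * (g + 6)) (bS g) (bB g + (g + 6))
    (fun k => (e (k / 2 ^ (g + 6)) (k % 2 ^ (g + 6))).1)
    (fun k => (e (k / 2 ^ (g + 6)) (k % 2 ^ (g + 6))).2)
    ((bs n g m (pa g n e) (pb g n e) (una (bS g)) wb (una (bB g + (g + 6)))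
        (una (3 * (g + 6))) pr pi [] n1 n3 n4 n5).st) (by omega) (by omega)
    (by unfold bS bB; omega)
    (BV.cln _ rfl) rfl rfl rfl (fun k => he1 _ _) rfl rfl
  refine r.of_eq ?_
  simp only [bs, BV.set_XR, BV.set_XI]

/-- Carries. -/
theorem rel_step {rel : PW J E} {C : ℕ} (h : RelSpec rel C) (hg : 1 ≤ g) (z : ℕ → ℕ → ℕ)
    (hz : ∀ q i, z q i < 2 ^ (3 * (g + 6))) :
    Runs rel
      ((bs n g m (bits (cat (n * 2 ^ (g + 6)) fun k => bitsOf (3 * (g + 6))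
          (z (k / 2 ^ (g + 6)) (k % 2 ^ (g + 6)))))
        [] ws wb wp (una (3 * (g + 6))) pr pi [] n1 [] n4 n5).st)
      ((bs n g m [] [] ws wb wp (una (3 * (g + 6))) pr pi [] n1
        (ar (wS g) n fun q => (∑ i ∈ Finset.range (2 ^ (g + 5)), z q i * 2 ^ (g * i)) % 2 ^ wS g)
        n4 n5).st)
      (C * (n * wS g + 1)) := by
  have r := h n g z
    ((bs n g m (bits (cat (n * 2 ^ (g + 6)) fun k => bitsOf (3 * (g + 6))
          (z (k / 2 ^ (g + 6)) (k % 2 ^ (g + 6)))))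
        [] ws wb wp (una (3 * (g + 6))) pr pi [] n1 [] n4 n5).st) hg hz
    (BV.cln _ rfl) rfl rfl rfl rfl (by
      simp only [bs, BV.at_XR]
      congr 1
      rw [cat_mul]
      refine cat_congr fun q _ => cat_congr fun i hi => ?_
      have e1 : (q * 2 ^ (g + 6) + i) / 2 ^ (g + 6) = q := by
        rw [Nat.mul_comm, Nat.mul_add_div (by positivity), Nat.div_eq_of_lt hi, Nat.add_zero]
      have e2 : (q * 2 ^ (g + 6) + i) % 2 ^ (g + 6) = i := by
        rw [Nat.mul_comm, Nat.mul_add_mod, Nat.mod_eq_of_lt hi]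
      rw [e1, e2])
  refine r.of_eq ?_
  simp only [bs, BV.set_XR, BV.set_N3]

end

end Vale.Agent.P338.GS.Bm
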