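import Vale.Agent.P338.GS.Iface2

/-!
# P338, stage 5: the stacks of the program for the products of many words
-/

namespace Vale.Agent.P338.GS.Bm

open Vale.Agent.P338 Vale.Agent.P338.GS

variable {J E : Type}

/-- The contents of the stacks that change. -/
structure BV (E : Type) where
  xr : List (SSym E) := []
  xi : List (SSym E) := []
  hx : List (SSym E) := []
  hr : List (SSym E) := []
  hz : List (SSym E) := []
  hm : List (SSym E) := []
  ws : List (SSym E) := []
  wb : List (SSym E) := []
  wp : List (SSym E) := []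
  wt : List (SSym E) := []
  uu : List (SSym E) := []
  mm : List (SSym E) := []
  pr : List (SSym E) := []
  pi : List (SSym E) := []
  f1 : List (SSym E) := []
  n1 : List (SSym E) := []
  n2 : List (SSym E) := []
  n3 : List (SSym E) := []
  n4 : List (SSym E) := []
  n5 : List (SSym E) := []
  n6 : List (SSym E) := []
  n7 : List (SSym E) := []
  q1 : List (SSym E) := []

/-- The store with these contents, all other stacks are empty. -/
def BV.st (p : BV E) : SW J E
  | Sum.inr .XR => p.xr
  | Sum.inr .XI => p.xi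
  | Sum.inr .HX => p.hx
  | Sum.inr .HR => p.hr
  | Sum.inr .HZ => p.hz
  | Sum.inr .HM => p.hm
  | Sum.inr .WS => p.ws
  | Sum.inr .WB => p.wb
  | Sum.inr .WP => p.wp
  | Sum.inr .WT => p.wt
  | Sum.inr .UU => p.uu
  | Sum.inr .MM => p.mm
  | Sum.inr .PR => p.pr
  | Sum.inr .PI => p.pi
  | Sum.inr .F1 => p.f1
  | Sum.inr .N1 => p.n1
  | Sum.inr .N2 => p.n2
  | Sum.inr .N3 => p.n3
  | Sum.inr .N4 => p.n4
  | Sum.inr .N5 => p.n5
  | Sum.inr .N6 => p.n6
  | Sum.inr .N7 => p.n7
  | Sum.inr .Q1 => p.q1
  | _ => []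

section BVlemmas

variable (p : BV E) (l : List (SSym E))

@[simp] theorem BV.at_XR : (p.st : SW J E).at .XR = p.xr := rfl
@[simp] theorem BV.at_XI : (p.st : SW J E).at .XI = p.xi := rfl
@[simp] theorem BV.at_HX : (p.st : SW J E).at .HX = p.hx := rfl
@[simp] theorem BV.at_HR : (p.st : SW J E).at .HR = p.hr := rfl
@[simp] theorem BV.at_HZ : (p.st : SW J E).at .HZ = p.hz := rfl
@[simp] theorem BV.at_HM : (p.st : SW J E).at .HM = p.hm := rfl
@[simp] theorem BV.at_WS : (p.st : SW J E).at .WS = p.ws := rfl
@[simp] theorem BV.at_WB : (p.st : SW J E).at .WB = p.wb := rfl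
@[simp] theorem BV.at_WP : (p.st : SW J E).at .WP = p.wp := rfl
@[simp] theorem BV.at_WT : (p.st : SW J E).at .WT = p.wt := rfl
@[simp] theorem BV.at_UU : (p.st : SW J E).at .UU = p.uu := rfl
@[simp] theorem BV.at_MM : (p.st : SW J E).at .MM = p.mm := rfl
@[simp] theorem BV.at_PR : (p.st : SW J E).at .PR = p.pr := rfl
@[simp] theorem BV.at_PI : (p.st : SW J E).at .PI = p.pi := rfl
@[simp] theorem BV.at_F1 : (p.st : SW J E).at .F1 = p.f1 := rfl
@[simp] theorem BV.at_N1 : (p.st : SW J E).at .N1 = p.n1 := rfl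
@[simp] theorem BV.at_N2 : (p.st : SW J E).at .N2 = p.n2 := rfl
@[simp] theorem BV.at_N3 : (p.st : SW J E).at .N3 = p.n3 := rfl
@[simp] theorem BV.at_N4 : (p.st : SW J E).at .N4 = p.n4 := rfl
@[simp] theorem BV.at_N5 : (p.st : SW J E).at .N5 = p.n5 := rfl
@[simp] theorem BV.at_N6 : (p.st : SW J E).at .N6 = p.n6 := rfl
@[simp] theorem BV.at_N7 : (p.st : SW J E).at .N7 = p.n7 := rfl
@[simp] theorem BV.at_Q1 : (p.st : SW J E).at .Q1 = p.q1 := rfl

variable [DecidableEq J]

@[simp] theorem BV.set_XR :
    (p.st : SW J E).set .XR l = ({ p with xr := l } : BV E).st := by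
  apply sw_ext
  · intro j; rw [set_inl]; rfl
  · intro q; rw [at_set]; cases q <;> rfl
@[simp] theorem BV.set_XI :
    (p.st : SW J E).set .XI l = ({ p with xi := l } : BV E).st := by
  apply sw_ext
  · intro j; rw [set_inl]; rfl
  · intro q; rw [at_set]; cases q <;> rfl
@[simp] theorem BV.set_HX :
    (p.st : SW J E).set .HX l = ({ p with hx := l } : BV E).st := by
  apply sw_ext
  · intro j; rw [set_inl]; rfl
  · intro q; rw [at_set]; cases q <;> rfl
@[simp] theorem BV.set_HR :
    (p.st : SW J E).set .HR l = ({ p with hr := l } : BV E).st := by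
  apply sw_ext
  · intro j; rw [set_inl]; rfl
  · intro q; rw [at_set]; cases q <;> rfl
@[simp] theorem BV.set_HZ :
    (p.st : SW J E).set .HZ l = ({ p with hz := l } : BV E).st := by
  apply sw_ext
  · intro j; rw [set_inl]; rfl
  · intro q; rw [at_set]; cases q <;> rfl
@[simp] theorem BV.set_HM :
    (p.st : SW J E).set .HM l = ({ p with hm := l } : BV E).st := by
  apply sw_ext
  · intro j; rw [set_inl]; rfl
  · intro q; rw [at_set]; cases q <;> rfl
@[simp] theorem BV.set_WS :
    (p.st : SW J E).set .WS l = ({ p with ws := l } : BV E).st := by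
  apply sw_ext
  · intro j; rw [set_inl]; rfl
  · intro q; rw [at_set]; cases q <;> rfl
@[simp] theorem BV.set_WB :
    (p.st : SW J E).set .WB l = ({ p with wb := l } : BV E).st := by
  apply sw_ext
  · intro j; rw [set_inl]; rfl
  · intro q; rw [at_set]; cases q <;> rfl
@[simp] theorem BV.set_WP :
    (p.st : SW J E).set .WP l = ({ p with wp := l } : BV E).st := by
  apply sw_ext
  · intro j; rw [set_inl]; rfl
  · intro q; rw [at_set]; cases q <;> rfl
@[simp] theorem BV.set_WT :
    (p.st : SW J E).set .WT l = ({ p with wt := l } : BV E).st := by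
  apply sw_ext
  · intro j; rw [set_inl]; rfl
  · intro q; rw [at_set]; cases q <;> rfl
@[simp] theorem BV.set_UU :
    (p.st : SW J E).set .UU l = ({ p with uu := l } : BV E).st := by
  apply sw_ext
  · intro j; rw [set_inl]; rfl
  · intro q; rw [at_set]; cases q <;> rfl
@[simp] theorem BV.set_MM :
    (p.st : SW J E).set .MM l = ({ p with mm := l } : BV E).st := by
  apply sw_ext
  · intro j; rw [set_inl]; rfl
  · intro q; rw [at_set]; cases q <;> rfl
@[simp] theorem BV.set_PR :
    (p.st : SW J E).set .PR l = ({ p with pr := l } : BV E).st := by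
  apply sw_ext
  · intro j; rw [set_inl]; rfl
  · intro q; rw [at_set]; cases q <;> rfl
@[simp] theorem BV.set_PI :
    (p.st : SW J E).set .PI l = ({ p with pi := l } : BV E).st := by
  apply sw_ext
  · intro j; rw [set_inl]; rfl
  · intro q; rw [at_set]; cases q <;> rfl
@[simp] theorem BV.set_F1 :
    (p.st : SW J E).set .F1 l = ({ p with f1 := l } : BV E).st := by
  apply sw_ext
  · intro j; rw [set_inl]; rfl
  · intro q; rw [at_set]; cases q <;> rfl
@[simp] theorem BV.set_N1 :
    (p.st : SW J E).set .N1 l = ({ p with n1 := l } : BV E).st := by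
  apply sw_ext
  · intro j; rw [set_inl]; rfl
  · intro q; rw [at_set]; cases q <;> rfl
@[simp] theorem BV.set_N2 :
    (p.st : SW J E).set .N2 l = ({ p with n2 := l } : BV E).st := by
  apply sw_ext
  · intro j; rw [set_inl]; rfl
  · intro q; rw [at_set]; cases q <;> rfl
@[simp] theorem BV.set_N3 :
    (p.st : SW J E).set .N3 l = ({ p with n3 := l } : BV E).st := by
  apply sw_ext
  · intro j; rw [set_inl]; rfl
  · intro q; rw [at_set]; cases q <;> rfl
@[simp] theorem BV.set_N4 :
    (p.st : SW J E).set .N4 l = ({ p with n4 := l } : BV E).st := by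
  apply sw_ext
  · intro j; rw [set_inl]; rfl
  · intro q; rw [at_set]; cases q <;> rfl
@[simp] theorem BV.set_N5 :
    (p.st : SW J E).set .N5 l = ({ p with n5 := l } : BV E).st := by
  apply sw_ext
  · intro j; rw [set_inl]; rfl
  · intro q; rw [at_set]; cases q <;> rfl
@[simp] theorem BV.set_N6 :
    (p.st : SW J E).set .N6 l = ({ p with n6 := l } : BV E).st := by
  apply sw_ext
  · intro j; rw [set_inl]; rfl
  · intro q; rw [at_set]; cases q <;> rfl
@[simp] theorem BV.set_N7 :
    (p.st : SW J E).set .N7 l = ({ p with n7 := l } : BV E).st := by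
  apply sw_ext
  · intro j; rw [set_inl]; rfl
  · intro q; rw [at_set]; cases q <;> rfl
@[simp] theorem BV.set_Q1 :
    (p.st : SW J E).set .Q1 l = ({ p with q1 := l } : BV E).st := by
  apply sw_ext
  · intro j; rw [set_inl]; rfl
  · intro q; rw [at_set]; cases q <;> rfl

end BVlemmas

/-- The arithmetic scratch stacks are empty. -/
theorem BV.cln0 (p : BV E) : Cln0 (p.st : SW J E) :=
  ⟨fun _ => rfl, fun q hq => by
    cases q <;> first | rfl | exact absurd hq (by decide)⟩

/-- All scratch stacks are empty, when `F1` is. -/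
theorem BV.cln (p : BV E) (h : p.f1 = []) : Cln (p.st : SW J E) :=
  ⟨BV.cln0 p, fun q hq => by
    cases q <;> first | rfl | exact h | exact absurd hq (by decide)⟩

end Vale.Agent.P338.GS.Bm
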