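import Vale.Agent.P338.GS.Pass

/-!
# P338, matrices of every shape: multiplication by `ρ ^ (i ^ 2)` and by `γ ^ (i * j)`
-/

namespace Vale.Agent.P338.GS.Ps

open Vale.Agent.P338 Vale.Agent.P338.GS Vale.Agent.P338.GS.IO

variable {J E : Type} [DecidableEq J]

/-! ### Programs that do not touch the data -/

theorem sd_clear {r : W} (hr : r ∉ [W.XR, .XI, .O1, .O2]) (s : SW J E) :
    Sd (Prog.clear (Sum.inr r) : PW J E) s (s.set r []) (3 * (s.at r).length) := by
  intro x1 x2 y1 y2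
  have h := r_clear (J := J) r (st4 s x1 x2 y1 y2)
  rw [st4_set _ hr, st4_at _ hr] at h
  exact h

theorem sd_copy {a b t : W} (hab : a ≠ b) (hat : a ≠ t) (hbt : b ≠ t)
    (ha : a ∉ [W.XR, .XI, .O1, .O2]) (hb : b ∉ [W.XR, .XI, .O1, .O2])
    (ht4 : t ∉ [W.XR, .XI, .O1, .O2]) (s : SW J E) (ht : s.at t = []) :
    Sd (Prog.copyOnto (Sum.inr a) (Sum.inr b) (Sum.inr t) : PW J E) s
      (s.set b (s.at a ++ s.at b)) (6 * (s.at a).length + 1) := by
  intro x1 x2 y1 y2
  have h := r_copy (J := J) hab hat hbt (st4 s x1 x2 y1 y2) (by rw [st4_at _ ht4]; exact ht)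
  rw [st4_set _ hb, st4_at _ ha, st4_at _ hb] at h
  exact h

theorem sd_one2 {a b : W} (ha : a ∉ [W.WS, .WB, .F4, .T1]) (hb : b ∉ [W.WS, .WB, .F4, .T1])
    (ha' : a ∉ [W.XR, .XI, .O1, .O2]) (hb' : b ∉ [W.XR, .XI, .O1, .O2])
    (hab : a ≠ b) {s : SW J E} {S B : ℕ} (hS : B < S) (ws : s.at .WS = una S)
    (wb : s.at .WB = una B) (f4 : s.at .F4 = []) (t1 : s.at .T1 = []) (ea : s.at a = [])
    (eb : s.at b = []) :
    Sd (one2 a b) s ((s.set a (wd S (2 ^ B))).set b (wd S 0)) (40 * S) := by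
  intro x1 x2 y1 y2
  have h := one2_spec (J := J) (E := E) ha hb hab (s := st4 s x1 x2 y1 y2) hS
    (by rw [st4_at _ (by decide)]; exact ws) (by rw [st4_at _ (by decide)]; exact wb)
    (by rw [st4_at _ (by decide)]; exact f4) (by rw [st4_at _ (by decide)]; exact t1)
    (by rw [st4_at _ ha']; exact ea) (by rw [st4_at _ hb']; exact eb)
  rw [st4_set _ ha', st4_set _ hb'] at h
  exact h

variable {cm : W → W → W → W → PW J E} {T : ℕ → ℕ} {C : ℕ}

theorem sd_cm (hcm : CmSpec cm T C) {S B : ℕ} (hB : 1 ≤ B) (hS : B < S) {x y : ℕ × ℕ}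
    (hx : x.1 < 2 ^ S ∧ x.2 < 2 ^ S) (hy : y.1 < 2 ^ S ∧ y.2 < 2 ^ S) {ar ai br bi : W}
    (hn : [W.WS, .WB, ar, ai, br, bi].Nodup) (hm : ∀ r ∈ [ar, ai, br, bi], r ∉ asc)
    (h4 : ∀ r ∈ [ar, ai, br, bi], r ∉ [W.XR, .XI, .O1, .O2]) {s : SW J E} (c : Cln0 s)
    (ws : s.at .WS = una S) (wb : s.at .WB = una B) (har : s.at ar = wd S x.1)
    (hai : s.at ai = wd S x.2) (hbr : s.at br = wd S y.1) (hbi : s.at bi = wd S y.2) :
    Sd (cm ar ai br bi) s ((s.set ar (wd S (cmR S B x y).1)).set ai (wd S (cmR S B x y).2))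
      (C * (S + T S)) := by
  intro x1 x2 y1 y2
  have g1 := h4 ar (by simp)
  have g2 := h4 ai (by simp)
  have g3 := h4 br (by simp)
  have g4 := h4 bi (by simp)
  have h := hcm S B x y ar ai br bi (st4 s x1 x2 y1 y2) hB hS (Cln0.st4 c _ _ _ _) hn hm hx.1
    hx.2 hy.1 hy.2 (by rw [st4_at _ (by decide)]; exact ws)
    (by rw [st4_at _ (by decide)]; exact wb) (by rw [st4_at _ g1]; exact har)
    (by rw [st4_at _ g2]; exact hai) (by rw [st4_at _ g3]; exact hbr)
    (by rw [st4_at _ g4]; exact hbi)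
  rw [st4_set _ g1, st4_set _ g2] at h
  exact h

/-! ### The environment of the loops -/

/-- The stores of the outer loops. -/
structure EO (s : SW J E) (S B Z : ℕ) : Prop extends Cln0 s where
  ws : s.at .WS = una S
  wb : s.at .WB = una B
  hz : s.at .HZ = una Z
  er : s.at .ER = []
  ei : s.at .EI = []
  t1 : s.at .T1 = []
  f4 : s.at .F4 = []
  f3 : s.at .F3 = []

theorem EO.set {s : SW J E} {S B Z : ℕ} (h : EO s S B Z) {r : W}
    (hr : r ∉ asc ++ [W.WS, .WB, .HZ, .ER, .EI, .T1, .F4, .F3]) (l : List (SSym E)) :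
    EO (s.set r l) S B Z := by
  rw [List.mem_append, not_or] at hr
  obtain ⟨hr, hr'⟩ := hr
  simp only [List.mem_cons, List.not_mem_nil, or_false, not_or] at hr'
  obtain ⟨a1, a2, a3, a4, a5, a6, a7, a8⟩ := hr'
  exact ⟨h.toCln0.set hr l, by rw [at_set_ne _ (Ne.symm a1)]; exact h.ws,
    by rw [at_set_ne _ (Ne.symm a2)]; exact h.wb, by rw [at_set_ne _ (Ne.symm a3)]; exact h.hz,
    by rw [at_set_ne _ (Ne.symm a4)]; exact h.er, by rw [at_set_ne _ (Ne.symm a5)]; exact h.ei,
    by rw [at_set_ne _ (Ne.symm a6)]; exact h.t1, by rw [at_set_ne _ (Ne.symm a7)]; exact h.f4,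
    by rw [at_set_ne _ (Ne.symm a8)]; exact h.f3⟩

omit [DecidableEq J] in
theorem EO.ev {s : SW J E} {S B Z : ℕ} (h : EO s S B Z) {c : ℕ × ℕ}
    (h1 : s.at .CR = wd S c.1) (h2 : s.at .CI = wd S c.2) : Ev s S B c :=
  ⟨h.toCln0, h.ws, h.wb, h1, h2, h.er, h.ei, h.t1, h.f4⟩

/-! ### The factors `ρ ^ (i ^ 2)` -/

variable (cm) in
/-- The elements `x i z`, for all `z`, and the next factor. -/
def colC : PW J E := (row cm).seq ((cm .CR .CI .DR .DI).seq (cm .DR .DI .GR .GI))

/-- The store before round `k`. -/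
def bC (s : SW J E) (S B : ℕ) (ρ : ℕ × ℕ) (k : ℕ) : SW J E :=
  (((s.set .CR (wd S (chs S B ρ k).1.1)).set .CI (wd S (chs S B ρ k).1.2)).set .DR
    (wd S (chs S B ρ k).2.1)).set .DI (wd S (chs S B ρ k).2.2)

theorem colC_spec (hcm : CmSpec cm T C) {S B Z : ℕ} (hB : 1 ≤ B) (hS : B < S) (hZ : 1 ≤ Z)
    {ρ : ℕ × ℕ} {a : ℕ → ℕ × ℕ} (hρ : ρ.1 < 2 ^ S ∧ ρ.2 < 2 ^ S) (ha : ∀ z, (a z).1 < 2 ^ S)
    (ha' : ∀ z, (a z).2 < 2 ^ S) {s : SW J E} (h : EO s S B Z)
    (hg : s.at .GR = wd S (cmR S B ρ ρ).1) (hg' : s.at .GI = wd S (cmR S B ρ ρ).2) (k : ℕ) :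
    Tr (colC cm) (bC s S B ρ k) (bC s S B ρ (k + 1)) (cat Z fun z => bitsOf S (a z).1)
      (cat Z fun z => bitsOf S (a z).2) (cat Z fun z => bitsOf S (cmR S B (a z) (ch S B ρ k)).1)
      (cat Z fun z => bitsOf S (cmR S B (a z) (ch S B ρ k)).2)
      (Z * ((3 * C + 50) * (S + T S))) := by
  have hk := chs_lt hS hρ.1 hρ.2 k
  have hk' := cmR_lt (S := S) hS.le ρ ρ
  have ho : EO (bC s S B ρ k) S B Z :=
    (((h.set (by decide) _).set (by decide) _).set (by decide) _).set (by decide) _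
  have h1 := row_spec hcm hB hS (c := ch S B ρ k) (a := a) hk.1 ha ha' hZ
    (ho.ev (by simp [bC, at_set, ch]) (by simp [bC, at_set, ch])) ho.hz ho.f3
  have h2 := sd_cm hcm hB hS (x := (chs S B ρ k).1) (y := (chs S B ρ k).2) hk.1 hk.2
    (ar := .CR) (ai := .CI) (br := .DR) (bi := .DI) (by decide) (by decide) (by decide)
    ho.toCln0 ho.ws ho.wb (by simp [bC, at_set]) (by simp [bC, at_set]) (by simp [bC, at_set])
    (by simp [bC])
  set s1 := ((bC s S B ρ k).set .CR (wd S (cmR S B (chs S B ρ k).1 (chs S B ρ k).2).1)).set .CI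
    (wd S (cmR S B (chs S B ρ k).1 (chs S B ρ k).2).2) with e1
  have ho1 : EO s1 S B Z := (ho.set (by decide) _).set (by decide) _
  have h3 := sd_cm hcm hB hS (x := (chs S B ρ k).2) (y := cmR S B ρ ρ) hk.2 hk'
    (ar := .DR) (ai := .DI) (br := .GR) (bi := .GI) (by decide) (by decide) (by decide)
    ho1.toCln0 ho1.ws ho1.wb (by simp [s1, bC, at_set]) (by simp [s1, bC, at_set])
    (by simp [s1, bC, at_set, hg]) (by simp [s1, bC, at_set, hg'])
  refine ((h1.sd (h2.seq h3)).mono ?_).of_eq ?_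
  · have h4 : 1 ≤ S + T S := by omega
    have e9 : Z * ((3 * C + 50) * (S + T S)) = Z * ((C + 48) * (S + T S)) +
        Z * (2 * C * (S + T S)) + Z * (2 * (S + T S)) := by ring
    have h5 : 2 * C * (S + T S) ≤ Z * (2 * C * (S + T S)) := Nat.le_mul_of_pos_left _ hZ
    have h6 : 2 ≤ Z * (2 * (S + T S)) := le_trans (by omega)
      (Nat.le_mul_of_pos_left (2 * (S + T S)) hZ)
    have h7 : 2 * C * (S + T S) = C * (S + T S) + C * (S + T S) := by ring
    rw [e9]
    omega
  · refine sw_ext (fun j => by simp [s1, bC]) fun r => ?_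
    simp only [s1, bC, at_set, chs]
    split_ifs <;> simp_all

variable (cm) in
/-- All elements `x i z`, for fixed `x`. -/
def levC : PW J E :=
  (one2 .CR .CI).seq <|
  (Prog.copyOnto (Sum.inr .PR) (Sum.inr .DR) (Sum.inr .F4)).seq <|
  (Prog.copyOnto (Sum.inr .PI) (Sum.inr .DI) (Sum.inr .F4)).seq <|
  (Prog.forr (Sum.inr .HR) (Sum.inr .F2) (colC cm)).seq <|
  (Prog.clear (Sum.inr .CR)).seq <|
  (Prog.clear (Sum.inr .CI)).seq <|
  (Prog.clear (Sum.inr .DR)).seq <|
  Prog.clear (Sum.inr .DI)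

theorem levC_spec (hcm : CmSpec cm T C) {S B Z R : ℕ} (hB : 1 ≤ B) (hS : B < S) (hZ : 1 ≤ Z)
    (hR : 1 ≤ R) {ρ : ℕ × ℕ} {a : ℕ → ℕ → ℕ × ℕ} (hρ : ρ.1 < 2 ^ S ∧ ρ.2 < 2 ^ S)
    (ha : ∀ i z, (a i z).1 < 2 ^ S) (ha' : ∀ i z, (a i z).2 < 2 ^ S) {s : SW J E}
    (h : EO s S B Z) (hr : s.at .HR = una R) (f2 : s.at .F2 = [])
    (hp : s.at .PR = wd S ρ.1) (hp' : s.at .PI = wd S ρ.2)
    (hc : s.at .CR = []) (hc' : s.at .CI = []) (hd : s.at .DR = []) (hd' : s.at .DI = [])
    (hg : s.at .GR = wd S (cmR S B ρ ρ).1) (hg' : s.at .GI = wd S (cmR S B ρ ρ).2) :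
    Tr (levC cm) s s (cat R fun i => cat Z fun z => bitsOf S (a i z).1)
      (cat R fun i => cat Z fun z => bitsOf S (a i z).2)
      (cat R fun i => cat Z fun z => bitsOf S (cmR S B (a i z) (ch S B ρ i)).1)
      (cat R fun i => cat Z fun z => bitsOf S (cmR S B (a i z) (ch S B ρ i)).2)
      (R * (Z * ((3 * C + 150) * (S + T S)))) := by
  have k1 := sd_one2 (J := J) (E := E) (a := .CR) (b := .CI) (by decide) (by decide) (by decide)
    (by decide) (by decide) hS h.ws h.wb h.f4 h.t1 hc hc'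
  set s1 := (s.set .CR (wd S (2 ^ B))).set .CI (wd S 0) with e1
  have o1 : EO s1 S B Z := (h.set (by decide) _).set (by decide) _
  have k2 := sd_copy (J := J) (a := .PR) (b := .DR) (t := .F4) (by decide) (by decide)
    (by decide) (by decide) (by decide) (by decide) s1 o1.f4
  have b2 : s1.at .PR = wd S ρ.1 := by simp [s1, at_set, hp]
  have b2' : s1.at .DR = [] := by simp [s1, at_set, hd]
  have w2 : (wd S ρ.1 : List (SSym E)).length = S := by simp [wd]
  rw [b2, b2', List.append_nil, w2] at k2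
  set s2 := s1.set .DR (wd S ρ.1) with e2
  have o2 : EO s2 S B Z := o1.set (by decide) _
  have k3 := sd_copy (J := J) (a := .PI) (b := .DI) (t := .F4) (by decide) (by decide)
    (by decide) (by decide) (by decide) (by decide) s2 o2.f4
  have b3 : s2.at .PI = wd S ρ.2 := by simp [s2, s1, at_set, hp']
  have b3' : s2.at .DI = [] := by simp [s2, s1, at_set, hd']
  have w3 : (wd S ρ.2 : List (SSym E)).length = S := by simp [wd]
  rw [b3, b3', List.append_nil, w3] at k3
  have e3 : s2.set .DI (wd S ρ.2) = bC s S B ρ 0 := rfl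
  rw [e3] at k3
  have hF : ∀ k, EO (bC s S B ρ k) S B Z := fun k =>
    (((h.set (by decide) _).set (by decide) _).set (by decide) _).set (by decide) _
  have k4 := Tr.forr (u := .HR) (t := .F2) (by decide) (by decide) (by decide)
    (body := colC cm) (n := R) (F := fun k => bC s S B ρ k)
    (a := fun i => cat Z fun z => bitsOf S (a i z).1)
    (b := fun i => cat Z fun z => bitsOf S (a i z).2)
    (a' := fun i => cat Z fun z => bitsOf S (cmR S B (a i z) (ch S B ρ i)).1)
    (b' := fun i => cat Z fun z => bitsOf S (cmR S B (a i z) (ch S B ρ i)).2)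
    (T := Z * ((3 * C + 50) * (S + T S)))
    (fun k _ => by simp [bC, at_set, hr]) (fun k _ => by simp [bC, at_set, f2])
    (fun k _ l l' => by
      have h5 := colC_spec hcm hB hS hZ hρ (ha k) (ha' k) (s := (s.set .HR l).set .F2 l')
        ((h.set (by decide) _).set (by decide) _) (by simp [at_set, hg]) (by simp [at_set, hg']) k
      have e5 : ∀ j, bC ((s.set .HR l).set .F2 l') S B ρ j =
          ((bC s S B ρ j).set .HR l).set .F2 l' := by
        intro j
        refine sw_ext (fun j => by simp [bC]) fun r => ?_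
        simp only [bC, at_set]
        split_ifs <;> simp_all
      rw [e5, e5] at h5
      exact h5)
  have k5 := sd_clear (J := J) (r := .CR) (by decide) (bC s S B ρ R)
  have c5 : ((bC s S B ρ R).at .CR).length = S := by simp [bC, at_set, wd]
  rw [c5] at k5
  set s5 := (bC s S B ρ R).set .CR [] with e5
  have k6 := sd_clear (J := J) (r := .CI) (by decide) s5
  have c6 : (s5.at .CI).length = S := by simp [s5, bC, at_set, wd]
  rw [c6] at k6
  set s6 := s5.set .CI [] with e6
  have k7 := sd_clear (J := J) (r := .DR) (by decide) s6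
  have c7 : (s6.at .DR).length = S := by simp [s6, s5, bC, at_set, wd]
  rw [c7] at k7
  set s7 := s6.set .DR [] with e7
  have k8 := sd_clear (J := J) (r := .DI) (by decide) s7
  have c8 : (s7.at .DI).length = S := by simp [s7, s6, s5, bC, at_set, wd]
  rw [c8] at k8
  refine ((k1.tr (k2.tr (k3.tr (k4.sd (k5.seq (k6.seq (k7.seq k8))))))).mono ?_).of_eq ?_
  · have h4 : 1 ≤ S + T S := by omega
    obtain ⟨Q, hQ⟩ : ∃ Q, Q = S + T S := ⟨_, rfl⟩
    have g1 : S ≤ Q := by omega
    have e9 : R * (Z * ((3 * C + 150) * (S + T S))) = R * (Z * ((3 * C + 50) * (S + T S))) +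
        R * (Z * (100 * Q)) := by rw [hQ]; ring
    have h6 : 100 * Q ≤ R * (Z * (100 * Q)) := (Nat.le_mul_of_pos_left _ hZ).trans
      (Nat.le_mul_of_pos_left _ hR)
    have h7 : R * (Z * ((3 * C + 50) * (S + T S)) + 7) =
      R * (Z * ((3 * C + 50) * (S + T S))) + R * 7 := by ring
    have h8 : R * 7 ≤ R * (Z * (7 * Q)) := Nat.mul_le_mul_left _
      (le_trans (by omega) (Nat.le_mul_of_pos_left (7 * Q) hZ))
    have h9 : 90 * Q ≤ R * (Z * (90 * Q)) := (Nat.le_mul_of_pos_left _ hZ).trans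
      (Nat.le_mul_of_pos_left _ hR)
    have h10 : R * (Z * (100 * Q)) = R * (Z * (7 * Q)) + R * (Z * (90 * Q)) +
      R * (Z * (3 * Q)) := by ring
    rw [e9, h7]
    omega
  · refine sw_ext (fun j => by simp [s7, s6, s5, bC]) fun r => ?_
    clear k1 k2 k3 k4 k5 k6 k7 k8 e3 b2 b2' w2 b3 b3' w3 c5 c6 c7 c8
    simp only [s7, s6, s5, bC, at_set]
    split_ifs <;> simp_all

variable (cm) in
/-- The pass. -/
def chirpP : PW J E :=
  (Prog.copyOnto (Sum.inr .PR) (Sum.inr .GR) (Sum.inr .F4)).seq <|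
  (Prog.copyOnto (Sum.inr .PI) (Sum.inr .GI) (Sum.inr .F4)).seq <|
  (cm .GR .GI .PR .PI).seq <|
  (Prog.forr (Sum.inr .HX) (Sum.inr .F1) (levC cm)).seq <|
  (Prog.clear (Sum.inr .GR)).seq <|
  (Prog.clear (Sum.inr .GI)).seq <|
  (Prog.rev (Sum.inr .O1) (Sum.inr .XR)).seq <|
  Prog.rev (Sum.inr .O2) (Sum.inr .XI)

theorem num_lt {X r Z S B : ℕ} {ρ : ℕ × ℕ} (h : Num X r Z S B ρ) : B < S := by
  have := h.hB; have := h.hS; omega

theorem chirpP_spec (hcm : CmSpec cm T C) : ChirpSpec (chirpP cm) T (4 * C + 250) := by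
  intro X R Z S B ρ e s hn he h1 h2 hx hy
  have hS := num_lt hn
  have hB := hn.hB
  have hρ : ρ.1 < 2 ^ S ∧ ρ.2 < 2 ^ S := ⟨hn.h1, hn.h2⟩
  have f : ∀ r ∈ psc, s.at r = [] := he.emp2
  have ho : EO s S B Z := ⟨he.toCln0, he.ws, he.wb, he.hz, f _ (by decide), f _ (by decide),
    f _ (by decide), f _ (by decide), f _ (by decide)⟩
  have k1 := r_copy (J := J) (a := .PR) (b := .GR) (t := .F4) (by decide) (by decide)
    (by decide) s ho.f4
  rw [he.pr, f .GR (by decide), List.append_nil, show (wd S ρ.1 : List (SSym E)).length = S by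
    simp [wd]] at k1
  set s1 := s.set .GR (wd S ρ.1) with e1
  have k2 := r_copy (J := J) (a := .PI) (b := .GI) (t := .F4) (by decide) (by decide)
    (by decide) s1 (by simp [s1, at_set, ho.f4])
  rw [show s1.at .PI = wd S ρ.2 by simp [s1, at_set, he.pi],
    show s1.at .GI = [] by simp [s1, at_set, f .GI (by decide)], List.append_nil,
    show (wd S ρ.2 : List (SSym E)).length = S by simp [wd]] at k2
  set s2 := s1.set .GI (wd S ρ.2) with e2
  have o2 : EO s2 S B Z := (ho.set (by decide) _).set (by decide) _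
  have k3 := hcm S B ρ ρ .GR .GI .PR .PI s2 hB hS o2.toCln0 (by decide) (by decide) hρ.1 hρ.2
    hρ.1 hρ.2 o2.ws o2.wb (by simp [s2, s1, at_set]) (by simp [s2])
    (by simp [s2, s1, at_set, he.pr]) (by simp [s2, s1, at_set, he.pi])
  set s3 := (s2.set .GR (wd S (cmR S B ρ ρ).1)).set .GI (wd S (cmR S B ρ ρ).2) with e3
  have o3 : EO s3 S B Z := (o2.set (by decide) _).set (by decide) _
  have q : ∀ r, r ≠ .GR → r ≠ .GI → s3.at r = s.at r := by
    intro r h3 h4
    simp [s3, s2, s1, at_set, h3, h4]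
  have k4 := Tr.forr (u := .HX) (t := .F1) (by decide) (by decide) (by decide)
    (body := levC cm) (n := X) (F := fun _ => s3)
    (a := fun x => cat R fun i => cat Z fun z => bitsOf S (e x i z).1)
    (b := fun x => cat R fun i => cat Z fun z => bitsOf S (e x i z).2)
    (a' := fun x => cat R fun i => cat Z fun z => bitsOf S (cmR S B (e x i z) (ch S B ρ i)).1)
    (b' := fun x => cat R fun i => cat Z fun z => bitsOf S (cmR S B (e x i z) (ch S B ρ i)).2)
    (T := R * (Z * ((3 * C + 150) * (S + T S))))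
    (fun k _ => by rw [q _ (by decide) (by decide)]; exact he.hx)
    (fun k _ => by rw [q _ (by decide) (by decide)]; exact f _ (by decide))
    (fun x _ l l' => by
      have g : ∀ r, r ≠ .HX → r ≠ .F1 → r ≠ .GR → r ≠ .GI →
          ((s3.set .HX l).set .F1 l').at r = s.at r := by
        intro r g1 g2 g3 g4
        rw [at_set_ne _ g2, at_set_ne _ g1, q r g3 g4]
      exact levC_spec hcm hB hS hn.hZ hn.hr hρ (h1 x) (h2 x)
        ((o3.set (by decide) _).set (by decide) _)
        (by rw [g _ (by decide) (by decide) (by decide) (by decide)]; exact he.hr)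
        (by rw [g _ (by decide) (by decide) (by decide) (by decide)]; exact f _ (by decide))
        (by rw [g _ (by decide) (by decide) (by decide) (by decide)]; exact he.pr)
        (by rw [g _ (by decide) (by decide) (by decide) (by decide)]; exact he.pi)
        (by rw [g _ (by decide) (by decide) (by decide) (by decide)]; exact f _ (by decide))
        (by rw [g _ (by decide) (by decide) (by decide) (by decide)]; exact f _ (by decide))
        (by rw [g _ (by decide) (by decide) (by decide) (by decide)]; exact f _ (by decide))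
        (by rw [g _ (by decide) (by decide) (by decide) (by decide)]; exact f _ (by decide))
        (by simp [s3, at_set]) (by simp [s3, at_set]))
  have k4' := k4 [] [] [] []
  set A1 := cat X fun x => cat R fun i => cat Z fun z =>
    bitsOf S (cmR S B (e x i z) (ch S B ρ i)).1 with hA1
  set A2 := cat X fun x => cat R fun i => cat Z fun z =>
    bitsOf S (cmR S B (e x i z) (ch S B ρ i)).2 with hA2
  have u4 : st4 s3 (bits (cat X fun x => cat R fun i => cat Z fun z => bitsOf S (e x i z).1) ++ [])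
      (bits (cat X fun x => cat R fun i => cat Z fun z => bitsOf S (e x i z).2) ++ []) [] [] =
      s3 := by
    refine sw_ext (fun j => by simp [st4]) fun r => ?_
    have g1 : s3.at .XR = _ := (q .XR (by decide) (by decide)).trans hx
    have g2 : s3.at .XI = _ := (q .XI (by decide) (by decide)).trans hy
    have g3 : s3.at .O1 = [] := (q .O1 (by decide) (by decide)).trans (f _ (by decide))
    have g4 : s3.at .O2 = [] := (q .O2 (by decide) (by decide)).trans (f _ (by decide))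
    unfold arr3 at g1 g2
    simp only [st4, at_set, List.append_nil]
    clear k1 k2 k3 k4 k4' e1 e2 e3
    split_ifs <;> simp_all
  rw [u4] at k4'
  set s4 := st4 s3 [] [] ((bits A1).reverse ++ []) ((bits A2).reverse ++ []) with e4
  have k5 := r_clear (J := J) .GR s4
  rw [show (s4.at .GR).length = S by simp [s4, s3, st4, at_set, wd]] at k5
  set s5 := s4.set .GR [] with e5
  have k6 := r_clear (J := J) .GI s5
  rw [show (s5.at .GI).length = S by simp [s5, s4, s3, st4, at_set, wd]] at k6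
  set s6 := s5.set .GI [] with e6
  have k7 := r_rev (J := J) (a := .O1) (b := .XR) (by decide) s6
  have l7 : (s6.at .O1).length = A1.length := by simp [s6, s5, s4, st4, at_set]
  rw [l7] at k7
  set s7 := (s6.set .O1 []).set .XR ((s6.at .O1).reverse ++ s6.at .XR) with e7
  have k8 := r_rev (J := J) (a := .O2) (b := .XI) (by decide) s7
  have l8 : (s7.at .O2).length = A2.length := by simp [s7, s6, s5, s4, st4, at_set]
  rw [l8] at k8
  have n1 : A1.length = X * (R * (Z * S)) :=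
    length_cat_of fun i _ => length_cat_of fun i _ => length_cat_of fun i _ => by simp
  have n2 : A2.length = X * (R * (Z * S)) :=
    length_cat_of fun i _ => length_cat_of fun i _ => length_cat_of fun i _ => by simp
  refine ((k1.seq (k2.seq (k3.seq (k4'.seq (k5.seq (k6.seq (k7.seq k8))))))).mono ?_).of_eq ?_
  · rw [n1, n2]
    obtain ⟨Q, hQ⟩ : ∃ Q, Q = S + T S := ⟨_, rfl⟩
    obtain ⟨M, hM⟩ : ∃ M, M = X * R * Z := ⟨_, rfl⟩
    have hM1 : 1 ≤ M := by
      rw [hM]; exact Nat.mul_pos (Nat.mul_pos hn.hX hn.hr) hn.hZ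
    have hXM : X ≤ M := by
      rw [hM, mul_assoc]; exact Nat.le_mul_of_pos_right _ (Nat.mul_pos hn.hr hn.hZ)
    have g1 : S ≤ Q := by omega
    have g2 : 1 ≤ Q := by omega
    have e9 : (4 * C + 250) * (X * R * Z * (S + T S)) = M * (3 * C * Q) + M * (C * Q) +
        M * (250 * Q) := by rw [hM, hQ]; ring
    have e10 : X * (R * (Z * ((3 * C + 150) * (S + T S))) + 7) = M * (3 * C * Q) +
      M * (150 * Q) + X * 7 := by rw [hM, hQ]; ring
    have e11 : 3 * (X * (R * (Z * S))) = M * (3 * S) := by rw [hM]; ring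
    have h6 : C * Q ≤ M * (C * Q) := Nat.le_mul_of_pos_left _ hM1
    have h7 : 40 * Q ≤ M * (40 * Q) := Nat.le_mul_of_pos_left _ hM1
    have h8 : M * (3 * S) ≤ M * (3 * Q) := Nat.mul_le_mul_left _ (by omega)
    have h9 : X * 7 ≤ M * (7 * Q) := Nat.mul_le_mul hXM (by omega)
    have h10 : M * (250 * Q) = M * (150 * Q) + M * (40 * Q) + M * (3 * Q) + M * (3 * Q) +
      M * (7 * Q) + M * (47 * Q) := by ring
    have h11 : Q ≤ M * (47 * Q) := by nlinarith
    rw [e9, e10, e11]
    rw [← hQ]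
    omega
  · refine sw_ext (fun j => by simp [s7, s6, s5, s4, s3, s2, s1, st4]) fun r => ?_
    have g3 := f .GR (by decide)
    have g4 := f .GI (by decide)
    have g5 := f .O1 (by decide)
    have g6 := f .O2 (by decide)
    clear k1 k2 k3 k4 k4' k5 k6 k7 k8 l7 l8 n1 n2 u4 q o2 o3
    simp only [s7, s6, s5, s4, s3, s2, s1, st4, at_set, arr3]
    rw [← hA1, ← hA2]
    clear_value A1 A2
    clear e7 s7 e6 s6 e5 s5 e4 s4 e3 s3 e2 s2 e1 s1 hx hy
    split_ifs <;> simp_all

end Vale.Agent.P338.GS.Ps
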