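import Vale.Agent.P338.GS.IO
import Vale.Agent.P338.GS.Cmd
import Vale.Agent.P338.S2Trn
import Vale.Agent.P338.Kron2
import Vale.Agent.P338.PadTo

/-!
# P338, matrices of every shape: the long multiplications of the convolution
-/

namespace Vale.Agent.P338.GS.CV

open Vale.Agent.P338 Vale.Agent.P338.GS Vale.Agent.P338.S2

/-! ### Lists -/

/-- The kernel, shifted by one place. -/
def kSh (κ : ℕ → ℕ) (τ : ℕ) : ℕ := if τ = 0 then 0 else κ (τ - 1)

theorem conv2_kSh (r : ℕ) (κ : ℕ → ℕ) (v : ℕ → ℕ → ℕ → ℕ) (x k z : ℕ) :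
    conv2 r (kSh κ) v x k z = ∑ i ∈ Finset.range r, κ (k + (r - 1) - i) * v x i z := by
  unfold conv2
  refine Finset.sum_congr rfl fun i hi => ?_
  rw [Finset.mem_range] at hi
  rw [kSh, if_neg (by omega), Nat.mul_comm]
  congr 2
  omega

theorem bitsOf_word {S v : ℕ} (h : v < 2 ^ S) :
    bitsOf (3 * S) v = bitsOf S v ++ List.replicate (2 * S) false := by
  rw [show 3 * S = S + 2 * S by ring, bitsOf_add, Nat.div_eq_of_lt h, bitsOf_zero]

theorem ker_eq {r Z S : ℕ} (hr : 1 ≤ r) (hZ : 1 ≤ Z) {κ : ℕ → ℕ} (hκ : ∀ j, κ j < 2 ^ S) :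
    kerList2 r Z (3 * S) (kSh κ) = List.replicate (Z * (3 * S)) false ++
      cat (2 * r - 1) fun j => bitsOf S (κ j) ++
        List.replicate (Z * (3 * S) - S) false := by
  obtain ⟨n, hn⟩ : ∃ n, 2 * r = n + 1 := ⟨2 * r - 1, by omega⟩
  have hn' : 2 * r - 1 = n := by omega
  obtain ⟨Y, rfl⟩ : ∃ Y, Z = Y + 1 := ⟨Z - 1, by omega⟩
  have e1 : (Y + 1) * (3 * S) - S = 2 * S + Y * (3 * S) := by
    rw [Nat.add_mul, Nat.one_mul]; omega
  unfold kerList2
  rw [hn', hn, cat_succ', e1, Nat.add_sub_cancel]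
  congr 1
  · rw [kSh, if_pos rfl, bitsOf_zero, List.replicate_append_replicate]
    congr 1
    ring
  · refine cat_congr fun j _ => ?_
    have : kSh κ (j + 1) = κ j := by simp [kSh]
    rw [this, bitsOf_word (hκ j), List.append_assoc, List.replicate_append_replicate]

theorem dat_eq {X r Z S : ℕ} {v : ℕ → ℕ → ℕ → ℕ} (hv : ∀ x i z, v x i z < 2 ^ S) :
    (cat X fun x => (cat r fun i => cat Z fun z => bitsOf S (v x i z) ++
      List.replicate (2 * S) false) ++ List.replicate (2 * (r * (Z * (3 * S)))) false) =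
      xaList2 X r Z (3 * S) v := by
  unfold xaList2
  refine cat_congr fun x _ => ?_
  congr 1
  · refine cat_congr fun i _ => cat_congr fun z _ => ?_
    rw [bitsOf_word (hv x i z)]
  · congr 1
    ring

theorem prod_eq {X r Z S m : ℕ} (hZ : 1 ≤ Z) (hS : 1 ≤ S)
    (hrS : r < 2 ^ (S - 1)) {κ : ℕ → ℕ} (hκ : ∀ j, κ j < 2 ^ S) {v : ℕ → ℕ → ℕ → ℕ}
    (hv : ∀ x i z, v x i z < 2 ^ S) (hm : X * (3 * (r * (Z * (3 * S)))) ≤ 2 * m) :
    ∃ A₁ A₃ : ℕ → List Bool, (∀ a, (A₁ a).length = r * (Z * (3 * S))) ∧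
      (∀ a, (A₃ a).length = r * (Z * (3 * S))) ∧
      bitsOf (2 * m) (natOf (xaList2 X r Z (3 * S) v) *
        natOf (kerList2 r Z (3 * S) (kSh κ))) =
        (cat X fun a => A₁ a ++ ((cat r fun k => cat Z fun z =>
          bitsOf S (cvR S r κ (fun i => v a i z) k) ++
            bitsOf (2 * S) (conv2 r (kSh κ) v a k z / 2 ^ S)) ++ A₃ a)) ++
          List.replicate (2 * m - X * (3 * (r * (Z * (3 * S))))) false := by
  have hS3 : 2 ^ S ≤ 2 ^ (3 * S) := Nat.pow_le_pow_right (by norm_num) (by omega)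
  have hk : ∀ τ, kSh κ τ < 2 ^ S := by
    intro τ
    unfold kSh
    split
    · positivity
    · exact hκ _
  have key : r * (2 ^ S * 2 ^ S) < 2 ^ (3 * S) := by
    calc r * (2 ^ S * 2 ^ S) < 2 ^ (S - 1) * (2 ^ S * 2 ^ S) :=
          Nat.mul_lt_mul_of_pos_right hrS (by positivity)
      _ ≤ 2 ^ S * (2 ^ S * 2 ^ S) :=
          Nat.mul_le_mul_right _ (Nat.pow_le_pow_right (by norm_num) (by omega))
      _ = 2 ^ (3 * S) := by
          rw [← pow_add, ← pow_add]
          congr 1
          ring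
  obtain ⟨A₁, A₃, l1, l3, hA⟩ := mul_kernel2 (h := X) (r := r) (s := Z) (S := 3 * S)
    (κ := kSh κ) (v := v) (K := 2 * m) hZ (fun τ _ => lt_of_lt_of_le (hk τ) hS3)
    (by rw [show r * Z * (3 * S) = r * (Z * (3 * S)) by ring]; exact hm)
    (fun a _ i _ c _ => lt_of_lt_of_le (hv a i c) hS3)
    (fun a _ t c _ => lt_of_le_of_lt (convPart2_le (V := 2 ^ S) (K := 2 ^ S)
      (fun i _ => (hv a i c).le) (fun τ _ => (hk τ).le) t) key)
  refine ⟨A₁, A₃, fun a => by rw [l1]; ring, fun a => by rw [l3]; ring, ?_⟩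
  rw [hA, show r * Z * (3 * S) = r * (Z * (3 * S)) by ring]
  congr 1
  refine cat_congr fun a _ => ?_
  congr 2
  refine cat_congr fun k _ => cat_congr fun z _ => ?_
  rw [show 3 * S = S + 2 * S by ring, bitsOf_add]
  congr 1
  rw [cvR, bitsOf_mod, conv2_kSh]

/-! ### The programs -/

variable {J E : Type} [DecidableEq J]

/-- Expand a word. -/
def exW : PW J E :=
  (mvn (wg .WS) (wg .F4) (wg .T6) (wg .T7)).seq
    (Prog.fill (wg .T1) (sb false) (wg .T7) (wg .F4))

/-- Expand the words and the blocks of the data. -/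
def exX : PW J E :=
  Prog.forr (wg .HX) (wg .F1)
    ((Prog.forr (wg .HR) (wg .F2) (Prog.forr (wg .HZ) (wg .F3) exW)).seq
      ((Prog.fill (wg .T2) (sb false) (wg .T7) (wg .F4)).seq
        (Prog.fill (wg .T2) (sb false) (wg .T7) (wg .F4))))

/-- Expand the kernel. -/
def exK : PW J E :=
  (Prog.fill (wg .T3) (sb false) (wg .T7) (wg .F4)).seq
    (Prog.forr (wg .T5) (wg .F1) ((mvn (wg .WS) (wg .F4) (wg .T6) (wg .T7)).seq
      (Prog.fill (wg .T4) (sb false) (wg .T7) (wg .F4))))

/-- Select a word of the product. -/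
def exV : PW J E :=
  (mvn (wg .WS) (wg .F4) (wg .AZ) (wg .T7)).seq (drn (wg .T1) (wg .F4) (wg .AZ))

/-- Select the words of the product. -/
def exZ : PW J E :=
  Prog.forr (wg .HX) (wg .F1) ((drn (wg .T2) (wg .F4) (wg .AZ)).seq
    ((Prog.forr (wg .HR) (wg .F2) (Prog.forr (wg .HZ) (wg .F3) exV)).seq
      (drn (wg .T2) (wg .F4) (wg .AZ))))

omit [DecidableEq J] in
theorem wne {a b : W} (h : a ≠ b) : (wg a : Loc J ⊕ W) ≠ wg b := by simpa using h

/-- The innermost condition. -/
def G0 (S B : ℕ) (s : SW J E) : Prop :=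
  s (wg .WS) = una S ∧ s (wg .T1) = una (2 * S) ∧ s (wg .T2) = una B ∧ s (wg .F4) = []

/-- With the counter `Z`. -/
def G1 (S B Z : ℕ) (s : SW J E) : Prop :=
  G0 S B s ∧ s (wg .HZ) = List.replicate Z mk ∧ s (wg .F3) = []

/-- With the counter `r`. -/
def G2 (S B Z r : ℕ) (s : SW J E) : Prop :=
  G1 S B Z s ∧ s (wg .HR) = List.replicate r mk ∧ s (wg .F2) = []

/-- With the counter `X`. -/
def G3 (S B Z r X : ℕ) (s : SW J E) : Prop :=
  G2 S B Z r s ∧ s (wg .HX) = List.replicate X mk ∧ s (wg .F1) = []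

theorem G0.ind {S B : ℕ} {q : W} (hq : q ∉ [W.WS, .T1, .T2, .F4]) :
    Indep (G0 S B : SW J E → Prop) (wg q) := by
  intro s l hs
  simp only [List.mem_cons, List.not_mem_nil, or_false, not_or] at hq
  obtain ⟨h1, h2, h3, h4⟩ := hq
  unfold G0 at *
  simp only [Function.update_apply, wg, Sum.inr.injEq]
  rw [if_neg (Ne.symm h1), if_neg (Ne.symm h2), if_neg (Ne.symm h3), if_neg (Ne.symm h4)]
  exact hs

theorem G1.ind {S B Z : ℕ} {q : W} (hq : q ∉ [W.WS, .T1, .T2, .F4, .HZ, .F3]) :
    Indep (G1 S B Z : SW J E → Prop) (wg q) := by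
  intro s l hs
  refine ⟨G0.ind (by simp_all) s l hs.1, ?_⟩
  simp only [List.mem_cons, List.not_mem_nil, or_false, not_or] at hq
  simp only [Function.update_apply, wg, Sum.inr.injEq]
  rw [if_neg (by tauto), if_neg (by tauto)]
  exact hs.2

theorem G2.ind {S B Z r : ℕ} {q : W} (hq : q ∉ [W.WS, .T1, .T2, .F4, .HZ, .F3, .HR, .F2]) :
    Indep (G2 S B Z r : SW J E → Prop) (wg q) := by
  intro s l hs
  refine ⟨G1.ind (by simp_all) s l hs.1, ?_⟩
  simp only [List.mem_cons, List.not_mem_nil, or_false, not_or] at hq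
  simp only [Function.update_apply, wg, Sum.inr.injEq]
  rw [if_neg (by tauto), if_neg (by tauto)]
  exact hs.2

theorem exX_trn (X r Z S B : ℕ) (f : ℕ → ℕ → ℕ → List Bool)
    (hf : ∀ x i z, (f x i z).length = S) :
    Trn (G3 S B Z r X) (wg .T6) (wg .T7) (exX : PW J E)
      (bits (cat X fun x => cat r fun i => cat Z fun z => f x i z))
      (bits (cat X fun x => (cat r fun i => cat Z fun z => f x i z ++
        List.replicate (2 * S) false) ++ List.replicate (2 * B) false))
      (X * (r * (Z * (24 * S + 10) + 8) + 16 * B + 12) + 1) := by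
  have w : ∀ x i z, Trn (G0 S B) (wg .T6) (wg .T7) (exW : PW J E) (bits (f x i z))
      (bits (f x i z ++ List.replicate (2 * S) false)) (24 * S + 3) := by
    intro x i z
    have hl : (bits (f x i z) : List (SSym E)).length = S := by rw [length_bits, hf]
    have h1 := Trn.mvn (G := (G0 S B : SW J E → Prop)) (u := wg .WS) (t := wg .F4)
      (x := wg .T6) (o := wg .T7) (wne (by decide)) (wne (by decide)) (wne (by decide))
      (wne (by decide)) (wne (by decide)) (wne (by decide)) mk (bits (f x i z))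
      (fun s hs => by rw [hl]; exact ⟨hs.1, hs.2.2.2⟩)
    have h2 := Trn.fill (G := (G0 S B : SW J E → Prop)) (u := wg .T1) (t := wg .F4)
      (x := wg .T6) (o := wg .T7) (wne (by decide)) (wne (by decide)) (wne (by decide)) mk
      (sb false) (2 * S) (fun s hs => ⟨hs.2.1, hs.2.2.2⟩)
    refine ((h1.seq (wne (by decide)) (G0.ind (by decide)) (G0.ind (by decide)) h2).mono
      ?_).congr ?_ ?_
    · rw [hl]; omega
    · simp
    · simp [bits]
  have z1 : ∀ x i, Trn (G1 S B Z) (wg .T6) (wg .T7)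
      (Prog.forr (wg .HZ) (wg .F3) exW : PW J E)
      (bits (cat Z fun z => f x i z))
      (bits (cat Z fun z => f x i z ++ List.replicate (2 * S) false))
      (Z * (24 * S + 10) + 1) := by
    intro x i
    have h := Trn.forr (G := (G0 S B : SW J E → Prop)) (u := wg .HZ) (t := wg .F3)
      (x := wg .T6) (o := wg .T7) (wne (by decide)) (wne (by decide)) (wne (by decide))
      (wne (by decide)) (wne (by decide)) (wne (by decide)) (G0.ind (by decide))
      (G0.ind (by decide)) (G0.ind (by decide)) (G0.ind (by decide)) mk Z _ _ _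
      (fun z _ => w x i z)
    refine (h.mono (by ring_nf; omega)).congr ?_ ?_
    · unfold bits; rw [map_cat]
    · unfold bits; rw [map_cat]
  have r1 : ∀ x, Trn (G2 S B Z r) (wg .T6) (wg .T7)
      (Prog.forr (wg .HR) (wg .F2) (Prog.forr (wg .HZ) (wg .F3) exW) : PW J E)
      (bits (cat r fun i => cat Z fun z => f x i z))
      (bits (cat r fun i => cat Z fun z => f x i z ++ List.replicate (2 * S) false))
      (r * (Z * (24 * S + 10) + 8) + 1) := by
    intro x
    have h := Trn.forr (G := (G1 S B Z : SW J E → Prop)) (u := wg .HR) (t := wg .F2)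
      (x := wg .T6) (o := wg .T7) (wne (by decide)) (wne (by decide)) (wne (by decide))
      (wne (by decide)) (wne (by decide)) (wne (by decide)) (G1.ind (by decide))
      (G1.ind (by decide)) (G1.ind (by decide)) (G1.ind (by decide)) mk r _ _ _
      (fun i _ => z1 x i)
    refine (h.mono (by ring_nf; omega)).congr ?_ ?_
    · unfold bits; rw [map_cat]
    · unfold bits; rw [map_cat]
  have b1 : ∀ x, Trn (G2 S B Z r) (wg .T6) (wg .T7)
      ((Prog.forr (wg .HR) (wg .F2) (Prog.forr (wg .HZ) (wg .F3) exW)).seq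
      ((Prog.fill (wg .T2) (sb false) (wg .T7) (wg .F4)).seq
        (Prog.fill (wg .T2) (sb false) (wg .T7) (wg .F4))) : PW J E)
      (bits (cat r fun i => cat Z fun z => f x i z))
      (bits ((cat r fun i => cat Z fun z => f x i z ++ List.replicate (2 * S) false) ++
        List.replicate (2 * B) false))
      (r * (Z * (24 * S + 10) + 8) + 16 * B + 5) := by
    intro x
    have h2 := Trn.fill (G := (G2 S B Z r : SW J E → Prop)) (u := wg .T2) (t := wg .F4)
      (x := wg .T6) (o := wg .T7) (wne (by decide)) (wne (by decide)) (wne (by decide)) mk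
      (sb false) B (fun s hs => ⟨hs.1.1.2.2.1, hs.1.1.2.2.2⟩)
    refine (((r1 x).seq (wne (by decide)) (G2.ind (by decide)) (G2.ind (by decide))
      (h2.seq (wne (by decide)) (G2.ind (by decide)) (G2.ind (by decide)) h2)).mono
      (by omega)).congr ?_ ?_
    · simp
    · rw [List.replicate_append_replicate, ← two_mul]
      simp [bits]
  have h := Trn.forr (G := (G2 S B Z r : SW J E → Prop)) (u := wg .HX) (t := wg .F1)
      (x := wg .T6) (o := wg .T7) (wne (by decide)) (wne (by decide)) (wne (by decide))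
      (wne (by decide)) (wne (by decide)) (wne (by decide)) (G2.ind (by decide))
      (G2.ind (by decide)) (G2.ind (by decide)) (G2.ind (by decide)) mk X _ _ _
      (fun x _ => b1 x)
  refine (h.mono (by ring_nf; omega)).congr ?_ ?_
  · unfold bits; rw [map_cat]
  · unfold bits; rw [map_cat]

/-- The condition for the kernel. -/
def GK (S Rw : ℕ) (s : SW J E) : Prop :=
  s (wg .WS) = una S ∧ s (wg .T3) = una Rw ∧ s (wg .T4) = una (Rw - S) ∧ s (wg .F4) = []

theorem GK.ind {S B : ℕ} {q : W} (hq : q ∉ [W.WS, .T3, .T4, .F4]) :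
    Indep (GK S B : SW J E → Prop) (wg q) := by
  intro s l hs
  simp only [List.mem_cons, List.not_mem_nil, or_false, not_or] at hq
  obtain ⟨h1, h2, h3, h4⟩ := hq
  unfold GK at *
  simp only [Function.update_apply, wg, Sum.inr.injEq]
  rw [if_neg (Ne.symm h1), if_neg (Ne.symm h2), if_neg (Ne.symm h3), if_neg (Ne.symm h4)]
  exact hs

theorem exK_trn (N S Rw : ℕ) (f : ℕ → List Bool) (hf : ∀ x, (f x).length = S) :
    Trn (fun s => GK S Rw s ∧ s (wg .T5) = List.replicate N mk ∧ s (wg .F1) = [])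
      (wg .T6) (wg .T7) (exK : PW J E) (bits (cat N f))
      (bits (List.replicate Rw false ++ cat N fun x => f x ++ List.replicate (Rw - S) false))
      (8 * Rw + 3 + N * (8 * S + 8 * (Rw - S) + 10)) := by
  have h := Trn.forr (G := (GK S Rw : SW J E → Prop))
    (u := wg .T5) (t := wg .F1) (x := wg .T6) (o := wg .T7)
    (body := ((mvn (wg .WS) (wg .F4) (wg .T6) (wg .T7)).seq
      (Prog.fill (wg .T4) (sb false) (wg .T7) (wg .F4))))
    (wne (by decide)) (wne (by decide)) (wne (by decide))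
    (wne (by decide)) (wne (by decide)) (wne (by decide)) (GK.ind (by decide))
    (GK.ind (by decide)) (GK.ind (by decide)) (GK.ind (by decide)) mk N
    (8 * S + 8 * (Rw - S) + 3)
    (fun x => bits (f x)) (fun x => bits (f x ++ List.replicate (Rw - S) false))
    (by
      intro x _
      have hl : (bits (f x) : List (SSym E)).length = S := by rw [length_bits, hf x]
      have h1 := Trn.mvn (G := (GK S Rw : SW J E → Prop)) (u := wg .WS) (t := wg .F4)
        (x := wg .T6) (o := wg .T7) (wne (by decide)) (wne (by decide)) (wne (by decide))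
        (wne (by decide)) (wne (by decide)) (wne (by decide)) mk (bits (f x))
        (fun s hs => by rw [hl]; exact ⟨hs.1, hs.2.2.2⟩)
      have h2 := Trn.fill (G := (GK S Rw : SW J E → Prop)) (u := wg .T4) (t := wg .F4)
        (x := wg .T6) (o := wg .T7) (wne (by decide)) (wne (by decide)) (wne (by decide)) mk
        (sb false) (Rw - S) (fun s hs => ⟨hs.2.2.1, hs.2.2.2⟩)
      refine ((h1.seq (wne (by decide)) (GK.ind (by decide)) (GK.ind (by decide)) h2).mono
        ?_).congr ?_ ?_
      · rw [hl]; omega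
      · simp
      · simp [bits])
  have h0 := Trn.fill (G := fun s : SW J E => GK S Rw s ∧
        s (wg .T5) = List.replicate N mk ∧ s (wg .F1) = [])
        (u := wg .T3) (t := wg .F4) (x := wg .T6) (o := wg .T7)
        (wne (by decide)) (wne (by decide)) (wne (by decide)) mk (sb false) Rw
        (fun s hs => ⟨hs.1.2.1, hs.1.2.2.2⟩)
  have hi : ∀ q ∈ [W.T6, W.T7], Indep (fun s : SW J E => GK S Rw s ∧
        s (wg .T5) = List.replicate N mk ∧ s (wg .F1) = []) (wg q) := by
    intro q hq s l hs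
    simp only [List.mem_cons, List.not_mem_nil, or_false] at hq
    rcases hq with rfl | rfl
    · exact ⟨GK.ind (by decide) s l hs.1, by simpa using hs.2⟩
    · exact ⟨GK.ind (by decide) s l hs.1, by simpa using hs.2⟩
  refine ((h0.seq (wne (by decide)) (hi _ (by simp)) (hi _ (by simp)) h).mono
    (by ring_nf; omega)).congr ?_ ?_
  · unfold bits; rw [map_cat, List.nil_append]
  · unfold bits; rw [List.map_append, map_cat]
    simp

theorem exZ_trn (X r Z S B : ℕ) (f₁ f₃ : ℕ → List Bool) (f g : ℕ → ℕ → ℕ → List Bool)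
    (h₁ : ∀ x, (f₁ x).length = B) (h₃ : ∀ x, (f₃ x).length = B)
    (hf : ∀ x i z, (f x i z).length = S) (hg : ∀ x i z, (g x i z).length = 2 * S) :
    Trn (G3 S B Z r X) (wg .AZ) (wg .T7) (exZ : PW J E)
      (bits (cat X fun x => f₁ x ++ ((cat r fun i => cat Z fun z => f x i z ++ g x i z) ++
        f₃ x)))
      (bits (cat X fun x => cat r fun i => cat Z fun z => f x i z))
      (X * (r * (Z * (24 * S + 10) + 8) + 16 * B + 12) + 1) := by
  have w : ∀ x i z, Trn (G0 S B) (wg .AZ) (wg .T7) (exV : PW J E)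
      (bits (f x i z ++ g x i z)) (bits (f x i z)) (24 * S + 3) := by
    intro x i z
    have hl : (bits (f x i z) : List (SSym E)).length = S := by rw [length_bits, hf]
    have hl' : (bits (g x i z) : List (SSym E)).length = 2 * S := by rw [length_bits, hg]
    have h1 := Trn.mvn (G := (G0 S B : SW J E → Prop)) (u := wg .WS) (t := wg .F4)
      (x := wg .AZ) (o := wg .T7) (wne (by decide)) (wne (by decide)) (wne (by decide))
      (wne (by decide)) (wne (by decide)) (wne (by decide)) mk (bits (f x i z))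
      (fun s hs => by rw [hl]; exact ⟨hs.1, hs.2.2.2⟩)
    have h2 := Trn.drn (G := (G0 S B : SW J E → Prop)) (u := wg .T1) (t := wg .F4)
      (x := wg .AZ) (o := wg .T7) (wne (by decide)) (wne (by decide)) (wne (by decide))
      (wne (by decide)) mk (bits (g x i z)) (fun s hs => by rw [hl']; exact ⟨hs.2.1, hs.2.2.2⟩)
    refine ((h1.seq (wne (by decide)) (G0.ind (by decide)) (G0.ind (by decide)) h2).mono
      ?_).congr ?_ ?_
    · rw [hl, hl']; omega
    · simp [bits]
    · simp
  have z1 : ∀ x i, Trn (G1 S B Z) (wg .AZ) (wg .T7)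
      (Prog.forr (wg .HZ) (wg .F3) exV : PW J E)
      (bits (cat Z fun z => f x i z ++ g x i z)) (bits (cat Z fun z => f x i z))
      (Z * (24 * S + 10) + 1) := by
    intro x i
    have h := Trn.forr (G := (G0 S B : SW J E → Prop)) (u := wg .HZ) (t := wg .F3)
      (x := wg .AZ) (o := wg .T7) (wne (by decide)) (wne (by decide)) (wne (by decide))
      (wne (by decide)) (wne (by decide)) (wne (by decide)) (G0.ind (by decide))
      (G0.ind (by decide)) (G0.ind (by decide)) (G0.ind (by decide)) mk Z _ _ _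
      (fun z _ => w x i z)
    refine (h.mono (by ring_nf; omega)).congr ?_ ?_
    · unfold bits; rw [map_cat]
    · unfold bits; rw [map_cat]
  have r1 : ∀ x, Trn (G2 S B Z r) (wg .AZ) (wg .T7)
      (Prog.forr (wg .HR) (wg .F2) (Prog.forr (wg .HZ) (wg .F3) exV) : PW J E)
      (bits (cat r fun i => cat Z fun z => f x i z ++ g x i z))
      (bits (cat r fun i => cat Z fun z => f x i z))
      (r * (Z * (24 * S + 10) + 8) + 1) := by
    intro x
    have h := Trn.forr (G := (G1 S B Z : SW J E → Prop)) (u := wg .HR) (t := wg .F2)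
      (x := wg .AZ) (o := wg .T7) (wne (by decide)) (wne (by decide)) (wne (by decide))
      (wne (by decide)) (wne (by decide)) (wne (by decide)) (G1.ind (by decide))
      (G1.ind (by decide)) (G1.ind (by decide)) (G1.ind (by decide)) mk r _ _ _
      (fun i _ => z1 x i)
    refine (h.mono (by ring_nf; omega)).congr ?_ ?_
    · unfold bits; rw [map_cat]
    · unfold bits; rw [map_cat]
  have b1 : ∀ x, Trn (G2 S B Z r) (wg .AZ) (wg .T7)
      ((drn (wg .T2) (wg .F4) (wg .AZ)).seq
    ((Prog.forr (wg .HR) (wg .F2) (Prog.forr (wg .HZ) (wg .F3) exV)).seq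
      (drn (wg .T2) (wg .F4) (wg .AZ))) : PW J E)
      (bits (f₁ x ++ ((cat r fun i => cat Z fun z => f x i z ++ g x i z) ++ f₃ x)))
      (bits (cat r fun i => cat Z fun z => f x i z))
      (r * (Z * (24 * S + 10) + 8) + 16 * B + 5) := by
    intro x
    have l1 : (bits (f₁ x) : List (SSym E)).length = B := by rw [length_bits, h₁]
    have l3 : (bits (f₃ x) : List (SSym E)).length = B := by rw [length_bits, h₃]
    have t1 := Trn.drn (G := (G2 S B Z r : SW J E → Prop)) (u := wg .T2) (t := wg .F4)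
      (x := wg .AZ) (o := wg .T7) (wne (by decide)) (wne (by decide)) (wne (by decide))
      (wne (by decide)) mk (bits (f₁ x))
      (fun s hs => by rw [l1]; exact ⟨hs.1.1.2.2.1, hs.1.1.2.2.2⟩)
    have t3 := Trn.drn (G := (G2 S B Z r : SW J E → Prop)) (u := wg .T2) (t := wg .F4)
      (x := wg .AZ) (o := wg .T7) (wne (by decide)) (wne (by decide)) (wne (by decide))
      (wne (by decide)) mk (bits (f₃ x))
      (fun s hs => by rw [l3]; exact ⟨hs.1.1.2.2.1, hs.1.1.2.2.2⟩)
    refine ((t1.seq (wne (by decide)) (G2.ind (by decide)) (G2.ind (by decide))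
      ((r1 x).seq (wne (by decide)) (G2.ind (by decide)) (G2.ind (by decide)) t3)).mono
      ?_).congr ?_ ?_
    · rw [l1, l3]; omega
    · simp [bits]
    · simp
  have h := Trn.forr (G := (G2 S B Z r : SW J E → Prop)) (u := wg .HX) (t := wg .F1)
      (x := wg .AZ) (o := wg .T7) (wne (by decide)) (wne (by decide)) (wne (by decide))
      (wne (by decide)) (wne (by decide)) (wne (by decide)) (G2.ind (by decide))
      (G2.ind (by decide)) (G2.ind (by decide)) (G2.ind (by decide)) mk X _ _ _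
      (fun x _ => b1 x)
  refine (h.mono (by ring_nf; omega)).congr ?_ ?_
  · unfold bits; rw [map_cat]
  · unfold bits; rw [map_cat]

end Vale.Agent.P338.GS.CV
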