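import Vale.Agent.P338.GS.ConvA

/-!
# P338, matrices of every shape: one real convolution
-/

namespace Vale.Agent.P338.GS.CV

open Vale.Agent.P338 Vale.Agent.P338.GS Vale.Agent.P338.S2 Vale.Agent.P338.GS.IO

variable {J E : Type} [DecidableEq J]

/-- Move `x` to `y`, padded with zeros to the length on `MM`. -/
def padW (x y : W) : PW J E :=
  (Prog.copyOnto (wg .MM) (wg .T8) (wg .F4)).seq
    (Prog.padTo (wg x) (wg y) (wg .F4) (wg .T8) (sb false))

theorem bits_zeros' (n : ℕ) (b : Bool) :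
    (bits (List.replicate n b) : List (SSym E)) = List.replicate n (sb b) := by simp [bits]

theorem bits_app (l l' : List Bool) :
    (bits (l ++ l') : List (SSym E)) = bits l ++ bits l' := by simp [bits]

theorem padW_runs {x y : W} (hxy : x ≠ y) (hx1 : x ≠ .T8) (hx2 : x ≠ .F4)
    (hy1 : y ≠ .T8) (hy2 : y ≠ .F4) (s : SW J E) (l : List Bool) (m : ℕ)
    (hx : s.at x = bits l) (hy : s.at y = []) (h1 : s.at .T8 = []) (h2 : s.at .F4 = [])
    (hm : s.at .MM = una m) (hl : l.length ≤ m) :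
    Runs (padW x y) s
      ((s.set x []).set y (bits (l ++ List.replicate (m - l.length) false))) (14 * m + 4) := by
  have r1 := r_copy (J := J) (a := .MM) (b := .T8) (t := .F4) (by decide) (by decide)
    (by decide) s h2
  have e1 : s.at .MM ++ s.at .T8 = una m := by rw [hm, h1, List.append_nil]
  have e2 : (s.at .MM).length = m := by rw [hm]; simp
  rw [e1, e2] at r1
  have r2 : Runs (Prog.padTo (wg x) (wg y) (wg .F4) (wg .T8) (sb false) : PW J E)
      (s.set .T8 (una m)) ((((s.set .T8 (una m)).set x []).set .T8 []).set y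
        (bits l ++ List.replicate (m - (bits l : List (SSym E)).length) (sb false)))
      (8 * m + 2) :=
    Runs.padTo (x := (wg x : Loc J ⊕ W)) (y := wg y) (t := wg .F4)
    (u := wg .T8) (wne hxy) (wne hx2) (wne hx1) (wne hy2) (wne hy1) (wne (by decide)) mk
    (sb false) (s.set .T8 (una m))
    (bits l) m (by have := at_set_ne s hx1 (una m); exact this.trans hx)
      (by have := at_set_ne s hy1 (una m); exact this.trans hy)
      (by have := at_set_ne s (show W.F4 ≠ W.T8 by decide) (una m); exact this.trans h2)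
      (at_set_self s .T8 (una m)) (by rw [length_bits]; exact hl)
  refine ((r1.seq r2).mono (by omega)).of_eq ?_
  rw [length_bits, bits_app, bits_zeros']
  refine sw_ext (fun j => by simp) fun q => ?_
  simp only [at_set]
  split_ifs <;> simp_all

/-- The stacks during a real convolution. -/
structure OEnv (s : SW J E) (X r Z S m : ℕ) : Prop where
  idle : ∀ j, s (Sum.inl j) = []
  hx : s.at .HX = una X
  hr : s.at .HR = una r
  hz : s.at .HZ = una Z
  ws : s.at .WS = una S
  mm : s.at .MM = una m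
  t1 : s.at .T1 = una (2 * S)
  t2 : s.at .T2 = una (r * (Z * (3 * S)))
  t3 : s.at .T3 = una (Z * (3 * S))
  t4 : s.at .T4 = una (Z * (3 * S) - S)
  t5 : s.at .T5 = una (2 * r - 1)
  t6 : s.at .T6 = []
  t7 : s.at .T7 = []
  t8 : s.at .T8 = []
  f1 : s.at .F1 = []
  f2 : s.at .F2 = []
  f3 : s.at .F3 = []
  f4 : s.at .F4 = []
  f8 : s.at .F8 = []
  ax : s.at .AX = []
  ay : s.at .AY = []
  az : s.at .AZ = []

theorem OEnv.set {s : SW J E} {X r Z S m : ℕ} (h : OEnv s X r Z S m) {q : W}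
    (hq : q ∈ [W.DR, .DI, .ER, .EI]) (l : List (SSym E)) : OEnv (s.set q l) X r Z S m := by
  simp only [List.mem_cons, List.not_mem_nil, or_false] at hq
  obtain ⟨a0, a1, a2, a3, a4, a5, a6, a7, a8, a9, a10, a11, a12, a13, a14, a15, a16, a17, a18,
    a19, a20, a21⟩ := h
  rcases hq with rfl | rfl | rfl | rfl <;>
    exact ⟨fun j => by rw [set_inl]; exact a0 j, by rwa [at_set_ne _ (by decide)],
      by rwa [at_set_ne _ (by decide)], by rwa [at_set_ne _ (by decide)],
      by rwa [at_set_ne _ (by decide)], by rwa [at_set_ne _ (by decide)],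
      by rwa [at_set_ne _ (by decide)], by rwa [at_set_ne _ (by decide)],
      by rwa [at_set_ne _ (by decide)], by rwa [at_set_ne _ (by decide)],
      by rwa [at_set_ne _ (by decide)], by rwa [at_set_ne _ (by decide)],
      by rwa [at_set_ne _ (by decide)], by rwa [at_set_ne _ (by decide)],
      by rwa [at_set_ne _ (by decide)], by rwa [at_set_ne _ (by decide)],
      by rwa [at_set_ne _ (by decide)], by rwa [at_set_ne _ (by decide)],
      by rwa [at_set_ne _ (by decide)], by rwa [at_set_ne _ (by decide)],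
      by rwa [at_set_ne _ (by decide)], by rwa [at_set_ne _ (by decide)]⟩

/-- The sizes. -/
structure Sz (X r Z S m : ℕ) : Prop where
  hX : 1 ≤ X
  hr : 1 ≤ r
  hZ : 1 ≤ Z
  hS : 1 ≤ S
  hm : 9 * (X * r * Z * S) ≤ m

theorem Sz.bds {X r Z S m : ℕ} (h : Sz X r Z S m) : 1 ≤ X * r * Z * S ∧ X ≤ X * r * Z * S ∧
    X * r ≤ X * r * Z * S ∧ X * r * Z ≤ X * r * Z * S ∧ r ≤ X * r * Z * S ∧
    r * (Z * S) ≤ X * r * Z * S ∧ Z * S ≤ X * r * Z * S ∧ S ≤ X * r * Z * S ∧
    Z ≤ X * r * Z * S := by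
  obtain ⟨hX, hr, hZ, hS, hm⟩ := h
  have h0 : 0 < X * r * Z * S := by positivity
  exact ⟨h0, Nat.le_of_dvd h0 ⟨r * Z * S, by ring⟩, Nat.le_of_dvd h0 ⟨Z * S, by ring⟩,
    Nat.le_of_dvd h0 ⟨S, by ring⟩, Nat.le_of_dvd h0 ⟨X * Z * S, by ring⟩,
    Nat.le_of_dvd h0 ⟨X, by ring⟩, Nat.le_of_dvd h0 ⟨X * r, by ring⟩,
    Nat.le_of_dvd h0 ⟨X * r * Z, by ring⟩, Nat.le_of_dvd h0 ⟨X * r * S, by ring⟩⟩

/-- The first operand. -/
def opX (x : W) : PW J E :=
  (Prog.copyOnto (wg x) (wg .T6) (wg .F4)).seq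
    (exX.seq ((Prog.rev (wg .T7) (wg .T6)).seq (padW .T6 .AX)))

/-- The second operand. -/
def opK (k : W) : PW J E :=
  (Prog.copyOnto (wg k) (wg .T6) (wg .F4)).seq
    (exK.seq ((Prog.rev (wg .T7) (wg .T6)).seq (padW .T6 .AY)))

/-- The result. -/
def tkZ (o : W) : PW J E :=
  exZ.seq ((Prog.clear (wg .AZ)).seq (Prog.rev (wg .T7) (wg o)))

theorem opX_runs {X r Z S m : ℕ} (hs : Sz X r Z S m) {v : ℕ → ℕ → ℕ → ℕ}
    (hv : ∀ x i z, v x i z < 2 ^ S) {s : SW J E} (h : OEnv s X r Z S m) {x : W}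
    (hx6 : x ≠ .T6) (hx4 : x ≠ .F4) (hx : s.at x = bits (arr3 X r Z S v)) :
    Runs (opX x) s (s.set .AX (bits (xaList2 X r Z (3 * S) v ++
      List.replicate (m - X * (3 * (r * (Z * (3 * S))))) false))) (60 * m) := by
  obtain ⟨b0, b1, b2, b3, b4, b5, b6, b7, b8⟩ := hs.bds
  have hm := hs.hm
  set B := r * (Z * (3 * S)) with hB
  have hXB : X * B = 3 * (X * r * Z * S) := by rw [hB]; ring
  have lx : (arr3 X r Z S v).length = X * r * Z * S := by
    unfold arr3
    rw [length_cat_of (L := r * (Z * S)) fun _ _ => length_cat_of fun _ _ =>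
      length_cat_of fun _ _ => length_bitsOf _ _]
    ring
  have lxa : (xaList2 X r Z (3 * S) v).length = X * (3 * B) := by
    rw [length_xaList2, hB]; ring
  have a1 := r_copy (J := J) (a := x) (b := .T6) (t := .F4) hx6 hx4 (by decide) s h.f4
  have e1 : s.at x ++ s.at .T6 = bits (arr3 X r Z S v) := by rw [hx, h.t6, List.append_nil]
  have e2 : (s.at x).length = X * r * Z * S := by rw [hx, length_bits, lx]
  rw [e1, e2] at a1
  have g : G3 S B Z r X (s.set .T6 (bits (arr3 X r Z S v))) := by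
    have q : ∀ {a : W} {l : List (SSym E)}, a ≠ .T6 → s.at a = l →
        (s.set .T6 (bits (arr3 X r Z S v))).at a = l := fun ha hl => by
      rw [at_set_ne _ ha]; exact hl
    exact ⟨⟨⟨⟨q (by decide) h.ws, q (by decide) h.t1, q (by decide) h.t2,
      q (by decide) h.f4⟩, q (by decide) h.hz, q (by decide) h.f3⟩, q (by decide) h.hr,
      q (by decide) h.f2⟩, q (by decide) h.hx, q (by decide) h.f1⟩
  have a2 := (exX_trn (J := J) (E := E) X r Z S B (fun x i z => bitsOf S (v x i z))
    (fun _ _ _ => length_bitsOf _ _)).run (s := s.set .T6 (bits (arr3 X r Z S v))) g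
    (at_set_self _ _ _) (by
      have := at_set_ne s (show W.T7 ≠ W.T6 by decide) (bits (arr3 X r Z S v))
      exact this.trans h.t7)
  rw [dat_eq hv] at a2
  replace a2 : Runs exX (s.set .T6 (bits (arr3 X r Z S v)))
      ((s.set .T6 []).set .T7 (bits (xaList2 X r Z (3 * S) v)).reverse)
      (X * (r * (Z * (24 * S + 10) + 8) + 16 * B + 12) + 1) := by
    refine a2.of_eq ?_
    change ((s.set .T6 _).set .T6 []).set .T7 _ = _
    rw [set_set]
  have a3 := r_rev (J := J) (a := .T7) (b := .T6) (by decide)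
    ((s.set .T6 []).set .T7 (bits (xaList2 X r Z (3 * S) v)).reverse)
  have e3 : ((((s.set .T6 []).set .T7 (bits (xaList2 X r Z (3 * S) v)).reverse).set .T7
      []).set .T6 ((((s.set .T6 []).set .T7 (bits (xaList2 X r Z (3 * S) v)).reverse).at
        .T7).reverse ++ ((s.set .T6 []).set .T7 (bits (xaList2 X r Z (3 * S)
          v)).reverse).at .T6)) = s.set .T6 (bits (xaList2 X r Z (3 * S) v)) := by
    have h7 := h.t7
    refine sw_ext (fun j => by simp) fun q => ?_
    simp only [at_set]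
    split_ifs <;> simp_all
  have e4 : (((s.set .T6 []).set .T7 (bits (xaList2 X r Z (3 * S) v)).reverse).at
      .T7).length = X * (3 * B) := by
    rw [at_set_self, List.length_reverse, length_bits, lxa]
  rw [e3, e4] at a3
  have a4 := padW_runs (J := J) (E := E) (x := .T6) (y := .AX) (by decide) (by decide)
    (by decide) (by decide) (by decide) (s.set .T6 (bits (xaList2 X r Z (3 * S) v)))
    (xaList2 X r Z (3 * S) v) m (at_set_self _ _ _)
    (by rw [at_set_ne _ (by decide)]; exact h.ax)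
    (by rw [at_set_ne _ (by decide)]; exact h.t8)
    (by rw [at_set_ne _ (by decide)]; exact h.f4)
    (by rw [at_set_ne _ (by decide)]; exact h.mm)
    (by rw [lxa]; have : X * (3 * B) = 3 * (X * B) := by ring
        omega)
  rw [lxa] at a4
  refine ((a1.seq (a2.seq (a3.seq a4))).mono ?_).of_eq ?_
  · have c1 : X * (r * (Z * (24 * S + 10) + 8) + 16 * B + 12) =
        24 * (X * r * Z * S) + 10 * (X * r * Z) + 8 * (X * r) + 16 * (X * B) + 12 * X := by
      ring
    have c2 : X * (3 * B) = 3 * (X * B) := by ring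
    rw [c1, c2]
    omega
  · rw [set_set, set_of_at h.t6]

theorem opK_runs {X r Z S m : ℕ} (hs : Sz X r Z S m) {κ : ℕ → ℕ} (hκ : ∀ j, κ j < 2 ^ S)
    {s : SW J E} (h : OEnv s X r Z S m) (l : List (SSym E)) {k : W} (hkx : k ≠ .AX)
    (hx6 : k ≠ .T6) (hx4 : k ≠ .F4) (hk : s.at k = bits (cat (2 * r - 1) fun j =>
      bitsOf S (κ j))) :
    Runs (opK k) (s.set .AX l) ((s.set .AX l).set .AY (bits (kerList2 r Z (3 * S) (kSh κ) ++
      List.replicate (m - 2 * (r * (Z * (3 * S)))) false))) (60 * m) := by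
  obtain ⟨b0, b1, b2, b3, b4, b5, b6, b7, b8⟩ := hs.bds
  have hm := hs.hm
  have hr := hs.hr
  set s0 := s.set .AX l with hs0
  obtain ⟨Rw, hRw⟩ : ∃ Rw, Rw = Z * (3 * S) := ⟨_, rfl⟩
  have hRw' : Rw = 3 * (Z * S) := by rw [hRw]; ring
  have hrR : r * Rw = 3 * (r * (Z * S)) := by rw [hRw]; ring
  obtain ⟨N, hN⟩ : ∃ N, N = 2 * r - 1 := ⟨_, rfl⟩
  rw [← hN] at hk
  obtain ⟨kl, hkl⟩ : ∃ kl, kl = cat N fun j => bitsOf S (κ j) := ⟨_, rfl⟩
  have lk : kl.length = N * S := by
    rw [hkl, length_cat_of fun _ _ => length_bitsOf _ _]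
  have hNS : N * S ≤ 2 * (X * r * Z * S) := by
    have h1 : N * S ≤ 2 * r * (Z * S) := by
      refine Nat.mul_le_mul (by omega) ?_
      calc S = 1 * S := (Nat.one_mul S).symm
        _ ≤ Z * S := Nat.mul_le_mul_right _ hs.hZ
    have h2 : 2 * r * (Z * S) = 2 * (r * (Z * S)) := by ring
    omega
  obtain ⟨ka, hka⟩ : ∃ ka, ka = kerList2 r Z (3 * S) (kSh κ) := ⟨_, rfl⟩
  have lka : ka.length = 2 * (r * Rw) := by
    rw [hka, length_kerList2 hs.hZ, hRw]; ring
  rw [← hka, ← hRw]
  have q0 : ∀ {a : W} {l' : List (SSym E)}, a ≠ .AX → s.at a = l' → s0.at a = l' :=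
    fun ha hl => by rw [hs0, at_set_ne _ ha]; exact hl
  have a1 := r_copy (J := J) (a := k) (b := .T6) (t := .F4) hx6 hx4 (by decide) s0
    (q0 (by decide) h.f4)
  have e1 : s0.at k ++ s0.at .T6 = bits kl := by
    rw [q0 hkx hk, q0 (by decide) h.t6, List.append_nil, hkl]
  have e2 : (s0.at k).length = N * S := by rw [q0 hkx hk, length_bits, ← hkl, lk]
  rw [e1, e2] at a1
  have q : ∀ {a : W} {l' : List (SSym E)}, a ≠ .T6 → a ≠ .AX → s.at a = l' →
      (s0.set .T6 (bits kl)).at a = l' := fun ha hb hl => by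
    rw [at_set_ne _ ha]; exact q0 hb hl
  have a2 := (exK_trn (J := J) (E := E) N S Rw (fun j => bitsOf S (κ j))
    (fun _ => length_bitsOf _ _)).run (s := s0.set .T6 (bits kl))
    ⟨⟨q (by decide) (by decide) h.ws, q (by decide) (by decide) (by rw [hRw]; exact h.t3),
      q (by decide) (by decide) (by rw [hRw]; exact h.t4), q (by decide) (by decide) h.f4⟩,
      q (by decide) (by decide) (by rw [hN]; exact h.t5), q (by decide) (by decide) h.f1⟩
    (by rw [← hkl]; exact at_set_self _ _ _) (q (by decide) (by decide) h.t7)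
  have e0 := ker_eq (S := S) (κ := κ) hr hs.hZ hκ
  rw [← hka, ← hRw, ← hN] at e0
  rw [← e0] at a2
  replace a2 : Runs exK (s0.set .T6 (bits kl))
      ((s0.set .T6 []).set .T7 (bits ka).reverse)
      (8 * Rw + 3 + N * (8 * S + 8 * (Rw - S) + 10)) := by
    refine a2.of_eq ?_
    change ((s0.set .T6 _).set .T6 []).set .T7 _ = _
    rw [set_set]
  have a3 := r_rev (J := J) (a := .T7) (b := .T6) (by decide)
    ((s0.set .T6 []).set .T7 (bits ka).reverse)
  have e3 : ((((s0.set .T6 []).set .T7 (bits ka).reverse).set .T7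
      []).set .T6 ((((s0.set .T6 []).set .T7 (bits ka).reverse).at
        .T7).reverse ++ ((s0.set .T6 []).set .T7 (bits ka).reverse).at .T6)) =
      s0.set .T6 (bits ka) := by
    have h7 := q0 (by decide) h.t7
    refine sw_ext (fun j => by simp) fun q => ?_
    simp only [at_set]
    split_ifs <;> simp_all
  have e4 : (((s0.set .T6 []).set .T7 (bits ka).reverse).at
      .T7).length = 2 * (r * Rw) := by
    rw [at_set_self, List.length_reverse, length_bits, lka]
  rw [e3, e4] at a3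
  have a4 := padW_runs (J := J) (E := E) (x := .T6) (y := .AY) (by decide) (by decide)
    (by decide) (by decide) (by decide) (s0.set .T6 (bits ka))
    ka m (at_set_self _ _ _)
    (by rw [at_set_ne _ (by decide)]; exact q0 (by decide) h.ay)
    (by rw [at_set_ne _ (by decide)]; exact q0 (by decide) h.t8)
    (by rw [at_set_ne _ (by decide)]; exact q0 (by decide) h.f4)
    (by rw [at_set_ne _ (by decide)]; exact q0 (by decide) h.mm)
    (by rw [lka]; omega)
  rw [lka] at a4
  refine ((a1.seq (a2.seq (a3.seq a4))).mono ?_).of_eq ?_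
  · have c1 : N * (8 * S + 8 * (Rw - S) + 10) ≤ 16 * (r * Rw) + 20 * r := by
      have hSR : S ≤ Rw := by
        rw [hRw']
        have : 1 * S ≤ Z * S := Nat.mul_le_mul_right _ hs.hZ
        omega
      calc N * (8 * S + 8 * (Rw - S) + 10) ≤ (2 * r) * (8 * Rw + 10) :=
            Nat.mul_le_mul (by omega) (by omega)
        _ = _ := by ring
    omega
  · rw [set_set, set_of_at (q0 (by decide) h.t6)]

theorem tkZ_runs {X r Z S m : ℕ} (hs : Sz X r Z S m) {s : SW J E} (h : OEnv s X r Z S m)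
    {o : W} (ho : o ∈ [W.DR, .DI, .ER, .EI]) (ho' : s.at o = [])
    {f₁ f₃ : ℕ → List Bool} {f g : ℕ → ℕ → ℕ → List Bool} {rest : List Bool}
    (h₁ : ∀ x, (f₁ x).length = r * (Z * (3 * S))) (h₃ : ∀ x, (f₃ x).length = r * (Z * (3 * S)))
    (hf : ∀ x i z, (f x i z).length = S) (hg : ∀ x i z, (g x i z).length = 2 * S)
    (hrest : rest.length ≤ 2 * m) :
    Runs (tkZ o) (s.set .AZ (bits ((cat X fun x => f₁ x ++ ((cat r fun i => cat Z fun z =>
        f x i z ++ g x i z) ++ f₃ x)) ++ rest)))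
      (s.set o (bits (cat X fun x => cat r fun i => cat Z fun z => f x i z))) (60 * m) := by
  obtain ⟨b0, b1, b2, b3, b4, b5, b6, b7, b8⟩ := hs.bds
  have hm := hs.hm
  have oz : o ≠ .AZ := by rintro rfl; simp at ho
  have o7 : o ≠ .T7 := by rintro rfl; simp at ho
  set B := r * (Z * (3 * S)) with hB
  have hXB : X * B = 3 * (X * r * Z * S) := by rw [hB]; ring
  obtain ⟨zl, hzl⟩ : ∃ zl, zl = cat X fun x => f₁ x ++ ((cat r fun i => cat Z fun z =>
        f x i z ++ g x i z) ++ f₃ x) := ⟨_, rfl⟩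
  obtain ⟨ol, hol⟩ : ∃ ol, ol = cat X fun x => cat r fun i => cat Z fun z => f x i z :=
    ⟨_, rfl⟩
  have lol : ol.length = X * r * Z * S := by
    rw [hol, length_cat_of (L := r * (Z * S)) fun _ _ => length_cat_of fun _ _ =>
      length_cat_of fun _ _ => hf _ _ _]
    ring
  rw [← hzl, ← hol]
  set s0 := s.set .AZ (bits (zl ++ rest)) with hs0
  have q0 : ∀ {a : W} {l' : List (SSym E)}, a ≠ .AZ → s.at a = l' → s0.at a = l' :=
    fun ha hl => by rw [hs0, at_set_ne _ ha]; exact hl
  have a1 := exZ_trn (J := J) (E := E) X r Z S B f₁ f₃ f g h₁ h₃ hf hg s0 (bits rest)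
    ⟨⟨⟨⟨q0 (by decide) h.ws, q0 (by decide) h.t1, q0 (by decide) h.t2,
      q0 (by decide) h.f4⟩, q0 (by decide) h.hz, q0 (by decide) h.f3⟩, q0 (by decide) h.hr,
      q0 (by decide) h.f2⟩, q0 (by decide) h.hx, q0 (by decide) h.f1⟩
    (by
      rw [← hzl]
      have : s0.at .AZ = bits (zl ++ rest) := at_set_self _ _ _
      rw [bits_app] at this
      exact this)
  rw [← hol] at a1
  replace a1 : Runs exZ s0 ((s.set .AZ (bits rest)).set .T7 (bits ol).reverse)
      (X * (r * (Z * (24 * S + 10) + 8) + 16 * B + 12) + 1) := by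
    refine a1.of_eq ?_
    have h7 : s0 (wg .T7) = [] := q0 (by decide) h.t7
    rw [h7, List.append_nil]
    change (s0.set .AZ _).set .T7 _ = _
    rw [hs0, set_set]
  have a2 := r_clear (J := J) .AZ ((s.set .AZ (bits rest)).set .T7 (bits ol).reverse)
  have e2 : (((s.set .AZ (bits rest)).set .T7 (bits ol).reverse).at .AZ).length =
      rest.length := by
    rw [at_set_ne _ (by decide), at_set_self, length_bits]
  have e3 : ((s.set .AZ (bits rest)).set .T7 (bits ol).reverse).set .AZ [] =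
      s.set .T7 (bits ol).reverse := by
    rw [set_comm _ (by decide), set_set, set_of_at h.az]
  rw [e2, e3] at a2
  have a3 := r_rev (J := J) (a := .T7) (b := o) (Ne.symm o7) (s.set .T7 (bits ol).reverse)
  have e4 : ((s.set .T7 (bits ol).reverse).at .T7).length = X * r * Z * S := by
    rw [at_set_self, List.length_reverse, length_bits, lol]
  have e5 : (((s.set .T7 (bits ol).reverse).set .T7 []).set o
      (((s.set .T7 (bits ol).reverse).at .T7).reverse ++ (s.set .T7 (bits ol).reverse).at o)) =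
      s.set o (bits ol) := by
    rw [set_set, set_of_at h.t7, at_set_self, List.reverse_reverse, at_set_ne _ o7, ho',
      List.append_nil]
  rw [e4, e5] at a3
  refine (a1.seq (a2.seq a3)).mono ?_
  have c1 : X * (r * (Z * (24 * S + 10) + 8) + 16 * B + 12) =
      24 * (X * r * Z * S) + 10 * (X * r * Z) + 8 * (X * r) + 16 * (X * B) + 12 * X := by
    ring
  rw [c1]
  omega

/-- One real convolution: the kernel on `k`, the data on `x`, the result on `o`. -/
def one (mc : PW J E) (k x o : W) : PW J E := (opX x).seq ((opK k).seq (mc.seq (tkZ o)))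

theorem one_runs {mc : PW J E} {T : ℕ → ℕ} {C : ℕ} (hmc : MSpec mc T C) {X r Z S m : ℕ}
    (hs : Sz X r Z S m) (hrS : r < 2 ^ (S - 1)) {κ : ℕ → ℕ} {v : ℕ → ℕ → ℕ → ℕ}
    (hκ : ∀ j, κ j < 2 ^ S) (hv : ∀ x i z, v x i z < 2 ^ S)
    {s : SW J E} (h : OEnv s X r Z S m) {k x o : W} (hk : k ∈ [W.KR, .KI])
    (hx : x ∈ [W.XR, .XI]) (ho : o ∈ [W.DR, .DI, .ER, .EI]) (ho' : s.at o = [])
    (hk' : s.at k = bits (cat (2 * r - 1) fun j => bitsOf S (κ j)))
    (hx' : s.at x = bits (arr3 X r Z S v)) :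
    Runs (one mc k x o) s (s.set o (bits (arr3 X r Z S fun x k z =>
      cvR S r κ (fun i => v x i z) k))) ((C + 200) * (m + T m)) := by
  obtain ⟨b0, b1, b2, b3, b4, b5, b6, b7, b8⟩ := hs.bds
  have hm := hs.hm
  have kx : k ≠ .AX := by rintro rfl; simp at hk
  have k6 : k ≠ .T6 := by rintro rfl; simp at hk
  have k4 : k ≠ .F4 := by rintro rfl; simp at hk
  have x6 : x ≠ .T6 := by rintro rfl; simp at hx
  have x4 : x ≠ .F4 := by rintro rfl; simp at hx
  have hB : X * (3 * (r * (Z * (3 * S)))) = 9 * (X * r * Z * S) := by ring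
  have hB2 : 2 * (r * (Z * (3 * S))) = 6 * (r * (Z * S)) := by ring
  have a1 := opX_runs hs hv h x6 x4 hx'
  obtain ⟨xs, hxs⟩ : ∃ xs, xs = xaList2 X r Z (3 * S) v ++
      List.replicate (m - X * (3 * (r * (Z * (3 * S))))) false := ⟨_, rfl⟩
  rw [← hxs] at a1
  have a2 := opK_runs hs hκ h (bits xs) kx k6 k4 hk'
  obtain ⟨ys, hys⟩ : ∃ ys, ys = kerList2 r Z (3 * S) (kSh κ) ++
      List.replicate (m - 2 * (r * (Z * (3 * S)))) false := ⟨_, rfl⟩
  rw [← hys] at a2
  have lxs : xs.length = m := by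
    rw [hxs, List.length_append, length_xaList2, List.length_replicate,
      show r * Z * (3 * S) = r * (Z * (3 * S)) by ring]
    omega
  have lys : ys.length = m := by
    rw [hys, List.length_append, length_kerList2 hs.hZ, List.length_replicate,
      show r * Z * (3 * S) = r * (Z * (3 * S)) by ring]
    omega
  have a3 := hmc m xs ys ((s.set .AX (bits xs)).set .AY (bits ys)) (by omega) lxs lys
    (fun j => by simp only [set_inl]; exact h.idle j)
    (by rw [at_set_ne _ (by decide), at_set_ne _ (by decide)]; exact h.az)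
    (by rw [at_set_ne _ (by decide), at_set_ne _ (by decide)]; exact h.f8)
    (by rw [at_set_ne _ (by decide), at_set_self]) (at_set_self _ _ _)
  have e3 : ((((s.set .AX (bits xs)).set .AY (bits ys)).set .AX []).set .AY []).set .AZ
      (bits (bitsOf (2 * m) (natOf xs * natOf ys))) =
      s.set .AZ (bits (bitsOf (2 * m) (natOf xs * natOf ys))) := by
    rw [set_comm (s.set .AX (bits xs)) (show W.AY ≠ W.AX by decide), set_set, set_set,
      set_of_at h.ax, set_of_at h.ay]
  rw [e3] at a3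
  have n1 : natOf xs * natOf ys = natOf (xaList2 X r Z (3 * S) v) *
      natOf (kerList2 r Z (3 * S) (kSh κ)) := by
    rw [hxs, hys, natOf_append_zeros, natOf_append_zeros]
  obtain ⟨A₁, A₃, l1, l3, hA⟩ := prod_eq (X := X) (r := r) (m := m) hs.hZ hs.hS hrS hκ hv
    (by omega)
  rw [n1, hA] at a3
  have a4 := tkZ_runs hs h ho ho' (f₁ := A₁) (f₃ := A₃)
    (f := fun a k z => bitsOf S (cvR S r κ (fun i => v a i z) k))
    (g := fun a k z => bitsOf (2 * S) (conv2 r (kSh κ) v a k z / 2 ^ S))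
    (rest := List.replicate (2 * m - X * (3 * (r * (Z * (3 * S))))) false)
    l1 l3 (fun _ _ _ => length_bitsOf _ _) (fun _ _ _ => length_bitsOf _ _)
    (by rw [List.length_replicate]; omega)
  refine (a1.seq (a2.seq (a3.seq a4))).mono ?_
  have e9 : (C + 200) * (m + T m) = C * (m + T m) + 200 * m + 200 * T m := by ring
  omega

end Vale.Agent.P338.GS.CV
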