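import Vale.Agent.P338.Model

/-!
# P338: matrices of every shape, with entries of several bits
-/

namespace Vale.Agent.P338

/-- The bits of an `a × c` matrix with entries of `w` bits, in row-major order. -/
def entries {a c w : ℕ} (x : Fin a → Fin c → Fin w → Bool) : List Bool :=
  (List.ofFn fun i => (List.ofFn fun j => List.ofFn (x i j)).flatten).flatten

/-- The input for an `a × c` matrix with entries of `w` bits: `1^a # 1^w #` followed by the
bits of the entries in row-major order. -/
def entInput {a c w : ℕ} (x : Fin a → Fin c → Fin w → Bool) : List Sym :=
  List.replicate a Sym.one ++ Sym.sep ::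
    (List.replicate w Sym.one ++ Sym.sep :: bitWord (entries x))

/-- `B` transposes matrices of every shape, with entries of any number of bits. -/
def TransposesEnt (B : TM) : Prop :=
  ∀ a c w : ℕ, 1 ≤ a → 1 ≤ c → 1 ≤ w → ∀ x : Fin a → Fin c → Fin w → Bool,
    B.WritesExactly (entInput x) (bitWord (entries fun j i => x i j))

/-- The worst-case running time of `B` over all `a × c` matrices with entries of `w` bits. -/
noncomputable def entTime (B : TM) (a c w : ℕ) : ℕ :=
  Finset.univ.sup fun x : Fin a → Fin c → Fin w → Bool => B.time (entInput x)

end Vale.Agent.P338
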