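import Vale.Agent.P338.GS.Base

/-!
# P338, matrices of every shape: the discrete Fourier transform
-/

namespace Vale.Agent.P338.GS

open Vale.Agent.P338

variable {J E : Type} [DecidableEq J]

/-- The transform. -/
def dftP (chirp cj ker conv : PW J E) : PW J E :=
  chirp.seq (cj.seq (ker.seq (conv.seq (cj.seq chirp))))

theorem dft_spec {chirp cj ker conv : PW J E} {Tb Tt : ℕ → ℕ} {C₁ C₂ C₃ C₄ : ℕ}
    (h1 : ChirpSpec chirp Tt C₁) (h2 : CjSpec cj C₂) (h3 : KerSpec ker Tt C₃)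
    (h4 : ConvSpec conv Tb C₄) :
    DftSpec (dftP chirp cj ker conv) Tb Tt (2 * C₁ + 2 * C₂ + C₃ + C₄ + 5) := by
  intro X r Z S B m ρ e s hn he hm hM hKR hKI he1 he2 hXR hXI
  obtain ⟨nX, nr, nZ, nB, nS, nrS, n1, n2⟩ := hn
  have hn : Num X r Z S B ρ := ⟨nX, nr, nZ, nB, nS, nrS, n1, n2⟩
  have hBS : B < S := by omega
  have hS1 : 1 ≤ S := by omega
  have hn' : Num X r Z S B (ρ.1, sbR S 0 ρ.2) := ⟨nX, nr, nZ, nB, nS, nrS, n1, sbR_lt ..⟩
  -- first chirp
  have a1 := h1 X r Z S B ρ e s hn he he1 he2 hXR hXI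
  set e1 : ℕ → ℕ → ℕ → ℕ × ℕ := fun x i z => cmR S B (e x i z) (ch S B ρ i) with de1
  set s1 : SW J E := (s.set .XR (bits (arr3 X r Z S fun x i z => (e1 x i z).1))).set .XI
    (bits (arr3 X r Z S fun x i z => (e1 x i z).2)) with ds1
  have env1 : Env s1 X r Z S B ρ := (he.set (by decide) _).set (by decide) _
  -- conjugation
  have a2 := h2 S ρ.2 s1 hS1 env1.toCln0 n2 env1.ws env1.pi
  set s2 : SW J E := s1.set .PI (wd S (sbR S 0 ρ.2)) with ds2
  have env2 : Env s2 X r Z S B (ρ.1, sbR S 0 ρ.2) := env1.setPI _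
  -- kernel
  have k2 : s2.at .KR = [] := by
    rw [ds2, ds1, at_set_ne _ (by decide), at_set_ne _ (by decide), at_set_ne _ (by decide)]
    exact hKR
  have k2' : s2.at .KI = [] := by
    rw [ds2, ds1, at_set_ne _ (by decide), at_set_ne _ (by decide), at_set_ne _ (by decide)]
    exact hKI
  have a3 := h3 X r Z S B (ρ.1, sbR S 0 ρ.2) s2 hn' env2 k2 k2'
  set s3 : SW J E := (s2.set .KR (bits (cat (2 * r - 1) fun j => bitsOf S
    (krn S B ρ j).1))).set .KI (bits (cat (2 * r - 1) fun j => bitsOf S (krn S B ρ j).2))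
    with ds3
  have env3 : Env s3 X r Z S B (ρ.1, sbR S 0 ρ.2) :=
    (env2.set (by decide) _).set (by decide) _
  -- convolution
  have c1 : ∀ x i z, (e1 x i z).1 < 2 ^ S := fun x i z => (cmR_lt hBS.le _ _).1
  have c2 : ∀ x i z, (e1 x i z).2 < 2 ^ S := fun x i z => (cmR_lt hBS.le _ _).2
  have c3 : ∀ j, (krn S B ρ j).1 < 2 ^ S := fun j => (ch_lt (ρ := cjR S ρ) hBS n1 (sbR_lt ..) _).1
  have c4 : ∀ j, (krn S B ρ j).2 < 2 ^ S := fun j => (ch_lt (ρ := cjR S ρ) hBS n1 (sbR_lt ..) _).2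
  have a4 := h4 X r Z S B m (ρ.1, sbR S 0 ρ.2) (krn S B ρ) e1 s3 hn' env3 hm
    (by simp only [ds3, ds2, ds1, at_set, reduceCtorEq, if_false]; exact hM) c1 c2 c3 c4
    (by simp only [ds3, at_set, reduceCtorEq, if_false, if_true])
    (by simp only [ds3, at_set, reduceCtorEq, if_false, if_true])
    (by simp only [ds3, ds2, ds1, at_set, reduceCtorEq, if_false, if_true])
    (by simp only [ds3, ds2, ds1, at_set, reduceCtorEq, if_false, if_true])
  set e4 : ℕ → ℕ → ℕ → ℕ × ℕ := fun x k z => cvC S B r (krn S B ρ) (fun i => e1 x i z) k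
    with de4
  set s4 : SW J E := (((s3.set .KR []).set .KI []).set .XR (bits (arr3 X r Z S fun x k z =>
    (e4 x k z).1))).set .XI (bits (arr3 X r Z S fun x k z => (e4 x k z).2)) with ds4
  have env4 : Env s4 X r Z S B (ρ.1, sbR S 0 ρ.2) :=
    (((env3.set (by decide) _).set (by decide) _).set (by decide) _).set (by decide) _
  -- conjugation
  have a5 := h2 S (sbR S 0 ρ.2) s4 hS1 env4.toCln0 (sbR_lt ..) env4.ws env4.pi
  rw [sbR_sbR n2] at a5
  have env5 : Env (s4.set .PI (wd S ρ.2)) X r Z S B ρ := env4.setPI _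
  -- second chirp
  have a6 := h1 X r Z S B ρ e4 (s4.set .PI (wd S ρ.2)) hn env5
    (fun x i z => (cvC_lt hBS.le _ _ _ _).1) (fun x i z => (cvC_lt hBS.le _ _ _ _).2)
    (by simp only [ds4, at_set, reduceCtorEq, if_false, if_true])
    (by simp only [ds4, at_set, reduceCtorEq, if_false, if_true])
  refine ((a1.seq (a2.seq (a3.seq (a4.seq (a5.seq a6))))).mono ?_).of_eq ?_
  · have g1 : r ≤ X * r * Z := by
      calc r = 1 * r * 1 := by ring
        _ ≤ X * r * Z := Nat.mul_le_mul (Nat.mul_le_mul_right _ nX) nZ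
    have g2 : r * (S + Tt S) ≤ X * r * Z * (S + Tt S) := Nat.mul_le_mul_right _ g1
    have g3 : S ≤ X * r * Z * (S + Tt S) :=
      calc S ≤ 1 * (S + Tt S) := by omega
        _ ≤ X * r * Z * (S + Tt S) := Nat.mul_le_mul_right _ (by omega)
    set Q := X * r * Z * (S + Tt S)
    set R := m + Tb m
    have g4 : C₃ * (r * (S + Tt S)) ≤ C₃ * Q := Nat.mul_le_mul_left _ g2
    have g5 : C₂ * S ≤ C₂ * Q := Nat.mul_le_mul_left _ g3
    have g6 : 1 ≤ Q := le_trans hS1 g3
    have e : (2 * C₁ + 2 * C₂ + C₃ + C₄ + 5) * (R + Q) =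
      2 * (C₁ * Q) + 2 * (C₂ * Q) + C₃ * Q + C₄ * R + 5 * Q +
        ((2 * C₁ + 2 * C₂ + C₃ + 5) * R + C₄ * Q) := by ring
    have e' : m + Tb m + Q = R + Q := rfl
    rw [e', e]
    omega
  · apply sw_ext
    · intro j
      simp only [ds4, ds3, ds2, ds1, set_inl]
    · intro q
      have hPI := he.pi
      simp only [ds4, ds3, ds2, ds1, at_set]
      by_cases q1 : q = .XI
      · simp only [q1, if_true]; rfl
      by_cases q2 : q = .XR
      · simp only [q2, if_true, reduceCtorEq, if_false]; rfl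
      simp only [q1, q2, if_false]
      by_cases q3 : q = .PI
      · simp only [q3, if_true]; exact hPI.symm
      by_cases q4 : q = .KI
      · simp only [q4, if_true, reduceCtorEq, if_false]; exact hKI.symm
      by_cases q5 : q = .KR
      · simp only [q5, if_true, reduceCtorEq, if_false]; exact hKR.symm
      simp only [q3, q4, q5, if_false]

end Vale.Agent.P338.GS
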