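import Vale.Agent.P338.CallFull
import Vale.Agent.P338.Lib
import Vale.Agent.P338.Nums

/-!
# P338, matrices of every shape: the interface

Words of `t` bits are permuted: `X` blocks of `2 ^ u * 2 ^ v` groups of `Z` words are
transposed, with three discrete Fourier transforms over the complex numbers
(`2 ^ v`, `2 ^ u` and `2 ^ (u + v)` points), computed with long multiplications.

Complex numbers are pairs `(re, im)` of fixed point numbers: `v` stands for `v / 2 ^ B`, and a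
(signed) number `v` is represented by its residue modulo `2 ^ S`, a list of `S` bits.
-/

namespace Vale.Agent.P338.GS

open Vale.Agent.P338

/-! ### Arithmetic with residues modulo `2 ^ S` -/

/-- Addition. -/
def adR (S x y : ℕ) : ℕ := (x + y) % 2 ^ S

/-- Subtraction. -/
def sbR (S x y : ℕ) : ℕ := (x + (2 ^ S - y % 2 ^ S)) % 2 ^ S

/-- Multiplication. -/
def muR (S x y : ℕ) : ℕ := x * y % 2 ^ S

/-- Arithmetic shift to the right by `B` places (the sign bit `S - 1` is repeated). -/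
def asr (S B x : ℕ) : ℕ :=
  if x < 2 ^ (S - 1) then x / 2 ^ B else x / 2 ^ B + (2 ^ S - 2 ^ (S - B))

/-- Complex product of fixed point numbers. -/
def cmR (S B : ℕ) (x y : ℕ × ℕ) : ℕ × ℕ :=
  (asr S B (sbR S (muR S x.1 y.1) (muR S x.2 y.2)),
    asr S B (adR S (muR S x.1 y.2) (muR S x.2 y.1)))

/-- Complex conjugation. -/
def cjR (S : ℕ) (x : ℕ × ℕ) : ℕ × ℕ := (x.1, sbR S 0 x.2)

/-- The state of the generation of `ρ ^ (k ^ 2)`: `ρ ^ (k ^ 2)` and `ρ ^ (2 * k + 1)`. -/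
def chs (S B : ℕ) (ρ : ℕ × ℕ) : ℕ → (ℕ × ℕ) × (ℕ × ℕ)
  | 0 => ((2 ^ B, 0), ρ)
  | k + 1 => (cmR S B (chs S B ρ k).1 (chs S B ρ k).2, cmR S B (chs S B ρ k).2 (cmR S B ρ ρ))

/-- The approximation of `ρ ^ (k ^ 2)`. -/
def ch (S B : ℕ) (ρ : ℕ × ℕ) (k : ℕ) : ℕ × ℕ := (chs S B ρ k).1

/-- The approximation of `γ ^ k`. -/
def pw (S B : ℕ) (γ : ℕ × ℕ) : ℕ → ℕ × ℕ
  | 0 => (2 ^ B, 0)
  | k + 1 => cmR S B (pw S B γ k) γ

/-- The approximation of `γ ^ (i * j)`. -/
def tw (S B : ℕ) (γ : ℕ × ℕ) (i j : ℕ) : ℕ × ℕ := pw S B (pw S B γ i) j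

/-- The kernel of the transform with root `ρ`. -/
def krn (S B : ℕ) (ρ : ℕ × ℕ) (j : ℕ) : ℕ × ℕ := ch S B (cjR S ρ) (j + 1)

/-- Convolution of real numbers (residues), without rescaling. -/
def cvR (S r : ℕ) (κ a : ℕ → ℕ) (k : ℕ) : ℕ :=
  (∑ i ∈ Finset.range r, κ (k + (r - 1) - i) * a i) % 2 ^ S

/-- Convolution of complex numbers, with rescaling. -/
def cvC (S B r : ℕ) (κ a : ℕ → ℕ × ℕ) (k : ℕ) : ℕ × ℕ :=
  (asr S B (sbR S (cvR S r (fun j => (κ j).1) (fun i => (a i).1) k)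
      (cvR S r (fun j => (κ j).2) (fun i => (a i).2) k)),
    asr S B (adR S (cvR S r (fun j => (κ j).1) (fun i => (a i).2) k)
      (cvR S r (fun j => (κ j).2) (fun i => (a i).1) k)))

/-- The transform of `r` points with the root `ρ`, which stands for `exp (± π * I / r)`. -/
def dft (S B r : ℕ) (ρ : ℕ × ℕ) (a : ℕ → ℕ × ℕ) (k : ℕ) : ℕ × ℕ :=
  cmR S B (cvC S B r (krn S B ρ) (fun i => cmR S B (a i) (ch S B ρ i)) k) (ch S B ρ k)

/-- The approximation of `exp (π * I / 2 ^ (k + 1))`. -/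
def rt (B : ℕ) : ℕ → ℕ × ℕ
  | 0 => (0, 2 ^ B)
  | k + 1 => (Nat.sqrt ((2 ^ B + (rt B k).1) * 2 ^ (B - 1)),
      Nat.sqrt ((2 ^ B - (rt B k).1) * 2 ^ (B - 1)))

/-- Rounding: the word of `t` bits. -/
def rnd (S B' t x : ℕ) : ℕ := (x + 2 ^ (B' - 1)) % 2 ^ S / 2 ^ B' % 2 ^ t

/-- The four steps of the transposition of the words `e i j`, `i < 2 ^ u`, `j < 2 ^ v`. -/
def st1 (S B v : ℕ) (e : ℕ → ℕ → ℕ) (i j : ℕ) : ℕ × ℕ :=
  dft S B (2 ^ v) (cjR S (rt B (v - 1))) (fun j => (e i j * 2 ^ B, 0)) j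

/-- The factor of the second step: it stands for `exp (-2 * π * I / 2 ^ (u + v))`. -/
def gm (S B u v : ℕ) : ℕ × ℕ :=
  cmR S B (cjR S (rt B (u + v - 1))) (cjR S (rt B (u + v - 1)))

/-- Second step. -/
def st2 (S B u v : ℕ) (e : ℕ → ℕ → ℕ) (i j : ℕ) : ℕ × ℕ :=
  cmR S B (st1 S B v e i j) (tw S B (gm S B u v) i j)

/-- Third step. -/
def st3 (S B u v : ℕ) (e : ℕ → ℕ → ℕ) (i j : ℕ) : ℕ × ℕ :=
  dft S B (2 ^ u) (cjR S (rt B (u - 1))) (fun i => st2 S B u v e i j) i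

/-- Fourth step. -/
def st4 (S B u v : ℕ) (e : ℕ → ℕ → ℕ) (k : ℕ) : ℕ × ℕ :=
  dft S B (2 ^ u * 2 ^ v) (rt B (u + v - 1))
    (fun k => st3 S B u v e (k / 2 ^ v) (k % 2 ^ v)) k

/-- The statement of pure mathematics (packages PM1, PM2, PM3). -/
def PermPure : Prop :=
  ∀ (u v t ℓ : ℕ) (e : ℕ → ℕ → ℕ), 1 ≤ u → 1 ≤ v → u + v ≤ ℓ → t ≤ ℓ →
    (∀ i j, e i j < 2 ^ t) → ∀ i < 2 ^ u, ∀ j < 2 ^ v,
      rnd (64 * ℓ) (20 * ℓ + (u + v)) t (st4 (64 * ℓ) (20 * ℓ) u v e (j * 2 ^ u + i)).1 = e i j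

/-! ### The data -/

/-- Three-dimensional data, words of `S` bits. -/
def arr3 (X r Z S : ℕ) (e : ℕ → ℕ → ℕ → ℕ) : List Bool :=
  cat X fun x => cat r fun i => cat Z fun z => bitsOf S (e x i z)

/-- Four-dimensional data, words of `S` bits. -/
def arr4 (X M N Z S : ℕ) (e : ℕ → ℕ → ℕ → ℕ → ℕ) : List Bool :=
  cat X fun x => cat M fun i => cat N fun j => cat Z fun z => bitsOf S (e x i j z)

/-! ### The stacks -/

/-- The stacks. `XR`, `XI`: data (real and imaginary parts), `KR`, `KI`: kernel; `AX`, `AY`,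
`AZ`: operands and result of the called multiplications; `PR`, `PI`: root;
unary numbers: `HX = X`, `HR = r`, `HZ = Z`, `HM`, `HN`, `MM = m`, `WS = S`, `WB = B`,
`WP = B'`, `WT = t`, `UU = u`, `VV = v`, `LL = ℓ`. -/
inductive W : Type
  | XR | XI | KR | KI | AX | AY | AZ | PR | PI
  | HX | HR | HZ | HM | HN | MM | WS | WB | WP | WT | UU | VV | LL
  | CR | CI | DR | DI | ER | EI | GR | GI | NR | NI
  | A1 | A2 | A3 | A4 | A5 | A6 | A7 | A8
  | T1 | T2 | T3 | T4 | T5 | T6 | T7 | T8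
  | O1 | O2 | O3 | O4
  | F1 | F2 | F3 | F4 | F5 | F6 | F7 | F8
  | Q1 | Q2 | Q3 | Q4 | Q5 | Q6 | Q7 | Q8
  | IN | N1 | N2 | N3 | N4 | N5 | N6 | N7 | N8 | N9
deriving DecidableEq

/-- The arithmetic scratch stacks: empty before and after. -/
def asc : List W :=
  [.AX, .AY, .AZ, .A1, .A2, .A3, .A4, .A5, .A6, .A7, .A8, .F7, .F8]

/-- The scratch stacks of the passes: empty before and after. -/
def psc : List W :=
  [.CR, .CI, .DR, .DI, .ER, .EI, .GR, .GI, .NR, .NI, .T1, .T2, .T3, .T4, .T5, .T6, .T7, .T8,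
   .O1, .O2, .O3, .O4, .F1, .F2, .F3, .F4, .F5, .F6]

/-- The scratch stacks of the assembly: empty before and after the main program. -/
def qsc : List W := [.Q1, .Q2, .Q3, .Q4, .Q5, .Q6, .Q7, .Q8]

variable {J E : Type}

/-- The stores: the stacks of the called program and our stacks. -/
abbrev SW (J E : Type) : Type := Store (Loc J ⊕ W) (SSym E)

/-- The programs. -/
abbrev PW (J E : Type) : Type := Prog (Loc J ⊕ W) (SSym E)

/-- The contents of one of our stacks. -/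
def SW.at (s : SW J E) (r : W) : List (SSym E) := s (Sum.inr r)

/-- Change one of our stacks. -/
def SW.set [DecidableEq J] (s : SW J E) (r : W) (l : List (SSym E)) : SW J E :=
  Function.update s (Sum.inr r) l

/-- The stacks of the called program and the arithmetic scratch stacks are empty. -/
structure Cln0 (s : SW J E) : Prop where
  idle : ∀ j, s (Sum.inl j) = []
  emp : ∀ r ∈ asc, s.at r = []

/-- Also the scratch stacks of the passes are empty. -/
structure Cln (s : SW J E) : Prop extends Cln0 s where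
  emp2 : ∀ r ∈ psc, s.at r = []

/-- A tiny number. -/
def wd {E : Type} (S v : ℕ) : List (SSym E) := bits (bitsOf S v)

variable [DecidableEq J]

/-! ### Calls -/

/-- A called multiplication: operands of `m` bits on `AX` and `AY`, product on `AZ`. -/
def MSpec (p : PW J E) (T : ℕ → ℕ) (C : ℕ) : Prop :=
  ∀ (m : ℕ) (xs ys : List Bool) (s : SW J E), 1 ≤ m → xs.length = m → ys.length = m →
    (∀ j, s (Sum.inl j) = []) → s.at .AZ = [] → s.at .F8 = [] →
    s.at .AX = bits xs → s.at .AY = bits ys →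
    Runs p s (((s.set .AX []).set .AY []).set .AZ
      (bits (bitsOf (2 * m) (natOf xs * natOf ys)))) (C * (m + T m))

/-! ### Arithmetic with tiny numbers (`S` on `WS`, `B` on `WB`) -/

/-- `cm ar ai br bi`: replace the number on `ar`, `ai` by its product with the number on `br`,
`bi`. -/
def CmSpec (cm : W → W → W → W → PW J E) (T : ℕ → ℕ) (C : ℕ) : Prop :=
  ∀ (S B : ℕ) (x y : ℕ × ℕ) (ar ai br bi : W) (s : SW J E), 1 ≤ B → B < S → Cln0 s →
    [W.WS, .WB, ar, ai, br, bi].Nodup → (∀ r ∈ [ar, ai, br, bi], r ∉ asc) →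
    x.1 < 2 ^ S → x.2 < 2 ^ S → y.1 < 2 ^ S → y.2 < 2 ^ S →
    s.at .WS = una S → s.at .WB = una B →
    s.at ar = wd S x.1 → s.at ai = wd S x.2 → s.at br = wd S y.1 → s.at bi = wd S y.2 →
    Runs (cm ar ai br bi) s ((s.set ar (wd S (cmR S B x y).1)).set ai (wd S (cmR S B x y).2))
      (C * (S + T S))

/-- Conjugation of the number on `PR`, `PI`. -/
def CjSpec (p : PW J E) (C : ℕ) : Prop :=
  ∀ (S : ℕ) (x : ℕ) (s : SW J E), 1 ≤ S → Cln0 s → x < 2 ^ S → s.at .WS = una S →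
    s.at .PI = wd S x → Runs p s (s.set .PI (wd S (sbR S 0 x))) (C * S)

/-- The roots: `k` on `F1` (unary, consumed), result on `PR`, `PI`. Only `F1`, the stacks
`F2`, ..., `F6`, `T1`, ..., `T8` and the arithmetic scratch stacks are used. -/
def RootSpec (p : PW J E) (T : ℕ → ℕ) (C : ℕ) : Prop :=
  ∀ (S B k : ℕ) (s : SW J E), 1 ≤ B → 3 * B ≤ S → Cln0 s → s.at .WS = una S →
    s.at .WB = una B → s.at .F1 = una k →
    (∀ r ∈ [W.PR, .PI, .F2, .F3, .F4, .F5, .F6, .T1, .T2, .T3, .T4, .T5, .T6, .T7, .T8],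
      s.at r = []) →
    Runs p s (((s.set .F1 []).set .PR (wd S (rt B k).1)).set .PI (wd S (rt B k).2))
      (C * ((k + 1) * B * (S + T S)))

/-! ### Passes -/

/-- The environment of a pass: `X`, `r`, `Z`, `S`, `B` in unary, the root on `PR`, `PI`. -/
structure Env (s : SW J E) (X r Z S B : ℕ) (ρ : ℕ × ℕ) : Prop extends Cln s where
  hx : s.at .HX = una X
  hr : s.at .HR = una r
  hz : s.at .HZ = una Z
  ws : s.at .WS = una S
  wb : s.at .WB = una B
  pr : s.at .PR = wd S ρ.1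
  pi : s.at .PI = wd S ρ.2

/-- Assumptions on the numbers. -/
structure Num (X r Z S B : ℕ) (ρ : ℕ × ℕ) : Prop where
  hX : 1 ≤ X
  hr : 1 ≤ r
  hZ : 1 ≤ Z
  hB : 1 ≤ B
  hS : 3 * B ≤ S
  rS : r < 2 ^ (S - 1)
  h1 : ρ.1 < 2 ^ S
  h2 : ρ.2 < 2 ^ S

/-- Multiplication of the element `x i z` by `ρ ^ (i ^ 2)`. -/
def ChirpSpec (p : PW J E) (T : ℕ → ℕ) (C : ℕ) : Prop :=
  ∀ (X r Z S B : ℕ) (ρ : ℕ × ℕ) (e : ℕ → ℕ → ℕ → ℕ × ℕ) (s : SW J E),
    Num X r Z S B ρ → Env s X r Z S B ρ → (∀ x i z, (e x i z).1 < 2 ^ S) →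
    (∀ x i z, (e x i z).2 < 2 ^ S) →
    s.at .XR = bits (arr3 X r Z S fun x i z => (e x i z).1) →
    s.at .XI = bits (arr3 X r Z S fun x i z => (e x i z).2) →
    Runs p s ((s.set .XR (bits (arr3 X r Z S fun x i z =>
        (cmR S B (e x i z) (ch S B ρ i)).1))).set .XI (bits (arr3 X r Z S fun x i z =>
        (cmR S B (e x i z) (ch S B ρ i)).2))) (C * (X * r * Z * (S + T S)))

/-- Multiplication of the element `x i j z` by `γ ^ (i * j)` (`γ` on `PR`, `PI`): `HR = M`,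
`HN = N`. -/
def TwSpec (p : PW J E) (T : ℕ → ℕ) (C : ℕ) : Prop :=
  ∀ (X M N Z S B : ℕ) (γ : ℕ × ℕ) (e : ℕ → ℕ → ℕ → ℕ → ℕ × ℕ) (s : SW J E),
    Num X M Z S B γ → 1 ≤ N → Env s X M Z S B γ → s.at .HN = una N →
    (∀ x i j z, (e x i j z).1 < 2 ^ S) → (∀ x i j z, (e x i j z).2 < 2 ^ S) →
    s.at .XR = bits (arr4 X M N Z S fun x i j z => (e x i j z).1) →
    s.at .XI = bits (arr4 X M N Z S fun x i j z => (e x i j z).2) →
    Runs p s ((s.set .XR (bits (arr4 X M N Z S fun x i j z =>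
        (cmR S B (e x i j z) (tw S B γ i j)).1))).set .XI (bits (arr4 X M N Z S
        fun x i j z => (cmR S B (e x i j z) (tw S B γ i j)).2)))
      (C * (X * M * N * Z * (S + T S)))

/-- The kernel: the numbers `ρ ^ ((j + 1) ^ 2)`, `j < 2 * r - 1` (`ρ` on `PR`, `PI`; the
conjugation is done before). -/
def KerSpec (p : PW J E) (T : ℕ → ℕ) (C : ℕ) : Prop :=
  ∀ (X r Z S B : ℕ) (ρ : ℕ × ℕ) (s : SW J E), Num X r Z S B ρ → Env s X r Z S B ρ →
    s.at .KR = [] → s.at .KI = [] →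
    Runs p s ((s.set .KR (bits (cat (2 * r - 1) fun j => bitsOf S (ch S B ρ (j + 1)).1))).set
      .KI (bits (cat (2 * r - 1) fun j => bitsOf S (ch S B ρ (j + 1)).2)))
      (C * (r * (S + T S)))

/-- Convolution of complex numbers along the digit `i`; the kernel is consumed. The long
multiplications have size `m` (`MM`). -/
def ConvSpec (p : PW J E) (T : ℕ → ℕ) (C : ℕ) : Prop :=
  ∀ (X r Z S B m : ℕ) (ρ : ℕ × ℕ) (κ : ℕ → ℕ × ℕ) (e : ℕ → ℕ → ℕ → ℕ × ℕ) (s : SW J E),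
    Num X r Z S B ρ → Env s X r Z S B ρ → 9 * (X * r * Z * S) ≤ m → s.at .MM = una m →
    (∀ x i z, (e x i z).1 < 2 ^ S) → (∀ x i z, (e x i z).2 < 2 ^ S) →
    (∀ j, (κ j).1 < 2 ^ S) → (∀ j, (κ j).2 < 2 ^ S) →
    s.at .KR = bits (cat (2 * r - 1) fun j => bitsOf S (κ j).1) →
    s.at .KI = bits (cat (2 * r - 1) fun j => bitsOf S (κ j).2) →
    s.at .XR = bits (arr3 X r Z S fun x i z => (e x i z).1) →
    s.at .XI = bits (arr3 X r Z S fun x i z => (e x i z).2) →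
    Runs p s ((((s.set .KR []).set .KI []).set .XR (bits (arr3 X r Z S fun x k z =>
        (cvC S B r κ (fun i => e x i z) k).1))).set .XI (bits (arr3 X r Z S fun x k z =>
        (cvC S B r κ (fun i => e x i z) k).2))) (C * (m + T m))

/-- The transform along the digit `i`, with the root on `PR`, `PI`. -/
def DftSpec (p : PW J E) (Tb Tt : ℕ → ℕ) (C : ℕ) : Prop :=
  ∀ (X r Z S B m : ℕ) (ρ : ℕ × ℕ) (e : ℕ → ℕ → ℕ → ℕ × ℕ) (s : SW J E),
    Num X r Z S B ρ → Env s X r Z S B ρ → 9 * (X * r * Z * S) ≤ m → s.at .MM = una m →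
    s.at .KR = [] → s.at .KI = [] →
    (∀ x i z, (e x i z).1 < 2 ^ S) → (∀ x i z, (e x i z).2 < 2 ^ S) →
    s.at .XR = bits (arr3 X r Z S fun x i z => (e x i z).1) →
    s.at .XI = bits (arr3 X r Z S fun x i z => (e x i z).2) →
    Runs p s ((s.set .XR (bits (arr3 X r Z S fun x k z =>
        (dft S B r ρ (fun i => e x i z) k).1))).set .XI (bits (arr3 X r Z S fun x k z =>
        (dft S B r ρ (fun i => e x i z) k).2)))
      (C * (m + Tb m + X * r * Z * (S + Tt S)))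

/-- First pass: `n` words of `t` bits on `XR` become numbers; `B = 20 ℓ` etc. play no role:
`x` becomes `x * 2 ^ B`; zeros are put on `XI`. No counter is needed. -/
def InSpec (p : PW J E) (C : ℕ) : Prop :=
  ∀ (n t S B : ℕ) (e : ℕ → ℕ) (s : SW J E), 1 ≤ t → t + B ≤ S → Cln s → s.at .WS = una S →
    s.at .WB = una B → s.at .WT = una t → s.at .XI = [] → (∀ k, e k < 2 ^ t) →
    s.at .XR = bits (cat n fun k => bitsOf t (e k)) →
    Runs p s ((s.set .XR (bits (cat n fun k => bitsOf S (e k * 2 ^ B)))).set .XI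
      (bits (cat n fun _ => bitsOf S 0))) (C * (n * S + 1))

/-- Last pass: rounding; `B'` on `WP`; the stack `XI` is emptied. -/
def OutSpec (p : PW J E) (C : ℕ) : Prop :=
  ∀ (n t S B' : ℕ) (e e' : ℕ → ℕ) (s : SW J E), 1 ≤ t → 1 ≤ B' → t + B' ≤ S → Cln s →
    s.at .WS = una S → s.at .WP = una B' → s.at .WT = una t → (∀ k, e k < 2 ^ S) →
    s.at .XR = bits (cat n fun k => bitsOf S (e k)) →
    s.at .XI = bits (cat n fun k => bitsOf S (e' k)) →
    Runs p s ((s.set .XR (bits (cat n fun k => bitsOf t (rnd S B' t (e k))))).set .XI [])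
      (C * (n * S + 1))

/-! ### The transposition of words -/

/-- The stacks that are empty before and after the transposition of words. -/
def wsc : List W := psc ++ qsc ++ [W.XI, .KR, .KI, .PR, .PI, .HR, .HM, .HN, .WS, .WB, .WP]

/-- The transposition of words: `X` on `HX`, `u` on `UU`, `v` on `VV`, `Z` on `HZ`, `t` on
`WT`, `ℓ` on `LL`, `m` on `MM`, in unary. -/
def PermSpec (p : PW J E) (Tb Tt : ℕ → ℕ) (C : ℕ) : Prop :=
  ∀ (X u v Z t ℓ m : ℕ) (e : ℕ → ℕ → ℕ → ℕ → ℕ) (s : SW J E), 1 ≤ X → 1 ≤ u → 1 ≤ v →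
    1 ≤ Z → 1 ≤ t → u + v ≤ ℓ → t ≤ ℓ → 576 * (X * 2 ^ u * 2 ^ v * Z * ℓ) ≤ m → Cln0 s →
    (∀ r ∈ wsc, s.at r = []) → s.at .HX = una X → s.at .UU = una u → s.at .VV = una v →
    s.at .HZ = una Z → s.at .WT = una t → s.at .LL = una ℓ → s.at .MM = una m →
    (∀ x i j z, e x i j z < 2 ^ t) →
    s.at .XR = bits (arr4 X (2 ^ u) (2 ^ v) Z t e) →
    Runs p s (s.set .XR (bits (arr4 X (2 ^ v) (2 ^ u) Z t fun x j i z => e x i j z)))
      (C * (m + Tb m + (X * 2 ^ u * 2 ^ v * Z + ℓ ^ 2) * (64 * ℓ + Tt (64 * ℓ))))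

end Vale.Agent.P338.GS
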