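import Vale.Agent.P338.GS.Perm

/-!
# P338, matrices of every shape: the transposition of words
-/

namespace Vale.Agent.P338.GS

open Vale.Agent.P338

variable {J E : Type}

/-- All digits as one digit. -/
theorem arr3_flat (X r Z S : ℕ) (e : ℕ → ℕ → ℕ → ℕ) :
    arr3 X r Z S e = cat (X * r * Z) fun k =>
      bitsOf S (e (k / Z / r) (k / Z % r) (k % Z)) := by
  unfold arr3
  rw [cat_mul (X * r), cat_mul X]
  refine cat_congr fun y _ => cat_congr fun j hj => cat_congr fun z hz => ?_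
  have e1 : ((y * r + j) * Z + z) / Z = y * r + j := by
    rw [Nat.mul_comm, Nat.mul_add_div (by omega), Nat.div_eq_of_lt hz, Nat.add_zero]
  have e2 : ((y * r + j) * Z + z) % Z = z := by
    rw [Nat.mul_comm, Nat.mul_add_mod, Nat.mod_eq_of_lt hz]
  have e3 : (y * r + j) / r = y := by
    rw [Nat.mul_comm, Nat.mul_add_div (by omega), Nat.div_eq_of_lt hj, Nat.add_zero]
  have e4 : (y * r + j) % r = j := by
    rw [Nat.mul_comm, Nat.mul_add_mod, Nat.mod_eq_of_lt hj]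
  rw [e1, e2, e3, e4]

/-- The contents of the stacks between the steps. -/
def PS (M N S B w : ℕ) (xr xi hx hr hz pr pi q1 q2 : List (SSym E)) : PV E :=
  ⟨xr, xi, hx, hr, hz, una M, una N, una S, una B, una (B + w), pr, pi, [], q1, q2, [], []⟩

/-- The data. -/
def cst4 (X M N Z S : ℕ) (a : ℕ → ℕ → ℕ → ℕ → ℕ × ℕ) : List (SSym E) × List (SSym E) :=
  (bits (arr4 X M N Z S fun x i j z => (a x i j z).1),
    bits (arr4 X M N Z S fun x i j z => (a x i j z).2))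

variable [DecidableEq J]

/-- The assumptions on the numbers. -/
structure PN (X u v Z t ℓ m : ℕ) : Prop where
  hX : 1 ≤ X
  hu : 1 ≤ u
  hv : 1 ≤ v
  hZ : 1 ≤ Z
  ht : 1 ≤ t
  huv : u + v ≤ ℓ
  htl : t ≤ ℓ
  hm : 576 * (X * 2 ^ u * 2 ^ v * Z * ℓ) ≤ m

section

variable {s : SW J E} {X u v Z t ℓ m : ℕ}

theorem PN.num (h : PN X u v Z t ℓ m) {X' r Z' : ℕ} {ρ : ℕ × ℕ} (h1 : 1 ≤ X') (h2 : 1 ≤ r)
    (h3 : 1 ≤ Z') (h4 : r ≤ 2 ^ ℓ) (h5 : ρ.1 < 2 ^ (64 * ℓ)) (h6 : ρ.2 < 2 ^ (64 * ℓ)) :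
    Num X' r Z' (64 * ℓ) (20 * ℓ) ρ := by
  have hl : 2 ≤ ℓ := by have := h.hu; have := h.hv; have := h.huv; omega
  refine ⟨h1, h2, h3, by omega, by omega, lt_of_le_of_lt h4 ?_, h5, h6⟩
  exact Nat.pow_lt_pow_right (by norm_num) (by omega)

theorem rt_lt (hl : 1 ≤ ℓ) (k : ℕ) :
    (rt (20 * ℓ) k).1 < 2 ^ (64 * ℓ) ∧ (rt (20 * ℓ) k).2 < 2 ^ (64 * ℓ) := by
  have h := rt_le (20 * ℓ) k
  have h1 : 2 ^ (20 * ℓ) < 2 ^ (64 * ℓ) := Nat.pow_lt_pow_right (by norm_num) (by omega)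
  omega

/-- The root program, on our stores. -/
theorem root_pv {root : PW J E} {Tt : ℕ → ℕ} {C : ℕ} (hroot : RootSpec root Tt C)
    (c : Ctx s u v ℓ) (hl : 1 ≤ ℓ) (p : PV E) (k : ℕ) (h1 : p.ws = una (64 * ℓ))
    (h2 : p.wb = una (20 * ℓ)) (h3 : p.f1 = una k) (h4 : p.pr = []) (h5 : p.pi = []) :
    Runs root (p.st s) (({ p with
        f1 := [], pr := wd (64 * ℓ) (rt (20 * ℓ) k).1
        pi := wd (64 * ℓ) (rt (20 * ℓ) k).2 } : PV E).st s)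
      (C * ((k + 1) * (20 * ℓ) * (64 * ℓ + Tt (64 * ℓ)))) := by
  have h := hroot (64 * ℓ) (20 * ℓ) k (p.st s) (by omega) (by omega) (PV.cln0 c.cl p) h1 h2 h3
    (by
      intro r hr
      simp only [List.mem_cons, List.not_mem_nil, or_false] at hr
      rcases hr with rfl | rfl | rfl | rfl | rfl | rfl | rfl | rfl | rfl | rfl | rfl | rfl |
        rfl | rfl | rfl <;> first | exact h4 | exact h5 | exact c.em _ (by decide))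
  simpa only [PV.set_F1, PV.set_PR, PV.set_PI] using h

/-- The conjugation, on our stores. -/
theorem cj_pv {cj : PW J E} {C : ℕ} (hcj : CjSpec cj C) (c : Ctx s u v ℓ) (hl : 1 ≤ ℓ)
    (p : PV E) (y : ℕ) (h1 : p.ws = una (64 * ℓ)) (hy : y < 2 ^ (64 * ℓ))
    (h2 : p.pi = wd (64 * ℓ) y) :
    Runs cj (p.st s) (({ p with pi := wd (64 * ℓ) (sbR (64 * ℓ) 0 y) } : PV E).st s)
      (C * (64 * ℓ)) := by
  have h := hcj (64 * ℓ) y (p.st s) (by omega) (PV.cln0 c.cl p) hy h1 h2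
  simpa only [PV.set_PI] using h

/-- The environment of a pass. -/
theorem env_pv (c : Ctx s u v ℓ) (p : PV E) {X' r Z' : ℕ} {ρ : ℕ × ℕ}
    (h1 : p.hx = una X') (h2 : p.hr = una r) (h3 : p.hz = una Z') (h4 : p.ws = una (64 * ℓ))
    (h5 : p.wb = una (20 * ℓ)) (h6 : p.pr = wd (64 * ℓ) ρ.1) (h7 : p.pi = wd (64 * ℓ) ρ.2)
    (h8 : p.f1 = []) (h9 : p.cr = []) (h10 : p.ci = []) :
    Env (p.st s) X' r Z' (64 * ℓ) (20 * ℓ) ρ :=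
  ⟨PV.cln c.cl c.em p h8 h9 h10, h1, h2, h3, h4, h5, h6, h7⟩

/-! ### The transforms -/

/-- The first transform. -/
theorem dft1_pv {dftp : PW J E} {Tb Tt : ℕ → ℕ} {C : ℕ} (hd : DftSpec dftp Tb Tt C)
    (c : Ctx s u v ℓ) (hn : PN X u v Z t ℓ m) (hMM : s.at .MM = una m)
    (a : ℕ → ℕ → ℕ → ℕ → ℕ × ℕ) (h1 : ∀ x i j z, (a x i j z).1 < 2 ^ (64 * ℓ))
    (h2 : ∀ x i j z, (a x i j z).2 < 2 ^ (64 * ℓ)) (ρ : ℕ × ℕ) (r1 : ρ.1 < 2 ^ (64 * ℓ))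
    (r2 : ρ.2 < 2 ^ (64 * ℓ)) (w : ℕ) (q1 q2 : List (SSym E)) :
    Runs dftp
      ((PS (2 ^ u) (2 ^ v) (64 * ℓ) (20 * ℓ) w
        (bits (arr4 X (2 ^ u) (2 ^ v) Z (64 * ℓ) fun x i j z => (a x i j z).1))
        (bits (arr4 X (2 ^ u) (2 ^ v) Z (64 * ℓ) fun x i j z => (a x i j z).2))
        (una (X * 2 ^ u)) (una (2 ^ v)) (una Z) (wd (64 * ℓ) ρ.1) (wd (64 * ℓ) ρ.2) q1 q2).st s)
      ((PS (2 ^ u) (2 ^ v) (64 * ℓ) (20 * ℓ) w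
        (bits (arr4 X (2 ^ u) (2 ^ v) Z (64 * ℓ) fun x i j z =>
          (dft (64 * ℓ) (20 * ℓ) (2 ^ v) ρ (fun j => a x i j z) j).1))
        (bits (arr4 X (2 ^ u) (2 ^ v) Z (64 * ℓ) fun x i j z =>
          (dft (64 * ℓ) (20 * ℓ) (2 ^ v) ρ (fun j => a x i j z) j).2))
        (una (X * 2 ^ u)) (una (2 ^ v)) (una Z) (wd (64 * ℓ) ρ.1) (wd (64 * ℓ) ρ.2) q1 q2).st s)
      (C * (m + Tb m + X * 2 ^ u * 2 ^ v * Z * (64 * ℓ + Tt (64 * ℓ)))) := by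
  have hv2 : 2 ^ v ≤ 2 ^ ℓ := Nat.pow_le_pow_right (by norm_num) (by
    have := hn.huv; omega)
  have nn : Num (X * 2 ^ u) (2 ^ v) Z (64 * ℓ) (20 * ℓ) ρ :=
    hn.num (Nat.succ_le_of_lt (Nat.mul_pos hn.hX (by positivity))) Nat.one_le_two_pow hn.hZ
      hv2 r1 r2
  have h := hd (X * 2 ^ u) (2 ^ v) Z (64 * ℓ) (20 * ℓ) m ρ
    (fun y j z => a (y / 2 ^ u) (y % 2 ^ u) j z) _ nn
    (env_pv c (PS (2 ^ u) (2 ^ v) (64 * ℓ) (20 * ℓ) w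
        (bits (arr4 X (2 ^ u) (2 ^ v) Z (64 * ℓ) fun x i j z => (a x i j z).1))
        (bits (arr4 X (2 ^ u) (2 ^ v) Z (64 * ℓ) fun x i j z => (a x i j z).2))
        (una (X * 2 ^ u)) (una (2 ^ v)) (una Z) (wd (64 * ℓ) ρ.1) (wd (64 * ℓ) ρ.2) q1 q2)
      rfl rfl rfl rfl rfl rfl rfl rfl rfl rfl)
    (by
      have := hn.hm
      calc 9 * (X * 2 ^ u * 2 ^ v * Z * (64 * ℓ)) = 576 * (X * 2 ^ u * 2 ^ v * Z * ℓ) := by ring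
        _ ≤ m := this) hMM (c.em _ (by decide)) (c.em _ (by decide))
    (fun _ _ _ => h1 _ _ _ _) (fun _ _ _ => h2 _ _ _ _)
    (by rw [← arr4_in X (2 ^ u) (2 ^ v) Z (64 * ℓ) fun x i j z => (a x i j z).1]; rfl)
    (by rw [← arr4_in X (2 ^ u) (2 ^ v) Z (64 * ℓ) fun x i j z => (a x i j z).2]; rfl)
  refine h.of_eq ?_
  rw [arr4_in X (2 ^ u) (2 ^ v) Z (64 * ℓ) fun x i j z =>
      (dft (64 * ℓ) (20 * ℓ) (2 ^ v) ρ (fun j => a x i j z) j).1,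
    arr4_in X (2 ^ u) (2 ^ v) Z (64 * ℓ) fun x i j z =>
      (dft (64 * ℓ) (20 * ℓ) (2 ^ v) ρ (fun j => a x i j z) j).2, PV.set_XR, PV.set_XI]
  rfl

/-- The second transform. -/
theorem dft2_pv {dftp : PW J E} {Tb Tt : ℕ → ℕ} {C : ℕ} (hd : DftSpec dftp Tb Tt C)
    (c : Ctx s u v ℓ) (hn : PN X u v Z t ℓ m) (hMM : s.at .MM = una m)
    (a : ℕ → ℕ → ℕ → ℕ → ℕ × ℕ) (h1 : ∀ x i j z, (a x i j z).1 < 2 ^ (64 * ℓ))
    (h2 : ∀ x i j z, (a x i j z).2 < 2 ^ (64 * ℓ)) (ρ : ℕ × ℕ) (r1 : ρ.1 < 2 ^ (64 * ℓ))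
    (r2 : ρ.2 < 2 ^ (64 * ℓ)) (w : ℕ) (q1 q2 : List (SSym E)) :
    Runs dftp
      ((PS (2 ^ u) (2 ^ v) (64 * ℓ) (20 * ℓ) w
        (bits (arr4 X (2 ^ u) (2 ^ v) Z (64 * ℓ) fun x i j z => (a x i j z).1))
        (bits (arr4 X (2 ^ u) (2 ^ v) Z (64 * ℓ) fun x i j z => (a x i j z).2))
        (una X) (una (2 ^ u)) (una (2 ^ v * Z)) (wd (64 * ℓ) ρ.1) (wd (64 * ℓ) ρ.2) q1 q2).st s)
      ((PS (2 ^ u) (2 ^ v) (64 * ℓ) (20 * ℓ) w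
        (bits (arr4 X (2 ^ u) (2 ^ v) Z (64 * ℓ) fun x i j z =>
          (dft (64 * ℓ) (20 * ℓ) (2 ^ u) ρ (fun i => a x i j z) i).1))
        (bits (arr4 X (2 ^ u) (2 ^ v) Z (64 * ℓ) fun x i j z =>
          (dft (64 * ℓ) (20 * ℓ) (2 ^ u) ρ (fun i => a x i j z) i).2))
        (una X) (una (2 ^ u)) (una (2 ^ v * Z)) (wd (64 * ℓ) ρ.1) (wd (64 * ℓ) ρ.2) q1 q2).st s)
      (C * (m + Tb m + X * 2 ^ u * 2 ^ v * Z * (64 * ℓ + Tt (64 * ℓ)))) := by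
  have hu2 : 2 ^ u ≤ 2 ^ ℓ := Nat.pow_le_pow_right (by norm_num) (by
    have := hn.huv; omega)
  have nn : Num X (2 ^ u) (2 ^ v * Z) (64 * ℓ) (20 * ℓ) ρ :=
    hn.num hn.hX Nat.one_le_two_pow (Nat.succ_le_of_lt (Nat.mul_pos (by positivity) hn.hZ))
      hu2 r1 r2
  have e1 : X * 2 ^ u * (2 ^ v * Z) = X * 2 ^ u * 2 ^ v * Z := by ring
  have h := hd X (2 ^ u) (2 ^ v * Z) (64 * ℓ) (20 * ℓ) m ρ
    (fun x i k => a x i (k / Z) (k % Z)) _ nn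
    (env_pv c (PS (2 ^ u) (2 ^ v) (64 * ℓ) (20 * ℓ) w
        (bits (arr4 X (2 ^ u) (2 ^ v) Z (64 * ℓ) fun x i j z => (a x i j z).1))
        (bits (arr4 X (2 ^ u) (2 ^ v) Z (64 * ℓ) fun x i j z => (a x i j z).2))
        (una X) (una (2 ^ u)) (una (2 ^ v * Z)) (wd (64 * ℓ) ρ.1) (wd (64 * ℓ) ρ.2) q1 q2)
      rfl rfl rfl rfl rfl rfl rfl rfl rfl rfl)
    (by
      have := hn.hm
      rw [e1]
      calc 9 * (X * 2 ^ u * 2 ^ v * Z * (64 * ℓ)) = 576 * (X * 2 ^ u * 2 ^ v * Z * ℓ) := by ring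
        _ ≤ m := this) hMM (c.em _ (by decide)) (c.em _ (by decide))
    (fun _ _ _ => h1 _ _ _ _) (fun _ _ _ => h2 _ _ _ _)
    (by rw [← arr4_out X (2 ^ u) (2 ^ v) Z (64 * ℓ) fun x i j z => (a x i j z).1]; rfl)
    (by rw [← arr4_out X (2 ^ u) (2 ^ v) Z (64 * ℓ) fun x i j z => (a x i j z).2]; rfl)
  rw [e1] at h
  refine h.of_eq ?_
  rw [arr4_out X (2 ^ u) (2 ^ v) Z (64 * ℓ) fun x i j z =>
      (dft (64 * ℓ) (20 * ℓ) (2 ^ u) ρ (fun i => a x i j z) i).1,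
    arr4_out X (2 ^ u) (2 ^ v) Z (64 * ℓ) fun x i j z =>
      (dft (64 * ℓ) (20 * ℓ) (2 ^ u) ρ (fun i => a x i j z) i).2, PV.set_XR, PV.set_XI]
  rfl

/-- The third transform. -/
theorem dft3_pv {dftp : PW J E} {Tb Tt : ℕ → ℕ} {C : ℕ} (hd : DftSpec dftp Tb Tt C)
    (c : Ctx s u v ℓ) (hn : PN X u v Z t ℓ m) (hMM : s.at .MM = una m)
    (a : ℕ → ℕ → ℕ → ℕ → ℕ × ℕ) (h1 : ∀ x i j z, (a x i j z).1 < 2 ^ (64 * ℓ))
    (h2 : ∀ x i j z, (a x i j z).2 < 2 ^ (64 * ℓ)) (ρ : ℕ × ℕ) (r1 : ρ.1 < 2 ^ (64 * ℓ))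
    (r2 : ρ.2 < 2 ^ (64 * ℓ)) (w : ℕ) (q1 q2 : List (SSym E)) :
    Runs dftp
      ((PS (2 ^ u) (2 ^ v) (64 * ℓ) (20 * ℓ) w
        (bits (arr4 X (2 ^ u) (2 ^ v) Z (64 * ℓ) fun x i j z => (a x i j z).1))
        (bits (arr4 X (2 ^ u) (2 ^ v) Z (64 * ℓ) fun x i j z => (a x i j z).2))
        (una X) (una (2 ^ u * 2 ^ v)) (una Z) (wd (64 * ℓ) ρ.1) (wd (64 * ℓ) ρ.2) q1 q2).st s)
      ((PS (2 ^ u) (2 ^ v) (64 * ℓ) (20 * ℓ) w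
        (bits (arr3 X (2 ^ u * 2 ^ v) Z (64 * ℓ) fun x k z =>
          (dft (64 * ℓ) (20 * ℓ) (2 ^ u * 2 ^ v) ρ
            (fun k => a x (k / 2 ^ v) (k % 2 ^ v) z) k).1))
        (bits (arr3 X (2 ^ u * 2 ^ v) Z (64 * ℓ) fun x k z =>
          (dft (64 * ℓ) (20 * ℓ) (2 ^ u * 2 ^ v) ρ
            (fun k => a x (k / 2 ^ v) (k % 2 ^ v) z) k).2))
        (una X) (una (2 ^ u * 2 ^ v)) (una Z) (wd (64 * ℓ) ρ.1) (wd (64 * ℓ) ρ.2) q1 q2).st s)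
      (C * (m + Tb m + X * 2 ^ u * 2 ^ v * Z * (64 * ℓ + Tt (64 * ℓ)))) := by
  have huv2 : 2 ^ u * 2 ^ v ≤ 2 ^ ℓ := by
    rw [← pow_add]; exact Nat.pow_le_pow_right (by norm_num) hn.huv
  have nn : Num X (2 ^ u * 2 ^ v) Z (64 * ℓ) (20 * ℓ) ρ :=
    hn.num hn.hX (Nat.succ_le_of_lt (by positivity)) hn.hZ huv2 r1 r2
  have e1 : X * (2 ^ u * 2 ^ v) * Z = X * 2 ^ u * 2 ^ v * Z := by ring
  have h := hd X (2 ^ u * 2 ^ v) Z (64 * ℓ) (20 * ℓ) m ρ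
    (fun x k z => a x (k / 2 ^ v) (k % 2 ^ v) z) _ nn
    (env_pv c (PS (2 ^ u) (2 ^ v) (64 * ℓ) (20 * ℓ) w
        (bits (arr4 X (2 ^ u) (2 ^ v) Z (64 * ℓ) fun x i j z => (a x i j z).1))
        (bits (arr4 X (2 ^ u) (2 ^ v) Z (64 * ℓ) fun x i j z => (a x i j z).2))
        (una X) (una (2 ^ u * 2 ^ v)) (una Z) (wd (64 * ℓ) ρ.1) (wd (64 * ℓ) ρ.2) q1 q2)
      rfl rfl rfl rfl rfl rfl rfl rfl rfl rfl)
    (by
      have := hn.hm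
      rw [e1]
      calc 9 * (X * 2 ^ u * 2 ^ v * Z * (64 * ℓ)) = 576 * (X * 2 ^ u * 2 ^ v * Z * ℓ) := by ring
        _ ≤ m := this) hMM (c.em _ (by decide)) (c.em _ (by decide))
    (fun _ _ _ => h1 _ _ _ _) (fun _ _ _ => h2 _ _ _ _)
    (by rw [← arr4_mid X (2 ^ u) (2 ^ v) Z (64 * ℓ) fun x i j z => (a x i j z).1]; rfl)
    (by rw [← arr4_mid X (2 ^ u) (2 ^ v) Z (64 * ℓ) fun x i j z => (a x i j z).2]; rfl)
  rw [e1] at h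
  refine h.of_eq ?_
  rw [PV.set_XR, PV.set_XI]
  rfl

end

end Vale.Agent.P338.GS
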