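import Vale.Agent.P338.GS.TCalls
import Vale.Agent.P338.GS.PermMain

/-!
# P338, stage 5: the transposition of words
-/

namespace Vale.Agent.P338.GS.T3

open Vale.Agent.P338 Vale.Agent.P338.GS

variable {J E : Type}

/-! ### Data -/

/-- Assumptions. -/
structure HN (X u v Z t g m : ℕ) : Prop where
  hX : 1 ≤ X
  hu : 6 ≤ u
  hv : 6 ≤ v
  hZ : 1 ≤ Z
  ht : 1 ≤ t
  hg : 1 ≤ g
  huv : u + v ≤ wL g
  htl : t ≤ wL g
  hm : 8064 * (X * 2 ^ u * 2 ^ v * Z * wS g) ≤ m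

/-- Four-dimensional data. -/
def d4 (X u v Z S : ℕ) (e : ℕ → ℕ → ℕ → ℕ → ℕ) : List (SSym E) :=
  bits (arr4 X (2 ^ u) (2 ^ v) Z S e)

/-- The time. -/
def t3 (Tb Tt : ℕ → ℕ) (X u v Z g m : ℕ) : ℕ :=
  m + Tb m + X * 2 ^ u * 2 ^ v * Z * wS g * g +
    (2 ^ u + 2 ^ v + 2 ^ (u + v - v / 2) + 2 ^ (u + v - (u + v) / 4) + wL g ^ 2) *
      (wS g + Tt (wS g))

section

variable {X u v Z t g m : ℕ}

/-- Bounds. -/
structure TB (Tb Tt : ℕ → ℕ) (X u v Z t g m T : ℕ) : Prop where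
  hQ : X * 2 ^ u * 2 ^ v * Z * wS g ≤ T
  hm : m ≤ T
  hb : m + Tb m + X * 2 ^ u * 2 ^ v * Z * wS g * g ≤ T
  hq : X * 2 ^ u * 2 ^ v * Z ≤ T
  h1 : 1 ≤ T
  hl : wL g ≤ T
  hS : wS g ≤ T
  hgT : g ≤ T
  hX : X ≤ T
  hZ : Z ≤ T
  hu2 : 2 ^ u ≤ T
  hv2 : 2 ^ v ≤ T
  huv2 : 2 ^ u * 2 ^ v ≤ T
  hXu : X * 2 ^ u ≤ T
  hvZ : 2 ^ v * Z ≤ T
  uu : u ≤ T
  vv : v ≤ T
  tt : t ≤ T
  h5 : 2 ^ v * wS g ≤ T
  h6 : 2 ^ u * wS g ≤ T
  h7 : 2 ^ u * 2 ^ v * wS g ≤ T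
  h8 : X * 2 ^ u * 2 ^ v * Z * t ≤ T
  h9 : X * 2 ^ u * 2 ^ v * Z * wL g ≤ T

theorem HN.tb (h : HN X u v Z t g m) (Tb Tt : ℕ → ℕ) :
    TB Tb Tt X u v Z t g m (t3 Tb Tt X u v Z g m) := by
  obtain ⟨hX, hu, hv, hZ, ht, hg, huv, htl, hm⟩ := h
  have a1 : 1 ≤ 2 ^ u := Nat.one_le_two_pow
  have a2 : 1 ≤ 2 ^ v := Nat.one_le_two_pow
  have hl : 1 ≤ wL g := by omega
  have hS : wS g = 64 * wL g := wS_eq hg
  have b1 : X * 2 ^ u ≤ X * 2 ^ u * 2 ^ v * Z := by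
    calc X * 2 ^ u = X * 2 ^ u * 1 * 1 := by ring
      _ ≤ X * 2 ^ u * 2 ^ v * Z := Nat.mul_le_mul (Nat.mul_le_mul_left _ a2) hZ
  have b2 : 2 ^ u * 2 ^ v ≤ X * 2 ^ u * 2 ^ v * Z := by
    calc 2 ^ u * 2 ^ v = 1 * 2 ^ u * 2 ^ v * 1 := by ring
      _ ≤ X * 2 ^ u * 2 ^ v * Z := Nat.mul_le_mul (Nat.mul_le_mul_right _
        (Nat.mul_le_mul_right _ hX)) hZ
  have b3 : 2 ^ v * Z ≤ X * 2 ^ u * 2 ^ v * Z := by
    calc 2 ^ v * Z = 1 * 1 * 2 ^ v * Z := by ring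
      _ ≤ X * 2 ^ u * 2 ^ v * Z := Nat.mul_le_mul_right _ (Nat.mul_le_mul_right _
        (Nat.mul_le_mul hX a1))
  have c1 : 2 ^ u ≤ X * 2 ^ u := Nat.le_mul_of_pos_left _ hX
  have c2 : X ≤ X * 2 ^ u := Nat.le_mul_of_pos_right _ (by positivity)
  have c3 : 2 ^ v ≤ 2 ^ v * Z := Nat.le_mul_of_pos_right _ hZ
  have c4 : Z ≤ 2 ^ v * Z := Nat.le_mul_of_pos_left _ (by positivity)
  have d1 : X * 2 ^ u * 2 ^ v * Z ≤ X * 2 ^ u * 2 ^ v * Z * wS g :=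
    Nat.le_mul_of_pos_right _ (by omega)
  have d2 : wS g ≤ X * 2 ^ u * 2 ^ v * Z * wS g :=
    Nat.le_mul_of_pos_left _ (by omega)
  have d3 : 2 ^ v * wS g ≤ X * 2 ^ u * 2 ^ v * Z * wS g :=
    Nat.mul_le_mul_right _ (by omega)
  have d4 : 2 ^ u * wS g ≤ X * 2 ^ u * 2 ^ v * Z * wS g :=
    Nat.mul_le_mul_right _ (by omega)
  have d5 : 2 ^ u * 2 ^ v * wS g ≤ X * 2 ^ u * 2 ^ v * Z * wS g :=
    Nat.mul_le_mul_right _ (by omega)
  have d6 : X * 2 ^ u * 2 ^ v * Z * t ≤ X * 2 ^ u * 2 ^ v * Z * wS g :=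
    Nat.mul_le_mul_left _ (by omega)
  have d7 : X * 2 ^ u * 2 ^ v * Z * wL g ≤ X * 2 ^ u * 2 ^ v * Z * wS g :=
    Nat.mul_le_mul_left _ (by omega)
  have d8 : X * 2 ^ u * 2 ^ v * Z * wS g ≤ X * 2 ^ u * 2 ^ v * Z * wS g * g :=
    Nat.le_mul_of_pos_right _ hg
  have d9 : g ≤ wL g := by
    unfold wL
    exact Nat.le_mul_of_pos_left _ (by positivity)
  unfold t3
  generalize (2 ^ u + 2 ^ v + 2 ^ (u + v - v / 2) + 2 ^ (u + v - (u + v) / 4) + wL g ^ 2) *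
      (wS g + Tt (wS g)) = R
  constructor <;> (generalize X * 2 ^ u * 2 ^ v * Z * wS g * g = P at *; omega)

theorem r_le {P Q : ℕ} (Tb Tt : ℕ → ℕ) (hP : P ≤ 2 ^ u + 2 ^ v + 2 ^ (u + v - v / 2) +
    2 ^ (u + v - (u + v) / 4)) (hQ : Q ≤ wL g ^ 2) :
    (P + Q) * (wS g + Tt (wS g)) ≤ t3 Tb Tt X u v Z g m :=
  le_trans (Nat.mul_le_mul_right _ (Nat.add_le_add hP hQ)) (Nat.le_add_left _ _)

theorem HN.ru (h : HN X u v Z t g m) : 2 ^ u < 2 ^ (wS g - 1) := by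
  have := wS_eq h.hg
  have := h.huv
  have := h.hv
  exact Nat.pow_lt_pow_right (by norm_num) (by omega)

theorem HN.rv (h : HN X u v Z t g m) : 2 ^ v < 2 ^ (wS g - 1) := by
  have := wS_eq h.hg
  have := h.huv
  have := h.hu
  exact Nat.pow_lt_pow_right (by norm_num) (by omega)

theorem HN.ruv (h : HN X u v Z t g m) : 2 ^ u * 2 ^ v < 2 ^ (wS g - 1) := by
  have := wS_eq h.hg
  have := h.huv
  have := h.hu
  rw [← pow_add]
  exact Nat.pow_lt_pow_right (by norm_num) (by omega)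

theorem HN.BS (h : HN X u v Z t g m) : 20 * wL g ≤ wS g := by
  have := wS_eq h.hg
  omega

theorem cA_lt {S B : ℕ} (hS : B ≤ S) (ρ : ℕ × ℕ) (i : ℕ) :
    (cA S B ρ i).1 < 2 ^ S ∧ (cA S B ρ i).2 < 2 ^ S := cmR_lt hS _ _

theorem tF_lt {S B : ℕ} (hS : B ≤ S) (γ₁ γ₀ : ℕ × ℕ) (N i j : ℕ) :
    (tF S B γ₁ γ₀ N i j).1 < 2 ^ S ∧ (tF S B γ₁ γ₀ N i j).2 < 2 ^ S := cmR_lt hS _ _

theorem cF_lt {S B : ℕ} (hS : B ≤ S) (L k : ℕ) :
    (cF S B L k).1 < 2 ^ S ∧ (cF S B L k).2 < 2 ^ S := cmR_lt hS _ _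

theorem dftA_lt {S B : ℕ} (hS : B ≤ S) (r : ℕ) (c a : ℕ → ℕ × ℕ) (k : ℕ) :
    (dftA S B r c a k).1 < 2 ^ S ∧ (dftA S B r c a k).2 < 2 ^ S := cmR_lt hS _ _

variable [DecidableEq J]

/-- First part. -/
noncomputable def pA (inp : PW J E) (sq : Bool → PW J E) (tr : P3 J E) : P3 J E :=
  ((d3s cT0).map Sum.inr).seq ((callP V3.t inL (lf0 inp) inO).seq
    (((d3s cT2).map Sum.inr).seq ((callP V3.t (sqL .b) (lf0 (sq true)) sqO).seq tr)))

/-- Second part. -/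
noncomputable def pB (tw : Bool → P2 J E) (ex : P2 J E) : P3 J E :=
  ((d3s cT5a).map Sum.inr).seq (((d3s cT5b).map Sum.inr).seq
    ((callP V3.t twL (tw true) twO).seq (((d3s cT7).map Sum.inr).seq
      (callP V3.t exL ex exO))))

/-- Third part. -/
noncomputable def pC (sq : Bool → PW J E) (tr : P3 J E) : P3 J E :=
  ((d3s cT9).map Sum.inr).seq ((callP V3.t (sqL .a) (lf0 (sq true)) sqO).seq tr)

/-- Fourth part. -/
noncomputable def pD (outp : PW J E) (cf : P2 J E) (tr : P3 J E) : P3 J E :=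
  ((d3s cT12).map Sum.inr).seq ((callP V3.t cfL cf cfO).seq
    (((d3s cT7).map Sum.inr).seq (tr.seq ((callP V3.t ouL (lf0 outp) ouO).seq
      ((d3s cT17).map Sum.inr)))))

theorem pA_runs {inp : PW J E} {sq : Bool → PW J E} {tr : P3 J E} {Tb Tt : ℕ → ℕ}
    {C₁ C₂ C₃ : ℕ} (hin : InPSpec inp C₁) (hsq : SeqChSpec sq Tt C₂) (htr : TrSpec tr Tb C₃)
    (h : HN X u v Z t g m) (e : ℕ → ℕ → ℕ → ℕ → ℕ) (he : ∀ x i j z, e x i j z < 2 ^ t) :
    Runs (pA inp sq tr)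
      (up ({ dr := bits (arr4 X (2 ^ u) (2 ^ v) Z t e), hx := una X, hu := una u, hv := una v
             hz := una Z, ht := una t, g := una g, l := una (wL g), m := una m } : TV E).st)
      (up (ts X u v Z t g m
        (bits (arr4 X (2 ^ u) (2 ^ v) Z (wS g) fun x i j z =>
          (sa1 (wS g) (20 * wL g) v (fun i j => e x i j z) i j).1))
        (bits (arr4 X (2 ^ u) (2 ^ v) Z (wS g) fun x i j z =>
          (sa1 (wS g) (20 * wL g) v (fun i j => e x i j z) i j).2))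
        [] [] [] [] [] [] [] [] [] [] []).st)
      ((3 * C₁ + C₂ + C₃ + 1000) * t3 Tb Tt X u v Z g m) := by
  have hg := h.hg
  have hS : wS g = 64 * wL g := wS_eq hg
  -- parameters
  have a1 := cT0_runs (ι := I2 J) X u v Z t g m
    (bits (arr4 X (2 ^ u) (2 ^ v) Z t e) : List (SSym E))
  -- the first pass
  have a2 := in_call X u v Z t g m [] [] [] [] [] [] [] [] [] [] [] hin (X * 2 ^ u * 2 ^ v * Z)
    (fun k => e (k / Z / 2 ^ v / 2 ^ u) (k / Z / 2 ^ v % 2 ^ u) (k / Z % 2 ^ v) (k % Z))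
    h.ht h.htl (fun k => he _ _ _ _)
  have f1 : (ar t (X * 2 ^ u * 2 ^ v * Z) (fun k => e (k / Z / 2 ^ v / 2 ^ u)
      (k / Z / 2 ^ v % 2 ^ u) (k / Z % 2 ^ v) (k % Z)) : List (SSym E)) =
      bits (arr4 X (2 ^ u) (2 ^ v) Z t e) := by
    rw [arr4_flat]; rfl
  have f2 : (ar (64 * wL g) (X * 2 ^ u * 2 ^ v * Z) (fun k => e (k / Z / 2 ^ v / 2 ^ u)
      (k / Z / 2 ^ v % 2 ^ u) (k / Z % 2 ^ v) (k % Z) * 2 ^ (20 * wL g)) : List (SSym E)) =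
      bits (arr3 (X * 2 ^ u) (2 ^ v) Z (wS g) fun x i z =>
        ((fun x i z => ((e (x / 2 ^ u) (x % 2 ^ u) i z * 2 ^ (20 * wL g), 0) : ℕ × ℕ))
          x i z).1) := by
    rw [← hS, ← arr4_in X (2 ^ u) (2 ^ v) Z (wS g) fun x i j z =>
      e x i j z * 2 ^ (20 * wL g), arr4_flat]
    rfl
  have f3 : (ar (64 * wL g) (X * 2 ^ u * 2 ^ v * Z) (fun _ => 0) : List (SSym E)) =
      bits (arr3 (X * 2 ^ u) (2 ^ v) Z (wS g) fun x i z =>
        ((fun x i z => ((e (x / 2 ^ u) (x % 2 ^ u) i z * 2 ^ (20 * wL g), 0) : ℕ × ℕ))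
          x i z).2) := by
    rw [← hS, ← arr4_in X (2 ^ u) (2 ^ v) Z (wS g) fun x i j z => 0, arr4_flat]
    rfl
  rw [f1, f2, f3] at a2
  -- the numbers of the first transform
  have a3 := cT2_runs (ι := I2 J) X u v Z t g m
    (bits (arr3 (X * 2 ^ u) (2 ^ v) Z (wS g) fun x i z =>
        ((fun x i z => ((e (x / 2 ^ u) (x % 2 ^ u) i z * 2 ^ (20 * wL g), 0) : ℕ × ℕ))
          x i z).1) : List (SSym E))
    (bits (arr3 (X * 2 ^ u) (2 ^ v) Z (wS g) fun x i z =>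
        ((fun x i z => ((e (x / 2 ^ u) (x % 2 ^ u) i z * 2 ^ (20 * wL g), 0) : ℕ × ℕ))
          x i z).2)) [] [] [] [] [] [] []
  -- the chirps
  have a4 := sqb_call X u v Z t g m
    (bits (arr3 (X * 2 ^ u) (2 ^ v) Z (wS g) fun x i z =>
        ((fun x i z => ((e (x / 2 ^ u) (x % 2 ^ u) i z * 2 ^ (20 * wL g), 0) : ℕ × ℕ))
          x i z).1) : List (SSym E))
    (bits (arr3 (X * 2 ^ u) (2 ^ v) Z (wS g) fun x i z =>
        ((fun x i z => ((e (x / 2 ^ u) (x % 2 ^ u) i z * 2 ^ (20 * wL g), 0) : ℕ × ℕ))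
          x i z).2)) (una (X * 2 ^ u)) (una (2 ^ v)) (una Z) [] [] [] [] [] hsq (v - 1) hg
    h.rv
  -- the transform
  have hc : ∀ x i z, e (x / 2 ^ u) (x % 2 ^ u) i z * 2 ^ (20 * wL g) < 2 ^ wS g := by
    intro x i z
    have htl := h.htl
    calc e (x / 2 ^ u) (x % 2 ^ u) i z * 2 ^ (20 * wL g) < 2 ^ t * 2 ^ (20 * wL g) :=
          Nat.mul_lt_mul_of_pos_right (he _ _ _ _) (by positivity)
      _ = 2 ^ (t + 20 * wL g) := by rw [pow_add]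
      _ ≤ 2 ^ wS g := Nat.pow_le_pow_right (by norm_num) (by omega)
  have a5 := tr_call X u v Z t g m [] [] [] [] [] [] htr (X * 2 ^ u) (2 ^ v) Z
    (cA (wS g) (20 * wL g) (rtc (wS g) (20 * wL g) true (v - 1)))
    (fun x i z => ((e (x / 2 ^ u) (x % 2 ^ u) i z * 2 ^ (20 * wL g), 0) : ℕ × ℕ))
    (Nat.mul_pos h.hX (by positivity)) Nat.one_le_two_pow h.hZ hg h.rv h.hm hc
    (fun _ _ _ => by positivity) (fun i => (cA_lt h.BS _ _).1) (fun i => (cA_lt h.BS _ _).2)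
  have f4 := arr4_in X (2 ^ u) (2 ^ v) Z (wS g) fun x i j z =>
          (sa1 (wS g) (20 * wL g) v (fun i j => e x i j z) i j).1
  have f5 := arr4_in X (2 ^ u) (2 ^ v) Z (wS g) fun x i j z =>
          (sa1 (wS g) (20 * wL g) v (fun i j => e x i j z) i j).2
  rw [f4, f5]
  refine (a1.seq (a2.seq (a3.seq (a4.seq a5)))).mono ?_
  obtain ⟨hQ, hm, hb, hq, h1, hl, hST, hgT, hX, hZ, hu2, hv2, huv2, hXu, hvZ, uu, vv, tt, h5,
    h6, h7, h8, h9⟩ := h.tb Tb Tt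
  have k2 : C₂ * ((2 ^ v + (v - 1 + 1) * wL g) * (wS g + Tt (wS g))) ≤
      C₂ * t3 Tb Tt X u v Z g m := by
    refine Nat.mul_le_mul_left _ ?_
    have e1 : v - 1 + 1 ≤ wL g := by have := h.huv; have := h.hu; have := h.hv; omega
    have e2 : (v - 1 + 1) * wL g ≤ wL g ^ 2 := by
      rw [pow_two]; exact Nat.mul_le_mul_right _ e1
    refine r_le Tb Tt ?_ e2
    generalize 2 ^ (u + v - v / 2) = A
    generalize 2 ^ (u + v - (u + v) / 4) = B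
    generalize 2 ^ u = A'
    generalize 2 ^ v = B'
    omega
  have k3 : C₃ * (m + Tb m + X * 2 ^ u * 2 ^ v * Z * wS g * g) ≤
    C₃ * t3 Tb Tt X u v Z g m := Nat.mul_le_mul_left _ hb
  generalize t3 Tb Tt X u v Z g m = T at *
  have k1 : C₁ * (X * 2 ^ u * 2 ^ v * Z * wL g + wL g + 1) ≤ C₁ * (3 * T) :=
    Nat.mul_le_mul_left _ (by omega)
  have k6 : (3 * C₁ + C₂ + C₃ + 1000) * T =
    C₁ * (3 * T) + C₂ * T + C₃ * T + 1000 * T := by ring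
  rw [k6, ← hS]
  omega

/-- The array of factors, two digits. -/
def twf (u v g i j : ℕ) : ℕ × ℕ :=
  tF (wS g) (20 * wL g) (rtc (wS g) (20 * wL g) true (u + v - (v - v / 2) - 2))
    (rtc (wS g) (20 * wL g) true (u + v - 2)) (2 ^ (v - v / 2)) i j

/-- The array of factors, first components. -/
def twE1 (u v g : ℕ) : List (SSym E) := ar (wS g) (2 ^ u * 2 ^ v) fun k => (twe u v g k).1

/-- The array of factors, second components. -/
def twE2 (u v g : ℕ) : List (SSym E) := ar (wS g) (2 ^ u * 2 ^ v) fun k => (twe u v g k).2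

theorem pB_runs {tw : Bool → P2 J E} {ex : P2 J E} {Tb Tt : ℕ → ℕ}
    {C₁ C₂ : ℕ} (htw : TwfSpec tw Tb Tt C₁) (hex : ExpSpec ex Tb C₂)
    (h : HN X u v Z t g m) (a : ℕ → ℕ → ℕ → ℕ → ℕ × ℕ)
    (h1 : ∀ x i j z, (a x i j z).1 < 2 ^ wS g) (h2 : ∀ x i j z, (a x i j z).2 < 2 ^ wS g) :
    Runs (pB tw ex)
      (up (ts X u v Z t g m
        (bits (arr4 X (2 ^ u) (2 ^ v) Z (wS g) fun x i j z => (a x i j z).1))
        (bits (arr4 X (2 ^ u) (2 ^ v) Z (wS g) fun x i j z => (a x i j z).2))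
        [] [] [] [] [] [] [] [] [] [] []).st)
      (up (ts X u v Z t g m
        (bits (arr4 X (2 ^ u) (2 ^ v) Z (wS g) fun x i j z =>
          (cmR (wS g) (20 * wL g) (a x i j z) (twf u v g i j)).1))
        (bits (arr4 X (2 ^ u) (2 ^ v) Z (wS g) fun x i j z =>
          (cmR (wS g) (20 * wL g) (a x i j z) (twf u v g i j)).2))
        (twE1 u v g) (twE2 u v g) [] (una X) (una (2 ^ u * 2 ^ v)) (una Z)
        [] [] [] [] []).st)
      ((3 * C₁ + C₂ + 2000) * t3 Tb Tt X u v Z g m) := by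
  have hg := h.hg
  have hS : wS g = 64 * wL g := wS_eq hg
  have m1 := arr4_mid X (2 ^ u) (2 ^ v) Z (wS g) fun x i j z => (a x i j z).1
  have m2 := arr4_mid X (2 ^ u) (2 ^ v) Z (wS g) fun x i j z => (a x i j z).2
  have m3 := arr4_mid X (2 ^ u) (2 ^ v) Z (wS g) fun x i j z =>
          (cmR (wS g) (20 * wL g) (a x i j z) (twf u v g i j)).1
  have m4 := arr4_mid X (2 ^ u) (2 ^ v) Z (wS g) fun x i j z =>
          (cmR (wS g) (20 * wL g) (a x i j z) (twf u v g i j)).2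
  rw [m1, m2, m3, m4]
  have ha : X * (2 ^ u * 2 ^ v) * Z = X * 2 ^ u * 2 ^ v * Z := by ring
  set D1 : List (SSym E) := bits (arr3 X (2 ^ u * 2 ^ v) Z (wS g) fun x k z =>
    (a x (k / 2 ^ v) (k % 2 ^ v) z).1) with hD1
  set D2 : List (SSym E) := bits (arr3 X (2 ^ u * 2 ^ v) Z (wS g) fun x k z =>
    (a x (k / 2 ^ v) (k % 2 ^ v) z).2) with hD2
  have a1 := cT5a_runs (ι := I2 J) X u v Z t g m D1 D2 [] [] [] [] [] []
  have a2 := cT5b_runs (ι := I2 J) X u v Z t g m D1 D2 [] [] [] [] []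
    (una (2 ^ (v / 2))) (una (2 ^ (v - v / 2)))
  have hmm : 8064 * (2 ^ u * 2 ^ v * wS g) ≤ m := by
    refine le_trans (Nat.mul_le_mul_left _ (Nat.mul_le_mul_right _ ?_)) h.hm
    calc 2 ^ u * 2 ^ v = 1 * 2 ^ u * 2 ^ v * 1 := by ring
      _ ≤ X * 2 ^ u * 2 ^ v * Z := Nat.mul_le_mul (Nat.mul_le_mul_right _
        (Nat.mul_le_mul_right _ h.hX)) h.hZ
  have a3 := tw_call X u v Z t g m D1 D2 [] [] [] [] [] htw hg h.ru hmm
  have a4 := cT7_runs (ι := I2 J) X u v Z t g m D1 D2 (twE1 u v g) (twE2 u v g) []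
    [] [] [] [] []
  have a5 := ex_call X u v Z t g m [] [] [] [] [] [] hex (2 ^ u * 2 ^ v) (twe u v g)
    (fun x k z => a x (k / 2 ^ v) (k % 2 ^ v) z) h.hX (Nat.mul_pos (by positivity)
      (by positivity)) h.hZ hg (by rw [ha]; exact h.hm) (fun _ _ _ => h1 _ _ _ _)
    (fun _ _ _ => h2 _ _ _ _) (fun k => (tF_lt h.BS _ _ _ _ _).1)
    (fun k => (tF_lt h.BS _ _ _ _ _).2)
  refine (a1.seq (a2.seq (a3.seq (a4.seq a5)))).mono ?_
  obtain ⟨hQ, hm, hb, hq, h1, hl, hST, hgT, hX, hZ, hu2, hv2, huv2, hXu, hvZ, uu, vv, tt, h5,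
    h6, h7, h8, h9⟩ := h.tb Tb Tt
  have p1 : 2 ^ (v / 2) ≤ 2 ^ v := Nat.pow_le_pow_right (by norm_num) (by omega)
  have p2 : 2 ^ (v - v / 2) ≤ 2 ^ v := Nat.pow_le_pow_right (by norm_num) (by omega)
  have q1 : 2 ^ u * 2 ^ (v / 2) ≤ 2 ^ (u + v - v / 2) := by
    rw [← pow_add]; exact Nat.pow_le_pow_right (by norm_num) (by omega)
  have q2 : 2 ^ u * 2 ^ (v - v / 2) ≤ 2 ^ (u + v - v / 2) := by
    rw [← pow_add]; exact Nat.pow_le_pow_right (by norm_num) (by omega)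
  have r1 : (u + v - (v - v / 2) - 2 + 1) * wL g ≤ wL g ^ 2 := by
    rw [pow_two]
    exact Nat.mul_le_mul_right _ (by have := h.huv; have := h.hu; have := h.hv; omega)
  have r2 : (u + v - 2 + 1) * wL g ≤ wL g ^ 2 := by
    rw [pow_two]
    exact Nat.mul_le_mul_right _ (by have := h.huv; have := h.hu; have := h.hv; omega)
  have b1 : (2 ^ (u + v - v / 2) + wL g ^ 2) * (wS g + Tt (wS g)) ≤
      t3 Tb Tt X u v Z g m := by
    refine r_le Tb Tt ?_ le_rfl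
    generalize 2 ^ (u + v - v / 2) = A
    generalize 2 ^ (u + v - (u + v) / 4) = B
    generalize 2 ^ u = A2
    generalize 2 ^ v = B2
    omega
  have b2 : (2 ^ u * 2 ^ (v / 2) + 2 ^ u * 2 ^ (v - v / 2) +
      (u + v - (v - v / 2) - 2 + 1) * wL g + (u + v - 2 + 1) * wL g) * (wS g + Tt (wS g)) ≤
      2 * t3 Tb Tt X u v Z g m := by
    have b3 : 2 ^ u * 2 ^ (v / 2) + 2 ^ u * 2 ^ (v - v / 2) +
      (u + v - (v - v / 2) - 2 + 1) * wL g + (u + v - 2 + 1) * wL g ≤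
        2 * (2 ^ (u + v - v / 2) + wL g ^ 2) := by
      generalize 2 ^ (u + v - v / 2) = A at *
      generalize 2 ^ u * 2 ^ (v / 2) = B at *
      generalize 2 ^ u * 2 ^ (v - v / 2) = A2 at *
      generalize (u + v - (v - v / 2) - 2 + 1) * wL g = B2 at *
      generalize (u + v - 2 + 1) * wL g = B3 at *
      generalize wL g ^ 2 = B4 at *
      clear * - q1 q2 r1 r2
      omega
    calc _ ≤ 2 * (2 ^ (u + v - v / 2) + wL g ^ 2) * (wS g + Tt (wS g)) :=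
          Nat.mul_le_mul_right _ b3
      _ = 2 * ((2 ^ (u + v - v / 2) + wL g ^ 2) * (wS g + Tt (wS g))) := by ring
      _ ≤ _ := Nat.mul_le_mul_left _ b1
  have b4 : m + Tb m + 2 ^ u * 2 ^ v * wS g * g ≤ t3 Tb Tt X u v Z g m := by
    refine le_trans (Nat.add_le_add_left (Nat.mul_le_mul_right _ (Nat.mul_le_mul_right _ ?_)) _)
      hb
    calc 2 ^ u * 2 ^ v = 1 * 2 ^ u * 2 ^ v * 1 := by ring
      _ ≤ X * 2 ^ u * 2 ^ v * Z := Nat.mul_le_mul (Nat.mul_le_mul_right _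
        (Nat.mul_le_mul_right _ h.hX)) h.hZ
  have k1 : C₁ * (m + Tb m + 2 ^ u * 2 ^ v * wS g * g +
        (2 ^ u * 2 ^ (v / 2) + 2 ^ u * 2 ^ (v - v / 2) +
          (u + v - (v - v / 2) - 2 + 1) * wL g + (u + v - 2 + 1) * wL g) *
            (wS g + Tt (wS g))) ≤ C₁ * (3 * t3 Tb Tt X u v Z g m) := by
    refine Nat.mul_le_mul_left _ (le_trans (Nat.add_le_add b4 b2) (le_of_eq ?_))
    ring
  have k2 : C₂ * (m + Tb m + X * 2 ^ u * 2 ^ v * Z * wS g * g) ≤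
    C₂ * t3 Tb Tt X u v Z g m := Nat.mul_le_mul_left _ hb
  rw [ha]
  have k6 : (3 * C₁ + C₂ + 2000) * t3 Tb Tt X u v Z g m =
    C₁ * (3 * t3 Tb Tt X u v Z g m) + C₂ * t3 Tb Tt X u v Z g m +
      2000 * t3 Tb Tt X u v Z g m := by ring
  rw [k6]
  clear b1 b2 b4 q1 q2 r1 r2
  generalize t3 Tb Tt X u v Z g m = T at *
  generalize C₁ * (m + Tb m + 2 ^ u * 2 ^ v * wS g * g +
        (2 ^ u * 2 ^ (v / 2) + 2 ^ u * 2 ^ (v - v / 2) +
          (u + v - (v - v / 2) - 2 + 1) * wL g + (u + v - 2 + 1) * wL g) *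
            (wS g + Tt (wS g))) = G at *
  generalize 2 ^ (v / 2) = P1 at *
  generalize 2 ^ (v - v / 2) = P2 at *
  omega

theorem pC_runs {sq : Bool → PW J E} {tr : P3 J E} {Tb Tt : ℕ → ℕ}
    {C₁ C₂ : ℕ} (hsq : SeqChSpec sq Tt C₁) (htr : TrSpec tr Tb C₂)
    (h : HN X u v Z t g m) (a : ℕ → ℕ → ℕ → ℕ → ℕ × ℕ)
    (h1 : ∀ x i j z, (a x i j z).1 < 2 ^ wS g) (h2 : ∀ x i j z, (a x i j z).2 < 2 ^ wS g) :
    Runs (pC sq tr)
      (up (ts X u v Z t g m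
        (bits (arr4 X (2 ^ u) (2 ^ v) Z (wS g) fun x i j z => (a x i j z).1))
        (bits (arr4 X (2 ^ u) (2 ^ v) Z (wS g) fun x i j z => (a x i j z).2))
        (twE1 u v g) (twE2 u v g) [] (una X) (una (2 ^ u * 2 ^ v)) (una Z)
        [] [] [] [] []).st)
      (up (ts X u v Z t g m
        (bits (arr4 X (2 ^ u) (2 ^ v) Z (wS g) fun x i j z =>
          (dftA (wS g) (20 * wL g) (2 ^ u)
            (cA (wS g) (20 * wL g) (rtc (wS g) (20 * wL g) true (u - 1)))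
            (fun i => a x i j z) i).1))
        (bits (arr4 X (2 ^ u) (2 ^ v) Z (wS g) fun x i j z =>
          (dftA (wS g) (20 * wL g) (2 ^ u)
            (cA (wS g) (20 * wL g) (rtc (wS g) (20 * wL g) true (u - 1)))
            (fun i => a x i j z) i).2))
        [] [] [] [] [] [] [] [] [] [] []).st)
      ((C₁ + C₂ + 1000) * t3 Tb Tt X u v Z g m) := by
  have hg := h.hg
  have hS : wS g = 64 * wL g := wS_eq hg
  have m1 := arr4_out X (2 ^ u) (2 ^ v) Z (wS g) fun x i j z => (a x i j z).1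
  have m2 := arr4_out X (2 ^ u) (2 ^ v) Z (wS g) fun x i j z => (a x i j z).2
  have m3 := arr4_out X (2 ^ u) (2 ^ v) Z (wS g) fun x i j z =>
          (dftA (wS g) (20 * wL g) (2 ^ u)
            (cA (wS g) (20 * wL g) (rtc (wS g) (20 * wL g) true (u - 1)))
            (fun i => a x i j z) i).1
  have m4 := arr4_out X (2 ^ u) (2 ^ v) Z (wS g) fun x i j z =>
          (dftA (wS g) (20 * wL g) (2 ^ u)
            (cA (wS g) (20 * wL g) (rtc (wS g) (20 * wL g) true (u - 1)))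
            (fun i => a x i j z) i).2
  rw [m1, m2, m3, m4]
  have ha : X * 2 ^ u * (2 ^ v * Z) = X * 2 ^ u * 2 ^ v * Z := by ring
  have a1 := cT9_runs (ι := I2 J) X u v Z t g m
    (bits (arr3 X (2 ^ u) (2 ^ v * Z) (wS g) fun x i k =>
      (a x i (k / Z) (k % Z)).1) : List (SSym E))
    (bits (arr3 X (2 ^ u) (2 ^ v * Z) (wS g) fun x i k =>
      (a x i (k / Z) (k % Z)).2)) (twE1 u v g) (twE2 u v g)
    (una X) (una (2 ^ u * 2 ^ v)) (una Z) [] [] [] [] []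
  have a2 := sqa_call X u v Z t g m
    (bits (arr3 X (2 ^ u) (2 ^ v * Z) (wS g) fun x i k =>
      (a x i (k / Z) (k % Z)).1) : List (SSym E))
    (bits (arr3 X (2 ^ u) (2 ^ v * Z) (wS g) fun x i k =>
      (a x i (k / Z) (k % Z)).2)) (una X) (una (2 ^ u)) (una (2 ^ v * Z)) [] [] [] [] []
    hsq (u - 1) hg h.ru
  have a3 := tr_call X u v Z t g m [] [] [] [] [] [] htr X (2 ^ u) (2 ^ v * Z)
    (cA (wS g) (20 * wL g) (rtc (wS g) (20 * wL g) true (u - 1)))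
    (fun x i k => a x i (k / Z) (k % Z)) h.hX Nat.one_le_two_pow
    (Nat.mul_pos (by positivity) h.hZ) hg h.ru (by rw [ha]; exact h.hm)
    (fun _ _ _ => h1 _ _ _ _) (fun _ _ _ => h2 _ _ _ _) (fun i => (cA_lt h.BS _ _).1)
    (fun i => (cA_lt h.BS _ _).2)
  refine (a1.seq (a2.seq a3)).mono ?_
  obtain ⟨hQ, hm, hb, hq, h1, hl, hST, hgT, hX, hZ, hu2, hv2, huv2, hXu, hvZ, uu, vv, tt, h5,
    h6, h7, h8, h9⟩ := h.tb Tb Tt
  have r1 : (u - 1 + 1) * wL g ≤ wL g ^ 2 := by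
    rw [pow_two]
    exact Nat.mul_le_mul_right _ (by have := h.huv; have := h.hu; have := h.hv; omega)
  have b1 : (2 ^ u + (u - 1 + 1) * wL g) * (wS g + Tt (wS g)) ≤
      t3 Tb Tt X u v Z g m := by
    refine r_le Tb Tt ?_ r1
    generalize 2 ^ (u + v - v / 2) = A
    generalize 2 ^ (u + v - (u + v) / 4) = B
    generalize 2 ^ u = A2
    generalize 2 ^ v = B2
    omega
  have k1 := Nat.mul_le_mul_left C₁ b1
  have k2 : C₂ * (m + Tb m + X * 2 ^ u * 2 ^ v * Z * wS g * g) ≤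
    C₂ * t3 Tb Tt X u v Z g m := Nat.mul_le_mul_left _ hb
  rw [ha]
  have k6 : (C₁ + C₂ + 1000) * t3 Tb Tt X u v Z g m =
    C₁ * t3 Tb Tt X u v Z g m + C₂ * t3 Tb Tt X u v Z g m +
      1000 * t3 Tb Tt X u v Z g m := by ring
  rw [k6]
  simp only [twE1, twE2, len_ar0, len_una0]
  clear b1 r1
  generalize t3 Tb Tt X u v Z g m = T at *
  generalize C₁ * ((2 ^ u + (u - 1 + 1) * wL g) * (wS g + Tt (wS g))) = G at *
  omega

theorem pD_runs {outp : PW J E} {cf : P2 J E} {tr : P3 J E} {Tb Tt : ℕ → ℕ}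
    {C₁ C₂ C₃ : ℕ} (hcf : CfSpec cf Tb Tt C₁) (htr : TrSpec tr Tb C₂)
    (hout : OutPSpec outp C₃)
    (h : HN X u v Z t g m) (a : ℕ → ℕ → ℕ → ℕ → ℕ × ℕ)
    (h1 : ∀ x i j z, (a x i j z).1 < 2 ^ wS g) (h2 : ∀ x i j z, (a x i j z).2 < 2 ^ wS g) :
    Runs (pD outp cf tr)
      (up (ts X u v Z t g m
        (bits (arr4 X (2 ^ u) (2 ^ v) Z (wS g) fun x i j z => (a x i j z).1))
        (bits (arr4 X (2 ^ u) (2 ^ v) Z (wS g) fun x i j z => (a x i j z).2))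
        [] [] [] [] [] [] [] [] [] [] []).st)
      (up ({ dr := bits (arr3 X (2 ^ u * 2 ^ v) Z t fun x k z =>
          rnd (wS g) (20 * wL g + (u + v)) t (dftA (wS g) (20 * wL g) (2 ^ u * 2 ^ v)
            (cF (wS g) (20 * wL g) (u + v)) (fun k => a x (k / 2 ^ v) (k % 2 ^ v) z) k).1)
             } : TV E).st)
      ((2 * C₁ + C₂ + 3 * C₃ + 1000) * t3 Tb Tt X u v Z g m) := by
  have hg := h.hg
  have hS : wS g = 64 * wL g := wS_eq hg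
  have m1 := arr4_mid X (2 ^ u) (2 ^ v) Z (wS g) fun x i j z => (a x i j z).1
  have m2 := arr4_mid X (2 ^ u) (2 ^ v) Z (wS g) fun x i j z => (a x i j z).2
  rw [m1, m2]
  have ha : X * (2 ^ u * 2 ^ v) * Z = X * 2 ^ u * 2 ^ v * Z := by ring
  have hL : 2 ^ (u + v) = 2 ^ u * 2 ^ v := pow_add _ _ _
  set D1 : List (SSym E) := bits (arr3 X (2 ^ u * 2 ^ v) Z (wS g) fun x k z =>
    (a x (k / 2 ^ v) (k % 2 ^ v) z).1) with hD1
  set D2 : List (SSym E) := bits (arr3 X (2 ^ u * 2 ^ v) Z (wS g) fun x k z =>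
    (a x (k / 2 ^ v) (k % 2 ^ v) z).2) with hD2
  have a1 := cT12_runs (ι := I2 J) X u v Z t g m D1 D2 [] [] [] [] [] [] [] [] [] []
  have hb2 : 2 ^ u * 2 ^ v ≤ X * 2 ^ u * 2 ^ v * Z := by
    calc 2 ^ u * 2 ^ v = 1 * 2 ^ u * 2 ^ v * 1 := by ring
      _ ≤ X * 2 ^ u * 2 ^ v * Z := Nat.mul_le_mul (Nat.mul_le_mul_right _
        (Nat.mul_le_mul_right _ h.hX)) h.hZ
  have hmm : 8064 * (2 ^ (u + v) * wS g) ≤ m := by
    rw [hL]
    exact le_trans (Nat.mul_le_mul_left _ (Nat.mul_le_mul_right _ hb2)) h.hm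
  have a2 := cf_call X u v Z t g m D1 D2 [] [] [] [] [] [] [] [] hcf
    (by have := h.hu; have := h.hv; omega) hg h.huv hmm
  rw [hL] at a2
  have a3 := cT7_runs (ι := I2 J) X u v Z t g m D1 D2
    (ar (wS g) (2 ^ u * 2 ^ v) fun k => (cF (wS g) (20 * wL g) (u + v) k).1)
    (ar (wS g) (2 ^ u * 2 ^ v) fun k => (cF (wS g) (20 * wL g) (u + v) k).2)
    (una (u + v)) [] [] [] [] []
  have a4 := tr_call X u v Z t g m (una (u + v)) [] [] [] [] [] htr X (2 ^ u * 2 ^ v) Z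
    (cF (wS g) (20 * wL g) (u + v))
    (fun x k z => a x (k / 2 ^ v) (k % 2 ^ v) z) h.hX (Nat.mul_pos (by positivity)
      (by positivity)) h.hZ hg h.ruv (by rw [ha]; exact h.hm)
    (fun _ _ _ => h1 _ _ _ _) (fun _ _ _ => h2 _ _ _ _) (fun i => (cF_lt h.BS _ _).1)
    (fun i => (cF_lt h.BS _ _).2)
  set b : ℕ → ℕ → ℕ → ℕ × ℕ := fun x k z => dftA (wS g) (20 * wL g) (2 ^ u * 2 ^ v)
    (cF (wS g) (20 * wL g) (u + v)) (fun k => a x (k / 2 ^ v) (k % 2 ^ v) z) k with hb'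
  have a5 := out_call X u v Z t g m [] [] [] [] [] [] [] [] [] [] hout
    (X * (2 ^ u * 2 ^ v) * Z) (u + v)
    (fun k => (b (k / Z / (2 ^ u * 2 ^ v)) (k / Z % (2 ^ u * 2 ^ v)) (k % Z)).1)
    (fun k => (b (k / Z / (2 ^ u * 2 ^ v)) (k / Z % (2 ^ u * 2 ^ v)) (k % Z)).2)
    hg h.ht h.htl (by have := h.hu; omega) h.huv (fun k => (dftA_lt h.BS _ _ _ _).1)
    (fun k => (dftA_lt h.BS _ _ _ _).2)
  have f1 : (ar (wS g) (X * (2 ^ u * 2 ^ v) * Z) (fun k =>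
      (b (k / Z / (2 ^ u * 2 ^ v)) (k / Z % (2 ^ u * 2 ^ v)) (k % Z)).1) : List (SSym E)) =
      bits (arr3 X (2 ^ u * 2 ^ v) Z (wS g) fun x k z => (b x k z).1) := by
    rw [arr3_flat]; rfl
  have f2 : (ar (wS g) (X * (2 ^ u * 2 ^ v) * Z) (fun k =>
      (b (k / Z / (2 ^ u * 2 ^ v)) (k / Z % (2 ^ u * 2 ^ v)) (k % Z)).2) : List (SSym E)) =
      bits (arr3 X (2 ^ u * 2 ^ v) Z (wS g) fun x k z => (b x k z).2) := by
    rw [arr3_flat]; rfl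
  have f3 : (ar t (X * (2 ^ u * 2 ^ v) * Z) (fun k => rnd (wS g) (20 * wL g + (u + v)) t
      (b (k / Z / (2 ^ u * 2 ^ v)) (k / Z % (2 ^ u * 2 ^ v)) (k % Z)).1) : List (SSym E)) =
      bits (arr3 X (2 ^ u * 2 ^ v) Z t fun x k z =>
        rnd (wS g) (20 * wL g + (u + v)) t (b x k z).1) := by
    rw [arr3_flat]; rfl
  rw [f1, f2, f3] at a5
  have a6 := cT17_runs (ι := I2 J) X u v Z t g m
    (bits (arr3 X (2 ^ u * 2 ^ v) Z t fun x k z =>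
        rnd (wS g) (20 * wL g + (u + v)) t (b x k z).1) : List (SSym E))
  refine (a1.seq (a2.seq (a3.seq (a4.seq (a5.seq a6))))).mono ?_
  obtain ⟨hQ, hm, hb, hq, h1, hl, hST, hgT, hX, hZ, hu2, hv2, huv2, hXu, hvZ, uu, vv, tt, h5,
    h6, h7, h8, h9⟩ := h.tb Tb Tt
  have b1 : (2 ^ (u + v - (u + v) / 4) + wL g ^ 2) * (wS g + Tt (wS g)) ≤
      t3 Tb Tt X u v Z g m := by
    refine r_le Tb Tt ?_ le_rfl
    generalize 2 ^ (u + v - v / 2) = A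
    generalize 2 ^ (u + v - (u + v) / 4) = B
    generalize 2 ^ u = A2
    generalize 2 ^ v = B2
    omega
  have b4 : m + Tb m + 2 ^ u * 2 ^ v * wS g * g ≤ t3 Tb Tt X u v Z g m :=
    le_trans (Nat.add_le_add_left (Nat.mul_le_mul_right _ (Nat.mul_le_mul_right _ hb2)) _) hb
  have k1 : C₁ * (m + Tb m + 2 ^ u * 2 ^ v * wS g * g +
        (2 ^ (u + v - (u + v) / 4) + wL g ^ 2) * (wS g + Tt (wS g))) ≤
      C₁ * (2 * t3 Tb Tt X u v Z g m) := by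
    refine Nat.mul_le_mul_left _ (le_trans (Nat.add_le_add b4 b1) (le_of_eq ?_))
    ring
  have k2 : C₂ * (m + Tb m + X * 2 ^ u * 2 ^ v * Z * wS g * g) ≤
    C₂ * t3 Tb Tt X u v Z g m := Nat.mul_le_mul_left _ hb
  rw [ha]
  have k6 : (2 * C₁ + C₂ + 3 * C₃ + 1000) * t3 Tb Tt X u v Z g m =
    C₁ * (2 * t3 Tb Tt X u v Z g m) + C₂ * t3 Tb Tt X u v Z g m +
      C₃ * (3 * t3 Tb Tt X u v Z g m) + 1000 * t3 Tb Tt X u v Z g m := by ring
  rw [k6]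
  clear b1 b4
  generalize t3 Tb Tt X u v Z g m = T at *
  have k3 : C₃ * (X * 2 ^ u * 2 ^ v * Z * wL g + wL g + 1) ≤ C₃ * (3 * T) :=
    Nat.mul_le_mul_left _ (by omega)
  generalize C₁ * (m + Tb m + 2 ^ u * 2 ^ v * wS g * g +
        (2 ^ (u + v - (u + v) / 4) + wL g ^ 2) * (wS g + Tt (wS g))) = G at *
  omega

/-- The transposition of words. -/
noncomputable def p3P (inp : PW J E) (sq : Bool → PW J E) (tr : P3 J E) (tw : Bool → P2 J E)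
    (ex cf : P2 J E) (outp : PW J E) : P3 J E :=
  (pA inp sq tr).seq ((pB tw ex).seq ((pC sq tr).seq (pD outp cf tr)))

/-- The final data. -/
theorem perm_data2 (hP : PermPure2) (h : HN X u v Z t g m) (e : ℕ → ℕ → ℕ → ℕ → ℕ)
    (he : ∀ x i j z, e x i j z < 2 ^ t) :
    arr3 X (2 ^ u * 2 ^ v) Z t (fun x k z => rnd (wS g) (20 * wL g + (u + v)) t
      (sa4 (wS g) (20 * wL g) u v (fun i j => e x i j z) k).1) =
    arr4 X (2 ^ v) (2 ^ u) Z t fun x j i z => e x i j z := by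
  rw [arr4_mid, Nat.mul_comm (2 ^ v) (2 ^ u)]
  refine arr3_congr fun x _ k hk z _ => ?_
  have h1 : k / 2 ^ u < 2 ^ v := by
    rw [Nat.div_lt_iff_lt_mul (by positivity), Nat.mul_comm]; exact hk
  have h2 : k % 2 ^ u < 2 ^ u := Nat.mod_lt _ (by positivity)
  have h3 := hP u v t (wL g) (fun i j => e x i j z) h.hu h.hv h.huv h.htl
    (fun i j => he x i j z) (k % 2 ^ u) h2 (k / 2 ^ u) h1
  have h4 : k / 2 ^ u * 2 ^ u + k % 2 ^ u = k := by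
    rw [Nat.mul_comm]; exact Nat.div_add_mod _ _
  rw [h4, ← wS_eq h.hg] at h3
  exact h3

theorem perm3_spec {inp : PW J E} {sq : Bool → PW J E} {tr : P3 J E} {tw : Bool → P2 J E}
    {ex cf : P2 J E} {outp : PW J E} {Tb Tt : ℕ → ℕ} {C₁ C₂ C₃ C₄ C₅ C₆ C₇ : ℕ}
    (hP : PermPure2) (hin : InPSpec inp C₁) (hsq : SeqChSpec sq Tt C₂)
    (htr : TrSpec tr Tb C₃) (htw : TwfSpec tw Tb Tt C₄) (hex : ExpSpec ex Tb C₅)
    (hcf : CfSpec cf Tb Tt C₆) (hout : OutPSpec outp C₇) :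
    Perm3Spec (p3P inp sq tr tw ex cf outp) Tb Tt
      (3 * C₁ + 2 * C₂ + 3 * C₃ + 3 * C₄ + C₅ + 2 * C₆ + 3 * C₇ + 6000) := by
  intro X u v Z t g m e nX nu nv nZ nt ng huv htl hm he
  have h : HN X u v Z t g m := ⟨nX, nu, nv, nZ, nt, ng, huv, htl, hm⟩
  have b1 := pA_runs hin hsq htr h e he
  have b2 := pB_runs htw hex h
    (fun x i j z => sa1 (wS g) (20 * wL g) v (fun i j => e x i j z) i j)
    (fun _ _ _ _ => (dftA_lt h.BS _ _ _ _).1) (fun _ _ _ _ => (dftA_lt h.BS _ _ _ _).2)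
  have b3 := pC_runs hsq htr h
    (fun x i j z => sa2 (wS g) (20 * wL g) u v (fun i j => e x i j z) i j)
    (fun _ _ _ _ => (cmR_lt h.BS _ _).1) (fun _ _ _ _ => (cmR_lt h.BS _ _).2)
  have b4 := pD_runs hcf htr hout h
    (fun x i j z => sa3 (wS g) (20 * wL g) u v (fun i j => e x i j z) i j)
    (fun _ _ _ _ => (dftA_lt h.BS _ _ _ _).1) (fun _ _ _ _ => (dftA_lt h.BS _ _ _ _).2)
  have b := b1.seq (b2.seq (b3.seq b4))
  have e0 : (asg [(V3.dr, bits (arr4 X (2 ^ u) (2 ^ v) Z t e)), (V3.hx, una X),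
      (V3.hu, una u), (V3.hv, una v), (V3.hz, una Z), (V3.ht, una t), (V3.g, una g),
      (V3.l, una (wL g)), (V3.m, una m)] : Store V3 (SSym E)) =
      ({ dr := bits (arr4 X (2 ^ u) (2 ^ v) Z t e), hx := una X, hu := una u, hv := una v
         hz := una Z, ht := una t, g := una g, l := una (wL g), m := una m } : TV E).st := by
    funext q
    cases q <;> simp [asg, TV.st]
  have e1 : (asg [(V3.dr, bits (arr4 X (2 ^ v) (2 ^ u) Z t fun x j i z => e x i j z))] :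
      Store V3 (SSym E)) =
      ({ dr := bits (arr4 X (2 ^ v) (2 ^ u) Z t fun x j i z => e x i j z) } : TV E).st := by
    funext q
    cases q <;> simp [asg, TV.st]
  rw [e0, e1, ← perm_data2 hP h e he]
  refine b.mono ?_
  show _ ≤ (3 * C₁ + 2 * C₂ + 3 * C₃ + 3 * C₄ + C₅ + 2 * C₆ + 3 * C₇ + 6000) *
      t3 Tb Tt X u v Z g m
  have h1 := (h.tb Tb Tt).h1
  generalize t3 Tb Tt X u v Z g m = T at *
  have e2 : (3 * C₁ + 2 * C₂ + 3 * C₃ + 3 * C₄ + C₅ + 2 * C₆ + 3 * C₇ + 6000) * T =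
      (3 * C₁ + C₂ + C₃ + 1000) * T + ((3 * C₄ + C₅ + 2000) * T + ((C₂ + C₃ + 1000) * T +
        ((2 * C₆ + C₃ + 3 * C₇ + 1000) * T + 1000 * T))) := by ring
  rw [e2]
  omega

end

end Vale.Agent.P338.GS.T3
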