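import Mathlib

/-!
# P338, PM1: exact identities over the complex numbers

(a) Bluestein for even `r`; (b) the composition of the three transforms and the twiddle factors.
-/

namespace Vale.Agent.P338.GS

open Finset Complex

theorem conj_of_root {ρ : ℂ} {N : ℕ} (hN : 0 < N) (h : ρ ^ N = 1) :
    (starRingEnd ℂ) ρ = ρ⁻¹ := by
  have h1 : ‖ρ‖ = 1 := by
    have h2 : ‖ρ‖ ^ N = 1 := by rw [← norm_pow, h, norm_one]
    exact (pow_eq_one_iff_of_nonneg (norm_nonneg ρ) hN.ne').mp h2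
  rw [Complex.inv_def, Complex.normSq_eq_norm_sq, h1]
  simp

/-- **Bluestein**, `r` even, `ρ ^ (2 * r) = 1`. -/
theorem bluestein (r : ℕ) (hr : Even r) (h0 : 0 < r) (ρ : ℂ) (h : ρ ^ (2 * r) = 1)
    (a : ℕ → ℂ) (k : ℕ) :
    ρ ^ (k ^ 2) * ∑ i ∈ range r, ((starRingEnd ℂ) ρ) ^ ((k + (r - 1) - i + 1) ^ 2) *
      (ρ ^ (i ^ 2) * a i) = ∑ i ∈ range r, a i * (ρ ^ 2) ^ (i * k) := by
  have hρ : ρ ≠ 0 := by
    rintro rfl
    rw [zero_pow (by omega)] at h
    exact zero_ne_one h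
  rw [conj_of_root (by omega) h, mul_sum]
  refine sum_congr rfl fun i hi => ?_
  have hi' : i < r := mem_range.mp hi
  obtain ⟨c, hc⟩ := hr
  have hcast : ((k + (r - 1) - i + 1 : ℕ) : ℤ) = (k : ℤ) - i + r := by omega
  have e1 : ρ ^ (k ^ 2) * (ρ⁻¹ ^ ((k + (r - 1) - i + 1) ^ 2) * ρ ^ (i ^ 2)) =
      (ρ ^ 2) ^ (i * k) := by
    rw [inv_pow, ← zpow_natCast ρ (k ^ 2), ← zpow_natCast ρ ((k + (r - 1) - i + 1) ^ 2),
      ← zpow_natCast ρ (i ^ 2), ← pow_mul, ← zpow_natCast ρ (2 * (i * k)), ← zpow_neg,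
      ← zpow_add₀ hρ, ← zpow_add₀ hρ]
    have e2 : (((k ^ 2 : ℕ) : ℤ) + (-(((k + (r - 1) - i + 1) ^ 2 : ℕ) : ℤ) + ((i ^ 2 : ℕ) : ℤ)))
        = ((2 * (i * k) : ℕ) : ℤ) + ((2 * r : ℕ) : ℤ) * (-((k : ℤ) - i + c)) := by
      push_cast [hcast]
      have hc' : (r : ℤ) = c + c := by exact_mod_cast hc
      rw [hc']
      ring
    rw [e2, zpow_add₀ hρ, zpow_mul, zpow_natCast ρ (2 * r), h, one_zpow, mul_one]
  calc ρ ^ (k ^ 2) * (ρ⁻¹ ^ ((k + (r - 1) - i + 1) ^ 2) * (ρ ^ (i ^ 2) * a i))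
      = a i * (ρ ^ (k ^ 2) * (ρ⁻¹ ^ ((k + (r - 1) - i + 1) ^ 2) * ρ ^ (i ^ 2))) := by ring
    _ = a i * (ρ ^ 2) ^ (i * k) := by rw [e1]

theorem root_pow (r : ℕ) (h0 : 0 < r) (s : ℝ) (hs : s = 1 ∨ s = -1) :
    exp (s * Real.pi * I / r) ^ (2 * r) = 1 := by
  rw [← Complex.exp_nat_mul]
  have hr : (r : ℂ) ≠ 0 := by exact_mod_cast h0.ne'
  have e : ((2 * r : ℕ) : ℂ) * (s * Real.pi * I / r) = s * (2 * Real.pi * I) := by
    push_cast; field_simp
  rw [e]
  rcases hs with rfl | rfl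
  · rw [Complex.ofReal_one, one_mul, Complex.exp_two_pi_mul_I]
  · rw [Complex.ofReal_neg, Complex.ofReal_one, neg_one_mul, Complex.exp_neg,
      Complex.exp_two_pi_mul_I, inv_one]

/-- **Bluestein** for `ρ = exp (± π * I / r)`, `r` even. -/
theorem bluestein_exp (r : ℕ) (hr : Even r) (h0 : 0 < r) (s : ℝ) (hs : s = 1 ∨ s = -1) (ρ : ℂ)
    (hρ : ρ = exp (s * Real.pi * I / r)) (a : ℕ → ℂ) (k : ℕ) :
    ρ ^ (k ^ 2) * ∑ i ∈ range r, ((starRingEnd ℂ) ρ) ^ ((k + (r - 1) - i + 1) ^ 2) *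
      (ρ ^ (i ^ 2) * a i) = ∑ i ∈ range r, a i * (ρ ^ 2) ^ (i * k) :=
  bluestein r hr h0 ρ (by rw [hρ]; exact root_pow r h0 s hs) a k

/-- Orthogonality. -/
theorem sum_root (N : ℕ) (hN : 0 < N) (w : ℂ) (hw : IsPrimitiveRoot w N) (m l : ℕ)
    (hm : m < N) (hl : l < N) :
    ∑ k ∈ range N, w⁻¹ ^ (k * l) * w ^ (m * k) = if m = l then (N : ℂ) else 0 := by
  have hw0 : w ≠ 0 := hw.ne_zero hN.ne'
  have e : ∀ k, w⁻¹ ^ (k * l) * w ^ (m * k) = (w⁻¹ ^ l * w ^ m) ^ k := by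
    intro k
    rw [mul_pow, ← pow_mul, ← pow_mul, mul_comm l k]
  simp only [e]
  split_ifs with h
  · subst h
    rw [← mul_pow, inv_mul_cancel₀ hw0, one_pow]
    simp
  · have h1 : w⁻¹ ^ l * w ^ m ≠ 1 := by
      intro h2
      apply h
      apply hw.pow_inj hm hl
      rw [inv_pow] at h2
      field_simp at h2
      exact h2
    have h3 : (w⁻¹ ^ l * w ^ m) ^ N = 1 := by
      rw [mul_pow, ← pow_mul, ← pow_mul, mul_comm l N, mul_comm m N, pow_mul, pow_mul, inv_pow,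
        hw.pow_eq_one, inv_one, one_pow, one_pow, one_mul]
    have h4 := geom_sum_mul (w⁻¹ ^ l * w ^ m) N
    rw [h3, sub_self] at h4
    exact (mul_eq_zero.mp h4).resolve_right (sub_ne_zero.mpr h1)

/-- **Composition**: `n`-point transforms, twiddle factors, `M`-point transforms, and the inverse
transform of `M * n` points give `N` times the transposed data. -/
theorem compose (M n : ℕ) (hM : 0 < M) (hn : 0 < n) (w : ℂ) (hw : IsPrimitiveRoot w (M * n))
    (e : ℕ → ℕ → ℂ) (l : ℕ) (hl : l < M * n) :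
    ∑ k ∈ range (M * n), w⁻¹ ^ (k * l) *
      (∑ i ∈ range M, (∑ j ∈ range n, e i j * (w ^ M) ^ (j * (k % n))) * w ^ (i * (k % n)) *
        (w ^ n) ^ (i * (k / n))) = (M * n : ℕ) * e (l % M) (l / M) := by
  have hN : 0 < M * n := Nat.mul_pos hM hn
  have h1 : w ^ (M * n) = 1 := hw.pow_eq_one
  have inner : ∀ k, (∑ i ∈ range M, (∑ j ∈ range n, e i j * (w ^ M) ^ (j * (k % n))) *
      w ^ (i * (k % n)) * (w ^ n) ^ (i * (k / n)))
      = ∑ i ∈ range M, ∑ j ∈ range n, e i j * w ^ ((i + M * j) * k) := by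
    intro k
    refine sum_congr rfl fun i _ => ?_
    rw [sum_mul, sum_mul]
    refine sum_congr rfl fun j _ => ?_
    have hk : n * (k / n) + k % n = k := Nat.div_add_mod k n
    have e1 : w ^ ((i + M * j) * k) = w ^ (M * (j * (k % n))) * w ^ (i * (k % n)) *
        w ^ (n * (i * (k / n))) * (w ^ (M * n)) ^ (j * (k / n)) := by
      rw [← pow_mul, ← pow_add, ← pow_add, ← pow_add]
      congr 1
      conv_lhs => rw [← hk]
      ring
    rw [e1, h1, one_pow, mul_one, ← pow_mul, ← pow_mul]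
    ring
  simp only [inner]
  have swap : ∑ k ∈ range (M * n), w⁻¹ ^ (k * l) *
      (∑ i ∈ range M, ∑ j ∈ range n, e i j * w ^ ((i + M * j) * k))
      = ∑ i ∈ range M, ∑ j ∈ range n, e i j *
        (∑ k ∈ range (M * n), w⁻¹ ^ (k * l) * w ^ ((i + M * j) * k)) := by
    simp only [mul_sum]
    rw [sum_comm]
    refine sum_congr rfl fun i _ => ?_
    rw [sum_comm]
    refine sum_congr rfl fun j _ => ?_
    refine sum_congr rfl fun k _ => ?_
    ring
  rw [swap]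
  have hlt : ∀ i ∈ range M, ∀ j ∈ range n, i + M * j < M * n := by
    intro i hi j hj
    have hi' := mem_range.mp hi
    have hj' := mem_range.mp hj
    calc i + M * j < M + M * j := by omega
      _ = M * (j + 1) := by ring
      _ ≤ M * n := Nat.mul_le_mul_left _ hj'
  have hsum : ∀ i ∈ range M, ∀ j ∈ range n, e i j *
      (∑ k ∈ range (M * n), w⁻¹ ^ (k * l) * w ^ ((i + M * j) * k))
      = if i = l % M then (if j = l / M then ((M * n : ℕ) : ℂ) * e i j else 0) else 0 := by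
    intro i hi j hj
    rw [sum_root (M * n) hN w hw _ l (hlt i hi j hj) hl]
    have hi' := mem_range.mp hi
    have iff1 : i + M * j = l ↔ (i = l % M ∧ j = l / M) := by
      constructor
      · rintro rfl
        constructor
        · rw [Nat.add_mul_mod_self_left, Nat.mod_eq_of_lt hi']
        · rw [Nat.add_mul_div_left _ _ hM, Nat.div_eq_of_lt hi', zero_add]
      · rintro ⟨h3, h4⟩
        rw [h3, h4]
        exact Nat.mod_add_div l M
    by_cases ha : i = l % M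
    · by_cases hb : j = l / M
      · rw [if_pos (iff1.mpr ⟨ha, hb⟩), if_pos ha, if_pos hb]; ring
      · rw [if_neg (fun h => hb (iff1.mp h).2), if_pos ha, if_neg hb, mul_zero]
    · rw [if_neg (fun h => ha (iff1.mp h).1), if_neg ha, mul_zero]
  rw [sum_congr rfl fun i hi => sum_congr rfl (hsum i hi)]
  have hlM : l % M ∈ range M := mem_range.mpr (Nat.mod_lt _ hM)
  have hln : l / M ∈ range n := mem_range.mpr (Nat.div_lt_of_lt_mul hl)
  rw [sum_eq_single_of_mem (l % M) hlM (fun i _ hi => by simp [hi]),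
    sum_eq_single_of_mem (l / M) hln (fun j _ hj => by simp [hj])]
  simp

/-- The same for `w = exp (-2 * π * I / (M * n))`. -/
theorem compose_exp (M n : ℕ) (hM : 0 < M) (hn : 0 < n) (w : ℂ)
    (hw : w = exp (-(2 * Real.pi * I) / ((M * n : ℕ) : ℂ))) (e : ℕ → ℕ → ℂ) (l : ℕ)
    (hl : l < M * n) :
    ∑ k ∈ range (M * n), w⁻¹ ^ (k * l) *
      (∑ i ∈ range M, (∑ j ∈ range n, e i j * (w ^ M) ^ (j * (k % n))) * w ^ (i * (k % n)) *
        (w ^ n) ^ (i * (k / n))) = (M * n : ℕ) * e (l % M) (l / M) := by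
  refine compose M n hM hn w ?_ e l hl
  have h1 := (Complex.isPrimitiveRoot_exp (M * n) (Nat.mul_pos hM hn).ne').inv
  rw [hw, neg_div, Complex.exp_neg]
  exact h1

end Vale.Agent.P338.GS
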