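import Vale.Agent.P338.GS.PMVal

/-!
# P338, matrices of every shape: the roots of unity
-/

namespace Vale.Agent.P338.GS.PM

open Vale.Agent.P338 Vale.Agent.P338.GS Real

/-- Square roots of close numbers. -/
theorem sqrt_close {a b m : ℝ} (ha : 0 ≤ a) (hb : 0 ≤ b) (hm : 0 < m) (h : m ≤ √a + √b) :
    |√a - √b| ≤ |a - b| / m := by
  rw [le_div_iff₀ hm]
  have e : |a - b| = |√a - √b| * (√a + √b) := by
    rw [← abs_of_nonneg (add_nonneg (sqrt_nonneg a) (sqrt_nonneg b)), ← abs_mul]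
    congr 1
    nlinarith [mul_self_sqrt ha, mul_self_sqrt hb]
  rw [e]
  exact mul_le_mul_of_nonneg_left h (abs_nonneg _)

/-- The integer square root, scaled. -/
theorem natSqrt_close {B : ℕ} (hB : 1 ≤ B) (a : ℕ) :
    |(Nat.sqrt (a * 2 ^ (B - 1)) : ℝ) / 2 ^ B - √((a : ℝ) / 2 ^ B / 2)| ≤ 1 / 2 ^ B := by
  have hp : (0 : ℝ) < 2 ^ B := by positivity
  have e : √((a : ℝ) / 2 ^ B / 2) = √((a * 2 ^ (B - 1) : ℕ) : ℝ) / 2 ^ B := by
    rw [eq_div_iff hp.ne']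
    have : (2 : ℝ) ^ B = √((2 ^ B) ^ 2) := by rw [sqrt_sq hp.le]
    nth_rewrite 2 [this]
    rw [← sqrt_mul (by positivity)]
    congr 1
    push_cast
    have e2 : (2 : ℝ) ^ B = 2 * 2 ^ (B - 1) := by rw [← pow_succ']; congr 1; omega
    rw [e2]
    field_simp
  rw [e, ← sub_div, abs_div, abs_of_pos hp]
  apply div_le_div_of_nonneg_right _ hp.le
  have h1 := nat_sqrt_le_real_sqrt (a := a * 2 ^ (B - 1))
  have h2 := real_sqrt_lt_nat_sqrt_succ (a := a * 2 ^ (B - 1))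
  rw [abs_le]
  constructor <;> linarith

/-- The angle. -/
noncomputable def ang (k : ℕ) : ℝ := π / 2 ^ (k + 1)

theorem ang_succ (k : ℕ) : ang (k + 1) = ang k / 2 := by
  unfold ang; rw [pow_succ 2 (k + 1)]; field_simp

theorem ang_pos (k : ℕ) : 0 < ang k := by unfold ang; positivity

theorem ang_le (k : ℕ) : ang k ≤ π / 2 := by
  unfold ang
  apply div_le_div_of_nonneg_left pi_pos.le (by norm_num)
  calc (2 : ℝ) = 2 ^ 1 := by norm_num
    _ ≤ 2 ^ (k + 1) := pow_le_pow_right₀ (by norm_num) (by omega)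

theorem cos_ang_nonneg (k : ℕ) : 0 ≤ cos (ang k) :=
  cos_nonneg_of_neg_pi_div_two_le_of_le (by linarith [ang_pos k, pi_pos]) (ang_le k)

theorem cos_ang_succ (k : ℕ) : cos (ang (k + 1)) = √((1 + cos (ang k)) / 2) := by
  rw [ang_succ]
  exact cos_half (by linarith [ang_pos k, pi_pos]) (by linarith [ang_le k, pi_pos])

theorem sin_ang_succ (k : ℕ) : sin (ang (k + 1)) = √((1 - cos (ang k)) / 2) := by
  rw [ang_succ]
  exact sin_half_eq_sqrt (ang_pos k).le (by linarith [ang_le k, pi_pos])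

theorem sin_ang_ge (k : ℕ) : 1 / 2 ^ k ≤ sin (ang k) := by
  refine le_trans (le_of_eq ?_) (mul_le_sin (ang_pos k).le (ang_le k))
  unfold ang
  rw [pow_succ]
  have := pi_pos.ne'
  field_simp

theorem rt_cos {B : ℕ} (hB : 1 ≤ B) (k : ℕ) :
    |((rt B k).1 : ℝ) / 2 ^ B - cos (ang k)| ≤ 2 / 2 ^ B := by
  have hp : (0 : ℝ) < 2 ^ B := by positivity
  induction k with
  | zero =>
    have : ang 0 = π / 2 := by unfold ang; norm_num
    rw [this, cos_pi_div_two]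
    simp only [rt, Nat.cast_zero, zero_div, sub_self, abs_zero]
    positivity
  | succ k ih =>
    rw [cos_ang_succ]
    have h1 := natSqrt_close hB (2 ^ B + (rt B k).1)
    have e : ((2 ^ B + (rt B k).1 : ℕ) : ℝ) / 2 ^ B / 2 = (1 + ((rt B k).1 : ℝ) / 2 ^ B) / 2 := by
      push_cast
      field_simp
    rw [e] at h1
    have hc : (0 : ℝ) ≤ ((rt B k).1 : ℝ) / 2 ^ B := by positivity
    have hC := cos_ang_nonneg k
    have hhalf : ∀ y : ℝ, 0 ≤ y → (1 : ℝ) / 2 ≤ √((1 + y) / 2) := by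
      intro y hy
      apply le_sqrt_of_sq_le
      nlinarith
    have h2 := sqrt_close (a := (1 + ((rt B k).1 : ℝ) / 2 ^ B) / 2) (b := (1 + cos (ang k)) / 2)
      (m := 1) (by positivity) (by positivity) one_pos
      (by linarith [hhalf _ hc, hhalf _ hC])
    have e3 : |(1 + ((rt B k).1 : ℝ) / 2 ^ B) / 2 - (1 + cos (ang k)) / 2|
        = |((rt B k).1 : ℝ) / 2 ^ B - cos (ang k)| / 2 := by
      rw [← abs_two, ← abs_div, abs_two]
      congr 1
      ring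
    rw [e3, div_one] at h2
    have h4 := abs_sub_le ((Nat.sqrt ((2 ^ B + (rt B k).1) * 2 ^ (B - 1)) : ℝ) / 2 ^ B)
      (√((1 + ((rt B k).1 : ℝ) / 2 ^ B) / 2)) (√((1 + cos (ang k)) / 2))
    have h5 : (2 : ℝ) / 2 ^ B = 1 / 2 ^ B + 1 / 2 ^ B := by ring
    have h6 : ((rt B (k + 1)).1 : ℝ) = (Nat.sqrt ((2 ^ B + (rt B k).1) * 2 ^ (B - 1)) : ℝ) := rfl
    rw [h6]
    linarith

theorem rt_sin {B : ℕ} (hB : 1 ≤ B) (k : ℕ) :
    |((rt B k).2 : ℝ) / 2 ^ B - sin (ang k)| ≤ (2 ^ k + 1) / 2 ^ B := by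
  have hp : (0 : ℝ) < 2 ^ B := by positivity
  cases k with
  | zero =>
    have : ang 0 = π / 2 := by unfold ang; norm_num
    rw [this, sin_pi_div_two]
    have e : ((rt B 0).2 : ℝ) = 2 ^ B := by simp [rt]
    rw [e, div_self hp.ne', sub_self, abs_zero]
    positivity
  | succ k =>
    rw [sin_ang_succ]
    have hle := (rt_le B k).1
    have h1 := natSqrt_close hB (2 ^ B - (rt B k).1)
    have e : ((2 ^ B - (rt B k).1 : ℕ) : ℝ) / 2 ^ B / 2 = (1 - ((rt B k).1 : ℝ) / 2 ^ B) / 2 := by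
      rw [Nat.cast_sub hle]
      push_cast
      field_simp
    rw [e] at h1
    have hc : ((rt B k).1 : ℝ) / 2 ^ B ≤ 1 := by
      rw [div_le_one hp]
      exact_mod_cast hle
    have h2 := sqrt_close (a := (1 - ((rt B k).1 : ℝ) / 2 ^ B) / 2) (b := (1 - cos (ang k)) / 2)
      (m := 1 / 2 ^ (k + 1)) (by linarith) (by linarith [cos_le_one (ang k)]) (by positivity)
      (by
        rw [← sin_ang_succ]
        linarith [sin_ang_ge (k + 1), sqrt_nonneg ((1 - ((rt B k).1 : ℝ) / 2 ^ B) / 2)])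
    have e3 : |(1 - ((rt B k).1 : ℝ) / 2 ^ B) / 2 - (1 - cos (ang k)) / 2|
        = |((rt B k).1 : ℝ) / 2 ^ B - cos (ang k)| / 2 := by
      rw [← abs_neg, ← abs_two, ← abs_div, abs_two]
      congr 1
      ring
    rw [e3] at h2
    have h3 := rt_cos hB k
    have h4 := abs_sub_le ((Nat.sqrt ((2 ^ B - (rt B k).1) * 2 ^ (B - 1)) : ℝ) / 2 ^ B)
      (√((1 - ((rt B k).1 : ℝ) / 2 ^ B) / 2)) (√((1 - cos (ang k)) / 2))
    have h5 : |((rt B k).1 : ℝ) / 2 ^ B - cos (ang k)| / 2 / (1 / 2 ^ (k + 1))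
        ≤ 2 ^ (k + 1) / 2 ^ B := by
      rw [div_div_eq_mul_div, div_one, div_mul_eq_mul_div, div_le_div_iff₀ (by norm_num) hp]
      rw [le_div_iff₀ hp] at h3
      have : (0 : ℝ) < 2 ^ (k + 1) := by positivity
      nlinarith
    have h6 : ((rt B (k + 1)).2 : ℝ) = (Nat.sqrt ((2 ^ B - (rt B k).1) * 2 ^ (B - 1)) : ℝ) := rfl
    rw [h6, add_div]
    linarith

/-- The exact root. -/
noncomputable def er (k : ℕ) : ℂ := Complex.exp ((ang k : ℝ) * Complex.I)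

theorem norm_er (k : ℕ) : ‖er k‖ = 1 := Complex.norm_exp_ofReal_mul_I _

theorem rt_ap {S B : ℕ} (hB : 1 ≤ B) (hS : B + 1 < S) (k : ℕ) :
    Ap S B (2 ^ (k + 2) / 2 ^ B) (rt B k) (er k) := by
  have hle := rt_le B k
  have hlt : 2 ^ B < 2 ^ (S - 1) := Nat.pow_lt_pow_right (by norm_num) (by omega)
  unfold Ap
  rw [show rt B k = ((rt B k).1, (rt B k).2) from rfl, vl_nat (by omega) (by omega)]
  have e : er k = ⟨cos (ang k), sin (ang k)⟩ := by
    unfold er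
    apply Complex.ext
    · rw [Complex.exp_ofReal_mul_I_re]
    · rw [Complex.exp_ofReal_mul_I_im]
  rw [e]
  have e2 : (⟨((rt B k).1 : ℝ) / 2 ^ B, ((rt B k).2 : ℝ) / 2 ^ B⟩ : ℂ)
      - ⟨cos (ang k), sin (ang k)⟩
      = ⟨((rt B k).1 : ℝ) / 2 ^ B - cos (ang k), ((rt B k).2 : ℝ) / 2 ^ B - sin (ang k)⟩ := by
    apply Complex.ext <;> simp
  rw [e2]
  refine (norm_cz_le _ _).trans ?_
  have h1 := rt_cos hB k
  have h2 := rt_sin hB k
  refine (add_le_add h1 h2).trans ?_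
  rw [← add_div]
  apply div_le_div_of_nonneg_right _ (by positivity)
  have : (1 : ℝ) ≤ 2 ^ k := one_le_pow₀ (by norm_num)
  rw [pow_add]
  linarith

end Vale.Agent.P338.GS.PM
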