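import Vale.Agent.P338.GS.Base

/-!
# P338, matrices of every shape: the complex numbers behind the pairs of residues
-/

namespace Vale.Agent.P338.GS.PM

open Vale.Agent.P338 Vale.Agent.P338.GS

/-! ### Signed numbers -/

/-- The signed number with the residue `x`. -/
def sg (S x : ℕ) : ℤ := if x < 2 ^ (S - 1) then (x : ℤ) else (x : ℤ) - 2 ^ S

theorem two_pow_pred {S : ℕ} (hS : 1 ≤ S) : (2 : ℤ) ^ S = 2 * 2 ^ (S - 1) := by
  rw [← pow_succ']; congr 1; omega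

theorem two_pow_pred' {S : ℕ} (hS : 1 ≤ S) : (2 : ℕ) ^ S = 2 * 2 ^ (S - 1) := by
  rw [← pow_succ']; congr 1; omega

theorem sg_modEq (S x : ℕ) : (x : ℤ) ≡ sg S x [ZMOD 2 ^ S] := by
  unfold sg
  split_ifs with h
  · rfl
  · exact (Int.modEq_iff_dvd.2 ⟨-1, by ring⟩)

/-- The signed number is determined by its residue. -/
theorem sg_eq {S x : ℕ} {z : ℤ} (hS : 1 ≤ S) (hx : x < 2 ^ S) (hz : (x : ℤ) ≡ z [ZMOD 2 ^ S])
    (h1 : -2 ^ (S - 1) ≤ z) (h2 : z < 2 ^ (S - 1)) : sg S x = z := by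
  have e := two_pow_pred hS
  have hx' : (x : ℤ) < 2 ^ S := by exact_mod_cast hx
  obtain ⟨c, hc⟩ := Int.modEq_iff_dvd.1 hz
  have hp : (0 : ℤ) < 2 ^ (S - 1) := by positivity
  unfold sg
  have hc1 : c < 1 := by
    by_contra h
    push Not at h
    have : (2 : ℤ) ^ S * 1 ≤ 2 ^ S * c := mul_le_mul_of_nonneg_left h (by positivity)
    omega
  have hc2 : -2 < c := by
    by_contra h
    push Not at h
    have : (2 : ℤ) ^ S * c ≤ 2 ^ S * (-2) := mul_le_mul_of_nonneg_left h (by positivity)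
    omega
  have hc3 : c = 0 ∨ c = -1 := by omega
  rcases hc3 with rfl | rfl
  · rw [if_pos]
    · linarith
    · have : (x : ℤ) < 2 ^ (S - 1) := by linarith
      exact_mod_cast this
  · rw [if_neg]
    · linarith
    · intro h
      have : (x : ℤ) < 2 ^ (S - 1) := by exact_mod_cast h
      linarith

theorem sg_range {S x : ℕ} (hS : 1 ≤ S) (hx : x < 2 ^ S) :
    -2 ^ (S - 1) ≤ sg S x ∧ sg S x < 2 ^ (S - 1) := by
  have e := two_pow_pred hS
  have hx' : (x : ℤ) < 2 ^ S := by exact_mod_cast hx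
  unfold sg
  split_ifs with h
  · have : (x : ℤ) < 2 ^ (S - 1) := by exact_mod_cast h
    constructor
    · have : (0 : ℤ) < 2 ^ (S - 1) := by positivity
      linarith [Int.natCast_nonneg x]
    · exact this
  · push Not at h
    have : (2 : ℤ) ^ (S - 1) ≤ x := by exact_mod_cast h
    constructor <;> linarith

/-- The arithmetic shift. -/
theorem sg_asr {S B w : ℕ} {z : ℤ} (hB : 1 ≤ B) (hS : B < S) (hw : w < 2 ^ S)
    (hz : (w : ℤ) ≡ z [ZMOD 2 ^ S]) (h1 : -2 ^ (S - 1) ≤ z) (h2 : z < 2 ^ (S - 1)) :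
    sg S (asr S B w) = z / 2 ^ B := by
  have hz' := sg_eq (by omega) hw hz h1 h2
  have e := two_pow_pred (S := S) (by omega)
  have hp : (0 : ℤ) < 2 ^ B := by positivity
  have e1 : (2 : ℤ) ^ S = 2 ^ (S - B) * 2 ^ B := by rw [← pow_add]; congr 1; omega
  have hlo : -2 ^ (S - 1) ≤ z / 2 ^ B := by
    rw [Int.le_ediv_iff_mul_le hp]
    have : (1 : ℤ) ≤ 2 ^ B := by exact_mod_cast Nat.one_le_two_pow
    nlinarith [show (0 : ℤ) < 2 ^ (S - 1) by positivity]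
  have hhi : z / 2 ^ B < 2 ^ (S - 1) := by
    rw [Int.ediv_lt_iff_lt_mul hp]
    have : (1 : ℤ) ≤ 2 ^ B := by exact_mod_cast Nat.one_le_two_pow
    nlinarith [show (0 : ℤ) < 2 ^ (S - 1) by positivity]
  refine sg_eq (by omega) (asr_lt hS.le hw) ?_ hlo hhi
  unfold sg at hz'
  unfold asr
  split_ifs at hz' with h
  · rw [if_pos h, ← hz']
    push_cast
    rfl
  · rw [if_neg h]
    have hle : 2 ^ (S - B) ≤ 2 ^ S := Nat.pow_le_pow_right (by norm_num) (by omega)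
    push_cast [Nat.cast_sub hle]
    have hw' : (w : ℤ) = z + 2 ^ (S - B) * 2 ^ B := by rw [← e1]; linarith
    rw [hw', Int.add_mul_ediv_right _ _ hp.ne']
    exact (Int.modEq_iff_dvd.2 ⟨-1, by ring⟩)

/-! ### Congruences -/

theorem muR_modEq (S x y : ℕ) : (muR S x y : ℤ) ≡ sg S x * sg S y [ZMOD 2 ^ S] := by
  unfold muR
  push_cast
  exact (Int.mod_modEq _ _).trans ((sg_modEq S x).mul (sg_modEq S y))

theorem adR_modEq {S x y : ℕ} {a b : ℤ} (hx : (x : ℤ) ≡ a [ZMOD 2 ^ S])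
    (hy : (y : ℤ) ≡ b [ZMOD 2 ^ S]) : (adR S x y : ℤ) ≡ a + b [ZMOD 2 ^ S] := by
  unfold adR
  push_cast
  exact (Int.mod_modEq _ _).trans (hx.add hy)

theorem sbR_modEq {S x y : ℕ} {a b : ℤ} (hx : (x : ℤ) ≡ a [ZMOD 2 ^ S])
    (hy : (y : ℤ) ≡ b [ZMOD 2 ^ S]) : (sbR S x y : ℤ) ≡ a - b [ZMOD 2 ^ S] := by
  unfold sbR
  have hle : y % 2 ^ S ≤ 2 ^ S := (Nat.mod_lt _ (by positivity)).le
  push_cast [Nat.cast_sub hle]
  refine (Int.mod_modEq _ _).trans ?_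
  rw [sub_eq_add_neg a b]
  refine hx.add ?_
  have h1 : (y : ℤ) % 2 ^ S ≡ b [ZMOD 2 ^ S] := (Int.mod_modEq _ _).trans hy
  have h2 : (2 : ℤ) ^ S ≡ 0 [ZMOD 2 ^ S] := by simp [Int.ModEq]
  have := h2.sub h1
  rwa [zero_sub] at this

theorem cvR_modEq (S r : ℕ) (κ a : ℕ → ℕ) (k : ℕ) :
    (cvR S r κ a k : ℤ) ≡
      ∑ i ∈ Finset.range r, sg S (κ (k + (r - 1) - i)) * sg S (a i) [ZMOD 2 ^ S] := by
  unfold cvR
  push_cast
  refine (Int.mod_modEq _ _).trans ?_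
  induction r with
  | zero => simp
  | succ n _ =>
    refine Int.ModEq.sum ?_
    intro i _
    exact (sg_modEq S _).mul (sg_modEq S _)

/-! ### Complex numbers -/

/-- The complex number with integer coordinates. -/
noncomputable def cz (a b : ℤ) : ℂ := ⟨(a : ℝ), (b : ℝ)⟩

/-- The number before scaling. -/
noncomputable def raw (S : ℕ) (x : ℕ × ℕ) : ℂ := cz (sg S x.1) (sg S x.2)

/-- The complex number that the pair `x` stands for. -/
noncomputable def vl (S B : ℕ) (x : ℕ × ℕ) : ℂ := raw S x / 2 ^ B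

theorem raw_eq (S B : ℕ) (x : ℕ × ℕ) : raw S x = vl S B x * 2 ^ B := by
  unfold vl; field_simp

/-- `x` approximates `c` with the error `ε`. -/
def Ap (S B : ℕ) (ε : ℝ) (x : ℕ × ℕ) (c : ℂ) : Prop := ‖vl S B x - c‖ ≤ ε

theorem norm_cz_le (a b : ℝ) : ‖(⟨a, b⟩ : ℂ)‖ ≤ |a| + |b| := Complex.norm_le_abs_re_add_abs_im _

theorem floor_err (z : ℤ) (B : ℕ) :
    |((z / 2 ^ B : ℤ) : ℝ) / 2 ^ B - (z : ℝ) / 2 ^ B / 2 ^ B| ≤ 1 / 2 ^ B := by
  have hp : (0 : ℤ) < 2 ^ B := by positivity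
  have hp' : (0 : ℝ) < 2 ^ B := by positivity
  have h1 := Int.mul_ediv_add_emod z (2 ^ B)
  have h2 := Int.emod_nonneg z hp.ne'
  have h3 := Int.emod_lt_of_pos z hp
  have h1' : (2 : ℝ) ^ B * ((z / 2 ^ B : ℤ) : ℝ) + ((z % 2 ^ B : ℤ) : ℝ) = z := by
    exact_mod_cast congrArg (Int.cast (R := ℝ)) h1
  have h2' : (0 : ℝ) ≤ ((z % 2 ^ B : ℤ) : ℝ) := by exact_mod_cast h2
  have h3' : ((z % 2 ^ B : ℤ) : ℝ) < 2 ^ B := by exact_mod_cast h3
  have e : ((z / 2 ^ B : ℤ) : ℝ) / 2 ^ B - (z : ℝ) / 2 ^ B / 2 ^ B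
      = -(((z % 2 ^ B : ℤ) : ℝ) / 2 ^ B / 2 ^ B) := by
    rw [← h1']; field_simp; ring
  rw [e, abs_neg, abs_of_nonneg (by positivity)]
  apply div_le_div_of_nonneg_right _ hp'.le
  rw [div_le_one hp']
  exact h3'.le

/-- Shift of both coordinates: the abstract form. -/
theorem vl_of_parts {S B : ℕ} {p q : ℕ} {a b : ℤ} (hB : 1 ≤ B) (hS : B < S)
    (hp : p < 2 ^ S) (hq : q < 2 ^ S) (h1 : (p : ℤ) ≡ a [ZMOD 2 ^ S])
    (h2 : (q : ℤ) ≡ b [ZMOD 2 ^ S]) (hab : ‖cz a b‖ < 2 ^ (S - 1)) :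
    ‖vl S B (asr S B p, asr S B q) - cz a b / 2 ^ B / 2 ^ B‖ ≤ 2 / 2 ^ B := by
  have hre : |(a : ℝ)| < 2 ^ (S - 1) := lt_of_le_of_lt (Complex.abs_re_le_norm (cz a b)) hab
  have him : |(b : ℝ)| < 2 ^ (S - 1) := lt_of_le_of_lt (Complex.abs_im_le_norm (cz a b)) hab
  rw [abs_lt] at hre him
  have ra : -2 ^ (S - 1) ≤ a ∧ a < 2 ^ (S - 1) := by
    constructor
    · have := hre.1.le; exact_mod_cast this
    · exact_mod_cast hre.2
  have rb : -2 ^ (S - 1) ≤ b ∧ b < 2 ^ (S - 1) := by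
    constructor
    · have := him.1.le; exact_mod_cast this
    · exact_mod_cast him.2
  have s1 := sg_asr hB hS hp h1 ra.1 ra.2
  have s2 := sg_asr hB hS hq h2 rb.1 rb.2
  have e : vl S B (asr S B p, asr S B q) - cz a b / 2 ^ B / 2 ^ B =
      ⟨((a / 2 ^ B : ℤ) : ℝ) / 2 ^ B - (a : ℝ) / 2 ^ B / 2 ^ B,
        ((b / 2 ^ B : ℤ) : ℝ) / 2 ^ B - (b : ℝ) / 2 ^ B / 2 ^ B⟩ := by
    unfold vl raw cz
    rw [s1, s2]
    have h2B : (2 : ℂ) ^ B = (((2 : ℝ) ^ B : ℝ) : ℂ) := by push_cast; rfl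
    rw [h2B]
    apply Complex.ext
    · simp only [Complex.sub_re, Complex.div_ofReal_re]
    · simp only [Complex.sub_im, Complex.div_ofReal_im]
  rw [e]
  refine (norm_cz_le _ _).trans ?_
  have := floor_err a B
  have := floor_err b B
  have h22 : (2 : ℝ) / 2 ^ B = 1 / 2 ^ B + 1 / 2 ^ B := by ring
  rw [h22]
  linarith

theorem cz_mul (a b c d : ℤ) : cz a b * cz c d = cz (a * c - b * d) (a * d + b * c) := by
  unfold cz
  apply Complex.ext <;> simp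

/-- The product. -/
theorem vl_cmR {S B : ℕ} (hB : 1 ≤ B) (hS : B < S) (x y : ℕ × ℕ)
    (h : ‖vl S B x‖ * ‖vl S B y‖ * 2 ^ (2 * B) < 2 ^ (S - 1)) :
    ‖vl S B (cmR S B x y) - vl S B x * vl S B y‖ ≤ 2 / 2 ^ B := by
  have key := vl_of_parts (S := S) (B := B) (p := sbR S (muR S x.1 y.1) (muR S x.2 y.2))
    (q := adR S (muR S x.1 y.2) (muR S x.2 y.1))
    (a := sg S x.1 * sg S y.1 - sg S x.2 * sg S y.2)
    (b := sg S x.1 * sg S y.2 + sg S x.2 * sg S y.1) hB hS (sbR_lt ..) (adR_lt ..)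
    (sbR_modEq (muR_modEq ..) (muR_modEq ..)) (adR_modEq (muR_modEq ..) (muR_modEq ..))
  rw [← cz_mul] at key
  have e1 : cz (sg S x.1) (sg S x.2) * cz (sg S y.1) (sg S y.2) / 2 ^ B / 2 ^ B
      = vl S B x * vl S B y := by
    unfold vl raw; ring
  rw [e1] at key
  apply key
  rw [show cz (sg S x.1) (sg S x.2) = raw S x from rfl,
    show cz (sg S y.1) (sg S y.2) = raw S y from rfl, raw_eq S B x, raw_eq S B y, norm_mul,
    norm_mul, norm_mul, norm_pow, Complex.norm_ofNat]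
  calc ‖vl S B x‖ * 2 ^ B * (‖vl S B y‖ * 2 ^ B) = ‖vl S B x‖ * ‖vl S B y‖ * 2 ^ (2 * B) := by
        rw [two_mul, pow_add]; ring
    _ < 2 ^ (S - 1) := h

theorem cz_sum {ι : Type*} (s : Finset ι) (f g : ι → ℤ) :
    ∑ i ∈ s, cz (f i) (g i) = cz (∑ i ∈ s, f i) (∑ i ∈ s, g i) := by
  classical
  induction s using Finset.induction_on with
  | empty => simp [cz]; rfl
  | insert a s ha ih =>
    rw [Finset.sum_insert ha, Finset.sum_insert ha, Finset.sum_insert ha, ih]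
    unfold cz
    apply Complex.ext <;> simp

/-- The convolution. -/
theorem vl_cvC {S B r : ℕ} (hB : 1 ≤ B) (hS : B < S) (κ a : ℕ → ℕ × ℕ) (k : ℕ)
    (h : (∑ i ∈ Finset.range r, ‖vl S B (κ (k + (r - 1) - i))‖ * ‖vl S B (a i)‖) * 2 ^ (2 * B)
      < 2 ^ (S - 1)) :
    ‖vl S B (cvC S B r κ a k) -
      ∑ i ∈ Finset.range r, vl S B (κ (k + (r - 1) - i)) * vl S B (a i)‖ ≤ 2 / 2 ^ B := by
  have key := vl_of_parts (S := S) (B := B)
    (p := sbR S (cvR S r (fun j => (κ j).1) (fun i => (a i).1) k)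
      (cvR S r (fun j => (κ j).2) (fun i => (a i).2) k))
    (q := adR S (cvR S r (fun j => (κ j).1) (fun i => (a i).2) k)
      (cvR S r (fun j => (κ j).2) (fun i => (a i).1) k))
    hB hS (sbR_lt ..) (adR_lt ..)
    (sbR_modEq (cvR_modEq ..) (cvR_modEq ..)) (adR_modEq (cvR_modEq ..) (cvR_modEq ..))
  rw [← Finset.sum_sub_distrib, ← Finset.sum_add_distrib, ← cz_sum] at key
  have e1 : (∑ i ∈ Finset.range r, cz
      (sg S (κ (k + (r - 1) - i)).1 * sg S (a i).1 - sg S (κ (k + (r - 1) - i)).2 * sg S (a i).2)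
      (sg S (κ (k + (r - 1) - i)).1 * sg S (a i).2 + sg S (κ (k + (r - 1) - i)).2 * sg S (a i).1))
      = ∑ i ∈ Finset.range r, vl S B (κ (k + (r - 1) - i)) * vl S B (a i) * 2 ^ (2 * B) := by
    refine Finset.sum_congr rfl fun i _ => ?_
    rw [← cz_mul, show cz (sg S (κ (k + (r - 1) - i)).1) (sg S (κ (k + (r - 1) - i)).2)
      = raw S (κ (k + (r - 1) - i)) from rfl, show cz (sg S (a i).1) (sg S (a i).2)
      = raw S (a i) from rfl, raw_eq S B, raw_eq S B (a i), two_mul, pow_add]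
    ring
  rw [e1] at key
  have e2 : (∑ i ∈ Finset.range r, vl S B (κ (k + (r - 1) - i)) * vl S B (a i) * 2 ^ (2 * B))
      / 2 ^ B / 2 ^ B = ∑ i ∈ Finset.range r, vl S B (κ (k + (r - 1) - i)) * vl S B (a i) := by
    rw [← Finset.sum_mul, two_mul, pow_add]
    field_simp
  rw [e2] at key
  apply key
  rw [← Finset.sum_mul, norm_mul, norm_pow, Complex.norm_ofNat]
  refine lt_of_le_of_lt ?_ h
  refine mul_le_mul_of_nonneg_right ?_ (by positivity)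
  refine (norm_sum_le _ _).trans (le_of_eq ?_)
  refine Finset.sum_congr rfl fun i _ => ?_
  rw [norm_mul]

/-- The conjugate. -/
theorem vl_cjR {S B : ℕ} (hS : 1 ≤ S) (x : ℕ × ℕ) (h : ‖vl S B x‖ * 2 ^ B < 2 ^ (S - 1)) :
    vl S B (cjR S x) = (starRingEnd ℂ) (vl S B x) := by
  have hn : ‖raw S x‖ < 2 ^ (S - 1) := by
    rw [raw_eq S B x, norm_mul, norm_pow, Complex.norm_ofNat]; exact h
  have him : |(sg S x.2 : ℝ)| < 2 ^ (S - 1) :=
    lt_of_le_of_lt (Complex.abs_im_le_norm (raw S x)) hn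
  rw [abs_lt] at him
  have rb : -2 ^ (S - 1) < sg S x.2 ∧ sg S x.2 < 2 ^ (S - 1) := by
    constructor
    · exact_mod_cast him.1
    · exact_mod_cast him.2
  have e : sg S (sbR S 0 x.2) = - sg S x.2 := by
    refine sg_eq hS (sbR_lt ..) ?_ (by linarith [rb.2]) (by linarith [rb.1])
    have := sbR_modEq (S := S) (x := 0) (y := x.2) (a := 0) (b := sg S x.2) (by simp)
      (sg_modEq S x.2)
    rwa [zero_sub] at this
  unfold vl raw cjR
  rw [e]
  have h2B : (2 : ℂ) ^ B = (((2 : ℝ) ^ B : ℝ) : ℂ) := by push_cast; rfl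
  rw [h2B]
  unfold cz
  apply Complex.ext
  · rw [Complex.div_ofReal_re, Complex.conj_re, Complex.div_ofReal_re]
  · rw [Complex.div_ofReal_im, Complex.conj_im, Complex.div_ofReal_im]
    push_cast
    ring

/-- Natural numbers. -/
theorem sg_nat {S n : ℕ} (h : n < 2 ^ (S - 1)) : sg S n = n := if_pos h

theorem vl_nat {S B : ℕ} {a b : ℕ} (ha : a < 2 ^ (S - 1)) (hb : b < 2 ^ (S - 1)) :
    vl S B (a, b) = ⟨(a : ℝ) / 2 ^ B, (b : ℝ) / 2 ^ B⟩ := by
  unfold vl raw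
  simp only [sg_nat ha, sg_nat hb]
  have h2B : (2 : ℂ) ^ B = (((2 : ℝ) ^ B : ℝ) : ℂ) := by push_cast; rfl
  rw [h2B]
  unfold cz
  apply Complex.ext
  · rw [Complex.div_ofReal_re]; simp
  · rw [Complex.div_ofReal_im]; simp

end Vale.Agent.P338.GS.PM
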