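import Vale.Agent.P338.GS.Dft
import Vale.Agent.P338.GS.Cmd

/-!
# P338, matrices of every shape: the stacks of the main program
-/

namespace Vale.Agent.P338.GS

open Vale.Agent.P338

variable {J E : Type}

/-- The contents of the stacks that change in the main program. -/
structure PV (E : Type) where
  xr : List (SSym E)
  xi : List (SSym E)
  hx : List (SSym E)
  hr : List (SSym E)
  hz : List (SSym E)
  hm : List (SSym E)
  hn : List (SSym E)
  ws : List (SSym E)
  wb : List (SSym E)
  wp : List (SSym E)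
  pr : List (SSym E)
  pi : List (SSym E)
  f1 : List (SSym E)
  q1 : List (SSym E)
  q2 : List (SSym E)
  cr : List (SSym E)
  ci : List (SSym E)

/-- The store `s` with the contents `p` of these stacks. -/
def PV.st (p : PV E) (s : SW J E) : SW J E
  | Sum.inr .XR => p.xr
  | Sum.inr .XI => p.xi
  | Sum.inr .HX => p.hx
  | Sum.inr .HR => p.hr
  | Sum.inr .HZ => p.hz
  | Sum.inr .HM => p.hm
  | Sum.inr .HN => p.hn
  | Sum.inr .WS => p.ws
  | Sum.inr .WB => p.wb
  | Sum.inr .WP => p.wp
  | Sum.inr .PR => p.pr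
  | Sum.inr .PI => p.pi
  | Sum.inr .F1 => p.f1
  | Sum.inr .Q1 => p.q1
  | Sum.inr .Q2 => p.q2
  | Sum.inr .CR => p.cr
  | Sum.inr .CI => p.ci
  | q => s q

section PVlemmas

variable (p : PV E) (s : SW J E) (l : List (SSym E))

@[simp] theorem PV.at_XR : (p.st s).at .XR = p.xr := rfl
@[simp] theorem PV.at_XI : (p.st s).at .XI = p.xi := rfl
@[simp] theorem PV.at_HX : (p.st s).at .HX = p.hx := rfl
@[simp] theorem PV.at_HR : (p.st s).at .HR = p.hr := rfl
@[simp] theorem PV.at_HZ : (p.st s).at .HZ = p.hz := rfl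
@[simp] theorem PV.at_HM : (p.st s).at .HM = p.hm := rfl
@[simp] theorem PV.at_HN : (p.st s).at .HN = p.hn := rfl
@[simp] theorem PV.at_WS : (p.st s).at .WS = p.ws := rfl
@[simp] theorem PV.at_WB : (p.st s).at .WB = p.wb := rfl
@[simp] theorem PV.at_WP : (p.st s).at .WP = p.wp := rfl
@[simp] theorem PV.at_PR : (p.st s).at .PR = p.pr := rfl
@[simp] theorem PV.at_PI : (p.st s).at .PI = p.pi := rfl
@[simp] theorem PV.at_F1 : (p.st s).at .F1 = p.f1 := rfl
@[simp] theorem PV.at_Q1 : (p.st s).at .Q1 = p.q1 := rfl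
@[simp] theorem PV.at_Q2 : (p.st s).at .Q2 = p.q2 := rfl
@[simp] theorem PV.at_CR : (p.st s).at .CR = p.cr := rfl
@[simp] theorem PV.at_CI : (p.st s).at .CI = p.ci := rfl
@[simp] theorem PV.st_inl (j : Loc J) : p.st s (Sum.inl j) = s (Sum.inl j) := rfl

/-- The stacks. -/
def pvL : List W :=
  [W.XR, .XI, .HX, .HR, .HZ, .HM, .HN, .WS, .WB, .WP, .PR, .PI, .F1, .Q1, .Q2, .CR, .CI]

theorem PV.at_other {q : W} (h : q ∉ pvL) : (p.st s).at q = s.at q := by
  cases q <;> first | rfl | exact absurd h (by decide)

variable [DecidableEq J]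

@[simp] theorem PV.set_XR : (p.st s).set .XR l = ({ p with xr := l } : PV E).st s := by
  apply sw_ext
  · intro j; rw [set_inl]; rfl
  · intro q; rw [at_set]; cases q <;> rfl
@[simp] theorem PV.set_XI : (p.st s).set .XI l = ({ p with xi := l } : PV E).st s := by
  apply sw_ext
  · intro j; rw [set_inl]; rfl
  · intro q; rw [at_set]; cases q <;> rfl
@[simp] theorem PV.set_HX : (p.st s).set .HX l = ({ p with hx := l } : PV E).st s := by
  apply sw_ext
  · intro j; rw [set_inl]; rfl
  · intro q; rw [at_set]; cases q <;> rfl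
@[simp] theorem PV.set_HR : (p.st s).set .HR l = ({ p with hr := l } : PV E).st s := by
  apply sw_ext
  · intro j; rw [set_inl]; rfl
  · intro q; rw [at_set]; cases q <;> rfl
@[simp] theorem PV.set_HZ : (p.st s).set .HZ l = ({ p with hz := l } : PV E).st s := by
  apply sw_ext
  · intro j; rw [set_inl]; rfl
  · intro q; rw [at_set]; cases q <;> rfl
@[simp] theorem PV.set_HM : (p.st s).set .HM l = ({ p with hm := l } : PV E).st s := by
  apply sw_ext
  · intro j; rw [set_inl]; rfl
  · intro q; rw [at_set]; cases q <;> rfl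
@[simp] theorem PV.set_HN : (p.st s).set .HN l = ({ p with hn := l } : PV E).st s := by
  apply sw_ext
  · intro j; rw [set_inl]; rfl
  · intro q; rw [at_set]; cases q <;> rfl
@[simp] theorem PV.set_WS : (p.st s).set .WS l = ({ p with ws := l } : PV E).st s := by
  apply sw_ext
  · intro j; rw [set_inl]; rfl
  · intro q; rw [at_set]; cases q <;> rfl
@[simp] theorem PV.set_WB : (p.st s).set .WB l = ({ p with wb := l } : PV E).st s := by
  apply sw_ext
  · intro j; rw [set_inl]; rfl
  · intro q; rw [at_set]; cases q <;> rfl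
@[simp] theorem PV.set_WP : (p.st s).set .WP l = ({ p with wp := l } : PV E).st s := by
  apply sw_ext
  · intro j; rw [set_inl]; rfl
  · intro q; rw [at_set]; cases q <;> rfl
@[simp] theorem PV.set_PR : (p.st s).set .PR l = ({ p with pr := l } : PV E).st s := by
  apply sw_ext
  · intro j; rw [set_inl]; rfl
  · intro q; rw [at_set]; cases q <;> rfl
@[simp] theorem PV.set_PI : (p.st s).set .PI l = ({ p with pi := l } : PV E).st s := by
  apply sw_ext
  · intro j; rw [set_inl]; rfl
  · intro q; rw [at_set]; cases q <;> rfl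
@[simp] theorem PV.set_F1 : (p.st s).set .F1 l = ({ p with f1 := l } : PV E).st s := by
  apply sw_ext
  · intro j; rw [set_inl]; rfl
  · intro q; rw [at_set]; cases q <;> rfl
@[simp] theorem PV.set_Q1 : (p.st s).set .Q1 l = ({ p with q1 := l } : PV E).st s := by
  apply sw_ext
  · intro j; rw [set_inl]; rfl
  · intro q; rw [at_set]; cases q <;> rfl
@[simp] theorem PV.set_Q2 : (p.st s).set .Q2 l = ({ p with q2 := l } : PV E).st s := by
  apply sw_ext
  · intro j; rw [set_inl]; rfl
  · intro q; rw [at_set]; cases q <;> rfl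
@[simp] theorem PV.set_CR : (p.st s).set .CR l = ({ p with cr := l } : PV E).st s := by
  apply sw_ext
  · intro j; rw [set_inl]; rfl
  · intro q; rw [at_set]; cases q <;> rfl
@[simp] theorem PV.set_CI : (p.st s).set .CI l = ({ p with ci := l } : PV E).st s := by
  apply sw_ext
  · intro j; rw [set_inl]; rfl
  · intro q; rw [at_set]; cases q <;> rfl

end PVlemmas

/-- The contents at the beginning and at the end of the main program. -/
def pv0 (x hx hz : List (SSym E)) : PV E :=
  ⟨x, [], hx, [], hz, [], [], [], [], [], [], [], [], [], [], [], []⟩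

theorem pv0_st {s : SW J E} {x hx hz : List (SSym E)} (h : ∀ r ∈ wsc, s.at r = [])
    (hX : s.at .XR = x) (h1 : s.at .HX = hx) (h2 : s.at .HZ = hz) :
    (pv0 x hx hz).st s = s := by
  apply sw_ext
  · intro j; rfl
  · intro q
    cases q <;> first | rfl | exact hX.symm | exact h1.symm | exact h2.symm |
      exact (h _ (by decide)).symm

theorem PV.cln0 {s : SW J E} (h : Cln0 s) (p : PV E) : Cln0 (p.st s) :=
  ⟨fun j => h.idle j, fun q hq => by
    rw [PV.at_other]
    · exact h.emp q hq
    · revert hq; revert q; decide⟩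

/-- Clean scratch stacks, when the changed ones among them are empty. -/
theorem PV.cln {s : SW J E} (h : Cln0 s) (h' : ∀ r ∈ wsc, s.at r = []) (p : PV E)
    (hf : p.f1 = []) (hc : p.cr = []) (hi : p.ci = []) : Cln (p.st s) :=
  ⟨PV.cln0 h p, fun q hq => by
    have h1 : q ∈ wsc := by
      revert hq; revert q; decide
    cases q <;> first | exact hf | exact hc | exact hi | exact h' _ h1 |
      exact absurd hq (by decide)⟩

end Vale.Agent.P338.GS
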