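import Vale.Agent.P338.GS.PassLib

/-!
# P338, matrices of every shape: multiplication of the data by powers of a root
-/

namespace Vale.Agent.P338.GS.Ps

open Vale.Agent.P338 Vale.Agent.P338.GS Vale.Agent.P338.GS.IO

variable {J E : Type} [DecidableEq J]

/-! ### One element -/

/-- Take a number from `x` to `e`. -/
def tk (x e : W) : PW J E :=
  (Prog.forr (Sum.inr .WS) (Sum.inr .F4) (Prog.mov (Sum.inr x) (Sum.inr .T1))).seq
    (Prog.rev (Sum.inr .T1) (Sum.inr e))

theorem tk_spec {x e : W} (hx : x ∉ [W.WS, .F4, .T1]) (he : e ∉ [W.WS, .F4, .T1])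
    (hxe : x ≠ e) {s : SW J E} {S v : ℕ} {rest : List (SSym E)} (ws : s.at .WS = una S)
    (f4 : s.at .F4 = []) (t1 : s.at .T1 = []) (ee : s.at e = [])
    (hX : s.at x = bits (bitsOf S v) ++ rest) :
    Runs (tk x e) s ((s.set x rest).set e (wd S v)) (11 * S + 2) := by
  simp only [List.mem_cons, List.not_mem_nil, or_false, not_or] at hx he
  obtain ⟨x1, x2, x3⟩ := hx
  obtain ⟨e1, e2, e3⟩ := he
  have a1 := r_movs (J := J) (u := .WS) (t := .F4) (x := x) (o := .T1) (by decide) (Ne.symm x1)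
    (by decide) (Ne.symm x2) (by decide) x3 s (bits (bitsOf S v)) rest S (by simp) ws f4 hX
  have a2 := r_rev (J := J) (a := .T1) (b := e) (Ne.symm e3)
    ((s.set x rest).set .T1 ((bits (bitsOf S v)).reverse ++ s.at .T1))
  refine ((a1.seq a2).mono ?_).of_eq ?_
  · rw [at_set_self, t1]
    simp
    omega
  · refine sw_ext (fun j => by simp) fun r => ?_
    simp only [at_set, t1, wd]
    split_ifs <;> simp_all

variable (cm : W → W → W → W → PW J E)

/-- One element. -/
def elt : PW J E :=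
  (tk .XR .ER).seq <| (tk .XI .EI).seq <| (cm .ER .EI .CR .CI).seq <|
    (Prog.rev (Sum.inr .ER) (Sum.inr .O1)).seq (Prog.rev (Sum.inr .EI) (Sum.inr .O2))

/-- The stores of the inner loop: the factor is on `CR`, `CI`. -/
structure Ev (s : SW J E) (S B : ℕ) (c : ℕ × ℕ) : Prop extends Cln0 s where
  ws : s.at .WS = una S
  wb : s.at .WB = una B
  cr : s.at .CR = wd S c.1
  ci : s.at .CI = wd S c.2
  er : s.at .ER = []
  ei : s.at .EI = []
  t1 : s.at .T1 = []
  f4 : s.at .F4 = []

theorem Ev.set {s : SW J E} {S B : ℕ} {c : ℕ × ℕ} (h : Ev s S B c) {r : W} (hr : r ∉ asc)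
    (hr' : r ∉ [W.WS, .WB, .CR, .CI, .ER, .EI, .T1, .F4]) (l : List (SSym E)) :
    Ev (s.set r l) S B c := by
  simp only [List.mem_cons, List.not_mem_nil, or_false, not_or] at hr'
  obtain ⟨a1, a2, a3, a4, a5, a6, a7, a8⟩ := hr'
  exact ⟨h.toCln0.set hr l, by rw [at_set_ne _ (Ne.symm a1)]; exact h.ws,
    by rw [at_set_ne _ (Ne.symm a2)]; exact h.wb, by rw [at_set_ne _ (Ne.symm a3)]; exact h.cr,
    by rw [at_set_ne _ (Ne.symm a4)]; exact h.ci, by rw [at_set_ne _ (Ne.symm a5)]; exact h.er,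
    by rw [at_set_ne _ (Ne.symm a6)]; exact h.ei, by rw [at_set_ne _ (Ne.symm a7)]; exact h.t1,
    by rw [at_set_ne _ (Ne.symm a8)]; exact h.f4⟩

theorem Cln0.st4 {s : SW J E} (h : Cln0 s) (x1 x2 y1 y2 : List (SSym E)) :
    Cln0 (st4 s x1 x2 y1 y2) :=
  (((h.set (by decide) x1).set (by decide) x2).set (by decide) y1).set (by decide) y2

variable {cm} {T : ℕ → ℕ} {C : ℕ}

theorem elt_spec (hcm : CmSpec cm T C) {S B : ℕ} (hB : 1 ≤ B) (hS : B < S) {c a : ℕ × ℕ}
    (hc : c.1 < 2 ^ S ∧ c.2 < 2 ^ S) (ha : a.1 < 2 ^ S ∧ a.2 < 2 ^ S) {s : SW J E}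
    (h : Ev s S B c) :
    Tr (elt cm) s s (bitsOf S a.1) (bitsOf S a.2) (bitsOf S (cmR S B a c).1)
      (bitsOf S (cmR S B a c).2) ((C + 40) * (S + T S)) := by
  intro x1 x2 y1 y2
  set s0 := st4 s (bits (bitsOf S a.1) ++ x1) (bits (bitsOf S a.2) ++ x2) y1 y2 with e0
  have c0 : Cln0 s0 := Cln0.st4 h.toCln0 _ _ _ _
  have a1 := tk_spec (J := J) (E := E) (x := .XR) (e := .ER) (by decide) (by decide) (by decide)
    (s := s0) (S := S) (v := a.1) (rest := x1) (by simp [s0, st4, at_set, h.ws])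
    (by simp [s0, st4, at_set, h.f4]) (by simp [s0, st4, at_set, h.t1])
    (by simp [s0, st4, at_set, h.er]) (by simp [s0, st4, at_set])
  set s1 := (s0.set .XR x1).set .ER (wd S a.1) with e1
  have c1 : Cln0 s1 := (c0.set (by decide) _).set (by decide) _
  have a2 := tk_spec (J := J) (E := E) (x := .XI) (e := .EI) (by decide) (by decide) (by decide)
    (s := s1) (S := S) (v := a.2) (rest := x2) (by simp [s1, s0, st4, at_set, h.ws])
    (by simp [s1, s0, st4, at_set, h.f4]) (by simp [s1, s0, st4, at_set, h.t1])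
    (by simp [s1, s0, st4, at_set, h.ei]) (by simp [s1, s0, st4, at_set])
  set s2 := (s1.set .XI x2).set .EI (wd S a.2) with e2
  have c2 : Cln0 s2 := (c1.set (by decide) _).set (by decide) _
  have a3 := hcm S B a c .ER .EI .CR .CI s2 hB hS c2 (by decide) (by decide) ha.1 ha.2 hc.1 hc.2
    (by simp [s2, s1, s0, st4, at_set, h.ws]) (by simp [s2, s1, s0, st4, at_set, h.wb])
    (by simp [s2, s1, at_set]) (by simp [s2])
    (by simp [s2, s1, s0, st4, at_set, h.cr]) (by simp [s2, s1, s0, st4, at_set, h.ci])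
  set s3 := (s2.set .ER (wd S (cmR S B a c).1)).set .EI (wd S (cmR S B a c).2) with e3
  have a4 := r_rev (J := J) (a := .ER) (b := .O1) (by decide) s3
  have l4 : (s3.at .ER).length = S := by simp [s3, at_set, wd]
  rw [l4] at a4
  set s4 := (s3.set .ER []).set .O1 ((s3.at .ER).reverse ++ s3.at .O1) with e4
  have a5 := r_rev (J := J) (a := .EI) (b := .O2) (by decide) s4
  have l5 : (s4.at .EI).length = S := by simp [s4, s3, at_set, wd]
  rw [l5] at a5
  refine ((a1.seq (a2.seq (a3.seq (a4.seq a5)))).mono ?_).of_eq ?_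
  · have e9 : (C + 40) * (S + T S) = C * (S + T S) + 40 * S + 40 * T S := by ring
    rw [e9]
    omega
  · refine sw_ext (fun j => by simp [s4, s3, s2, s1, s0, st4]) fun r => ?_
    have q1 := h.er
    have q2 := h.ei
    clear a1 a2 a3 a4 a5 c0 c1 c2
    simp only [s4, s3, s2, s1, s0, st4, at_set, wd]
    split_ifs <;> simp_all

/-! ### The inner loop -/

variable (cm) in
/-- The elements with the same factor. -/
def row : PW J E := Prog.forr (Sum.inr .HZ) (Sum.inr .F3) (elt cm)

theorem row_spec (hcm : CmSpec cm T C) {S B Z : ℕ} (hB : 1 ≤ B) (hS : B < S) {c : ℕ × ℕ}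
    {a : ℕ → ℕ × ℕ} (hc : c.1 < 2 ^ S ∧ c.2 < 2 ^ S) (ha : ∀ z, (a z).1 < 2 ^ S)
    (ha' : ∀ z, (a z).2 < 2 ^ S) (hZ : 1 ≤ Z) {s : SW J E}
    (h : Ev s S B c) (hz : s.at .HZ = una Z) (f3 : s.at .F3 = []) :
    Tr (row cm) s s (cat Z fun z => bitsOf S (a z).1) (cat Z fun z => bitsOf S (a z).2)
      (cat Z fun z => bitsOf S (cmR S B (a z) c).1) (cat Z fun z => bitsOf S (cmR S B (a z) c).2)
      (Z * ((C + 48) * (S + T S))) := by
  have h1 := Tr.forr (u := .HZ) (t := .F3) (by decide) (by decide) (by decide)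
    (body := elt cm) (n := Z) (F := fun _ => s) (a := fun z => bitsOf S (a z).1)
    (b := fun z => bitsOf S (a z).2) (a' := fun z => bitsOf S (cmR S B (a z) c).1)
    (b' := fun z => bitsOf S (cmR S B (a z) c).2) (T := (C + 40) * (S + T S))
    (fun _ _ => hz) (fun _ _ => f3)
    (fun k _ l l' => elt_spec hcm hB hS hc ⟨ha k, ha' k⟩
      ((h.set (by decide) (by decide) l).set (by decide) (by decide) l'))
  refine h1.mono ?_
  have h3 : 1 ≤ S + T S := by omega
  have e9 : Z * ((C + 48) * (S + T S)) = Z * ((C + 40) * (S + T S)) + Z * (8 * (S + T S)) := by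
    ring
  rw [e9, Nat.mul_add, add_assoc]
  refine Nat.add_le_add_left ?_ _
  calc Z * 7 + 1 ≤ Z * 8 := by omega
    _ ≤ Z * (8 * (S + T S)) := Nat.mul_le_mul_left _ (by omega)

/-! ### The number one -/

/-- Put the number one on `a`, `b`. -/
def one2 (a b : W) : PW J E :=
  (Prog.fill (Sum.inr .WS) (sb false) (Sum.inr a) (Sum.inr .F4)).seq <|
  (Prog.forr (Sum.inr .WB) (Sum.inr .F4) (Prog.mov (Sum.inr a) (Sum.inr .T1))).seq <|
  (Prog.pop (Sum.inr a)).seq <|
  (Prog.push (Sum.inr a) (sb true)).seq <|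
  (Prog.rev (Sum.inr .T1) (Sum.inr a)).seq <|
  Prog.fill (Sum.inr .WS) (sb false) (Sum.inr b) (Sum.inr .F4)

theorem wd_one {S B : ℕ} (hS : B < S) : (wd S (2 ^ B) : List (SSym E)) =
    List.replicate B (sb false) ++ sb true :: List.replicate (S - B - 1) (sb false) := by
  have e1 : bitsOf S (2 ^ B) = List.replicate B false ++ (true ::
      List.replicate (S - B - 1) false) := by
    have : S = B + (1 + (S - B - 1)) := by omega
    conv_lhs => rw [this]
    rw [bitsOf_add, bitsOf_add]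
    congr 1
    · rw [← bitsOf_mod, Nat.mod_self, bitsOf_zero]
    · rw [Nat.div_self (by positivity), show 1 / 2 ^ 1 = 0 from rfl, bitsOf_zero]
      rfl
  unfold wd
  rw [e1]
  simp [bits]

theorem one2_spec {a b : W} (ha : a ∉ [W.WS, .WB, .F4, .T1]) (hb : b ∉ [W.WS, .WB, .F4, .T1])
    (hab : a ≠ b) {s : SW J E} {S B : ℕ} (hS : B < S) (ws : s.at .WS = una S)
    (wb : s.at .WB = una B) (f4 : s.at .F4 = []) (t1 : s.at .T1 = []) (ea : s.at a = [])
    (eb : s.at b = []) :
    Runs (one2 a b) s ((s.set a (wd S (2 ^ B))).set b (wd S 0)) (40 * S) := by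
  simp only [List.mem_cons, List.not_mem_nil, or_false, not_or] at ha hb
  obtain ⟨x1, x2, x3, x4⟩ := ha
  obtain ⟨z1, z2, z3, z4⟩ := hb
  have a1 := r_fill (J := J) (u := .WS) (b := a) (t := .F4) (Ne.symm x1) (by decide) x3
    (sb false) s S ws f4
  rw [ea, List.append_nil] at a1
  set s1 := s.set a (List.replicate S (sb false)) with e1
  have h1 : (List.replicate S (sb false) : List (SSym E)) = List.replicate B (sb false) ++
      List.replicate (S - B) (sb false) := by
    rw [← List.replicate_add]; congr 1; omega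
  have a2 := r_movs (J := J) (u := .WB) (t := .F4) (x := a) (o := .T1) (by decide) (Ne.symm x2)
    (by decide) (Ne.symm x3) (by decide) x4 s1 (List.replicate B (sb false))
    (List.replicate (S - B) (sb false)) B (by simp)
    (by rw [e1, at_set_ne _ (Ne.symm x2)]; exact wb)
    (by rw [e1, at_set_ne _ (Ne.symm x3)]; exact f4) (by rw [e1, at_set_self, h1])
  have t1' : s1.at .T1 = [] := by rw [e1, at_set_ne _ (Ne.symm x4)]; exact t1
  rw [t1', List.append_nil, List.reverse_replicate] at a2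
  set s2 := (s1.set a (List.replicate (S - B) (sb false))).set .T1
    (List.replicate B (sb false)) with e2
  have a3 := Runs.pop (Sum.inr a : Loc J ⊕ W) s2
  have k3 : s2 (Sum.inr a) = List.replicate (S - B) (sb false) := by
    have : s2.at a = List.replicate (S - B) (sb false) := by
      rw [e2, at_set_ne _ x4, at_set_self]
    exact this
  have h3 : (List.replicate (S - B) (sb false) : List (SSym E)).tail =
      List.replicate (S - B - 1) (sb false) := by simp
  rw [k3, h3] at a3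
  set s3 := s2.set a (List.replicate (S - B - 1) (sb false)) with e3
  have a4 := Runs.push (Sum.inr a : Loc J ⊕ W) (sb true) s3
  have k4 : s3 (Sum.inr a) = List.replicate (S - B - 1) (sb false) := at_set_self ..
  rw [k4] at a4
  set s4 := s3.set a (sb true :: List.replicate (S - B - 1) (sb false)) with e4
  have a5 := r_rev (J := J) (a := .T1) (b := a) (Ne.symm x4) s4
  have k5 : s4.at .T1 = List.replicate B (sb false) := by
    rw [e4, at_set_ne _ (Ne.symm x4), e3, at_set_ne _ (Ne.symm x4), e2, at_set_self]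
  have k5' : s4.at a = sb true :: List.replicate (S - B - 1) (sb false) := at_set_self ..
  rw [k5, k5', List.reverse_replicate, List.length_replicate, ← wd_one hS] at a5
  set s5 := (s4.set .T1 []).set a (wd S (2 ^ B)) with e5
  have a6 := r_fill (J := J) (u := .WS) (b := b) (t := .F4) (Ne.symm z1) (by decide) z3
    (sb false) s5 S
    (by rw [e5, at_set_ne _ (Ne.symm x1), at_set_ne _ (by decide), e4, at_set_ne _ (Ne.symm x1),
      e3, at_set_ne _ (Ne.symm x1), e2, at_set_ne _ (by decide), at_set_ne _ (Ne.symm x1), e1,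
      at_set_ne _ (Ne.symm x1)]; exact ws)
    (by rw [e5, at_set_ne _ (Ne.symm x3), at_set_ne _ (by decide), e4, at_set_ne _ (Ne.symm x3),
      e3, at_set_ne _ (Ne.symm x3), e2, at_set_ne _ (by decide), at_set_ne _ (Ne.symm x3), e1,
      at_set_ne _ (Ne.symm x3)]; exact f4)
  refine ((a1.seq (a2.seq (a3.seq (a4.seq (a5.seq a6))))).mono (by omega)).of_eq ?_
  refine sw_ext (fun j => by simp [s5, s4, s3, s2, s1]) fun r => ?_
  have k6 : (wd S 0 : List (SSym E)) = List.replicate S (sb false) := by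
    unfold wd; rw [bitsOf_zero]; simp [bits]
  rw [k6]
  clear a1 a2 a3 a4 a5 a6 k3 k4 k5 k5' k6 h1 h3 t1'
  simp only [s5, s4, s3, s2, s1, at_set]
  clear e5 e4 e3 e2 e1 s5 s4 s3 s2 s1
  split_ifs <;> simp_all

end Vale.Agent.P338.GS.Ps
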