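import Vale.Agent.P338.GS.PV

/-!
# P338, matrices of every shape: the transposition of words, the commands
-/

namespace Vale.Agent.P338.GS

open Vale.Agent.P338

variable {J E : Type}

/-- The parameters. -/
def cmP1 : List (GC E) :=
  [.scl 64 .LL .WS, .scl 20 .LL .WB, .cp .WB .WP, .cp .UU .WP, .cp .VV .WP, .pw2 .UU .HM,
    .pw2 .VV .HN]

/-- Before the first transform. -/
def cmP2 : List (GC E) :=
  [.cp .HX .Q1, .clr .HX, .mul .Q1 .HM .HX, .cp .HN .HR, .cp .VV .F1, .pop .F1]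

/-- Before the second step. -/
def cmP4 : List (GC E) :=
  [.clr .PR, .clr .PI, .clr .HX, .cp .Q1 .HX, .clr .HR, .cp .HM .HR, .cp .UU .F1, .cp .VV .F1,
    .pop .F1]

/-- Copy the root. -/
def cmP5 : List (GC E) := [.cp .PR .CR, .cp .PI .CI]

/-- Clear the copy. -/
def cmP6 : List (GC E) := [.clr .CR, .clr .CI]

/-- Before the second transform. -/
def cmP7 : List (GC E) :=
  [.clr .PR, .clr .PI, .cp .HZ .Q2, .clr .HZ, .mul .Q2 .HN .HZ, .cp .UU .F1, .pop .F1]

/-- Before the third transform. -/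
def cmP8 : List (GC E) :=
  [.clr .PR, .clr .PI, .clr .HZ, .cp .Q2 .HZ, .clr .HR, .mul .HM .HN .HR, .cp .UU .F1,
    .cp .VV .F1, .pop .F1]

/-- At the end. -/
def cmP9 : List (GC E) :=
  [.clr .PR, .clr .PI, .clr .Q1, .clr .Q2, .clr .HR, .clr .HM, .clr .HN, .clr .WS, .clr .WB,
    .clr .WP]

variable [DecidableEq J]

/-- What is assumed about the store. -/
structure Ctx (s : SW J E) (u v ℓ : ℕ) : Prop where
  cl : Cln0 s
  em : ∀ r ∈ wsc, s.at r = []
  hu : s.at .UU = una u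
  hv : s.at .VV = una v
  hl : s.at .LL = una ℓ

section

variable {s : SW J E} {u v ℓ : ℕ}

theorem cmP1_runs (c : Ctx s u v ℓ) (x hx hz : List (SSym E)) :
    Runs (gcs cmP1 : PW J E) ((pv0 x hx hz).st s)
      (({ pv0 x hx hz with
          ws := una (64 * ℓ), wb := una (20 * ℓ)
          wp := una (20 * ℓ + (u + v)), hm := una (2 ^ u), hn := una (2 ^ v) } : PV E).st s)
      (400 * ℓ + 6 * u + 6 * v + 40 * 2 ^ u + 40 * 2 ^ v + 20) := by
  have k4 : ∀ p : PV E, (p.st s).at .F4 = [] := fun _ => c.em .F4 (by decide)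
  have k5 : ∀ p : PV E, (p.st s).at .F5 = [] := fun _ => c.em .F5 (by decide)
  have k6 : ∀ p : PV E, (p.st s).at .F6 = [] := fun _ => c.em .F6 (by decide)
  have ku : ∀ p : PV E, (p.st s).at .UU = una u := fun _ => c.hu
  have kv : ∀ p : PV E, (p.st s).at .VV = una v := fun _ => c.hv
  have kl : ∀ p : PV E, (p.st s).at .LL = una ℓ := fun _ => c.hl
  have h := gcs_spec (cmP1 : List (GC E)) ((pv0 x hx hz).st s) (by
    simp [cmP1, goks, GC.ok, GC.eff, k4, k5, k6, ku, kv, kl, pv0])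
  refine (h.mono ?_).of_eq ?_
  · simp only [cmP1, gcosts, GC.cost, GC.eff, ku, kv, kl, pv0, PV.set_WS, PV.set_WB, PV.set_WP,
      PV.set_HM, PV.at_WS, PV.at_WB, PV.at_WP, len_una, una_app, List.append_nil]
    omega
  · simp only [cmP1, geffs, GC.eff, ku, kv, kl, pv0, PV.set_WS, PV.set_WB, PV.set_WP,
      PV.set_HM, PV.set_HN, PV.at_WS, PV.at_WB, PV.at_WP, len_una, una_app, List.append_nil]
    congr 2
    · rw [Nat.mul_comm]
    · rw [Nat.mul_comm]
    · congr 1; omega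

theorem cmP2_runs (c : Ctx s u v ℓ) (p : PV E) (X M N : ℕ) (h1 : p.hx = una X)
    (h2 : p.hm = una M) (h3 : p.hn = una N) (h4 : p.hr = []) (h5 : p.f1 = [])
    (h6 : p.q1 = []) :
    Runs (gcs cmP2 : PW J E) (p.st s)
      (({ p with q1 := una X, hx := una (X * M), hr := una N, f1 := una (v - 1) } : PV E).st s)
      (9 * X + X * (M * 10 + 8) + 6 * N + 6 * v + 20) := by
  have k5 : ∀ p : PV E, (p.st s).at .F5 = [] := fun _ => c.em .F5 (by decide)
  have k6 : ∀ p : PV E, (p.st s).at .F6 = [] := fun _ => c.em .F6 (by decide)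
  have kv : ∀ p : PV E, (p.st s).at .VV = una v := fun _ => c.hv
  obtain ⟨xr, xi, hx, hr, hz, hm, hn, ws, wb, wp, pr, pi, f1, q1, q2, cr, ci⟩ := p
  simp only at h1 h2 h3 h4 h5 h6
  subst h1 h2 h3 h4 h5 h6
  have h := gcs_spec (cmP2 : List (GC E)) ((⟨xr, xi, una X, [], hz, una M, una N, ws, wb, wp,
    pr, pi, [], [], q2, cr, ci⟩ : PV E).st s) (by
    simp [cmP2, goks, GC.ok, GC.eff, k5, k6, kv])
  refine (h.mono ?_).of_eq ?_
  · simp only [cmP2, gcosts, GC.cost, GC.eff, kv, PV.set_Q1, PV.set_HX, PV.set_HR,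
      PV.set_F1, PV.at_HX, PV.at_Q1, PV.at_HM, PV.at_HN, PV.at_HR, PV.at_F1, len_una,
      List.append_nil]
    omega
  · simp only [cmP2, geffs, GC.eff, kv, PV.set_Q1, PV.set_HX, PV.set_HR,
      PV.set_F1, PV.at_HX, PV.at_Q1, PV.at_HM, PV.at_HN, PV.at_HR, PV.at_F1, len_una,
      List.append_nil, tail_una']

theorem cmP4_runs (c : Ctx s u v ℓ) (p : PV E) (X M : ℕ) (h1 : p.q1 = una X)
    (h2 : p.hm = una M) (h3 : p.f1 = []) :
    Runs (gcs cmP4 : PW J E) (p.st s)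
      (({ p with
          pr := [], pi := [], hx := una X, hr := una M, f1 := una (u + v - 1) } : PV E).st s)
      (3 * p.pr.length + 3 * p.pi.length + 3 * p.hx.length + 3 * p.hr.length + 6 * X +
        6 * M + 6 * u + 6 * v + 30) := by
  have k5 : ∀ p : PV E, (p.st s).at .F5 = [] := fun _ => c.em .F5 (by decide)
  have ku : ∀ p : PV E, (p.st s).at .UU = una u := fun _ => c.hu
  have kv : ∀ p : PV E, (p.st s).at .VV = una v := fun _ => c.hv
  obtain ⟨xr, xi, hx, hr, hz, hm, hn, ws, wb, wp, pr, pi, f1, q1, q2, cr, ci⟩ := p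
  simp only at h1 h2 h3
  subst h1 h2 h3
  have h := gcs_spec (cmP4 : List (GC E)) ((⟨xr, xi, hx, hr, hz, una M, hn, ws, wb, wp,
    pr, pi, [], una X, q2, cr, ci⟩ : PV E).st s) (by
    simp [cmP4, goks, GC.ok, GC.eff, k5])
  refine (h.mono ?_).of_eq ?_
  · simp only [cmP4, gcosts, GC.cost, GC.eff, ku, kv, PV.set_PR, PV.set_PI, PV.set_HX,
      PV.set_HR, PV.set_F1, PV.at_PR, PV.at_PI, PV.at_HX, PV.at_Q1, PV.at_HM, PV.at_HR,
      PV.at_F1, len_una, List.append_nil]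
    omega
  · simp only [cmP4, geffs, GC.eff, ku, kv, PV.set_PR, PV.set_PI, PV.set_HX, PV.set_HR,
      PV.set_F1, PV.at_HX, PV.at_Q1, PV.at_HM, PV.at_HR, PV.at_F1, una_app,
      List.append_nil, tail_una']
    congr 2
    congr 1
    omega

theorem cmP5_runs (c : Ctx s u v ℓ) (p : PV E) (h1 : p.cr = []) (h2 : p.ci = []) :
    Runs (gcs cmP5 : PW J E) (p.st s) (({ p with cr := p.pr, ci := p.pi } : PV E).st s)
      (6 * p.pr.length + 6 * p.pi.length + 10) := by
  have k5 : ∀ p : PV E, (p.st s).at .F5 = [] := fun _ => c.em .F5 (by decide)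
  obtain ⟨xr, xi, hx, hr, hz, hm, hn, ws, wb, wp, pr, pi, f1, q1, q2, cr, ci⟩ := p
  simp only at h1 h2
  subst h1 h2
  have h := gcs_spec (cmP5 : List (GC E)) ((⟨xr, xi, hx, hr, hz, hm, hn, ws, wb, wp,
    pr, pi, f1, q1, q2, [], []⟩ : PV E).st s) (by
    simp [cmP5, goks, GC.ok, GC.eff, k5])
  refine (h.mono ?_).of_eq ?_
  · simp only [cmP5, gcosts, GC.cost, GC.eff, PV.set_CR, PV.at_PR, PV.at_PI]
    omega
  · simp only [cmP5, geffs, GC.eff, PV.set_CR, PV.set_CI, PV.at_PR, PV.at_PI, PV.at_CR,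
      PV.at_CI, List.append_nil]

omit [DecidableEq J] in
theorem len_wd (S v : ℕ) : (wd S v : List (SSym E)).length = S := by
  simp [wd, bits]

theorem cmP6_runs (p : PV E) (s : SW J E) :
    Runs (gcs cmP6 : PW J E) (p.st s) (({ p with cr := [], ci := [] } : PV E).st s)
      (3 * p.cr.length + 3 * p.ci.length + 10) := by
  have h := gcs_spec (cmP6 : List (GC E)) (p.st s) (by
    simp [cmP6, goks, GC.ok])
  refine (h.mono ?_).of_eq ?_
  · simp only [cmP6, gcosts, GC.cost, GC.eff, PV.set_CR, PV.at_CR, PV.at_CI]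
    omega
  · simp only [cmP6, geffs, GC.eff, PV.set_CR, PV.set_CI]

theorem cmP7_runs (c : Ctx s u v ℓ) (p : PV E) (Z N : ℕ) (h1 : p.hz = una Z)
    (h2 : p.hn = una N) (h3 : p.f1 = []) (h4 : p.q2 = []) :
    Runs (gcs cmP7 : PW J E) (p.st s)
      (({ p with
          pr := [], pi := [], q2 := una Z, hz := una (N * Z), f1 := una (u - 1) } : PV E).st s)
      (3 * p.pr.length + 3 * p.pi.length + 9 * Z + Z * (N * 10 + 8) + 6 * u + 30) := by
  have k5 : ∀ p : PV E, (p.st s).at .F5 = [] := fun _ => c.em .F5 (by decide)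
  have k6 : ∀ p : PV E, (p.st s).at .F6 = [] := fun _ => c.em .F6 (by decide)
  have ku : ∀ p : PV E, (p.st s).at .UU = una u := fun _ => c.hu
  obtain ⟨xr, xi, hx, hr, hz, hm, hn, ws, wb, wp, pr, pi, f1, q1, q2, cr, ci⟩ := p
  simp only at h1 h2 h3 h4
  subst h1 h2 h3 h4
  have h := gcs_spec (cmP7 : List (GC E)) ((⟨xr, xi, hx, hr, una Z, hm, una N, ws, wb, wp,
    pr, pi, [], q1, [], cr, ci⟩ : PV E).st s) (by
    simp [cmP7, goks, GC.ok, GC.eff, k5, k6])
  refine (h.mono ?_).of_eq ?_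
  · simp only [cmP7, gcosts, GC.cost, GC.eff, ku, PV.set_PR, PV.set_PI, PV.set_HZ,
      PV.set_Q2, PV.set_F1, PV.at_PR, PV.at_PI, PV.at_HZ, PV.at_Q2, PV.at_HN,
      PV.at_F1, len_una, List.append_nil]
    omega
  · simp only [cmP7, geffs, GC.eff, ku, PV.set_PR, PV.set_PI, PV.set_HZ,
      PV.set_Q2, PV.set_F1, PV.at_HZ, PV.at_Q2, PV.at_HN,
      PV.at_F1, len_una, List.append_nil, tail_una', Nat.mul_comm]

theorem cmP8_runs (c : Ctx s u v ℓ) (p : PV E) (Z M N : ℕ) (h1 : p.q2 = una Z)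
    (h2 : p.hn = una N) (h3 : p.f1 = []) (h4 : p.hm = una M) :
    Runs (gcs cmP8 : PW J E) (p.st s)
      (({ p with
          pr := [], pi := [], hz := una Z, hr := una (M * N)
          f1 := una (u + v - 1) } : PV E).st s)
      (3 * p.pr.length + 3 * p.pi.length + 3 * p.hz.length + 3 * p.hr.length + 6 * Z +
        M * (N * 10 + 8) + 6 * u + 6 * v + 30) := by
  have k5 : ∀ p : PV E, (p.st s).at .F5 = [] := fun _ => c.em .F5 (by decide)
  have k6 : ∀ p : PV E, (p.st s).at .F6 = [] := fun _ => c.em .F6 (by decide)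
  have ku : ∀ p : PV E, (p.st s).at .UU = una u := fun _ => c.hu
  have kv : ∀ p : PV E, (p.st s).at .VV = una v := fun _ => c.hv
  obtain ⟨xr, xi, hx, hr, hz, hm, hn, ws, wb, wp, pr, pi, f1, q1, q2, cr, ci⟩ := p
  simp only at h1 h2 h3 h4
  subst h1 h2 h3 h4
  have h := gcs_spec (cmP8 : List (GC E)) ((⟨xr, xi, hx, hr, hz, una M, una N, ws, wb, wp,
    pr, pi, [], q1, una Z, cr, ci⟩ : PV E).st s) (by
    simp [cmP8, goks, GC.ok, GC.eff, k5, k6])
  refine (h.mono ?_).of_eq ?_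
  · simp only [cmP8, gcosts, GC.cost, GC.eff, ku, kv, PV.set_PR, PV.set_PI, PV.set_HZ,
      PV.set_HR, PV.set_F1, PV.at_PR, PV.at_PI, PV.at_HZ, PV.at_Q2, PV.at_HN, PV.at_HR,
      PV.at_HM, PV.at_F1, len_una, List.append_nil]
    omega
  · simp only [cmP8, geffs, GC.eff, ku, kv, PV.set_PR, PV.set_PI, PV.set_HZ,
      PV.set_HR, PV.set_F1, PV.at_Q2, PV.at_HN, PV.at_HR, PV.at_HZ,
      PV.at_HM, PV.at_F1, len_una, List.append_nil, tail_una', una_app]
    congr 2
    congr 1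
    omega

theorem cmP9_runs (p : PV E) (s : SW J E) :
    Runs (gcs cmP9 : PW J E) (p.st s)
      (({ p with
          pr := [], pi := [], q1 := [], q2 := [], hr := [], hm := [], hn := []
          ws := [], wb := [], wp := [] } : PV E).st s)
      (3 * p.pr.length + 3 * p.pi.length + 3 * p.q1.length + 3 * p.q2.length +
        3 * p.hr.length + 3 * p.hm.length + 3 * p.hn.length + 3 * p.ws.length +
        3 * p.wb.length + 3 * p.wp.length + 30) := by
  have h := gcs_spec (cmP9 : List (GC E)) (p.st s) (by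
    simp [cmP9, goks, GC.ok])
  refine (h.mono ?_).of_eq ?_
  · simp only [cmP9, gcosts, GC.cost, GC.eff, PV.set_PR, PV.set_PI, PV.set_Q1, PV.set_Q2,
      PV.set_HR, PV.set_HM, PV.set_HN, PV.set_WS, PV.set_WB, PV.at_PR, PV.at_PI, PV.at_Q1,
      PV.at_Q2, PV.at_HR, PV.at_HM, PV.at_HN, PV.at_WS, PV.at_WB, PV.at_WP]
    omega
  · simp only [cmP9, geffs, GC.eff, PV.set_PR, PV.set_PI, PV.set_Q1, PV.set_Q2,
      PV.set_HR, PV.set_HM, PV.set_HN, PV.set_WS, PV.set_WB, PV.set_WP]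

end

end Vale.Agent.P338.GS
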