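import Vale.Agent.P338.GS.PermMain

/-!
# P338, matrices of every shape: the transposition of words, assembly
-/

namespace Vale.Agent.P338.GS

open Vale.Agent.P338

variable {J E : Type} [DecidableEq J]

/-- First part: up to the first transform. -/
def permA (cin root cj dftp : PW J E) : PW J E :=
  (gcs cmP1).seq (cin.seq ((gcs cmP2).seq (root.seq (cj.seq dftp))))

/-- Second part: the second step. -/
def permB (root cj tw : PW J E) (cm : W → W → W → W → PW J E) : PW J E :=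
  (gcs cmP4).seq (root.seq (cj.seq ((gcs cmP5).seq ((cm .PR .PI .CR .CI).seq
    ((gcs cmP6).seq tw)))))

/-- Third part: the second transform. -/
def permC (root cj dftp : PW J E) : PW J E :=
  (gcs cmP7).seq (root.seq (cj.seq dftp))

/-- Fourth part: the third transform and the end. -/
def permD (root dftp out : PW J E) : PW J E :=
  (gcs cmP8).seq (root.seq (dftp.seq (out.seq (gcs cmP9))))

/-- The transposition of words. -/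
def permP (cin root cj dftp tw out : PW J E) (cm : W → W → W → W → PW J E) : PW J E :=
  (permA cin root cj dftp).seq ((permB root cj tw cm).seq
    ((permC root cj dftp).seq (permD root dftp out)))

/-- The time, up to a constant. -/
def pT (Tb Tt : ℕ → ℕ) (X u v Z ℓ m : ℕ) : ℕ :=
  m + Tb m + (X * 2 ^ u * 2 ^ v * Z + ℓ ^ 2) * (64 * ℓ + Tt (64 * ℓ))

/-- Bounds by the time. -/
structure PTB (Tb Tt : ℕ → ℕ) (X u v Z ℓ m : ℕ) (T : ℕ) : Prop where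
  hd : m + Tb m + X * 2 ^ u * 2 ^ v * Z * (64 * ℓ + Tt (64 * ℓ)) ≤ T
  hq : X * 2 ^ u * 2 ^ v * Z * (64 * ℓ + Tt (64 * ℓ)) ≤ T
  hr : ∀ k, k + 1 ≤ ℓ → (k + 1) * (20 * ℓ) * (64 * ℓ + Tt (64 * ℓ)) ≤ 20 * T
  hs : 64 * ℓ + Tt (64 * ℓ) ≤ T
  hl : 64 * ℓ ≤ T
  h1 : 1 ≤ T
  hQ : X * 2 ^ u * 2 ^ v * Z ≤ T

section

variable {s : SW J E} {X u v Z t ℓ m : ℕ}

omit [DecidableEq J] in
theorem PN.ptb (h : PN X u v Z t ℓ m) (Tb Tt : ℕ → ℕ) :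
    PTB Tb Tt X u v Z ℓ m (pT Tb Tt X u v Z ℓ m) := by
  have hl : 2 ≤ ℓ := by have := h.hu; have := h.hv; have := h.huv; omega
  have hQ1 : 1 ≤ X * 2 ^ u * 2 ^ v * Z := Nat.succ_le_of_lt (Nat.mul_pos (Nat.mul_pos
    (Nat.mul_pos h.hX (by positivity)) (by positivity)) h.hZ)
  unfold pT
  have e : (X * 2 ^ u * 2 ^ v * Z + ℓ ^ 2) * (64 * ℓ + Tt (64 * ℓ)) =
    X * 2 ^ u * 2 ^ v * Z * (64 * ℓ + Tt (64 * ℓ)) + ℓ ^ 2 * (64 * ℓ + Tt (64 * ℓ)) := by ring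
  have g1 : 64 * ℓ + Tt (64 * ℓ) ≤ X * 2 ^ u * 2 ^ v * Z * (64 * ℓ + Tt (64 * ℓ)) :=
    Nat.le_mul_of_pos_left _ hQ1
  have g2 : X * 2 ^ u * 2 ^ v * Z ≤ X * 2 ^ u * 2 ^ v * Z * (64 * ℓ + Tt (64 * ℓ)) :=
    Nat.le_mul_of_pos_right _ (by omega)
  rw [e]
  refine ⟨by omega, by omega, ?_, by omega, by omega, by omega, by omega⟩
  intro k hk
  have g3 : (k + 1) * (20 * ℓ) * (64 * ℓ + Tt (64 * ℓ)) ≤
    ℓ * (20 * ℓ) * (64 * ℓ + Tt (64 * ℓ)) :=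
    Nat.mul_le_mul_right _ (Nat.mul_le_mul_right _ hk)
  have g4 : ℓ * (20 * ℓ) * (64 * ℓ + Tt (64 * ℓ)) =
    20 * (ℓ ^ 2 * (64 * ℓ + Tt (64 * ℓ))) := by ring
  omega

omit [DecidableEq J] in
/-- Products of some of the factors. -/
theorem PN.fac (h : PN X u v Z t ℓ m) :
    2 ^ u ≤ X * 2 ^ u * 2 ^ v * Z ∧ 2 ^ v ≤ X * 2 ^ u * 2 ^ v * Z ∧
    X ≤ X * 2 ^ u * 2 ^ v * Z ∧ Z ≤ X * 2 ^ u * 2 ^ v * Z ∧
    X * 2 ^ u ≤ X * 2 ^ u * 2 ^ v * Z ∧ 2 ^ u * 2 ^ v ≤ X * 2 ^ u * 2 ^ v * Z ∧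
    2 ^ v * Z ≤ X * 2 ^ u * 2 ^ v * Z := by
  have hX := h.hX
  have hZ := h.hZ
  have a1 : 1 ≤ 2 ^ u := Nat.one_le_two_pow
  have a2 : 1 ≤ 2 ^ v := Nat.one_le_two_pow
  have b1 : X * 2 ^ u ≤ X * 2 ^ u * 2 ^ v * Z := by
    calc X * 2 ^ u = X * 2 ^ u * 1 * 1 := by ring
      _ ≤ X * 2 ^ u * 2 ^ v * Z := Nat.mul_le_mul (Nat.mul_le_mul_left _ a2) hZ
  have b2 : 2 ^ u * 2 ^ v ≤ X * 2 ^ u * 2 ^ v * Z := by
    calc 2 ^ u * 2 ^ v = 1 * 2 ^ u * 2 ^ v * 1 := by ring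
      _ ≤ X * 2 ^ u * 2 ^ v * Z := Nat.mul_le_mul (Nat.mul_le_mul_right _
        (Nat.mul_le_mul_right _ hX)) hZ
  have b3 : 2 ^ v * Z ≤ X * 2 ^ u * 2 ^ v * Z := by
    calc 2 ^ v * Z = 1 * 1 * 2 ^ v * Z := by ring
      _ ≤ X * 2 ^ u * 2 ^ v * Z := Nat.mul_le_mul_right _ (Nat.mul_le_mul_right _
        (Nat.mul_le_mul hX a1))
  have c1 : 2 ^ u ≤ X * 2 ^ u := Nat.le_mul_of_pos_left _ hX
  have c2 : X ≤ X * 2 ^ u := Nat.le_mul_of_pos_right _ (by positivity)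
  have c3 : 2 ^ v ≤ 2 ^ v * Z := Nat.le_mul_of_pos_right _ hZ
  have c4 : Z ≤ 2 ^ v * Z := Nat.le_mul_of_pos_left _ (by positivity)
  exact ⟨c1.trans b1, c3.trans b3, c2.trans b1, c4.trans b3, b1, b2, b3⟩

/-- First part. -/
theorem permA_runs {cin root cj dftp : PW J E} {Tb Tt : ℕ → ℕ} {C₁ C₂ C₃ C₄ : ℕ}
    (hin : InSpec cin C₁) (hroot : RootSpec root Tt C₂) (hcj : CjSpec cj C₃)
    (hd : DftSpec dftp Tb Tt C₄) (c : Ctx s u v ℓ) (hn : PN X u v Z t ℓ m)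
    (hMM : s.at .MM = una m) (hWT : s.at .WT = una t) (e : ℕ → ℕ → ℕ → ℕ → ℕ)
    (he : ∀ x i j z, e x i j z < 2 ^ t) :
    Runs (permA cin root cj dftp)
      ((pv0 (bits (arr4 X (2 ^ u) (2 ^ v) Z t e)) (una X) (una Z)).st s)
      ((PS (2 ^ u) (2 ^ v) (64 * ℓ) (20 * ℓ) (u + v)
        (bits (arr4 X (2 ^ u) (2 ^ v) Z (64 * ℓ) fun x i j z =>
          (st1 (64 * ℓ) (20 * ℓ) v (fun i j => e x i j z) i j).1))
        (bits (arr4 X (2 ^ u) (2 ^ v) Z (64 * ℓ) fun x i j z =>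
          (st1 (64 * ℓ) (20 * ℓ) v (fun i j => e x i j z) i j).2))
        (una (X * 2 ^ u)) (una (2 ^ v)) (una Z)
        (wd (64 * ℓ) (cjR (64 * ℓ) (rt (20 * ℓ) (v - 1))).1)
        (wd (64 * ℓ) (cjR (64 * ℓ) (rt (20 * ℓ) (v - 1))).2) (una X) []).st s)
      ((2 * C₁ + 20 * C₂ + C₃ + C₄ + 1000) * pT Tb Tt X u v Z ℓ m) := by
  have hl : 2 ≤ ℓ := by have := hn.hu; have := hn.hv; have := hn.huv; omega
  have htl := hn.htl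
  have ht := hn.ht
  -- parameters
  have a1 := cmP1_runs c (bits (arr4 X (2 ^ u) (2 ^ v) Z t e)) (una X) (una Z)
  -- first pass
  set p1 : PV E := { pv0 (bits (arr4 X (2 ^ u) (2 ^ v) Z t e)) (una X) (una Z) with
      ws := una (64 * ℓ), wb := una (20 * ℓ)
      wp := una (20 * ℓ + (u + v)), hm := una (2 ^ u), hn := una (2 ^ v) } with hp1
  have a2 := hin (X * 2 ^ u * 2 ^ v * Z) t (64 * ℓ) (20 * ℓ)
    (fun k => e (k / Z / 2 ^ v / 2 ^ u) (k / Z / 2 ^ v % 2 ^ u) (k / Z % 2 ^ v) (k % Z))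
    (p1.st s) ht (by omega) (PV.cln c.cl c.em p1 rfl rfl rfl) rfl rfl hWT rfl
    (fun _ => he _ _ _ _) (by rw [← arr4_flat]; rfl)
  rw [← arr4_flat X (2 ^ u) (2 ^ v) Z (64 * ℓ) fun x i j z => e x i j z * 2 ^ (20 * ℓ),
    ← arr4_flat X (2 ^ u) (2 ^ v) Z (64 * ℓ) fun _ _ _ _ => 0] at a2
  set p2 : PV E := PS (2 ^ u) (2 ^ v) (64 * ℓ) (20 * ℓ) (u + v)
    (bits (arr4 X (2 ^ u) (2 ^ v) Z (64 * ℓ) fun x i j z => e x i j z * 2 ^ (20 * ℓ)))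
    (bits (arr4 X (2 ^ u) (2 ^ v) Z (64 * ℓ) fun _ _ _ _ => 0))
    (una X) [] (una Z) [] [] [] [] with hp2
  have e2 : ((p1.st s).set .XR (bits (arr4 X (2 ^ u) (2 ^ v) Z (64 * ℓ) fun x i j z =>
      e x i j z * 2 ^ (20 * ℓ)))).set .XI (bits (arr4 X (2 ^ u) (2 ^ v) Z (64 * ℓ)
      fun _ _ _ _ => 0)) = p2.st s := by
    rw [PV.set_XR, PV.set_XI]; rfl
  rw [e2] at a2
  -- the numbers of the first transform
  have a3 := cmP2_runs c p2 X (2 ^ u) (2 ^ v) rfl rfl rfl rfl rfl rfl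
  -- the root
  have a4 := root_pv hroot c (by omega : 1 ≤ ℓ) ({ p2 with
    q1 := una X, hx := una (X * 2 ^ u), hr := una (2 ^ v), f1 := una (v - 1) } : PV E)
    (v - 1) rfl rfl rfl rfl rfl
  have a5 := cj_pv hcj c (by omega : 1 ≤ ℓ) ({ p2 with
      q1 := una X, hx := una (X * 2 ^ u), hr := una (2 ^ v), f1 := []
      pr := wd (64 * ℓ) (rt (20 * ℓ) (v - 1)).1
      pi := wd (64 * ℓ) (rt (20 * ℓ) (v - 1)).2 } : PV E)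
    (rt (20 * ℓ) (v - 1)).2 rfl (rt_lt (by omega) _).2 rfl
  -- the transform
  have b1 : ∀ x i j z, e x i j z * 2 ^ (20 * ℓ) < 2 ^ (64 * ℓ) := by
    intro x i j z
    calc e x i j z * 2 ^ (20 * ℓ) < 2 ^ t * 2 ^ (20 * ℓ) :=
          Nat.mul_lt_mul_of_pos_right (he x i j z) (by positivity)
      _ = 2 ^ (t + 20 * ℓ) := by rw [pow_add]
      _ ≤ 2 ^ (64 * ℓ) := Nat.pow_le_pow_right (by norm_num) (by omega)
  have a6 := dft1_pv hd c hn hMM (fun x i j z => ((e x i j z * 2 ^ (20 * ℓ), 0) : ℕ × ℕ))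
    b1 (fun _ _ _ _ => by positivity) (cjR (64 * ℓ) (rt (20 * ℓ) (v - 1)))
    (rt_lt (by omega) _).1 (sbR_lt ..) (u + v) (una X) []
  refine (a1.seq (a2.seq (a3.seq (a4.seq (a5.seq a6))))).mono ?_
  obtain ⟨g1, g2, g3, g4, g5, g6, g7⟩ := hn.ptb Tb Tt
  obtain ⟨f1, f2, f3, f4, f5, f6, f7⟩ := hn.fac
  set T := pT Tb Tt X u v Z ℓ m
  have k1 : C₁ * (X * 2 ^ u * 2 ^ v * Z * (64 * ℓ) + 1) ≤ C₁ * (2 * T) := by
    refine Nat.mul_le_mul_left _ ?_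
    have : X * 2 ^ u * 2 ^ v * Z * (64 * ℓ) ≤
      X * 2 ^ u * 2 ^ v * Z * (64 * ℓ + Tt (64 * ℓ)) := Nat.mul_le_mul_left _ (by omega)
    omega
  have k2 : C₂ * ((v - 1 + 1) * (20 * ℓ) * (64 * ℓ + Tt (64 * ℓ))) ≤ C₂ * (20 * T) :=
    Nat.mul_le_mul_left _ (g3 _ (by have := hn.huv; have := hn.hu; omega))
  have k3 : C₃ * (64 * ℓ) ≤ C₃ * T := Nat.mul_le_mul_left _ g5
  have k4 : C₄ * (m + Tb m + X * 2 ^ u * 2 ^ v * Z * (64 * ℓ + Tt (64 * ℓ))) ≤ C₄ * T :=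
    Nat.mul_le_mul_left _ g1
  have k5 : X * (2 ^ u * 10 + 8) = 10 * (X * 2 ^ u) + 8 * X := by ring
  have k6 : (2 * C₁ + 20 * C₂ + C₃ + C₄ + 1000) * T =
    C₁ * (2 * T) + C₂ * (20 * T) + C₃ * T + C₄ * T + 1000 * T := by ring
  have hu := hn.hu
  have hv := hn.hv
  have huv := hn.huv
  rw [k5, k6]
  omega

/-- Second part. -/
theorem permB_runs {root cj tw : PW J E} {cm : W → W → W → W → PW J E} {Tb Tt : ℕ → ℕ}
    {C₂ C₃ C₅ C₆ : ℕ} (hroot : RootSpec root Tt C₂) (hcj : CjSpec cj C₃)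
    (hcm : CmSpec cm Tt C₅) (htw : TwSpec tw Tt C₆) (c : Ctx s u v ℓ)
    (hn : PN X u v Z t ℓ m) (a : ℕ → ℕ → ℕ → ℕ → ℕ × ℕ)
    (h1 : ∀ x i j z, (a x i j z).1 < 2 ^ (64 * ℓ))
    (h2 : ∀ x i j z, (a x i j z).2 < 2 ^ (64 * ℓ)) (y1 y2 : ℕ) :
    Runs (permB root cj tw cm)
      ((PS (2 ^ u) (2 ^ v) (64 * ℓ) (20 * ℓ) (u + v)
        (bits (arr4 X (2 ^ u) (2 ^ v) Z (64 * ℓ) fun x i j z => (a x i j z).1))
        (bits (arr4 X (2 ^ u) (2 ^ v) Z (64 * ℓ) fun x i j z => (a x i j z).2))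
        (una (X * 2 ^ u)) (una (2 ^ v)) (una Z) (wd (64 * ℓ) y1) (wd (64 * ℓ) y2)
        (una X) []).st s)
      ((PS (2 ^ u) (2 ^ v) (64 * ℓ) (20 * ℓ) (u + v)
        (bits (arr4 X (2 ^ u) (2 ^ v) Z (64 * ℓ) fun x i j z =>
          (cmR (64 * ℓ) (20 * ℓ) (a x i j z)
            (GS.tw (64 * ℓ) (20 * ℓ) (gm (64 * ℓ) (20 * ℓ) u v) i j)).1))
        (bits (arr4 X (2 ^ u) (2 ^ v) Z (64 * ℓ) fun x i j z =>
          (cmR (64 * ℓ) (20 * ℓ) (a x i j z)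
            (GS.tw (64 * ℓ) (20 * ℓ) (gm (64 * ℓ) (20 * ℓ) u v) i j)).2))
        (una X) (una (2 ^ u)) (una Z) (wd (64 * ℓ) (gm (64 * ℓ) (20 * ℓ) u v).1)
        (wd (64 * ℓ) (gm (64 * ℓ) (20 * ℓ) u v).2) (una X) []).st s)
      ((20 * C₂ + C₃ + C₅ + C₆ + 1000) * pT Tb Tt X u v Z ℓ m) := by
  have hl : 2 ≤ ℓ := by have := hn.hu; have := hn.hv; have := hn.huv; omega
  set XR : List (SSym E) :=
    bits (arr4 X (2 ^ u) (2 ^ v) Z (64 * ℓ) fun x i j z => (a x i j z).1) with hXR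
  set XI : List (SSym E) :=
    bits (arr4 X (2 ^ u) (2 ^ v) Z (64 * ℓ) fun x i j z => (a x i j z).2) with hXI
  set p0 : PV E := PS (2 ^ u) (2 ^ v) (64 * ℓ) (20 * ℓ) (u + v) XR XI
    (una (X * 2 ^ u)) (una (2 ^ v)) (una Z) (wd (64 * ℓ) y1) (wd (64 * ℓ) y2)
        (una X) [] with hp0
  have a1 := cmP4_runs c p0 X (2 ^ u) rfl rfl rfl
  have a2 := root_pv hroot c (by omega : 1 ≤ ℓ) ({ p0 with
      pr := [], pi := [], hx := una X, hr := una (2 ^ u), f1 := una (u + v - 1) } : PV E)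
    (u + v - 1) rfl rfl rfl rfl rfl
  set ρ : ℕ × ℕ := rt (20 * ℓ) (u + v - 1) with hρ
  have a3 := cj_pv hcj c (by omega : 1 ≤ ℓ) ({ p0 with
      hx := una X, hr := una (2 ^ u), f1 := []
      pr := wd (64 * ℓ) ρ.1, pi := wd (64 * ℓ) ρ.2 } : PV E)
    ρ.2 rfl (rt_lt (by omega) _).2 rfl
  have a4 := cmP5_runs c ({ p0 with
      hx := una X, hr := una (2 ^ u), f1 := []
      pr := wd (64 * ℓ) ρ.1, pi := wd (64 * ℓ) (sbR (64 * ℓ) 0 ρ.2) } : PV E) rfl rfl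
  have a5 := hcm (64 * ℓ) (20 * ℓ) (cjR (64 * ℓ) ρ) (cjR (64 * ℓ) ρ) .PR .PI .CR .CI
    (({ p0 with
      hx := una X, hr := una (2 ^ u), f1 := []
      pr := wd (64 * ℓ) ρ.1, pi := wd (64 * ℓ) (sbR (64 * ℓ) 0 ρ.2)
      cr := wd (64 * ℓ) ρ.1, ci := wd (64 * ℓ) (sbR (64 * ℓ) 0 ρ.2) } : PV E).st s)
    (by omega) (by omega) (PV.cln0 c.cl _) (by decide) (by decide)
    (rt_lt (by omega) _).1 (sbR_lt ..) (rt_lt (by omega) _).1 (sbR_lt ..)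
    rfl rfl rfl rfl rfl rfl
  rw [PV.set_PR, PV.set_PI] at a5
  have a6 := cmP6_runs ({ p0 with
      hx := una X, hr := una (2 ^ u), f1 := []
      pr := wd (64 * ℓ) (gm (64 * ℓ) (20 * ℓ) u v).1
      pi := wd (64 * ℓ) (gm (64 * ℓ) (20 * ℓ) u v).2
      cr := wd (64 * ℓ) ρ.1, ci := wd (64 * ℓ) (sbR (64 * ℓ) 0 ρ.2) } : PV E) s
  have hu2 : 2 ^ u ≤ 2 ^ ℓ := Nat.pow_le_pow_right (by norm_num) (by
    have := hn.huv; omega)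
  have hg : (gm (64 * ℓ) (20 * ℓ) u v).1 < 2 ^ (64 * ℓ) ∧
    (gm (64 * ℓ) (20 * ℓ) u v).2 < 2 ^ (64 * ℓ) := cmR_lt (by omega) _ _
  have nn : Num X (2 ^ u) Z (64 * ℓ) (20 * ℓ) (gm (64 * ℓ) (20 * ℓ) u v) :=
    hn.num hn.hX Nat.one_le_two_pow hn.hZ hu2 hg.1 hg.2
  have a7 := htw X (2 ^ u) (2 ^ v) Z (64 * ℓ) (20 * ℓ) (gm (64 * ℓ) (20 * ℓ) u v) a
    (({ p0 with
      hx := una X, hr := una (2 ^ u), f1 := []
      pr := wd (64 * ℓ) (gm (64 * ℓ) (20 * ℓ) u v).1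
      pi := wd (64 * ℓ) (gm (64 * ℓ) (20 * ℓ) u v).2
      cr := [], ci := [] } : PV E).st s) nn Nat.one_le_two_pow
    (env_pv c _ rfl rfl rfl rfl rfl rfl rfl rfl rfl rfl) rfl h1 h2 rfl rfl
  rw [PV.set_XR, PV.set_XI] at a7
  refine (a1.seq (a2.seq (a3.seq (a4.seq (a5.seq (a6.seq a7)))))).mono ?_
  obtain ⟨g1, g2, g3, g4, g5, g6, g7⟩ := hn.ptb Tb Tt
  obtain ⟨f1, f2, f3, f4, f5, f6, f7⟩ := hn.fac
  have k2 : C₂ * ((u + v - 1 + 1) * (20 * ℓ) * (64 * ℓ + Tt (64 * ℓ))) ≤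
      C₂ * (20 * pT Tb Tt X u v Z ℓ m) :=
    Nat.mul_le_mul_left _ (g3 _ (by have := hn.huv; have := hn.hu; omega))
  have k3 : C₃ * (64 * ℓ) ≤ C₃ * pT Tb Tt X u v Z ℓ m := Nat.mul_le_mul_left _ g5
  have k4 : C₅ * (64 * ℓ + Tt (64 * ℓ)) ≤ C₅ * pT Tb Tt X u v Z ℓ m :=
    Nat.mul_le_mul_left _ g4
  have k5 : C₆ * (X * 2 ^ u * 2 ^ v * Z * (64 * ℓ + Tt (64 * ℓ))) ≤
    C₆ * pT Tb Tt X u v Z ℓ m := Nat.mul_le_mul_left _ g2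
  have k6 : (20 * C₂ + C₃ + C₅ + C₆ + 1000) * pT Tb Tt X u v Z ℓ m =
    C₂ * (20 * pT Tb Tt X u v Z ℓ m) + C₃ * pT Tb Tt X u v Z ℓ m +
      C₅ * pT Tb Tt X u v Z ℓ m + C₆ * pT Tb Tt X u v Z ℓ m +
      1000 * pT Tb Tt X u v Z ℓ m := by ring
  have hu := hn.hu
  have hv := hn.hv
  have huv := hn.huv
  rw [k6]
  simp only [hp0, PS, len_wd, len_una]
  omega

/-- Third part. -/
theorem permC_runs {root cj dftp : PW J E} {Tb Tt : ℕ → ℕ}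
    {C₂ C₃ C₄ : ℕ} (hroot : RootSpec root Tt C₂) (hcj : CjSpec cj C₃)
    (hd : DftSpec dftp Tb Tt C₄) (c : Ctx s u v ℓ) (hn : PN X u v Z t ℓ m)
    (hMM : s.at .MM = una m) (a : ℕ → ℕ → ℕ → ℕ → ℕ × ℕ)
    (h1 : ∀ x i j z, (a x i j z).1 < 2 ^ (64 * ℓ))
    (h2 : ∀ x i j z, (a x i j z).2 < 2 ^ (64 * ℓ)) (y1 y2 : ℕ) :
    Runs (permC root cj dftp)
      ((PS (2 ^ u) (2 ^ v) (64 * ℓ) (20 * ℓ) (u + v)
        (bits (arr4 X (2 ^ u) (2 ^ v) Z (64 * ℓ) fun x i j z => (a x i j z).1))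
        (bits (arr4 X (2 ^ u) (2 ^ v) Z (64 * ℓ) fun x i j z => (a x i j z).2))
        (una X) (una (2 ^ u)) (una Z) (wd (64 * ℓ) y1) (wd (64 * ℓ) y2)
        (una X) []).st s)
      ((PS (2 ^ u) (2 ^ v) (64 * ℓ) (20 * ℓ) (u + v)
        (bits (arr4 X (2 ^ u) (2 ^ v) Z (64 * ℓ) fun x i j z =>
          (dft (64 * ℓ) (20 * ℓ) (2 ^ u) (cjR (64 * ℓ) (rt (20 * ℓ) (u - 1)))
            (fun i => a x i j z) i).1))
        (bits (arr4 X (2 ^ u) (2 ^ v) Z (64 * ℓ) fun x i j z =>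
          (dft (64 * ℓ) (20 * ℓ) (2 ^ u) (cjR (64 * ℓ) (rt (20 * ℓ) (u - 1)))
            (fun i => a x i j z) i).2))
        (una X) (una (2 ^ u)) (una (2 ^ v * Z))
        (wd (64 * ℓ) (cjR (64 * ℓ) (rt (20 * ℓ) (u - 1))).1)
        (wd (64 * ℓ) (cjR (64 * ℓ) (rt (20 * ℓ) (u - 1))).2) (una X) (una Z)).st s)
      ((20 * C₂ + C₃ + C₄ + 1000) * pT Tb Tt X u v Z ℓ m) := by
  have hl : 2 ≤ ℓ := by have := hn.hu; have := hn.hv; have := hn.huv; omega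
  set XR : List (SSym E) :=
    bits (arr4 X (2 ^ u) (2 ^ v) Z (64 * ℓ) fun x i j z => (a x i j z).1) with hXR
  set XI : List (SSym E) :=
    bits (arr4 X (2 ^ u) (2 ^ v) Z (64 * ℓ) fun x i j z => (a x i j z).2) with hXI
  set p0 : PV E := PS (2 ^ u) (2 ^ v) (64 * ℓ) (20 * ℓ) (u + v) XR XI
    (una X) (una (2 ^ u)) (una Z) (wd (64 * ℓ) y1) (wd (64 * ℓ) y2) (una X) [] with hp0
  have a1 := cmP7_runs c p0 Z (2 ^ v) rfl rfl rfl rfl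
  have a2 := root_pv hroot c (by omega : 1 ≤ ℓ) ({ p0 with
      pr := [], pi := [], q2 := una Z, hz := una (2 ^ v * Z), f1 := una (u - 1) } : PV E)
    (u - 1) rfl rfl rfl rfl rfl
  have a3 := cj_pv hcj c (by omega : 1 ≤ ℓ) ({ p0 with
      q2 := una Z, hz := una (2 ^ v * Z), f1 := []
      pr := wd (64 * ℓ) (rt (20 * ℓ) (u - 1)).1
      pi := wd (64 * ℓ) (rt (20 * ℓ) (u - 1)).2 } : PV E)
    (rt (20 * ℓ) (u - 1)).2 rfl (rt_lt (by omega) _).2 rfl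
  have a4 := dft2_pv hd c hn hMM a h1 h2 (cjR (64 * ℓ) (rt (20 * ℓ) (u - 1)))
    (rt_lt (by omega) _).1 (sbR_lt ..) (u + v) (una X) (una Z)
  refine (a1.seq (a2.seq (a3.seq a4))).mono ?_
  obtain ⟨g1, g2, g3, g4, g5, g6, g7⟩ := hn.ptb Tb Tt
  obtain ⟨f1, f2, f3, f4, f5, f6, f7⟩ := hn.fac
  have hu := hn.hu
  have hv := hn.hv
  have huv := hn.huv
  have k2 : C₂ * ((u - 1 + 1) * (20 * ℓ) * (64 * ℓ + Tt (64 * ℓ))) ≤
      C₂ * (20 * pT Tb Tt X u v Z ℓ m) :=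
    Nat.mul_le_mul_left _ (g3 _ (by omega))
  have k3 : C₃ * (64 * ℓ) ≤ C₃ * pT Tb Tt X u v Z ℓ m := Nat.mul_le_mul_left _ g5
  have k4 : C₄ * (m + Tb m + X * 2 ^ u * 2 ^ v * Z * (64 * ℓ + Tt (64 * ℓ))) ≤
    C₄ * pT Tb Tt X u v Z ℓ m := Nat.mul_le_mul_left _ g1
  have k6 : (20 * C₂ + C₃ + C₄ + 1000) * pT Tb Tt X u v Z ℓ m =
    C₂ * (20 * pT Tb Tt X u v Z ℓ m) + C₃ * pT Tb Tt X u v Z ℓ m +
      C₄ * pT Tb Tt X u v Z ℓ m + 1000 * pT Tb Tt X u v Z ℓ m := by ring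
  have k7 : Z * (2 ^ v * 10 + 8) = 10 * (2 ^ v * Z) + 8 * Z := by ring
  rw [k6]
  simp only [hp0, PS, len_wd, k7]
  omega

/-- Fourth part. -/
theorem permD_runs {root dftp out : PW J E} {Tb Tt : ℕ → ℕ}
    {C₂ C₄ C₇ : ℕ} (hroot : RootSpec root Tt C₂)
    (hd : DftSpec dftp Tb Tt C₄) (hout : OutSpec out C₇) (c : Ctx s u v ℓ)
    (hn : PN X u v Z t ℓ m)
    (hMM : s.at .MM = una m) (hWT : s.at .WT = una t) (a : ℕ → ℕ → ℕ → ℕ → ℕ × ℕ)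
    (h1 : ∀ x i j z, (a x i j z).1 < 2 ^ (64 * ℓ))
    (h2 : ∀ x i j z, (a x i j z).2 < 2 ^ (64 * ℓ)) (y1 y2 : ℕ) :
    Runs (permD root dftp out)
      ((PS (2 ^ u) (2 ^ v) (64 * ℓ) (20 * ℓ) (u + v)
        (bits (arr4 X (2 ^ u) (2 ^ v) Z (64 * ℓ) fun x i j z => (a x i j z).1))
        (bits (arr4 X (2 ^ u) (2 ^ v) Z (64 * ℓ) fun x i j z => (a x i j z).2))
        (una X) (una (2 ^ u)) (una (2 ^ v * Z)) (wd (64 * ℓ) y1) (wd (64 * ℓ) y2)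
        (una X) (una Z)).st s)
      ((pv0 (bits (arr3 X (2 ^ u * 2 ^ v) Z t fun x k z =>
          rnd (64 * ℓ) (20 * ℓ + (u + v)) t
          (dft (64 * ℓ) (20 * ℓ) (2 ^ u * 2 ^ v) (rt (20 * ℓ) (u + v - 1))
            (fun k => a x (k / 2 ^ v) (k % 2 ^ v) z) k).1)) (una X) (una Z)).st s)
      ((20 * C₂ + C₄ + 2 * C₇ + 1000) * pT Tb Tt X u v Z ℓ m) := by
  have hl : 2 ≤ ℓ := by have := hn.hu; have := hn.hv; have := hn.huv; omega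
  have hu := hn.hu
  have hv := hn.hv
  have huv := hn.huv
  have htl := hn.htl
  set XR : List (SSym E) :=
    bits (arr4 X (2 ^ u) (2 ^ v) Z (64 * ℓ) fun x i j z => (a x i j z).1) with hXR
  set XI : List (SSym E) :=
    bits (arr4 X (2 ^ u) (2 ^ v) Z (64 * ℓ) fun x i j z => (a x i j z).2) with hXI
  set p0 : PV E := PS (2 ^ u) (2 ^ v) (64 * ℓ) (20 * ℓ) (u + v) XR XI
    (una X) (una (2 ^ u)) (una (2 ^ v * Z)) (wd (64 * ℓ) y1) (wd (64 * ℓ) y2) (una X)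
    (una Z) with hp0
  have a1 := cmP8_runs c p0 Z (2 ^ u) (2 ^ v) rfl rfl rfl rfl
  set ρ : ℕ × ℕ := rt (20 * ℓ) (u + v - 1) with hρ
  have a2 := root_pv hroot c (by omega : 1 ≤ ℓ) ({ p0 with
      pr := [], pi := [], hz := una Z, hr := una (2 ^ u * 2 ^ v)
      f1 := una (u + v - 1) } : PV E)
    (u + v - 1) rfl rfl rfl rfl rfl
  have a3 := dft3_pv hd c hn hMM a h1 h2 ρ
    (rt_lt (by omega) _).1 (rt_lt (by omega) _).2 (u + v) (una X) (una Z)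
  set b : ℕ → ℕ → ℕ → ℕ × ℕ := fun x k z =>
    dft (64 * ℓ) (20 * ℓ) (2 ^ u * 2 ^ v) ρ (fun k => a x (k / 2 ^ v) (k % 2 ^ v) z) k with hb
  set p3 : PV E := PS (2 ^ u) (2 ^ v) (64 * ℓ) (20 * ℓ) (u + v)
    (bits (arr3 X (2 ^ u * 2 ^ v) Z (64 * ℓ) fun x k z => (b x k z).1))
    (bits (arr3 X (2 ^ u * 2 ^ v) Z (64 * ℓ) fun x k z => (b x k z).2))
    (una X) (una (2 ^ u * 2 ^ v)) (una Z) (wd (64 * ℓ) ρ.1) (wd (64 * ℓ) ρ.2) (una X)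
    (una Z) with hp3
  have a4 := hout (X * (2 ^ u * 2 ^ v) * Z) t (64 * ℓ) (20 * ℓ + (u + v))
    (fun k => (b (k / Z / (2 ^ u * 2 ^ v)) (k / Z % (2 ^ u * 2 ^ v)) (k % Z)).1)
    (fun k => (b (k / Z / (2 ^ u * 2 ^ v)) (k / Z % (2 ^ u * 2 ^ v)) (k % Z)).2)
    (p3.st s) hn.ht (by omega) (by omega) (PV.cln c.cl c.em p3 rfl rfl rfl) rfl rfl hWT
    (fun _ => (dft_lt (by omega) _ _ _ _).1)
    (by rw [← arr3_flat X (2 ^ u * 2 ^ v) Z (64 * ℓ) fun x k z => (b x k z).1]; rfl)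
    (by rw [← arr3_flat X (2 ^ u * 2 ^ v) Z (64 * ℓ) fun x k z => (b x k z).2]; rfl)
  rw [← arr3_flat X (2 ^ u * 2 ^ v) Z t fun x k z => rnd (64 * ℓ) (20 * ℓ + (u + v)) t
    (b x k z).1, PV.set_XR, PV.set_XI] at a4
  have a5 := cmP9_runs ({ p3 with
      xr := bits (arr3 X (2 ^ u * 2 ^ v) Z t fun x k z =>
        rnd (64 * ℓ) (20 * ℓ + (u + v)) t (b x k z).1)
      xi := [] } : PV E) s
  refine (a1.seq (a2.seq (a3.seq (a4.seq a5)))).mono ?_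
  obtain ⟨g1, g2, g3, g4, g5, g6, g7⟩ := hn.ptb Tb Tt
  obtain ⟨f1, f2, f3, f4, f5, f6, f7⟩ := hn.fac
  have k2 : C₂ * ((u + v - 1 + 1) * (20 * ℓ) * (64 * ℓ + Tt (64 * ℓ))) ≤
      C₂ * (20 * pT Tb Tt X u v Z ℓ m) :=
    Nat.mul_le_mul_left _ (g3 _ (by omega))
  have k4 : C₄ * (m + Tb m + X * 2 ^ u * 2 ^ v * Z * (64 * ℓ + Tt (64 * ℓ))) ≤
    C₄ * pT Tb Tt X u v Z ℓ m := Nat.mul_le_mul_left _ g1
  have k1 : C₇ * (X * (2 ^ u * 2 ^ v) * Z * (64 * ℓ) + 1) ≤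
      C₇ * (2 * pT Tb Tt X u v Z ℓ m) := by
    refine Nat.mul_le_mul_left _ ?_
    have e1 : X * (2 ^ u * 2 ^ v) * Z = X * 2 ^ u * 2 ^ v * Z := by ring
    have : X * 2 ^ u * 2 ^ v * Z * (64 * ℓ) ≤
      X * 2 ^ u * 2 ^ v * Z * (64 * ℓ + Tt (64 * ℓ)) := Nat.mul_le_mul_left _ (by omega)
    rw [e1]
    omega
  have k6 : (20 * C₂ + C₄ + 2 * C₇ + 1000) * pT Tb Tt X u v Z ℓ m =
    C₂ * (20 * pT Tb Tt X u v Z ℓ m) + C₄ * pT Tb Tt X u v Z ℓ m +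
      C₇ * (2 * pT Tb Tt X u v Z ℓ m) + 1000 * pT Tb Tt X u v Z ℓ m := by ring
  have k7 : 2 ^ u * (2 ^ v * 10 + 8) = 10 * (2 ^ u * 2 ^ v) + 8 * 2 ^ u := by ring
  rw [k6]
  simp only [hp0, hp3, PS, len_wd, len_una, k7]
  omega

/-- The final data. -/
theorem perm_data (hP : PermPure) (hn : PN X u v Z t ℓ m) (e : ℕ → ℕ → ℕ → ℕ → ℕ)
    (he : ∀ x i j z, e x i j z < 2 ^ t) :
    arr3 X (2 ^ u * 2 ^ v) Z t (fun x k z => rnd (64 * ℓ) (20 * ℓ + (u + v)) t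
      (st4 (64 * ℓ) (20 * ℓ) u v (fun i j => e x i j z) k).1) =
    arr4 X (2 ^ v) (2 ^ u) Z t fun x j i z => e x i j z := by
  rw [arr4_mid, Nat.mul_comm (2 ^ v) (2 ^ u)]
  refine arr3_congr fun x _ k hk z _ => ?_
  have h1 : k / 2 ^ u < 2 ^ v := by
    rw [Nat.div_lt_iff_lt_mul (by positivity), Nat.mul_comm]; exact hk
  have h2 : k % 2 ^ u < 2 ^ u := Nat.mod_lt _ (by positivity)
  have h3 := hP u v t ℓ (fun i j => e x i j z) hn.hu hn.hv hn.huv hn.htl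
    (fun i j => he x i j z) (k % 2 ^ u) h2 (k / 2 ^ u) h1
  have h4 : k / 2 ^ u * 2 ^ u + k % 2 ^ u = k := by
    rw [Nat.mul_comm]; exact Nat.div_add_mod _ _
  rw [h4] at h3
  exact h3

end

/-- The transposition of words. -/
theorem perm_spec {cin root cj dftp tw out : PW J E} {cm : W → W → W → W → PW J E}
    {Tb Tt : ℕ → ℕ} {C₁ C₂ C₃ C₄ C₅ C₆ C₇ : ℕ} (hP : PermPure)
    (hin : InSpec cin C₁) (hroot : RootSpec root Tt C₂) (hcj : CjSpec cj C₃)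
    (hd : DftSpec dftp Tb Tt C₄) (hcm : CmSpec cm Tt C₅) (htw : TwSpec tw Tt C₆)
    (hout : OutSpec out C₇) :
    PermSpec (permP cin root cj dftp tw out cm) Tb Tt
      (2 * C₁ + 80 * C₂ + 3 * C₃ + 3 * C₄ + C₅ + C₆ + 2 * C₇ + 5000) := by
  intro X u v Z t ℓ m e s nX nu nv nZ nt huv htl hm hc hw hHX hUU hVV hHZ hWT hLL hMM he hXR
  have hn : PN X u v Z t ℓ m := ⟨nX, nu, nv, nZ, nt, huv, htl, hm⟩
  have c : Ctx s u v ℓ := ⟨hc, hw, hUU, hVV, hLL⟩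
  have hBS : 20 * ℓ ≤ 64 * ℓ := by omega
  have b1 := permA_runs hin hroot hcj hd c hn hMM hWT e he
  have b2 := permB_runs hroot hcj hcm htw c hn
    (fun x i j z => st1 (64 * ℓ) (20 * ℓ) v (fun i j => e x i j z) i j)
    (fun _ _ _ _ => (dft_lt hBS _ _ _ _).1) (fun _ _ _ _ => (dft_lt hBS _ _ _ _).2)
    (cjR (64 * ℓ) (rt (20 * ℓ) (v - 1))).1 (cjR (64 * ℓ) (rt (20 * ℓ) (v - 1))).2
    (Tb := Tb) (m := m)
  have b3 := permC_runs hroot hcj hd c hn hMM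
    (fun x i j z => st2 (64 * ℓ) (20 * ℓ) u v (fun i j => e x i j z) i j)
    (fun _ _ _ _ => (cmR_lt hBS _ _).1) (fun _ _ _ _ => (cmR_lt hBS _ _).2)
    (gm (64 * ℓ) (20 * ℓ) u v).1 (gm (64 * ℓ) (20 * ℓ) u v).2
  have b4 := permD_runs hroot hd hout c hn hMM hWT
    (fun x i j z => st3 (64 * ℓ) (20 * ℓ) u v (fun i j => e x i j z) i j)
    (fun _ _ _ _ => (dft_lt hBS _ _ _ _).1) (fun _ _ _ _ => (dft_lt hBS _ _ _ _).2)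
    (cjR (64 * ℓ) (rt (20 * ℓ) (u - 1))).1 (cjR (64 * ℓ) (rt (20 * ℓ) (u - 1))).2
  have e0 := pv0_st hw hXR hHX hHZ
  have e1 := perm_data hP hn e he
  have b := b1.seq (b2.seq (b3.seq b4))
  rw [e0] at b
  refine (b.mono ?_).of_eq ?_
  · show _ ≤ (2 * C₁ + 80 * C₂ + 3 * C₃ + 3 * C₄ + C₅ + C₆ + 2 * C₇ + 5000) *
      pT Tb Tt X u v Z ℓ m
    have h1 := (hn.ptb Tb Tt).h1
    have e2 : (2 * C₁ + 80 * C₂ + 3 * C₃ + 3 * C₄ + C₅ + C₆ + 2 * C₇ + 5000) *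
      pT Tb Tt X u v Z ℓ m =
      (2 * C₁ + 20 * C₂ + C₃ + C₄ + 1000) * pT Tb Tt X u v Z ℓ m +
      ((20 * C₂ + C₃ + C₅ + C₆ + 1000) * pT Tb Tt X u v Z ℓ m +
      ((20 * C₂ + C₃ + C₄ + 1000) * pT Tb Tt X u v Z ℓ m +
      ((20 * C₂ + C₄ + 2 * C₇ + 1000) * pT Tb Tt X u v Z ℓ m +
      1000 * pT Tb Tt X u v Z ℓ m))) := by ring
    rw [e2]
    omega
  · have e3 := PV.set_XR (pv0 (bits (arr4 X (2 ^ u) (2 ^ v) Z t e)) (una X) (una Z)) s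
      (bits (arr4 X (2 ^ v) (2 ^ u) Z t fun x j i z => e x i j z))
    rw [e0] at e3
    rw [e3, ← e1]
    rfl

end Vale.Agent.P338.GS
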