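import Vale.Agent.P338.GS.Base
import Vale.Agent.P338.Frame

/-!
# P338, stage 5: procedures

Programs that start and end with few nonempty stacks are called from programs with additional
stacks `V`: between the calls, all the stacks of the lower level are empty.
-/

namespace Vale.Agent.P338.GS

open Vale.Agent.P338

variable {ι V Γ : Type}

/-- The store with the given contents of some stacks, all other stacks empty. -/
def asg [DecidableEq ι] : List (ι × List Γ) → Store ι Γ
  | [] => fun _ => []
  | x :: r => Function.update (asg r) x.1 x.2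

/-- The store with empty lower stacks. -/
def up (h : Store V Γ) : Store (ι ⊕ V) Γ := Sum.elim (fun _ => []) h

section

variable [DecidableEq ι] [DecidableEq V]

theorem asg_of_not_mem {L : List (ι × List Γ)} {i : ι} (h : i ∉ L.map Prod.fst) :
    asg L i = [] := by
  induction L with
  | nil => rfl
  | cons x r ih =>
    simp only [List.map_cons, List.mem_cons, not_or] at h
    simp only [asg]
    rw [Function.update_of_ne h.1, ih h.2]

theorem elim_update_inl (f : Store ι Γ) (h : Store V Γ) (i : ι) (l : List Γ) :
    Function.update (Sum.elim f h) (Sum.inl i) l = Sum.elim (Function.update f i l) h := by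
  funext x
  rcases x with j | v
  · by_cases hj : j = i
    · subst hj; simp
    · simp [hj]
  · simp

theorem elim_update_inr (f : Store ι Γ) (h : Store V Γ) (v : V) (l : List Γ) :
    Function.update (Sum.elim f h) (Sum.inr v) l = Sum.elim f (Function.update h v l) := by
  funext x
  rcases x with j | w
  · simp
  · by_cases hw : w = v
    · subst hw; simp
    · simp [hw]

/-- Move `v` down to `i`. -/
def ldP (v : V) (i : ι) (t : V) : Prog (ι ⊕ V) Γ :=
  (Prog.rev (Sum.inr v) (Sum.inr t)).seq (Prog.rev (Sum.inr t) (Sum.inl i))

/-- Copy `v` down to `i`. -/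
def cdP (v : V) (i : ι) (t : V) : Prog (ι ⊕ V) Γ :=
  Prog.copyOnto (Sum.inr v) (Sum.inl i) (Sum.inr t)

/-- Move `i` up to `v`. -/
def unP (i : ι) (v t : V) : Prog (ι ⊕ V) Γ :=
  (Prog.rev (Sum.inl i) (Sum.inr t)).seq (Prog.rev (Sum.inr t) (Sum.inr v))

theorem ld_runs {v t : V} {i : ι} (hvt : v ≠ t) (f : Store ι Γ) (h : Store V Γ)
    (ht : h t = []) (hf : f i = []) :
    Runs (ldP v i t) (Sum.elim f h)
      (Sum.elim (Function.update f i (h v)) (Function.update h v [])) (6 * (h v).length + 1) := by
  have h1 := Runs.rev (i := (Sum.inr v : ι ⊕ V)) (j := Sum.inr t) (by simpa using hvt)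
    (Sum.elim f h)
  have h2 := Runs.rev (i := (Sum.inr t : ι ⊕ V)) (j := Sum.inl i) (by simp)
    (Function.update (Function.update (Sum.elim f h) (Sum.inr v) []) (Sum.inr t)
      ((Sum.elim f h (Sum.inr v)).reverse ++ Sum.elim f h (Sum.inr t)))
  refine ((h1.seq h2).mono ?_).of_eq ?_
  · simp only [elim_update_inr, Sum.elim_inr, ht, List.append_nil, Function.update_self,
      List.length_reverse]
    omega
  · simp only [elim_update_inr, elim_update_inl, Sum.elim_inr, Sum.elim_inl, ht, hf,
      List.append_nil, Function.update_self, List.reverse_reverse]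
    congr 1
    funext w
    by_cases hw : w = t
    · subst hw
      rw [Function.update_self, Function.update_of_ne hvt.symm, ht]
    · rw [Function.update_of_ne hw, Function.update_of_ne hw]

theorem cd_runs {v t : V} {i : ι} (hvt : v ≠ t) (f : Store ι Γ) (h : Store V Γ)
    (ht : h t = []) (hf : f i = []) :
    Runs (cdP v i t) (Sum.elim f h) (Sum.elim (Function.update f i (h v)) h)
      (6 * (h v).length + 1) := by
  have h1 := Runs.copyOnto (a := (Sum.inr v : ι ⊕ V)) (b := Sum.inl i) (t := Sum.inr t)
    (by simp) (by simpa using hvt) (by simp) (Sum.elim f h) ht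
  refine h1.of_eq ?_
  rw [elim_update_inl, Sum.elim_inr, Sum.elim_inl, hf, List.append_nil]

theorem un_runs {v t : V} {i : ι} (hvt : v ≠ t) (f : Store ι Γ) (h : Store V Γ)
    (ht : h t = []) (hv : h v = []) :
    Runs (unP i v t) (Sum.elim f h)
      (Sum.elim (Function.update f i []) (Function.update h v (f i))) (6 * (f i).length + 1) := by
  have h1 := Runs.rev (i := (Sum.inl i : ι ⊕ V)) (j := Sum.inr t) (by simp)
    (Sum.elim f h)
  have h2 := Runs.rev (i := (Sum.inr t : ι ⊕ V)) (j := Sum.inr v) (by simpa using hvt.symm)
    (Function.update (Function.update (Sum.elim f h) (Sum.inl i) []) (Sum.inr t)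
      ((Sum.elim f h (Sum.inl i)).reverse ++ Sum.elim f h (Sum.inr t)))
  refine ((h1.seq h2).mono ?_).of_eq ?_
  · simp only [elim_update_inl, Sum.elim_inr, Sum.elim_inl, ht,
      List.append_nil, Function.update_self, List.length_reverse]
    omega
  · simp only [elim_update_inr, elim_update_inl, Sum.elim_inr, Sum.elim_inl, ht,
      List.append_nil, Function.update_self, List.reverse_reverse, Function.update_of_ne hvt, hv]
    congr 1
    funext w
    by_cases hw : w = t
    · subst hw
      rw [Function.update_of_ne hvt.symm, Function.update_self, Function.update_of_ne hvt.symm,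
        ht]
    · by_cases hw' : w = v
      · subst hw'; simp
      · rw [Function.update_of_ne hw', Function.update_of_ne hw, Function.update_of_ne hw',
          Function.update_of_ne hw]

omit [DecidableEq ι] [DecidableEq V] in
/-- A program of the lower level. -/
theorem lift_runs {p : Prog ι Γ} {f g : Store ι Γ} {T : ℕ} (hp : Runs p f g T)
    (h : Store V Γ) : Runs (p.map Sum.inl) (Sum.elim f h) (Sum.elim g h) T :=
  hp.map Sum.inl_injective (fun _ => rfl) (fun _ => rfl) (by
    intro k hk
    rcases k with j | v
    · exact absurd ⟨j, rfl⟩ hk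
    · rfl)

omit [DecidableEq ι] [DecidableEq V] in
/-- A program on the additional stacks. -/
theorem vlift_runs {p : Prog V Γ} {h h' : Store V Γ} {T : ℕ} (hp : Runs p h h' T)
    (f : Store ι Γ) : Runs (p.map Sum.inr) (Sum.elim f h) (Sum.elim f h') T :=
  hp.map Sum.inr_injective (fun _ => rfl) (fun _ => rfl) (by
    intro k hk
    rcases k with j | v
    · rfl
    · exact absurd ⟨v, rfl⟩ hk)

/-! ### Loading and unloading -/

/-- Load: `true` means that the stack is moved, `false` that it is copied. -/
def lds (t : V) : List (Bool × V × ι) → Prog (ι ⊕ V) Γ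
  | [] => Prog.skip
  | (true, v, i) :: r => (lds t r).seq (ldP v i t)
  | (false, v, i) :: r => (lds t r).seq (cdP v i t)

/-- Unload. -/
def uns (t : V) : List (ι × V) → Prog (ι ⊕ V) Γ
  | [] => Prog.skip
  | (i, v) :: r => (unP i v t).seq (uns t r)

/-- The stacks after loading. -/
def ldst (h : Store V Γ) : List (Bool × V × ι) → Store V Γ
  | [] => h
  | (true, v, _) :: r => Function.update (ldst h r) v []
  | (false, _, _) :: r => ldst h r

/-- The contents of the lower stacks after loading. -/
def ldl (h : Store V Γ) (L : List (Bool × V × ι)) : List (ι × List Γ) :=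
  L.map fun x => (x.2.2, h x.2.1)

/-- The time for loading. -/
def ldt (h : Store V Γ) (L : List (Bool × V × ι)) : ℕ :=
  (L.map fun x => 6 * (h x.2.1).length + 2).sum + 1

omit [DecidableEq ι] in
theorem ldst_of_not_mem (h : Store V Γ) (L : List (Bool × V × ι)) {w : V}
    (hw : w ∉ L.map fun x => x.2.1) : ldst h L w = h w := by
  induction L with
  | nil => rfl
  | cons x r ih =>
    obtain ⟨b, v, i⟩ := x
    simp only [List.map_cons, List.mem_cons, not_or] at hw
    cases b
    · exact ih hw.2
    · show Function.update (ldst h r) v [] w = h w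
      rw [Function.update_of_ne hw.1, ih hw.2]

theorem lds_runs (t : V) (h : Store V Γ) (ht : h t = []) (L : List (Bool × V × ι))
    (h1 : (L.map fun x => x.2.1).Nodup) (h2 : (L.map fun x => x.2.2).Nodup)
    (h3 : t ∉ L.map fun x => x.2.1) :
    Runs (lds t L) (up h) (Sum.elim (asg (ldl h L)) (ldst h L)) (ldt h L) := by
  induction L with
  | nil => exact Runs.skip _
  | cons x r ih =>
    obtain ⟨b, v, i⟩ := x
    simp only [List.map_cons, List.nodup_cons] at h1 h2
    simp only [List.map_cons, List.mem_cons, not_or] at h3
    have hr := ih h1.2 h2.2 h3.2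
    have e1 : ldst h r v = h v := ldst_of_not_mem h r h1.1
    have e2 : ldst h r t = [] := by rw [ldst_of_not_mem h r h3.2, ht]
    have e3 : asg (ldl h r) i = [] := asg_of_not_mem (by
      unfold ldl; rw [List.map_map]; exact h2.1)
    cases b
    · have h4 := cd_runs (Ne.symm h3.1) (asg (ldl h r)) (ldst h r) e2 e3
      rw [e1] at h4
      refine (hr.seq h4).mono ?_
      simp only [ldt, List.map_cons, List.sum_cons]
      omega
    · have h4 := ld_runs (Ne.symm h3.1) (asg (ldl h r)) (ldst h r) e2 e3
      rw [e1] at h4
      refine (hr.seq h4).mono ?_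
      simp only [ldt, List.map_cons, List.sum_cons]
      omega

/-- The stacks after unloading. -/
def unst (h r : Store V Γ) (O : List (ι × V)) : Store V Γ :=
  fun v => if v ∈ O.map Prod.snd then r v else h v

/-- The contents of the lower stacks before unloading. -/
def unl (r : Store V Γ) (O : List (ι × V)) : List (ι × List Γ) := O.map fun x => (x.1, r x.2)

/-- The time for unloading. -/
def unt (r : Store V Γ) (O : List (ι × V)) : ℕ :=
  (O.map fun x => 6 * (r x.2).length + 2).sum + 1

theorem uns_runs (t : V) (r : Store V Γ) (O : List (ι × V)) : ∀ h : Store V Γ, h t = [] →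
    (O.map Prod.fst).Nodup → (O.map Prod.snd).Nodup → t ∉ O.map Prod.snd →
    (∀ v ∈ O.map Prod.snd, h v = []) →
    Runs (uns t O) (Sum.elim (asg (unl r O)) h) (up (unst h r O)) (unt r O) := by
  induction O with
  | nil =>
    intro h _ _ _ _ _
    refine (Runs.skip _).of_eq ?_
    unfold up
    congr 1
  | cons x O ih =>
    intro h ht h1 h2 h3 h4
    obtain ⟨i, v⟩ := x
    simp only [List.map_cons, List.nodup_cons] at h1 h2
    simp only [List.map_cons, List.mem_cons, not_or] at h3
    simp only [List.map_cons, List.mem_cons, forall_eq_or_imp] at h4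
    have e1 : asg (unl r ((i, v) :: O)) i = r v := by simp [asg, unl]
    have e2 : Function.update (asg (unl r ((i, v) :: O))) i [] = asg (unl r O) := by
      have e3 : asg (unl r O) i = [] := asg_of_not_mem (by
        unfold unl; rw [List.map_map]; exact h1.1)
      show Function.update (Function.update (asg (unl r O)) i (r v)) i [] = _
      rw [Function.update_idem, ← e3, Function.update_eq_self]
    have a1 := un_runs (i := i) (Ne.symm h3.1) (asg (unl r ((i, v) :: O))) h ht h4.1
    rw [e1, e2] at a1
    have a2 := ih (Function.update h v (r v)) (by rw [Function.update_of_ne h3.1, ht]) h1.2 h2.2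
      h3.2 (by
        intro w hw
        have : w ≠ v := by rintro rfl; exact h2.1 hw
        rw [Function.update_of_ne this]; exact h4.2 w hw)
    refine ((a1.seq a2).mono ?_).of_eq ?_
    · simp only [unt, List.map_cons, List.sum_cons]
      omega
    · congr 1
      funext w
      simp only [unst, List.map_cons, List.mem_cons]
      by_cases hw : w = v
      · subst hw
        simp
      · rw [Function.update_of_ne hw]
        simp only [hw, false_or]

/-- A call: load, run, unload. -/
noncomputable def callP (t : V) (L : List (Bool × V × ι)) (p : Prog ι Γ) (O : List (ι × V)) :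
    Prog (ι ⊕ V) Γ :=
  (lds t L).seq ((p.map Sum.inl).seq (uns t O))

/-- The rule for calls: `r` gives the results. -/
theorem call_runs (t : V) (L : List (Bool × V × ι)) (O : List (ι × V)) {p : Prog ι Γ}
    (h r : Store V Γ) {T : ℕ} (hp : Runs p (asg (ldl h L)) (asg (unl r O)) T)
    (ht : h t = []) (h1 : (L.map fun x => x.2.1).Nodup) (h2 : (L.map fun x => x.2.2).Nodup)
    (h3 : t ∉ L.map fun x => x.2.1) (h4 : (O.map Prod.fst).Nodup)
    (h5 : (O.map Prod.snd).Nodup) (h6 : t ∉ O.map Prod.snd)
    (h7 : ∀ v ∈ O.map Prod.snd, ldst h L v = []) :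
    Runs (callP t L p O) (up h) (up (unst (ldst h L) r O)) (ldt h L + T + unt r O + 2) := by
  have a1 := lds_runs t h ht L h1 h2 h3
  have a2 := lift_runs hp (ldst h L)
  have a3 := uns_runs t r O (ldst h L) (by rw [ldst_of_not_mem h L h3, ht]) h4 h5 h6 h7
  exact (a1.seq (a2.seq a3)).mono (by omega)

end

end Vale.Agent.P338.GS
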