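import Vale.Agent.P338.GS.VCmd

/-!
# P338, stage 5: the stores of level 2
-/

namespace Vale.Agent.P338.GS

open Vale.Agent.P338

/-- The contents of the additional stacks of level 2. -/
structure R2 (E : Type) where
  dr : List (SSym E)
  di : List (SSym E)
  cr : List (SSym E)
  ci : List (SSym E)
  er : List (SSym E)
  ei : List (SSym E)
  fr : List (SSym E)
  fi : List (SSym E)
  zx : List (SSym E)
  zr : List (SSym E)
  zz : List (SSym E)
  m1 : List (SSym E)
  n1 : List (SSym E)
  n0 : List (SSym E)
  k1 : List (SSym E)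
  k0 : List (SSym E)
  kk : List (SSym E)
  n : List (SSym E)
  g : List (SSym E)
  l : List (SSym E)
  m : List (SSym E)
  t : List (SSym E)
  a : List (SSym E)
  b : List (SSym E)
  c : List (SSym E)
  d : List (SSym E)
  e : List (SSym E)
  f : List (SSym E)
  h : List (SSym E)

variable {E : Type}

/-- The store. -/
def R2.st (p : R2 E) : Store V2 (SSym E)
  | .dr => p.dr
  | .di => p.di
  | .cr => p.cr
  | .ci => p.ci
  | .er => p.er
  | .ei => p.ei
  | .fr => p.fr
  | .fi => p.fi
  | .zx => p.zx
  | .zr => p.zr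
  | .zz => p.zz
  | .m1 => p.m1
  | .n1 => p.n1
  | .n0 => p.n0
  | .k1 => p.k1
  | .k0 => p.k0
  | .kk => p.kk
  | .n => p.n
  | .g => p.g
  | .l => p.l
  | .m => p.m
  | .t => p.t
  | .a => p.a
  | .b => p.b
  | .c => p.c
  | .d => p.d
  | .e => p.e
  | .f => p.f
  | .h => p.h

/-- Empty stacks. -/
def R2.z : R2 E := ⟨[], [], [], [], [], [], [], [], [], [], [], [], [], [], [], [], [], [],
  [], [], [], [], [], [], [], [], [], [], []⟩

namespace R2

/-! ### Repetitions of arrays -/

theorem rep_eq_cat {α : Type} (R : ℕ) (l : List α) : rep R l = cat R fun _ => l := by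
  induction R with
  | zero => rfl
  | succ R ih => rw [rep_succ, cat_succ', ih]

theorem bits_cat (n : ℕ) (f : ℕ → List Bool) :
    (bits (cat n f) : List (SSym E)) = cat n fun i => bits (f i) := map_cat _ _ _

theorem bits_rep (R : ℕ) (l : List Bool) : (bits (rep R l) : List (SSym E)) = rep R (bits l) := by
  rw [rep_eq_cat, rep_eq_cat, bits_cat]

theorem ar_eq (S n : ℕ) (x : ℕ → ℕ) : (ar S n x : List (SSym E)) =
    cat n fun q => bits (bitsOf S (x q)) := bits_cat _ _

@[simp] theorem len_bits (l : List Bool) : (bits l : List (SSym E)).length = l.length := by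
  simp [bits]

@[simp] theorem len_ar (S n : ℕ) (x : ℕ → ℕ) : (ar S n x : List (SSym E)).length = n * S := by
  unfold ar
  rw [len_bits, length_cat_of (L := S) fun i _ => length_bitsOf _ _]

theorem ar_congr {S n : ℕ} {x y : ℕ → ℕ} (h : ∀ q < n, x q = y q) :
    (ar S n x : List (SSym E)) = ar S n y := by
  unfold ar
  rw [cat_congr fun q hq => by rw [h q hq]]

/-- Every word is repeated `R` times. -/
theorem rep_word (S n R : ℕ) (x : ℕ → ℕ) :
    (cat n fun i => rep R (bits (bitsOf S (x i)))) =
      (ar S (n * R) fun k => x (k / R) : List (SSym E)) := by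
  rw [ar_eq, cat_mul]
  refine cat_congr fun i _ => ?_
  rw [rep_eq_cat]
  refine cat_congr fun j hj => ?_
  rw [Nat.mul_comm i R, Nat.mul_add_div (by omega), Nat.div_eq_of_lt hj, Nat.add_zero]

/-- The words in blocks. -/
theorem ar_blk (S n N : ℕ) (x : ℕ → ℕ) : (ar S (n * N) x : List (SSym E)) =
    cat n fun i => bits (cat N fun j => bitsOf S (x (i * N + j))) := by
  rw [ar_eq, cat_mul]
  refine cat_congr fun i _ => ?_
  rw [bits_cat]

/-- Every block of `N` words is repeated `R` times. -/
theorem rep_blk (S n N R : ℕ) (x : ℕ → ℕ) :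
    (cat n fun i => rep R (bits (cat N fun j => bitsOf S (x (i * N + j))))) =
      (ar S (n * (R * N)) fun k => x (k / (R * N) * N + k % N) : List (SSym E)) := by
  rw [ar_blk]
  refine cat_congr fun i _ => ?_
  rw [← bits_rep, rep_eq_cat, cat_mul]
  congr 1
  refine cat_congr fun j hj => cat_congr fun l hl => ?_
  have h1 : j * N + l < R * N := by
    calc j * N + l < j * N + N := by omega
      _ = (j + 1) * N := by ring
      _ ≤ R * N := Nat.mul_le_mul_right _ hj
  have h2 : (i * (R * N) + (j * N + l)) / (R * N) = i := by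
    rw [Nat.mul_comm i, Nat.mul_add_div (by omega), Nat.div_eq_of_lt h1, Nat.add_zero]
  have h3 : (i * (R * N) + (j * N + l)) % N = l := by
    have : i * (R * N) + (j * N + l) = N * (i * R + j) + l := by ring
    rw [this, Nat.mul_add_mod, Nat.mod_eq_of_lt hl]
  rw [h2, h3]

end R2

end Vale.Agent.P338.GS
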