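import Vale.Agent.P338.GS.RootV

/-!
# P338, matrices of every shape: square roots, digit by digit
-/

namespace Vale.Agent.P338.GS.Root

open Vale.Agent.P338 Vale.Agent.P338.GS

variable {J E : Type}

/-! ### Mathematics -/

/-- The remainder. -/
def rmd (m : ℕ) : ℕ := m - Nat.sqrt m * Nat.sqrt m

theorem rmd_add (m : ℕ) : Nat.sqrt m * Nat.sqrt m + rmd m = m := by
  unfold rmd
  have := Nat.sqrt_le m
  omega

theorem rmd_le (m : ℕ) : rmd m ≤ 2 * Nat.sqrt m := by
  have h1 := rmd_add m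
  have h2 := Nat.sqrt_le_add m
  omega

theorem sqrt_stepF (m d : ℕ) (h : 4 * rmd m + d < 4 * Nat.sqrt m + 1) :
    Nat.sqrt (4 * m + d) = 2 * Nat.sqrt m ∧ rmd (4 * m + d) = 4 * rmd m + d := by
  have h1 := rmd_add m
  set y := Nat.sqrt m
  set r := rmd m
  have e : Nat.sqrt (4 * m + d) = 2 * y := by
    symm
    rw [Nat.eq_sqrt]
    constructor
    · have : 2 * y * (2 * y) = 4 * (y * y) := by ring
      omega
    · have : (2 * y + 1) * (2 * y + 1) = 4 * (y * y) + 4 * y + 1 := by ring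
      omega
  refine ⟨e, ?_⟩
  unfold rmd
  rw [e]
  have : 2 * y * (2 * y) = 4 * (y * y) := by ring
  omega

theorem sqrt_stepT (m d : ℕ) (hd : d < 4) (h : 4 * Nat.sqrt m + 1 ≤ 4 * rmd m + d) :
    Nat.sqrt (4 * m + d) = 2 * Nat.sqrt m + 1 ∧
      rmd (4 * m + d) + (4 * Nat.sqrt m + 1) = 4 * rmd m + d := by
  have h1 := rmd_add m
  have h2 := rmd_le m
  set y := Nat.sqrt m
  set r := rmd m
  have e1 : (2 * y + 1) * (2 * y + 1) = 4 * (y * y) + 4 * y + 1 := by ring
  have e : Nat.sqrt (4 * m + d) = 2 * y + 1 := by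
    symm
    rw [Nat.eq_sqrt]
    constructor
    · omega
    · have : (2 * y + 1 + 1) * (2 * y + 1 + 1) = 4 * (y * y) + 8 * y + 4 := by ring
      omega
  refine ⟨e, ?_⟩
  unfold rmd
  rw [e]
  omega

theorem sqrt_lt {j m : ℕ} (h : m < 4 ^ j) : Nat.sqrt m < 2 ^ j := by
  rw [Nat.sqrt_lt, ← mul_pow]
  simpa using h

theorem rmd_lt {j m : ℕ} (h : m < 4 ^ j) : rmd m < 2 ^ (j + 1) := by
  have h1 := rmd_le m
  have h2 := sqrt_lt h
  rw [pow_succ]
  omega

/-! ### The programs -/

section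

variable (J E)

/-- One step of the square root. -/
def sqB [DecidableEq J] : PW J E :=
  (Prog.mov (wg .A1) (wg .A2)).seq <| (Prog.mov (wg .A1) (wg .A2)).seq <|
  (Prog.copyOnto (wg .A2) (wg .A3) (wg .F8)).seq <|
  (Prog.push (wg .A4) (sb false)).seq <|
  (Prog.copyOnto (wg .A5) (wg .A4) (wg .F8)).seq <|
  (Prog.push (wg .A4) (sb false)).seq <|
  (Prog.push (wg .A4) (sb true)).seq <|
  (SS.scan2 (wg .A2) (wg .A4) (wg .A6) (wg .A7) SS.x3 SS.bw).seq <|
  (Prog.ite (nonempty (wg .A7))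
    ((Prog.pop (wg .A7)).seq <| (Prog.clear (wg .A6)).seq <|
      (Prog.rev (wg .A3) (wg .A6)).seq (Prog.push (wg .A5) (sb false)))
    ((Prog.clear (wg .A3)).seq (Prog.push (wg .A5) (sb true)))).seq <|
  (Prog.pop (wg .A6)).seq (Prog.rev (wg .A6) (wg .A2))

/-- The digits of the square root. -/
def sqL [DecidableEq J] : PW J E := Prog.loop (nonempty (wg .A1)) (sqB J E)

end

variable [DecidableEq J]

theorem bits_snoc {k v : ℕ} : (bits (bitsOf (k + 1) v) : List (SSym E)).reverse =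
    sb (v.testBit k) :: (bits (bitsOf k v)).reverse := by
  rw [bitsOf_succ_right]
  simp [bits, sb]

theorem sqB_spec {s : SW J E} (hF : s.at .F8 = []) (v : RV E) (j m : ℕ) (hi lo : Bool)
    (rest : List (SSym E)) (hm : m < 4 ^ j) (h1 : v.a1 = sb hi :: sb lo :: rest)
    (h2 : v.a2 = bits (bitsOf (j + 1) (rmd m))) (h5 : v.a5 = bits (bitsOf j (Nat.sqrt m)))
    (h3 : v.a3 = []) (h4 : v.a4 = []) (h6 : v.a6 = []) (h7 : v.a7 = []) :
    Runs (sqB J E) (v.st s) (({ v with
        a1 := rest, a2 := bits (bitsOf (j + 2) (rmd (4 * m + (2 * hi.toNat + lo.toNat))))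
        a5 := bits (bitsOf (j + 1)
          (Nat.sqrt (4 * m + (2 * hi.toNat + lo.toNat)))) } : RV E).st s)
      (40 * (j + 3)) := by
  obtain ⟨pr, pi, f1, t1, t2, t3, t4, a1, a2, a3, a4, a5, a6, a7⟩ := v
  simp only at h1 h2 h3 h4 h5 h6 h7
  subst h1 h2 h3 h4 h5 h6 h7
  have hd : 2 * hi.toNat + lo.toNat < 4 := by
    have := Bool.toNat_le hi
    have := Bool.toNat_le lo
    omega
  set d := 2 * hi.toNat + lo.toNat with hdd
  set y := Nat.sqrt m with hy
  set r := rmd m with hr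
  have hF' : ∀ v : RV E, (v.st s).at .F8 = [] := fun _ => hF
  -- lists
  set R : List Bool := bitsOf (j + 1) r with hR
  set Y : List Bool := bitsOf j y with hY
  set R' : List Bool := lo :: hi :: R with hR'
  set T' : List Bool := true :: false :: (Y ++ [false]) with hT'
  have lR : R'.length = j + 3 := by simp [hR', hR]
  have lT : T'.length = j + 3 := by simp [hT', hY]
  have vR : natOf R' = 4 * r + d := by
    rw [hR', natOf_cons, natOf_cons, hR, natOf_bitsOf_of_lt (rmd_lt hm)]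
    omega
  have vT : natOf T' = 4 * y + 1 := by
    rw [hT', natOf_cons, natOf_cons, natOf_append, hY, natOf_bitsOf_of_lt (sqrt_lt hm)]
    simp [natOf_cons]
    omega
  set dif := SS.scO SS.x3 SS.bw false R' T' with hdif
  set bo := SS.scC SS.bw false R' T' with hbo
  have ldif : dif.length = j + 3 := by rw [hdif, SS.length_scO _ _ _ _ _ (by omega), lR]
  have hs := SS.sub_val false R' T' (by omega)
  rw [← hdif, ← hbo, vR, vT, lR] at hs
  have hlt : natOf dif < 2 ^ (j + 3) := by rw [← ldif]; exact natOf_lt _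
  -- the first commands
  have b1 : Runs (Prog.mov (wg .A1) (wg .A2) : PW J E)
      ((⟨pr, pi, f1, t1, t2, t3, t4, sb hi :: sb lo :: rest, bits R, [], [], bits Y, [], []⟩ : RV E).st s)
      ((⟨pr, pi, f1, t1, t2, t3, t4, sb lo :: rest, sb hi :: bits R, [], [], bits Y, [], []⟩ : RV E).st s) (1) := by
    have h := r_mov (x := .A1) (o := .A2)
      (by decide) ((⟨pr, pi, f1, t1, t2, t3, t4, sb hi :: sb lo :: rest, bits R, [], [], bits Y, [], []⟩ : RV E).st s) rfl
    rw [RV.set_A1, RV.set_A2, RV.at_A2] at h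
    exact h
  have b2 : Runs (Prog.mov (wg .A1) (wg .A2) : PW J E)
      ((⟨pr, pi, f1, t1, t2, t3, t4, sb lo :: rest, sb hi :: bits R, [], [], bits Y, [], []⟩ : RV E).st s)
      ((⟨pr, pi, f1, t1, t2, t3, t4, rest, bits R', [], [], bits Y, [], []⟩ : RV E).st s) (1) := by
    have h := r_mov (x := .A1) (o := .A2)
      (by decide) ((⟨pr, pi, f1, t1, t2, t3, t4, sb lo :: rest, sb hi :: bits R, [], [], bits Y, [], []⟩ : RV E).st s) rfl
    rw [RV.set_A1, RV.set_A2, RV.at_A2] at h
    exact h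
  have b3 : Runs (Prog.copyOnto (wg .A2) (wg .A3) (wg .F8) : PW J E)
      ((⟨pr, pi, f1, t1, t2, t3, t4, rest, bits R', [], [], bits Y, [], []⟩ : RV E).st s)
      ((⟨pr, pi, f1, t1, t2, t3, t4, rest, bits R', bits R', [], bits Y, [], []⟩ : RV E).st s) (6 * (j + 3) + 1) := by
    have h := IO.r_copy (a := .A2) (b := .A3) (t := .F8) (by decide) (by decide) (by decide)
      ((⟨pr, pi, f1, t1, t2, t3, t4, rest, bits R', [], [], bits Y, [], []⟩ : RV E).st s) (hF' _)
    rw [RV.at_A2, RV.at_A3, RV.set_A3, List.append_nil] at h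
    exact h.mono (by simp [lR])
  have b4 : Runs (Prog.push (wg .A4) (sb false) : PW J E)
      ((⟨pr, pi, f1, t1, t2, t3, t4, rest, bits R', bits R', [], bits Y, [], []⟩ : RV E).st s)
      ((⟨pr, pi, f1, t1, t2, t3, t4, rest, bits R', bits R', [sb false], bits Y, [], []⟩ : RV E).st s) (1) := by
    have h := r_push .A4 (sb false) ((⟨pr, pi, f1, t1, t2, t3, t4, rest, bits R', bits R', [], bits Y, [], []⟩ : RV E).st s)
    rw [RV.set_A4, RV.at_A4] at h
    exact h
  have b5 : Runs (Prog.copyOnto (wg .A5) (wg .A4) (wg .F8) : PW J E)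
      ((⟨pr, pi, f1, t1, t2, t3, t4, rest, bits R', bits R', [sb false], bits Y, [], []⟩ : RV E).st s)
      ((⟨pr, pi, f1, t1, t2, t3, t4, rest, bits R', bits R', bits (Y ++ [false]), bits Y, [], []⟩ : RV E).st s) (6 * j + 1) := by
    have h := IO.r_copy (a := .A5) (b := .A4) (t := .F8) (by decide) (by decide) (by decide)
      ((⟨pr, pi, f1, t1, t2, t3, t4, rest, bits R', bits R', [sb false], bits Y, [], []⟩ : RV E).st s) (hF' _)
    rw [RV.at_A5, RV.at_A4, RV.set_A4] at h
    exact (h.mono (by simp [hY])).of_eq (by simp [bits, sb])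
  have b6 : Runs (Prog.push (wg .A4) (sb false) : PW J E)
      ((⟨pr, pi, f1, t1, t2, t3, t4, rest, bits R', bits R', bits (Y ++ [false]), bits Y, [], []⟩ : RV E).st s)
      ((⟨pr, pi, f1, t1, t2, t3, t4, rest, bits R', bits R', bits (false :: (Y ++ [false])), bits Y, [], []⟩ : RV E).st s) (1) := by
    have h := r_push .A4 (sb false) ((⟨pr, pi, f1, t1, t2, t3, t4, rest, bits R', bits R', bits (Y ++ [false]), bits Y, [], []⟩ : RV E).st s)
    rw [RV.set_A4, RV.at_A4] at h
    exact h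
  have b7 : Runs (Prog.push (wg .A4) (sb true) : PW J E)
      ((⟨pr, pi, f1, t1, t2, t3, t4, rest, bits R', bits R', bits (false :: (Y ++ [false])), bits Y, [], []⟩ : RV E).st s)
      ((⟨pr, pi, f1, t1, t2, t3, t4, rest, bits R', bits R', bits T', bits Y, [], []⟩ : RV E).st s) (1) := by
    have h := r_push .A4 (sb true) ((⟨pr, pi, f1, t1, t2, t3, t4, rest, bits R', bits R', bits (false :: (Y ++ [false])), bits Y, [], []⟩ : RV E).st s)
    rw [RV.set_A4, RV.at_A4] at h
    exact h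
  have b8 : Runs (SS.scan2 (wg .A2) (wg .A4) (wg .A6) (wg .A7) SS.x3 SS.bw : PW J E)
      ((⟨pr, pi, f1, t1, t2, t3, t4, rest, bits R', bits R', bits T', bits Y, [], []⟩ : RV E).st s)
      ((⟨pr, pi, f1, t1, t2, t3, t4, rest, [], bits R', [], bits Y, (bits dif).reverse, SS.fl bo⟩ : RV E).st s) (3 * (j + 3)) := by
    have h := r_scan2 (i := .A2) (j := .A4) (o := .A6) (q := .A7) (by decide) (by decide)
      (by decide) (by decide) (by decide) (by decide) SS.x3 SS.bw R' T' (by omega) false []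
      ((⟨pr, pi, f1, t1, t2, t3, t4, rest, bits R', bits R', bits T', bits Y, [], []⟩ : RV E).st s) rfl (by rw [List.append_nil]; rfl) rfl
    rw [RV.at_A6, RV.set_A2, RV.set_A4, RV.set_A6, RV.set_A7, List.append_nil, lR] at h
    exact h
  -- the choice
  have c1 : ∃ z y' : ℕ, z < 2 ^ (j + 2) ∧ z = rmd (4 * m + d) ∧ y' = Nat.sqrt (4 * m + d) ∧
      Runs (Prog.ite (nonempty (wg .A7))
        ((Prog.pop (wg .A7)).seq <| (Prog.clear (wg .A6)).seq <|
          (Prog.rev (wg .A3) (wg .A6)).seq (Prog.push (wg .A5) (sb false)))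
        ((Prog.clear (wg .A3)).seq (Prog.push (wg .A5) (sb true))) : PW J E)
      ((⟨pr, pi, f1, t1, t2, t3, t4, rest, [], bits R', [], bits Y, (bits dif).reverse,
        SS.fl bo⟩ : RV E).st s)
      ((⟨pr, pi, f1, t1, t2, t3, t4, rest, [], [], [], bits (bitsOf (j + 1) y'),
        (bits (bitsOf (j + 3) z)).reverse, []⟩ : RV E).st s) (7 * (j + 3) + 8) := by
    have hm' : 4 * m + d < 4 ^ (j + 1) := by
      rw [pow_succ]
      omega
    have hz : rmd (4 * m + d) < 2 ^ (j + 2) := rmd_lt hm'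
    refine ⟨_, _, hz, rfl, rfl, ?_⟩
    rcases hb : bo with _ | _
    · rw [hb] at hs
      simp only [Bool.toNat_false, Nat.mul_zero, Nat.add_zero] at hs
      obtain ⟨e1, e2⟩ := sqrt_stepT m d hd (by omega)
      have e3 : dif = bitsOf (j + 3) (rmd (4 * m + d)) := by
        rw [← bitsOf_natOf_of ldif]
        congr 1
        omega
      have e4 : bits (bitsOf (j + 1) (Nat.sqrt (4 * m + d))) =
          (sb true :: bits Y : List (SSym E)) := by
        rw [e1, bitsOf_succ]
        have : (2 * y + 1) / 2 = y := by omega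
        rw [this, Nat.testBit_zero]
        have : (2 * y + 1) % 2 = 1 := by omega
        simp [bits, sb, hY]
      have d1 := IO.r_clear .A3 ((⟨pr, pi, f1, t1, t2, t3, t4, rest, [], bits R', [], bits Y,
        (bits dif).reverse, SS.fl false⟩ : RV E).st s)
      rw [RV.set_A3, RV.at_A3] at d1
      have d2 := r_push .A5 (sb true) ((⟨pr, pi, f1, t1, t2, t3, t4, rest, [], [], [],
        bits Y, (bits dif).reverse, SS.fl false⟩ : RV E).st s)
      rw [RV.set_A5, RV.at_A5] at d2
      refine ((Runs.iteF (by rw [nonempty_tops]; rfl) (d1.seq d2)).mono ?_).of_eq ?_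
      · simp [lR]; omega
      · rw [e3, ← e4]; rfl
    · rw [hb] at hs
      simp only [Bool.toNat_true, Nat.mul_one] at hs
      simp only [Bool.toNat_false, Nat.add_zero] at hs
      obtain ⟨e1, e2⟩ := sqrt_stepF m d (by omega)
      have e3 : R' = bitsOf (j + 3) (rmd (4 * m + d)) := by
        rw [← bitsOf_natOf_of lR]
        congr 1
        omega
      have e4 : bits (bitsOf (j + 1) (Nat.sqrt (4 * m + d))) =
          (sb false :: bits Y : List (SSym E)) := by
        rw [e1, bitsOf_succ]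
        have : (2 * y) / 2 = y := by omega
        rw [this, Nat.testBit_zero]
        have : (2 * y) % 2 = 0 := by omega
        simp [bits, sb, hY]
      have d0 := r_pop .A7 ((⟨pr, pi, f1, t1, t2, t3, t4, rest, [], bits R', [], bits Y,
        (bits dif).reverse, SS.fl true⟩ : RV E).st s)
      rw [RV.set_A7, RV.at_A7] at d0
      have d1 := IO.r_clear .A6 ((⟨pr, pi, f1, t1, t2, t3, t4, rest, [], bits R', [], bits Y,
        (bits dif).reverse, []⟩ : RV E).st s)
      rw [RV.set_A6, RV.at_A6] at d1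
      have d2 := IO.r_rev (a := .A3) (b := .A6) (by decide) ((⟨pr, pi, f1, t1, t2, t3, t4,
        rest, [], bits R', [], bits Y, [], []⟩ : RV E).st s)
      rw [RV.set_A3, RV.set_A6, RV.at_A3, RV.at_A6, List.append_nil] at d2
      have d3 := r_push .A5 (sb false) ((⟨pr, pi, f1, t1, t2, t3, t4, rest, [], [], [],
        bits Y, (bits R').reverse, []⟩ : RV E).st s)
      rw [RV.set_A5, RV.at_A5] at d3
      refine ((Runs.iteT (by rw [nonempty_tops]; rfl) (d0.seq (d1.seq (d2.seq d3)))).mono ?_).of_eq ?_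
      · simp [lR, ldif]; omega
      · rw [← e4]; rw [← e3]
  obtain ⟨z, y', hz, ez, ey, c2⟩ := c1
  have b9 := r_pop .A6 ((⟨pr, pi, f1, t1, t2, t3, t4, rest, [], [], [],
    bits (bitsOf (j + 1) y'), (bits (bitsOf (j + 3) z)).reverse, []⟩ : RV E).st s)
  rw [RV.set_A6, RV.at_A6, bits_snoc, List.tail_cons] at b9
  have b10 := IO.r_rev (a := .A6) (b := .A2) (by decide) ((⟨pr, pi, f1, t1, t2, t3, t4, rest,
    [], [], [], bits (bitsOf (j + 1) y'), (bits (bitsOf (j + 2) z)).reverse, []⟩ :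
      RV E).st s)
  rw [RV.set_A6, RV.set_A2, RV.at_A6, RV.at_A2, List.append_nil, List.reverse_reverse] at b10
  rw [bits_snoc] at c2
  subst ez ey
  refine (b1.seq (b2.seq (b3.seq (b4.seq (b5.seq (b6.seq (b7.seq (b8.seq (c2.seq
    (b9.seq b10)))))))))).mono ?_
  simp
  omega

theorem two_digits (n i : ℕ) : 4 * (n / 4 ^ (i + 1)) +
    (2 * (n.testBit (2 * i + 1)).toNat + (n.testBit (2 * i)).toNat) = n / 4 ^ i := by
  have e1 : n.testBit (2 * i + 1) = (n / 4 ^ i).testBit 1 := by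
    rw [show (4 : ℕ) = 2 ^ 2 by norm_num, ← pow_mul, Nat.testBit_div_two_pow, Nat.add_comm]
  have e2 : n.testBit (2 * i) = (n / 4 ^ i).testBit 0 := by
    rw [show (4 : ℕ) = 2 ^ 2 by norm_num, ← pow_mul, Nat.testBit_div_two_pow, Nat.zero_add]
  rw [e1, e2, pow_succ, ← Nat.div_div_eq_div_mul, Nat.toNat_testBit, Nat.toNat_testBit]
  omega

theorem sqL_spec {s : SW J E} (hF : s.at .F8 = []) (i : ℕ) : ∀ (v : RV E) (j n : ℕ),
    n / 4 ^ i < 4 ^ j → v.a1 = (bits (bitsOf (2 * i) n)).reverse →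
    v.a2 = bits (bitsOf (j + 1) (rmd (n / 4 ^ i))) →
    v.a5 = bits (bitsOf j (Nat.sqrt (n / 4 ^ i))) →
    v.a3 = [] → v.a4 = [] → v.a6 = [] → v.a7 = [] →
    Runs (sqL J E) (v.st s) (({ v with
        a1 := [], a2 := bits (bitsOf (j + i + 1) (rmd n))
        a5 := bits (bitsOf (j + i) (Nat.sqrt n)) } : RV E).st s)
      (i * (40 * (j + i + 3) + 2)) := by
  induction i with
  | zero =>
    intro v j n hn h1 h2 h5 h3 h4 h6 h7
    rw [pow_zero, Nat.div_one] at h2 h5
    refine ((Runs.loopF ?_).mono (by omega)).of_eq ?_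
    · rw [nonempty_tops]
      show (!(v.a1).isEmpty) = false
      rw [h1]; simp [bits]
    · obtain ⟨pr, pi, f1, t1, t2, t3, t4, a1, a2, a3, a4, a5, a6, a7⟩ := v
      simp only at h1 h2 h5
      rw [h1, h2, h5]
      simp [bits]
  | succ i ih =>
    intro v j n hn h1 h2 h5 h3 h4 h6 h7
    have e1 : (bits (bitsOf (2 * (i + 1)) n) : List (SSym E)).reverse =
        sb (n.testBit (2 * i + 1)) :: sb (n.testBit (2 * i)) ::
          (bits (bitsOf (2 * i) n)).reverse := by
      rw [show 2 * (i + 1) = 2 * i + 1 + 1 by ring, bits_snoc, bits_snoc]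
    have a1 := sqB_spec hF v j (n / 4 ^ (i + 1)) (n.testBit (2 * i + 1)) (n.testBit (2 * i))
      (bits (bitsOf (2 * i) n)).reverse hn (by rw [h1, e1]) h2 h5 h3 h4 h6 h7
    rw [two_digits] at a1
    have a2 := ih ({ v with
        a1 := (bits (bitsOf (2 * i) n)).reverse, a2 := bits (bitsOf (j + 2) (rmd (n / 4 ^ i)))
        a5 := bits (bitsOf (j + 1) (Nat.sqrt (n / 4 ^ i))) } : RV E) (j + 1) n
      (by
        rw [← two_digits n i, pow_succ 4 j]
        have := Bool.toNat_le (n.testBit (2 * i + 1))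
        have := Bool.toNat_le (n.testBit (2 * i))
        omega) rfl rfl rfl h3 h4 h6 h7
    have e2 : j + 1 + i = j + (i + 1) := by omega
    rw [e2] at a2
    refine (Runs.loopT ?_ a1 a2).mono ?_
    · rw [nonempty_tops]
      show (!(v.a1).isEmpty) = true
      rw [h1, e1]; rfl
    · have : (i + 1) * (40 * (j + (i + 1) + 3) + 2) =
        i * (40 * (j + (i + 1) + 3) + 2) + (40 * (j + (i + 1) + 3) + 2) := by ring
      rw [this]
      omega

end Vale.Agent.P338.GS.Root
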