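import Vale.Agent.P338.GS.IO
import Vale.Agent.P338.GS.Cmd

/-!
# P338, matrices of every shape: the stacks of the program for the roots
-/

namespace Vale.Agent.P338.GS.Root

open Vale.Agent.P338 Vale.Agent.P338.GS

variable {J E : Type}

/-- The contents of the stacks that change. -/
structure RV (E : Type) where
  pr : List (SSym E)
  pi : List (SSym E)
  f1 : List (SSym E)
  t1 : List (SSym E)
  t2 : List (SSym E)
  t3 : List (SSym E)
  t4 : List (SSym E)
  a1 : List (SSym E)
  a2 : List (SSym E)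
  a3 : List (SSym E)
  a4 : List (SSym E)
  a5 : List (SSym E)
  a6 : List (SSym E)
  a7 : List (SSym E)

/-- The store `s` with the contents `p` of these stacks. -/
def RV.st (p : RV E) (s : SW J E) : SW J E
  | Sum.inr .PR => p.pr
  | Sum.inr .PI => p.pi
  | Sum.inr .F1 => p.f1
  | Sum.inr .T1 => p.t1
  | Sum.inr .T2 => p.t2
  | Sum.inr .T3 => p.t3
  | Sum.inr .T4 => p.t4
  | Sum.inr .A1 => p.a1
  | Sum.inr .A2 => p.a2
  | Sum.inr .A3 => p.a3
  | Sum.inr .A4 => p.a4
  | Sum.inr .A5 => p.a5
  | Sum.inr .A6 => p.a6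
  | Sum.inr .A7 => p.a7
  | q => s q

section RVlemmas

variable (p : RV E) (s : SW J E) (l : List (SSym E))

@[simp] theorem RV.at_PR : (p.st s).at .PR = p.pr := rfl
@[simp] theorem RV.at_PI : (p.st s).at .PI = p.pi := rfl
@[simp] theorem RV.at_F1 : (p.st s).at .F1 = p.f1 := rfl
@[simp] theorem RV.at_T1 : (p.st s).at .T1 = p.t1 := rfl
@[simp] theorem RV.at_T2 : (p.st s).at .T2 = p.t2 := rfl
@[simp] theorem RV.at_T3 : (p.st s).at .T3 = p.t3 := rfl
@[simp] theorem RV.at_T4 : (p.st s).at .T4 = p.t4 := rfl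
@[simp] theorem RV.at_A1 : (p.st s).at .A1 = p.a1 := rfl
@[simp] theorem RV.at_A2 : (p.st s).at .A2 = p.a2 := rfl
@[simp] theorem RV.at_A3 : (p.st s).at .A3 = p.a3 := rfl
@[simp] theorem RV.at_A4 : (p.st s).at .A4 = p.a4 := rfl
@[simp] theorem RV.at_A5 : (p.st s).at .A5 = p.a5 := rfl
@[simp] theorem RV.at_A6 : (p.st s).at .A6 = p.a6 := rfl
@[simp] theorem RV.at_A7 : (p.st s).at .A7 = p.a7 := rfl

variable [DecidableEq J]

@[simp] theorem RV.set_PR : (p.st s).set .PR l = ({ p with pr := l } : RV E).st s := by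
  apply sw_ext
  · intro j; rw [set_inl]; rfl
  · intro q; rw [at_set]; cases q <;> rfl
@[simp] theorem RV.set_PI : (p.st s).set .PI l = ({ p with pi := l } : RV E).st s := by
  apply sw_ext
  · intro j; rw [set_inl]; rfl
  · intro q; rw [at_set]; cases q <;> rfl
@[simp] theorem RV.set_F1 : (p.st s).set .F1 l = ({ p with f1 := l } : RV E).st s := by
  apply sw_ext
  · intro j; rw [set_inl]; rfl
  · intro q; rw [at_set]; cases q <;> rfl
@[simp] theorem RV.set_T1 : (p.st s).set .T1 l = ({ p with t1 := l } : RV E).st s := by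
  apply sw_ext
  · intro j; rw [set_inl]; rfl
  · intro q; rw [at_set]; cases q <;> rfl
@[simp] theorem RV.set_T2 : (p.st s).set .T2 l = ({ p with t2 := l } : RV E).st s := by
  apply sw_ext
  · intro j; rw [set_inl]; rfl
  · intro q; rw [at_set]; cases q <;> rfl
@[simp] theorem RV.set_T3 : (p.st s).set .T3 l = ({ p with t3 := l } : RV E).st s := by
  apply sw_ext
  · intro j; rw [set_inl]; rfl
  · intro q; rw [at_set]; cases q <;> rfl
@[simp] theorem RV.set_T4 : (p.st s).set .T4 l = ({ p with t4 := l } : RV E).st s := by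
  apply sw_ext
  · intro j; rw [set_inl]; rfl
  · intro q; rw [at_set]; cases q <;> rfl
@[simp] theorem RV.set_A1 : (p.st s).set .A1 l = ({ p with a1 := l } : RV E).st s := by
  apply sw_ext
  · intro j; rw [set_inl]; rfl
  · intro q; rw [at_set]; cases q <;> rfl
@[simp] theorem RV.set_A2 : (p.st s).set .A2 l = ({ p with a2 := l } : RV E).st s := by
  apply sw_ext
  · intro j; rw [set_inl]; rfl
  · intro q; rw [at_set]; cases q <;> rfl
@[simp] theorem RV.set_A3 : (p.st s).set .A3 l = ({ p with a3 := l } : RV E).st s := by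
  apply sw_ext
  · intro j; rw [set_inl]; rfl
  · intro q; rw [at_set]; cases q <;> rfl
@[simp] theorem RV.set_A4 : (p.st s).set .A4 l = ({ p with a4 := l } : RV E).st s := by
  apply sw_ext
  · intro j; rw [set_inl]; rfl
  · intro q; rw [at_set]; cases q <;> rfl
@[simp] theorem RV.set_A5 : (p.st s).set .A5 l = ({ p with a5 := l } : RV E).st s := by
  apply sw_ext
  · intro j; rw [set_inl]; rfl
  · intro q; rw [at_set]; cases q <;> rfl
@[simp] theorem RV.set_A6 : (p.st s).set .A6 l = ({ p with a6 := l } : RV E).st s := by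
  apply sw_ext
  · intro j; rw [set_inl]; rfl
  · intro q; rw [at_set]; cases q <;> rfl
@[simp] theorem RV.set_A7 : (p.st s).set .A7 l = ({ p with a7 := l } : RV E).st s := by
  apply sw_ext
  · intro j; rw [set_inl]; rfl
  · intro q; rw [at_set]; cases q <;> rfl

end RVlemmas

variable [DecidableEq J]

/-! ### Simple commands -/

theorem r_mov {x o : W} (hxo : x ≠ o) (s : SW J E) {a : SSym E} {l : List (SSym E)}
    (h : s.at x = a :: l) :
    Runs (Prog.mov (Sum.inr x) (Sum.inr o) : PW J E) s ((s.set x l).set o (a :: s.at o)) 1 :=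
  Runs.mov (by simpa using hxo) s h

theorem r_push (x : W) (a : SSym E) (s : SW J E) :
    Runs (Prog.push (Sum.inr x) a : PW J E) s (s.set x (a :: s.at x)) 1 := Runs.push _ a s

theorem r_pop (x : W) (s : SW J E) :
    Runs (Prog.pop (Sum.inr x) : PW J E) s (s.set x (s.at x).tail) 1 := Runs.pop _ s

theorem r_scan2 {i j o q : W} (hij : i ≠ j) (hio : i ≠ o) (hiq : i ≠ q) (hjo : j ≠ o)
    (hjq : j ≠ q) (hoq : o ≠ q) (f g : Bool → Bool → Bool → Bool) (as bs : List Bool)
    (h : as.length = bs.length) (c : Bool) (rest : List (SSym E)) (s : SW J E)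
    (hi : s.at i = bits as) (hj : s.at j = bits bs ++ rest) (hq : s.at q = SS.fl c) :
    Runs (SS.scan2 (Sum.inr i) (Sum.inr j) (Sum.inr o) (Sum.inr q) f g : PW J E) s
      ((((s.set i []).set j rest).set o ((bits (SS.scO f g c as bs)).reverse ++ s.at o)).set q
        (SS.fl (SS.scC g c as bs))) (3 * as.length) :=
  SS.Runs.scan2 (by simpa using hij) (by simpa using hio) (by simpa using hiq)
    (by simpa using hjo) (by simpa using hjq) (by simpa using hoq) f g as bs h c rest s hi hj hq

end Vale.Agent.P338.GS.Root
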