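import Vale.Agent.P338.GS.Iface2

/-!
# P338, stage 5: short arrays, computed sequentially
-/

namespace Vale.Agent.P338.GS.Sq

open Vale.Agent.P338 Vale.Agent.P338.GS

variable {J E : Type}

@[simp] theorem rev_una (n : ℕ) : (una n : List (SSym E)).reverse = una n := by simp [una]

@[simp] theorem len_wd' (S v : ℕ) : (wd S v : List (SSym E)).length = S := by simp [wd]

theorem len_ar (S n : ℕ) (x : ℕ → ℕ) : (ar S n x : List (SSym E)).length = n * S := by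
  unfold ar
  rw [length_bits, length_cat_of (fun i _ => length_bitsOf S (x i))]

variable [DecidableEq J]

/-! ### Stores given by lists -/

theorem asW_at_of_not_mem {L : List (W × List (SSym E))} {r : W} (h : r ∉ L.map Prod.fst) :
    (asW L : SW J E).at r = [] := by
  induction L with
  | nil => rfl
  | cons x L ih =>
    simp only [List.map_cons, List.mem_cons, not_or] at h
    rw [asW_cons_at, if_neg h.1, ih h.2]

theorem cln0_asW {L : List (W × List (SSym E))} (h : ∀ r ∈ L.map Prod.fst, r ∉ asc) :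
    Cln0 (asW L : SW J E) :=
  ⟨fun j => asW_inl L j, fun r hr => asW_at_of_not_mem fun hm => h r hm hr⟩

theorem cln_asW {L : List (W × List (SSym E))} (h : ∀ r ∈ L.map Prod.fst, r ∉ asc ++ psc) :
    Cln (asW L : SW J E) :=
  ⟨cln0_asW fun r hr hm => h r hr (List.mem_append_left _ hm),
    fun r hr => asW_at_of_not_mem fun hm => h r hm (List.mem_append_right _ hr)⟩

theorem r_fill {u b t : W} (hub : u ≠ b) (hut : u ≠ t) (hbt : b ≠ t) (a : SSym E)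
    (s : SW J E) (n : ℕ) (hu : s.at u = una n) (ht : s.at t = []) :
    Runs (Prog.fill (Sum.inr u) a (Sum.inr b) (Sum.inr t) : PW J E) s
      (s.set b (List.replicate n a ++ s.at b)) (8 * n + 1) :=
  Runs.fill (by simpa using hub) (by simpa using hut) (by simpa using hbt) a mk s n hu ht

/-! ### The root -/

/-- The parameters. -/
def cm1 : List (GC E) := [.scl 64 .LL .WS, .scl 20 .LL .WB, .rev .VV .F1, .clr .LL]

theorem cm1_runs (κ ℓ : ℕ) (x y : List (SSym E)) :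
    Runs (gcs cm1 : PW J E)
      (asW [(.HR, x), (.HN, y), (.VV, una κ), (.LL, una ℓ)])
      (asW [(.HR, x), (.HN, y), (.F1, una κ), (.WS, una (64 * ℓ)), (.WB, una (20 * ℓ))])
      (200 * ℓ + 3 * κ + 10) := by
  have h := gcs_spec (J := J) (cm1 : List (GC E))
    (asW [(.HR, x), (.HN, y), (.VV, una κ), (.LL, una ℓ)]) (by
    simp [cm1, goks, GC.ok, GC.eff, at_set])
  refine (h.mono ?_).of_eq ?_
  · simp only [cm1, gcosts, GC.cost, GC.eff]
    simp [at_set]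
    omega
  · simp only [cm1, geffs, GC.eff]
    refine sw_ext (fun j => by simp) (fun q => ?_)
    cases q <;> simp [at_set]
    all_goals rw [Nat.mul_comm]

/-- The root on `PR`, `PI`. -/
def rootP (root cj : PW J E) (b : Bool) : PW J E :=
  (gcs cm1).seq (root.seq (if b then cj else Prog.skip))

theorem rootP_runs {root cj : PW J E} {T : ℕ → ℕ} {C₂ C₃ : ℕ} (hroot : RootSpec root T C₂)
    (hcj : CjSpec cj C₃) (b : Bool) {κ ℓ : ℕ} (hl : 1 ≤ ℓ) (x y : List (SSym E)) :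
    Runs (rootP root cj b)
      (asW [(.HR, x), (.HN, y), (.VV, una κ), (.LL, una ℓ)])
      (asW [(.HR, x), (.HN, y), (.WS, una (64 * ℓ)), (.WB, una (20 * ℓ)),
        (.PR, wd (64 * ℓ) (rtc (64 * ℓ) (20 * ℓ) b κ).1),
        (.PI, wd (64 * ℓ) (rtc (64 * ℓ) (20 * ℓ) b κ).2)])
      ((20 * C₂ + C₃ + 220) * ((κ + 1) * ℓ * (64 * ℓ + T (64 * ℓ)))) := by
  have h1 := cm1_runs (J := J) κ ℓ x y
  have h2 := hroot (64 * ℓ) (20 * ℓ) κ
    (asW [(.HR, x), (.HN, y), (.F1, una κ), (.WS, una (64 * ℓ)), (.WB, una (20 * ℓ))])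
    (by omega) (by omega) (cln0_asW (by simp [asc])) (by simp) (by simp) (by simp) (by simp)
  have h2' := h2.of_eq (s'' := asW [(.HR, x), (.HN, y), (.WS, una (64 * ℓ)),
    (.WB, una (20 * ℓ)), (.PR, wd (64 * ℓ) (rt (20 * ℓ) κ).1),
    (.PI, wd (64 * ℓ) (rt (20 * ℓ) κ).2)]) (by exact sw_ext (fun j => by simp) (fun q => by cases q <;> simp [at_set]))
  have hlt : (rt (20 * ℓ) κ).2 < 2 ^ (64 * ℓ) :=
    lt_of_le_of_lt (rt_le (20 * ℓ) κ).2 (Nat.pow_lt_pow_right (by norm_num) (by omega))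
  have h3 : Runs (if b then cj else Prog.skip)
      (asW [(.HR, x), (.HN, y), (.WS, una (64 * ℓ)),
    (.WB, una (20 * ℓ)), (.PR, wd (64 * ℓ) (rt (20 * ℓ) κ).1),
    (.PI, wd (64 * ℓ) (rt (20 * ℓ) κ).2)])
      (asW [(.HR, x), (.HN, y), (.WS, una (64 * ℓ)), (.WB, una (20 * ℓ)),
        (.PR, wd (64 * ℓ) (rtc (64 * ℓ) (20 * ℓ) b κ).1),
        (.PI, wd (64 * ℓ) (rtc (64 * ℓ) (20 * ℓ) b κ).2)]) (C₃ * (64 * ℓ) + 1) := by
    cases b
    · exact (Runs.skip _).mono (by omega)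
    · have h := hcj (64 * ℓ) (rt (20 * ℓ) κ).2 (asW [(.HR, x), (.HN, y), (.WS, una (64 * ℓ)),
        (.WB, una (20 * ℓ)), (.PR, wd (64 * ℓ) (rt (20 * ℓ) κ).1),
        (.PI, wd (64 * ℓ) (rt (20 * ℓ) κ).2)]) (by omega) (cln0_asW (by simp [asc])) hlt
        (by simp) (by simp)
      refine (h.mono (by omega)).of_eq ?_
      simp only [rtc, cjR]
      refine sw_ext (fun j => by simp) (fun q => ?_)
      cases q <;> simp [at_set]
  refine (h1.seq (h2'.seq h3)).mono ?_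
  have e0 : ℓ ≤ (κ + 1) * ℓ * (64 * ℓ + T (64 * ℓ)) := by
    calc ℓ = 1 * ℓ * 1 := by ring
      _ ≤ (κ + 1) * ℓ * (64 * ℓ + T (64 * ℓ)) :=
        Nat.mul_le_mul (Nat.mul_le_mul_right _ (by omega)) (by omega)
  have e1 : 64 * ℓ ≤ (κ + 1) * ℓ * (64 * ℓ + T (64 * ℓ)) := by
    calc 64 * ℓ = 1 * 1 * (64 * ℓ) := by ring
      _ ≤ (κ + 1) * ℓ * (64 * ℓ + T (64 * ℓ)) :=
        Nat.mul_le_mul (Nat.mul_le_mul (by omega) hl) (by omega)
  have e2 : κ + 1 ≤ (κ + 1) * ℓ * (64 * ℓ + T (64 * ℓ)) := by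
    calc κ + 1 = (κ + 1) * 1 * 1 := by ring
      _ ≤ (κ + 1) * ℓ * (64 * ℓ + T (64 * ℓ)) :=
        Nat.mul_le_mul (Nat.mul_le_mul_left _ hl) (by omega)
  have e3 : C₂ * ((κ + 1) * (20 * ℓ) * (64 * ℓ + T (64 * ℓ))) =
      20 * C₂ * ((κ + 1) * ℓ * (64 * ℓ + T (64 * ℓ))) := by ring
  have e4 : C₃ * (64 * ℓ) ≤ C₃ * ((κ + 1) * ℓ * (64 * ℓ + T (64 * ℓ))) :=
    Nat.mul_le_mul_left _ e1
  have e5 : (20 * C₂ + C₃ + 220) * ((κ + 1) * ℓ * (64 * ℓ + T (64 * ℓ))) =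
      20 * C₂ * ((κ + 1) * ℓ * (64 * ℓ + T (64 * ℓ))) +
      C₃ * ((κ + 1) * ℓ * (64 * ℓ + T (64 * ℓ))) +
      220 * ((κ + 1) * ℓ * (64 * ℓ + T (64 * ℓ))) := by ring
  rw [e3, e5]
  generalize (κ + 1) * ℓ * (64 * ℓ + T (64 * ℓ)) = P at *
  omega

/-! ### The array of ones -/

/-- The array of `n` ones (`n` on `u`). -/
def onesP (cin : PW J E) (u : W) : PW J E :=
  (Prog.fill (Sum.inr u) (sb true) (Sum.inr .XR) (Sum.inr .F5)).seq cin

omit [DecidableEq J] in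
theorem ones_bits (n : ℕ) : (List.replicate n (sb true) : List (SSym E)) = ar 1 n fun _ => 1 := by
  unfold ar
  have h : (cat n fun _ => bitsOf 1 1) = List.replicate n true := by
    have := cat_replicate n 1 true
    rw [Nat.mul_one] at this
    rw [← this]
    rfl
  rw [h]
  simp [bits]

/-- The commands before the chirp. -/
def cm2 : List (GC E) := [.push .HX mk, .push .HZ mk, .push .WT mk]

/-- The commands at the end. -/
def cm3 : List (GC E) :=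
  [.rev .XR .T1, .rev .T1 .N1, .rev .XI .T1, .rev .T1 .N2, .clr .HX, .clr .HR, .clr .HN,
    .clr .HZ, .clr .WS, .clr .WB, .clr .WT, .clr .PR, .clr .PI]

/-- A chirp array. -/
def seqChP (cin root cj chirp : PW J E) (b : Bool) : PW J E :=
  (rootP root cj b).seq ((gcs cm2).seq ((onesP cin .HR).seq (chirp.seq (gcs cm3))))

theorem rtc_lt {ℓ : ℕ} (hl : 1 ≤ ℓ) (b : Bool) (κ : ℕ) :
    (rtc (64 * ℓ) (20 * ℓ) b κ).1 < 2 ^ (64 * ℓ) ∧ (rtc (64 * ℓ) (20 * ℓ) b κ).2 < 2 ^ (64 * ℓ) := by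
  have h := rt_le (20 * ℓ) κ
  have h1 : 2 ^ (20 * ℓ) < 2 ^ (64 * ℓ) := Nat.pow_lt_pow_right (by norm_num) (by omega)
  cases b
  · exact ⟨lt_of_le_of_lt h.1 h1, lt_of_le_of_lt h.2 h1⟩
  · exact ⟨lt_of_le_of_lt h.1 h1, sbR_lt ..⟩

theorem two_pow_lt {ℓ : ℕ} (hl : 1 ≤ ℓ) : 2 ^ (20 * ℓ) < 2 ^ (64 * ℓ) :=
  Nat.pow_lt_pow_right (by norm_num) (by omega)

/-- The middle part: an array of `n` ones. -/
theorem ones_runs {cin : PW J E} {C₁ : ℕ} (hin : InSpec cin C₁) {ℓ n : ℕ} (hl : 1 ≤ ℓ)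
    (u : W) (hu : u ∉ asc ++ psc ++ [W.XR, .XI, .WS, .WB, .WT])
    (L : List (W × List (SSym E))) (hL : ∀ r ∈ L.map Prod.fst, r ∉ asc ++ psc)
    (h1 : (asW L : SW J E).at u = una n) (h2 : (asW L : SW J E).at .WS = una (64 * ℓ))
    (h3 : (asW L : SW J E).at .WB = una (20 * ℓ)) (h4 : (asW L : SW J E).at .WT = una 1)
    (h5 : (asW L : SW J E).at .XR = []) (h6 : (asW L : SW J E).at .XI = []) :
    Runs (onesP cin u) (asW L)
      (((asW L : SW J E).set .XR (ar (64 * ℓ) n fun _ => 2 ^ (20 * ℓ))).set .XI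
        (ar (64 * ℓ) n fun _ => 0)) (C₁ * (n * (64 * ℓ) + 1) + 8 * n + 2) := by
  simp only [List.mem_append, List.mem_cons, List.not_mem_nil, or_false, not_or] at hu
  have hc : Cln (asW L : SW J E) := cln_asW hL
  have a1 := r_fill (J := J) (E := E) (u := u) (b := .XR) (t := .F5) (by tauto)
    (by rintro rfl; exact hu.1.2 (by decide)) (by decide) (sb true) (asW L) n h1
    (hc.emp2 _ (by decide))
  rw [h5, List.append_nil, ones_bits] at a1
  have a2 := hin n 1 (64 * ℓ) (20 * ℓ) (fun _ => 1) ((asW L : SW J E).set .XR (ar 1 n fun _ => 1))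
    le_rfl (by omega) (hc.set (by decide) _) (by rw [at_set_ne _ (by decide), h2])
    (by rw [at_set_ne _ (by decide), h3]) (by rw [at_set_ne _ (by decide), h4])
    (by rw [at_set_ne _ (by decide), h6]) (by norm_num) (by rw [at_set_self]; rfl)
  simp only [one_mul, set_set] at a2
  exact (a1.seq a2).mono (by omega)

theorem cm2_runs (x y w w' p q : List (SSym E)) :
    Runs (gcs cm2 : PW J E)
      (asW [(.HR, x), (.HN, y), (.WS, w), (.WB, w'), (.PR, p), (.PI, q)])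
      (asW [(.HR, x), (.HN, y), (.HX, una 1), (.HZ, una 1), (.WT, una 1), (.WS, w), (.WB, w'),
        (.PR, p), (.PI, q)]) 7 := by
  have h := gcs_spec (J := J) (cm2 : List (GC E)) (asW [(.HR, x), (.HN, y), (.WS, w),
      (.WB, w'), (.PR, p), (.PI, q)]) (by simp [cm2, goks, GC.ok])
  refine (h.mono ?_).of_eq ?_
  · simp [cm2, gcosts, GC.cost]
  · simp only [cm2, geffs, GC.eff]
    refine sw_ext (fun j => by simp) (fun q => ?_)
    cases q <;> simp [at_set]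
    all_goals rfl

theorem cm3_runs (x y z1 z2 z3 w w' p q l l' : List (SSym E)) :
    Runs (gcs cm3 : PW J E)
      (asW [(.HR, x), (.HN, y), (.HX, z1), (.HZ, z2), (.WT, z3), (.WS, w), (.WB, w'),
        (.PR, p), (.PI, q), (.XR, l), (.XI, l')])
      (asW [(.N1, l), (.N2, l')])
      (6 * l.length + 6 * l'.length + 3 * x.length + 3 * y.length + 3 * z1.length +
        3 * z2.length + 3 * z3.length + 3 * w.length + 3 * w'.length + 3 * p.length +
        3 * q.length + 20) := by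
  have h := gcs_spec (J := J) (cm3 : List (GC E)) (asW [(.HR, x), (.HN, y), (.HX, z1),
      (.HZ, z2), (.WT, z3), (.WS, w), (.WB, w'),
        (.PR, p), (.PI, q), (.XR, l), (.XI, l')]) (by simp [cm3, goks, GC.ok])
  refine (h.mono ?_).of_eq ?_
  · simp [cm3, gcosts, GC.cost, GC.eff, at_set]
    omega
  · simp only [cm3, geffs, GC.eff]
    refine sw_ext (fun j => by simp) (fun q => ?_)
    cases q <;> simp [at_set]

theorem seqCh {cin root cj chirp : PW J E} {T : ℕ → ℕ} {C₁ C₂ C₃ C₄ : ℕ} (hin : InSpec cin C₁)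
    (hroot : RootSpec root T C₂) (hcj : CjSpec cj C₃) (hch : ChirpSpec chirp T C₄) :
    SeqChSpec (seqChP cin root cj chirp) T (2 * C₁ + 20 * C₂ + C₃ + C₄ + 1000) := by
  intro b r κ ℓ hr hl hrl
  have a1 := rootP_runs hroot hcj b (κ := κ) hl (una r) []
  set ρ := rtc (64 * ℓ) (20 * ℓ) b κ with hρ
  obtain ⟨r1, r2⟩ := rtc_lt hl b κ
  rw [← hρ] at r1 r2
  have a2 := cm2_runs (J := J) (E := E) (una r) [] (una (64 * ℓ)) (una (20 * ℓ))
    (wd (64 * ℓ) ρ.1) (wd (64 * ℓ) ρ.2)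
  have a3 := ones_runs hin (n := r) hl .HR (by decide) [(.HR, una r), (.HN, []), (.HX, una 1),
    (.HZ, una 1), (.WT, una 1), (.WS, una (64 * ℓ)),
      (.WB, una (20 * ℓ)), (.PR, wd (64 * ℓ) ρ.1), (.PI, wd (64 * ℓ) ρ.2)]
      (by simp [asc, psc]) (by simp) (by simp) (by simp) (by simp) (by simp) (by simp)
  set s3 : SW J E := ((asW [(.HR, una r), (.HN, []), (.HX, una 1),
    (.HZ, una 1), (.WT, una 1), (.WS, una (64 * ℓ)),
      (.WB, una (20 * ℓ)), (.PR, wd (64 * ℓ) ρ.1), (.PI, wd (64 * ℓ) ρ.2)] : SW J E).set .XR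
      (ar (64 * ℓ) r fun _ => 2 ^ (20 * ℓ))).set .XI (ar (64 * ℓ) r fun _ => 0) with hs3
  have a4 := hch 1 r 1 (64 * ℓ) (20 * ℓ) ρ (fun _ _ _ => (2 ^ (20 * ℓ), 0)) s3
    ⟨le_rfl, hr, le_rfl, by omega, by omega, hrl, r1, r2⟩
    ⟨((cln_asW (by simp [asc, psc])).set (by decide) _).set (by decide) _,
      by simp [hs3, at_set], by simp [hs3, at_set], by simp [hs3, at_set],
      by simp [hs3, at_set], by simp [hs3, at_set], by simp [hs3, at_set],
      by simp [hs3, at_set]⟩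
    (fun _ _ _ => two_pow_lt hl) (fun _ _ _ => by positivity)
    (by simp [hs3, at_set, ar, arr3, cat_one]) (by simp [hs3, ar, arr3, cat_one])
  have a4' := a4.of_eq (s'' := asW [(.HR, una r), (.HN, []), (.HX, una 1), (.HZ, una 1),
    (.WT, una 1), (.WS, una (64 * ℓ)), (.WB, una (20 * ℓ)), (.PR, wd (64 * ℓ) ρ.1),
    (.PI, wd (64 * ℓ) ρ.2), (.XR, ar (64 * ℓ) r fun i => (cA (64 * ℓ) (20 * ℓ) ρ i).1),
    (.XI, ar (64 * ℓ) r fun i => (cA (64 * ℓ) (20 * ℓ) ρ i).2)]) (by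
      rw [hs3]
      refine sw_ext (fun j => by simp) (fun q => ?_)
      cases q <;> simp [at_set]
      all_goals simp [ar, arr3, cat_one, cA])
  have a5 := cm3_runs (J := J) (E := E) (una r) [] (una 1) (una 1) (una 1) (una (64 * ℓ))
    (una (20 * ℓ)) (wd (64 * ℓ) ρ.1) (wd (64 * ℓ) ρ.2)
    (ar (64 * ℓ) r fun i => (cA (64 * ℓ) (20 * ℓ) ρ i).1)
    (ar (64 * ℓ) r fun i => (cA (64 * ℓ) (20 * ℓ) ρ i).2)
  have e0 : (asW [(.HR, una r), (.HN, []), (.VV, una κ), (.LL, una ℓ)] : SW J E) =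
      asW [(.HR, una r), (.VV, una κ), (.LL, una ℓ)] := by exact sw_ext (fun j => by simp) (fun q => by cases q <;> simp [at_set])
  rw [e0] at a1
  unfold WRun
  refine (a1.seq (a2.seq (a3.seq (a4'.seq a5)))).mono ?_
  simp only [len_ar, len_una, len_wd', List.length_nil]
  have f1 : C₁ * (r * (64 * ℓ) + 1) ≤ C₁ * (2 * ((r + (κ + 1) * ℓ) * (64 * ℓ + T (64 * ℓ)))) := by
    refine Nat.mul_le_mul_left _ ?_
    have g1 : r * (64 * ℓ) ≤ (r + (κ + 1) * ℓ) * (64 * ℓ + T (64 * ℓ)) :=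
      Nat.mul_le_mul (by omega) (by omega)
    have g2 : 1 ≤ (r + (κ + 1) * ℓ) * (64 * ℓ + T (64 * ℓ)) :=
      Nat.mul_pos (by omega) (by omega)
    omega
  have f2 : (20 * C₂ + C₃ + 220) * ((κ + 1) * ℓ * (64 * ℓ + T (64 * ℓ))) ≤
      (20 * C₂ + C₃ + 220) * ((r + (κ + 1) * ℓ) * (64 * ℓ + T (64 * ℓ))) :=
    Nat.mul_le_mul_left _ (Nat.mul_le_mul_right _ (by omega))
  have f3 : C₄ * (1 * r * 1 * (64 * ℓ + T (64 * ℓ))) ≤
      C₄ * ((r + (κ + 1) * ℓ) * (64 * ℓ + T (64 * ℓ))) :=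
    Nat.mul_le_mul_left _ (Nat.mul_le_mul_right _ (by omega))
  have f4 : r * (64 * ℓ) ≤ (r + (κ + 1) * ℓ) * (64 * ℓ + T (64 * ℓ)) :=
    Nat.mul_le_mul (by omega) (by omega)
  have f5 : r ≤ r * (64 * ℓ) := Nat.le_mul_of_pos_right _ (by omega)
  have f6 : 64 * ℓ ≤ r * (64 * ℓ) := Nat.le_mul_of_pos_left _ hr
  have f7 : (2 * C₁ + 20 * C₂ + C₃ + C₄ + 1000) * ((r + (κ + 1) * ℓ) * (64 * ℓ + T (64 * ℓ))) =
      C₁ * (2 * ((r + (κ + 1) * ℓ) * (64 * ℓ + T (64 * ℓ)))) +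
      (20 * C₂ + C₃ + 220) * ((r + (κ + 1) * ℓ) * (64 * ℓ + T (64 * ℓ))) +
      C₄ * ((r + (κ + 1) * ℓ) * (64 * ℓ + T (64 * ℓ))) +
      780 * ((r + (κ + 1) * ℓ) * (64 * ℓ + T (64 * ℓ))) := by ring
  rw [f7]
  omega

/-! ### Twiddle factors -/

omit [DecidableEq J] in
theorem arr_two (M N S : ℕ) (e : ℕ → ℕ → ℕ) :
    arr4 1 M N 1 S (fun _ i j _ => e i j) = cat (M * N) fun k => bitsOf S (e (k / N) (k % N)) := by
  unfold arr4
  rw [cat_one, cat_mul]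
  refine cat_congr fun i _ => cat_congr fun j hj => ?_
  have e1 : (i * N + j) / N = i := by
    rw [Nat.mul_comm, Nat.mul_add_div (by omega), Nat.div_eq_of_lt hj, Nat.add_zero]
  have e2 : (i * N + j) % N = j := by
    rw [Nat.mul_comm, Nat.mul_add_mod, Nat.mod_eq_of_lt hj]
  rw [cat_one, e1, e2]

/-- Twiddle factors. -/
def seqTwP (cin root cj tw : PW J E) (b : Bool) : PW J E :=
  (rootP root cj b).seq ((gcs (cm2 ++ [.mul .HR .HN .N1])).seq ((onesP cin .N1).seq (tw.seq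
    (gcs (GC.clr .N1 :: cm3)))))

theorem cm2'_runs (M N : ℕ) (w w' p q : List (SSym E)) :
    Runs (gcs (cm2 ++ [.mul .HR .HN .N1]) : PW J E)
      (asW [(.HR, una M), (.HN, una N), (.WS, w), (.WB, w'), (.PR, p), (.PI, q)])
      (asW [(.N1, una (M * N)), (.HR, una M), (.HN, una N), (.HX, una 1), (.HZ, una 1),
        (.WT, una 1), (.WS, w), (.WB, w'), (.PR, p), (.PI, q)]) (M * (N * 10 + 8) + 10) := by
  have h := gcs_spec (J := J) (cm2 ++ [.mul .HR .HN .N1] : List (GC E))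
      (asW [(.HR, una M), (.HN, una N), (.WS, w),
      (.WB, w'), (.PR, p), (.PI, q)]) (by simp [cm2, goks, GC.ok, GC.eff, at_set])
  refine (h.mono ?_).of_eq ?_
  · simp [cm2, gcosts, GC.cost, GC.eff, at_set]
    omega
  · simp only [cm2, List.cons_append, List.nil_append, geffs, GC.eff]
    refine sw_ext (fun j => by simp) (fun q => ?_)
    cases q <;> simp [at_set]
    all_goals rfl

theorem cm3'_runs (n x y z1 z2 z3 w w' p q l l' : List (SSym E)) :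
    Runs (gcs (GC.clr .N1 :: cm3) : PW J E)
      (asW [(.N1, n), (.HR, x), (.HN, y), (.HX, z1), (.HZ, z2), (.WT, z3), (.WS, w), (.WB, w'),
        (.PR, p), (.PI, q), (.XR, l), (.XI, l')])
      (asW [(.N1, l), (.N2, l')])
      (3 * n.length + 6 * l.length + 6 * l'.length + 3 * x.length + 3 * y.length +
        3 * z1.length +
        3 * z2.length + 3 * z3.length + 3 * w.length + 3 * w'.length + 3 * p.length +
        3 * q.length + 20) := by
  have h := gcs_spec (J := J) (GC.clr .N1 :: cm3 : List (GC E)) (asW [(.N1, n), (.HR, x), (.HN, y),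
      (.HX, z1), (.HZ, z2), (.WT, z3), (.WS, w), (.WB, w'),
        (.PR, p), (.PI, q), (.XR, l), (.XI, l')]) (by simp [cm3, goks, GC.ok])
  refine (h.mono ?_).of_eq ?_
  · simp [cm3, gcosts, GC.cost, GC.eff, at_set]
    omega
  · simp only [cm3, geffs, GC.eff]
    refine sw_ext (fun j => by simp) (fun q => ?_)
    cases q <;> simp [at_set]

theorem seqTw {cin root cj tw : PW J E} {T : ℕ → ℕ} {C₁ C₂ C₃ C₄ : ℕ} (hin : InSpec cin C₁)
    (hroot : RootSpec root T C₂) (hcj : CjSpec cj C₃) (htw : TwSpec tw T C₄) :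
    SeqTwSpec (seqTwP cin root cj tw) T (2 * C₁ + 20 * C₂ + C₃ + C₄ + 1000) := by
  intro b M N κ ℓ hM hN hl hMl
  have a1 := rootP_runs hroot hcj b (κ := κ) hl (una M) (una N)
  set ρ := rtc (64 * ℓ) (20 * ℓ) b κ with hρ
  obtain ⟨r1, r2⟩ := rtc_lt hl b κ
  rw [← hρ] at r1 r2
  have a2 := cm2'_runs (J := J) (E := E) M N (una (64 * ℓ)) (una (20 * ℓ))
    (wd (64 * ℓ) ρ.1) (wd (64 * ℓ) ρ.2)
  have a3 := ones_runs hin (n := M * N) hl .N1 (by decide) [(.N1, una (M * N)), (.HR, una M),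
    (.HN, una N), (.HX, una 1),
    (.HZ, una 1), (.WT, una 1), (.WS, una (64 * ℓ)),
      (.WB, una (20 * ℓ)), (.PR, wd (64 * ℓ) ρ.1), (.PI, wd (64 * ℓ) ρ.2)]
      (by simp [asc, psc]) (by simp) (by simp) (by simp) (by simp) (by simp) (by simp)
  set s3 : SW J E := ((asW [(.N1, una (M * N)), (.HR, una M), (.HN, una N), (.HX, una 1),
    (.HZ, una 1), (.WT, una 1), (.WS, una (64 * ℓ)),
      (.WB, una (20 * ℓ)), (.PR, wd (64 * ℓ) ρ.1), (.PI, wd (64 * ℓ) ρ.2)] : SW J E).set .XR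
      (ar (64 * ℓ) (M * N) fun _ => 2 ^ (20 * ℓ))).set .XI (ar (64 * ℓ) (M * N) fun _ => 0)
    with hs3
  have a4 := htw 1 M N 1 (64 * ℓ) (20 * ℓ) ρ (fun _ _ _ _ => (2 ^ (20 * ℓ), 0)) s3
    ⟨le_rfl, hM, le_rfl, by omega, by omega, hMl, r1, r2⟩ hN
    ⟨((cln_asW (by simp [asc, psc])).set (by decide) _).set (by decide) _,
      by simp [hs3, at_set], by simp [hs3, at_set], by simp [hs3, at_set],
      by simp [hs3, at_set], by simp [hs3, at_set], by simp [hs3, at_set],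
      by simp [hs3, at_set]⟩ (by simp [hs3, at_set])
    (fun _ _ _ _ => two_pow_lt hl) (fun _ _ _ _ => by positivity)
    (by rw [arr_two M N (64 * ℓ) fun _ _ => 2 ^ (20 * ℓ)]; simp [hs3, at_set, ar])
    (by rw [arr_two M N (64 * ℓ) fun _ _ => 0]; simp [hs3, ar])
  have a4' := a4.of_eq (s'' := asW [(.N1, una (M * N)), (.HR, una M), (.HN, una N),
    (.HX, una 1), (.HZ, una 1),
    (.WT, una 1), (.WS, una (64 * ℓ)), (.WB, una (20 * ℓ)), (.PR, wd (64 * ℓ) ρ.1),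
    (.PI, wd (64 * ℓ) ρ.2),
    (.XR, ar (64 * ℓ) (M * N) fun k => (tA (64 * ℓ) (20 * ℓ) ρ (k / N) (k % N)).1),
    (.XI, ar (64 * ℓ) (M * N) fun k => (tA (64 * ℓ) (20 * ℓ) ρ (k / N) (k % N)).2)]) (by
      rw [hs3, arr_two M N (64 * ℓ) fun i j => (cmR (64 * ℓ) (20 * ℓ) (2 ^ (20 * ℓ), 0)
        (GS.tw (64 * ℓ) (20 * ℓ) ρ i j)).1,
        arr_two M N (64 * ℓ) fun i j => (cmR (64 * ℓ) (20 * ℓ) (2 ^ (20 * ℓ), 0)
        (GS.tw (64 * ℓ) (20 * ℓ) ρ i j)).2]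
      refine sw_ext (fun j => by simp) (fun q => ?_)
      cases q <;> simp [at_set]
      all_goals simp [ar, tA])
  have a5 := cm3'_runs (J := J) (E := E) (una (M * N)) (una M) (una N) (una 1) (una 1) (una 1)
    (una (64 * ℓ)) (una (20 * ℓ)) (wd (64 * ℓ) ρ.1) (wd (64 * ℓ) ρ.2)
    (ar (64 * ℓ) (M * N) fun k => (tA (64 * ℓ) (20 * ℓ) ρ (k / N) (k % N)).1)
    (ar (64 * ℓ) (M * N) fun k => (tA (64 * ℓ) (20 * ℓ) ρ (k / N) (k % N)).2)
  unfold WRun
  refine (a1.seq (a2.seq (a3.seq (a4'.seq a5)))).mono ?_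
  simp only [len_ar, len_una, len_wd']
  have hMN : 1 ≤ M * N := Nat.mul_pos hM hN
  have f1 : C₁ * (M * N * (64 * ℓ) + 1) ≤
      C₁ * (2 * ((M * N + (κ + 1) * ℓ) * (64 * ℓ + T (64 * ℓ)))) := by
    refine Nat.mul_le_mul_left _ ?_
    have g1 : M * N * (64 * ℓ) ≤ (M * N + (κ + 1) * ℓ) * (64 * ℓ + T (64 * ℓ)) :=
      Nat.mul_le_mul (by omega) (by omega)
    have g2 : 1 ≤ (M * N + (κ + 1) * ℓ) * (64 * ℓ + T (64 * ℓ)) :=
      Nat.mul_pos (by omega) (by omega)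
    omega
  have f2 : (20 * C₂ + C₃ + 220) * ((κ + 1) * ℓ * (64 * ℓ + T (64 * ℓ))) ≤
      (20 * C₂ + C₃ + 220) * ((M * N + (κ + 1) * ℓ) * (64 * ℓ + T (64 * ℓ))) :=
    Nat.mul_le_mul_left _ (Nat.mul_le_mul_right _ (by omega))
  have f3 : C₄ * (1 * M * N * 1 * (64 * ℓ + T (64 * ℓ))) ≤
      C₄ * ((M * N + (κ + 1) * ℓ) * (64 * ℓ + T (64 * ℓ))) := by
    refine Nat.mul_le_mul_left _ (Nat.mul_le_mul_right _ ?_)
    rw [one_mul, mul_one]
    omega
  have f4 : M * N * (64 * ℓ) ≤ (M * N + (κ + 1) * ℓ) * (64 * ℓ + T (64 * ℓ)) :=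
    Nat.mul_le_mul (by omega) (by omega)
  have f5 : M * N ≤ M * N * (64 * ℓ) := Nat.le_mul_of_pos_right _ (by omega)
  have f6 : 64 * ℓ ≤ M * N * (64 * ℓ) := Nat.le_mul_of_pos_left _ hMN
  have f8 : M ≤ M * N := Nat.le_mul_of_pos_right _ hN
  have f9 : N ≤ M * N := Nat.le_mul_of_pos_left _ hM
  have f10 : M * (N * 10 + 8) = 10 * (M * N) + 8 * M := by ring
  have f7 : (2 * C₁ + 20 * C₂ + C₃ + C₄ + 1000) *
      ((M * N + (κ + 1) * ℓ) * (64 * ℓ + T (64 * ℓ))) =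
      C₁ * (2 * ((M * N + (κ + 1) * ℓ) * (64 * ℓ + T (64 * ℓ)))) +
      (20 * C₂ + C₃ + 220) * ((M * N + (κ + 1) * ℓ) * (64 * ℓ + T (64 * ℓ))) +
      C₄ * ((M * N + (κ + 1) * ℓ) * (64 * ℓ + T (64 * ℓ))) +
      780 * ((M * N + (κ + 1) * ℓ) * (64 * ℓ + T (64 * ℓ))) := by ring
  rw [f7, f10]
  omega

end Vale.Agent.P338.GS.Sq
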