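import Vale.Agent.P338.GS.TCmd
import Vale.Agent.P338.GS.TrSpec

/-!
# P338, stage 5: the transposition of words, calls
-/

namespace Vale.Agent.P338.GS.T3

open Vale.Agent.P338 Vale.Agent.P338.GS

variable {J E : Type} [DecidableEq J]

/-- The stacks below level 3. -/
abbrev I2 (J : Type) : Type := ((Loc J ⊕ W) ⊕ V1) ⊕ V2

/-- The stacks of level 0. -/
abbrev k0 (w : W) : I2 J := Sum.inl (Sum.inl (Sum.inr w))

/-- The stacks of level 2. -/
abbrev k2 (w : V2) : I2 J := Sum.inr w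

/-- Procedures of level 0. -/
noncomputable def lf0 (p : PW J E) : P2 J E := (p.map Sum.inl).map Sum.inl

theorem asg2 {p : PW J E} {a b : List (W × List (SSym E))} {T : ℕ} (hp : WRun p a b T) :
    Runs (lf0 p) (asg (a.map fun x => ((k0 x.1 : I2 J), x.2)))
      (asg (b.map fun x => ((k0 x.1 : I2 J), x.2))) T := by
  have := asg_lift (V := V2) hp.asg1
  rw [List.map_map, List.map_map] at this
  exact this

theorem asg2' {p : P2 J E} {a b : List (V2 × List (SSym E))} {T : ℕ}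
    (hp : Runs p (up (asg a)) (up (asg b)) T) :
    Runs p (asg (a.map fun x => ((k2 x.1 : I2 J), x.2)))
      (asg (b.map fun x => ((k2 x.1 : I2 J), x.2))) T := by
  rwa [up_asg, up_asg] at hp

omit [DecidableEq J] in
theorem len_ar0 (S n : ℕ) (x : ℕ → ℕ) : (ar S n x : List (SSym E)).length = n * S := by
  unfold ar bits
  rw [List.length_map]
  exact length_cat_of fun i _ => by simp

/-- The rule for calls. -/
theorem callT {p : P2 J E} (L : List (Bool × V3 × I2 J)) (O : List (I2 J × V3))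
    (s s' : TV E) {T : ℕ} (hp : Runs p (asg (ldl s.st L)) (asg (unl s'.st O)) T)
    (h1 : (L.map fun x => x.2.1).Nodup) (h2 : (L.map fun x => x.2.2).Nodup)
    (h3 : V3.t ∉ L.map fun x => x.2.1) (h4 : (O.map Prod.fst).Nodup)
    (h5 : (O.map Prod.snd).Nodup) (h6 : V3.t ∉ O.map Prod.snd)
    (h7 : ∀ v ∈ O.map Prod.snd, ldst s.st L v = [])
    (h8 : unst (ldst s.st L) s'.st O = s'.st) :
    Runs (callP .t L p O) (up s.st) (up s'.st) (ldt s.st L + T + unt s'.st O + 2) := by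
  have := call_runs V3.t L O s.st s'.st hp rfl h1 h2 h3 h4 h5 h6 h7
  rwa [h8] at this

section

variable (X u v Z t g m : ℕ) (dr di cr ci d a1 a2 a3 a4 a5 a6 a7 a8 : List (SSym E))

/-- First pass. -/
def inL : List (Bool × V3 × I2 J) :=
  [(true, .dr, k0 .XR), (false, .ht, k0 .WT), (false, .l, k0 .LL)]

/-- First pass. -/
def inO : List (I2 J × V3) := [(k0 .XR, .dr), (k0 .XI, .di)]

theorem in_call {p : PW J E} {C : ℕ} (hp : InPSpec p C) (n : ℕ) (e : ℕ → ℕ) (ht : 1 ≤ t)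
    (htl : t ≤ wL g) (he : ∀ k, e k < 2 ^ t) :
    Runs (callP V3.t inL (lf0 p) inO)
      (up (ts X u v Z t g m (ar t n e) [] cr ci d a1 a2 a3 a4 a5 a6 a7 a8).st)
      (up (ts X u v Z t g m (ar (64 * wL g) n fun k => e k * 2 ^ (20 * wL g))
        (ar (64 * wL g) n fun _ => 0) cr ci d a1 a2 a3 a4 a5 a6 a7 a8).st)
      (C * (n * wL g + wL g + 1) + 6 * (n * t) + 6 * t + 6 * wL g +
        12 * (n * (64 * wL g)) + 20) := by
  have h := asg2 (hp n t (wL g) e ht htl he)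
  refine (callT inL inO
    (ts X u v Z t g m (ar t n e) [] cr ci d a1 a2 a3 a4 a5 a6 a7 a8)
    (ts X u v Z t g m (ar (64 * wL g) n fun k => e k * 2 ^ (20 * wL g))
        (ar (64 * wL g) n fun _ => 0) cr ci d a1 a2 a3 a4 a5 a6 a7 a8) h
    (by simp [inL]) (by simp [inL]) (by simp [inL]) (by simp [inO]) (by simp [inO])
    (by simp [inO])
    ?_ ?_).mono ?_
  · simp [inO, inL, ldst, ts, TV.st]
  · funext q
    cases q <;> simp [unst, ldst, inL, inO, ts, TV.st]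
  · simp only [ldt, unt, inL, inO, ts, List.map_cons, List.map_nil, List.sum_cons,
      List.sum_nil, TV.at_dr, TV.at_di, TV.at_ht, TV.at_l, len_una0, len_ar0]
    omega

/-- Short chirp arrays. -/
def sqL (w : V3) : List (Bool × V3 × I2 J) :=
  [(false, w, k0 .HR), (true, .d, k0 .VV), (false, .l, k0 .LL)]

/-- Short chirp arrays. -/
def sqO : List (I2 J × V3) := [(k0 .N1, .cr), (k0 .N2, .ci)]

/-- A short chirp array, with components of `S` bits. -/
def ch1 (g r κ : ℕ) : List (SSym E) :=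
  ar (wS g) r fun i => (cA (wS g) (20 * wL g) (rtc (wS g) (20 * wL g) true κ) i).1

/-- A short chirp array, with components of `S` bits. -/
def ch2 (g r κ : ℕ) : List (SSym E) :=
  ar (wS g) r fun i => (cA (wS g) (20 * wL g) (rtc (wS g) (20 * wL g) true κ) i).2

theorem sqb_call {p : Bool → PW J E} {Tt : ℕ → ℕ} {C : ℕ} (hp : SeqChSpec p Tt C) (κ : ℕ)
    (hg : 1 ≤ g) (hr : 2 ^ v < 2 ^ (wS g - 1)) :
    Runs (callP V3.t (sqL .b) (lf0 (p true)) sqO)
      (up (ts X u v Z t g m dr di [] [] (una κ) a1 a2 a3 a4 a5 a6 a7 a8).st)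
      (up (ts X u v Z t g m dr di (ch1 g (2 ^ v) κ) (ch2 g (2 ^ v) κ) [] a1 a2 a3 a4 a5 a6
        a7 a8).st)
      (C * ((2 ^ v + (κ + 1) * wL g) * (wS g + Tt (wS g))) + 6 * 2 ^ v + 6 * κ + 6 * wL g +
        12 * (2 ^ v * wS g) + 20) := by
  have hl : 1 ≤ wL g := Nat.mul_pos (by positivity) hg
  have h := asg2 (hp true (2 ^ v) κ (wL g) Nat.one_le_two_pow hl (by rwa [← wS_eq hg]))
  rw [← wS_eq hg] at h
  refine (callT (sqL .b) sqO
    (ts X u v Z t g m dr di [] [] (una κ) a1 a2 a3 a4 a5 a6 a7 a8)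
    (ts X u v Z t g m dr di (ch1 g (2 ^ v) κ) (ch2 g (2 ^ v) κ) [] a1 a2 a3 a4 a5 a6 a7 a8) h
    (by simp [sqL]) (by simp [sqL]) (by simp [sqL]) (by simp [sqO]) (by simp [sqO])
    (by simp [sqO]) ?_ ?_).mono ?_
  · simp [sqO, sqL, ldst, ts, TV.st]
  · funext q
    cases q <;> simp [unst, ldst, sqL, sqO, ts, TV.st]
  · simp only [ldt, unt, sqL, sqO, ts, List.map_cons, List.map_nil, List.sum_cons,
      List.sum_nil, TV.at_b, TV.at_d, TV.at_l, TV.at_cr, TV.at_ci, len_una0, ch1, ch2, len_ar0]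
    omega

theorem sqa_call {p : Bool → PW J E} {Tt : ℕ → ℕ} {C : ℕ} (hp : SeqChSpec p Tt C) (κ : ℕ)
    (hg : 1 ≤ g) (hr : 2 ^ u < 2 ^ (wS g - 1)) :
    Runs (callP V3.t (sqL .a) (lf0 (p true)) sqO)
      (up (ts X u v Z t g m dr di [] [] (una κ) a1 a2 a3 a4 a5 a6 a7 a8).st)
      (up (ts X u v Z t g m dr di (ch1 g (2 ^ u) κ) (ch2 g (2 ^ u) κ) [] a1 a2 a3 a4 a5 a6
        a7 a8).st)
      (C * ((2 ^ u + (κ + 1) * wL g) * (wS g + Tt (wS g))) + 6 * 2 ^ u + 6 * κ + 6 * wL g +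
        12 * (2 ^ u * wS g) + 20) := by
  have hl : 1 ≤ wL g := Nat.mul_pos (by positivity) hg
  have h := asg2 (hp true (2 ^ u) κ (wL g) Nat.one_le_two_pow hl (by rwa [← wS_eq hg]))
  rw [← wS_eq hg] at h
  refine (callT (sqL .a) sqO
    (ts X u v Z t g m dr di [] [] (una κ) a1 a2 a3 a4 a5 a6 a7 a8)
    (ts X u v Z t g m dr di (ch1 g (2 ^ u) κ) (ch2 g (2 ^ u) κ) [] a1 a2 a3 a4 a5 a6 a7 a8) h
    (by simp [sqL]) (by simp [sqL]) (by simp [sqL]) (by simp [sqO]) (by simp [sqO])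
    (by simp [sqO]) ?_ ?_).mono ?_
  · simp [sqO, sqL, ldst, ts, TV.st]
  · funext q
    cases q <;> simp [unst, ldst, sqL, sqO, ts, TV.st]
  · simp only [ldt, unt, sqL, sqO, ts, List.map_cons, List.map_nil, List.sum_cons,
      List.sum_nil, TV.at_a, TV.at_d, TV.at_l, TV.at_cr, TV.at_ci, len_una0, ch1, ch2, len_ar0]
    omega

/-- Factors. -/
def twL : List (Bool × V3 × I2 J) :=
  [(false, .a, k2 .m1), (true, .a6, k2 .n1), (true, .a7, k2 .n0), (true, .a8, k2 .k1),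
    (true, .d, k2 .k0), (false, .g, k2 .g), (false, .l, k2 .l), (false, .m, k2 .m)]

/-- Factors. -/
def twO : List (I2 J × V3) := [(k2 .er, .cr), (k2 .ei, .ci)]

/-- The array of factors. -/
def twe (u v g k : ℕ) : ℕ × ℕ :=
  tF (wS g) (20 * wL g) (rtc (wS g) (20 * wL g) true (u + v - (v - v / 2) - 2))
    (rtc (wS g) (20 * wL g) true (u + v - 2)) (2 ^ (v - v / 2)) (k / 2 ^ v) (k % 2 ^ v)

theorem tw_call {p : Bool → P2 J E} {Tb Tt : ℕ → ℕ} {C : ℕ} (hp : TwfSpec p Tb Tt C)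
    (hg : 1 ≤ g) (hr : 2 ^ u < 2 ^ (wS g - 1)) (hm : 8064 * (2 ^ u * 2 ^ v * wS g) ≤ m) :
    Runs (callP V3.t twL (p true) twO)
      (up (ts X u v Z t g m dr di [] [] (una (u + v - 2)) a1 a2 a3 a4 a5 (una (2 ^ (v / 2)))
        (una (2 ^ (v - v / 2))) (una (u + v - (v - v / 2) - 2))).st)
      (up (ts X u v Z t g m dr di (ar (wS g) (2 ^ u * 2 ^ v) fun k => (twe u v g k).1)
        (ar (wS g) (2 ^ u * 2 ^ v) fun k => (twe u v g k).2) [] a1 a2 a3 a4 a5 [] [] []).st)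
      (C * (m + Tb m + 2 ^ u * 2 ^ v * wS g * g +
        (2 ^ u * 2 ^ (v / 2) + 2 ^ u * 2 ^ (v - v / 2) +
          (u + v - (v - v / 2) - 2 + 1) * wL g + (u + v - 2 + 1) * wL g) *
            (wS g + Tt (wS g))) + 6 * 2 ^ u + 6 * 2 ^ (v / 2) + 6 * 2 ^ (v - v / 2) +
        12 * (u + v) + 6 * g + 6 * wL g + 6 * m + 12 * (2 ^ u * 2 ^ v * wS g) + 40) := by
  have e : 2 ^ (v / 2) * 2 ^ (v - v / 2) = 2 ^ v := by
    rw [← pow_add]; congr 1; omega
  have h := hp true (2 ^ u) (2 ^ (v / 2)) (2 ^ (v - v / 2)) (u + v - (v - v / 2) - 2)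
    (u + v - 2) g m Nat.one_le_two_pow Nat.one_le_two_pow Nat.one_le_two_pow hg hr
    (by rw [e]; exact hm)
  rw [e] at h
  have h' := asg2' h
  refine (callT twL twO
    (ts X u v Z t g m dr di [] [] (una (u + v - 2)) a1 a2 a3 a4 a5 (una (2 ^ (v / 2)))
        (una (2 ^ (v - v / 2))) (una (u + v - (v - v / 2) - 2)))
    (ts X u v Z t g m dr di (ar (wS g) (2 ^ u * 2 ^ v) fun k => (twe u v g k).1)
        (ar (wS g) (2 ^ u * 2 ^ v) fun k => (twe u v g k).2) [] a1 a2 a3 a4 a5 [] [] []) h'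
    (by simp [twL]) (by simp [twL]) (by simp [twL]) (by simp [twO]) (by simp [twO])
    (by simp [twO]) ?_ ?_).mono ?_
  · simp [twO, twL, ldst, ts, TV.st]
  · funext q
    cases q <;> simp [unst, ldst, twL, twO, ts, TV.st]
  · simp only [ldt, unt, twL, twO, ts, List.map_cons, List.map_nil, List.sum_cons,
      List.sum_nil, TV.at_a, TV.at_d, TV.at_l, TV.at_g, TV.at_m, TV.at_a6, TV.at_a7,
      TV.at_a8, TV.at_cr, TV.at_ci, len_una0, len_ar0]
    omega

/-- Product of arrays. -/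
def exL : List (Bool × V3 × I2 J) :=
  [(true, .dr, k2 .dr), (true, .di, k2 .di), (true, .cr, k2 .cr), (true, .ci, k2 .ci),
    (true, .a1, k2 .zx), (true, .a2, k2 .zr), (true, .a3, k2 .zz), (true, .g, k2 .g),
    (true, .l, k2 .l), (true, .m, k2 .m)]

/-- Product of arrays. -/
def exO : List (I2 J × V3) :=
  [(k2 .dr, .dr), (k2 .di, .di), (k2 .cr, .cr), (k2 .ci, .ci), (k2 .zx, .a1), (k2 .zr, .a2),
    (k2 .zz, .a3), (k2 .g, .g), (k2 .l, .l), (k2 .m, .m)]

theorem ex_call {p : P2 J E} {Tb : ℕ → ℕ} {C : ℕ} (hp : ExpSpec p Tb C)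
    (r : ℕ) (c : ℕ → ℕ × ℕ) (e : ℕ → ℕ → ℕ → ℕ × ℕ) (hX : 1 ≤ X) (hr : 1 ≤ r) (hZ : 1 ≤ Z)
    (hg : 1 ≤ g) (hm : 8064 * (X * r * Z * wS g) ≤ m)
    (he1 : ∀ x i z, (e x i z).1 < 2 ^ wS g) (he2 : ∀ x i z, (e x i z).2 < 2 ^ wS g)
    (hc1 : ∀ i, (c i).1 < 2 ^ wS g) (hc2 : ∀ i, (c i).2 < 2 ^ wS g) :
    Runs (callP V3.t exL p exO)
      (up (ts X u v Z t g m (bits (arr3 X r Z (wS g) fun x i z => (e x i z).1))
        (bits (arr3 X r Z (wS g) fun x i z => (e x i z).2))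
        (ar (wS g) r fun i => (c i).1) (ar (wS g) r fun i => (c i).2) d (una X) (una r)
        (una Z) a4 a5 a6 a7 a8).st)
      (up (ts X u v Z t g m (bits (arr3 X r Z (wS g) fun x i z =>
          (cmR (wS g) (20 * wL g) (e x i z) (c i)).1))
        (bits (arr3 X r Z (wS g) fun x i z => (cmR (wS g) (20 * wL g) (e x i z) (c i)).2))
        (ar (wS g) r fun i => (c i).1) (ar (wS g) r fun i => (c i).2) d (una X) (una r)
        (una Z) a4 a5 a6 a7 a8).st)
      (C * (m + Tb m + X * r * Z * wS g * g) + 24 * (X * r * Z * wS g) + 24 * (r * wS g) +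
        12 * X + 12 * r + 12 * Z + 12 * g + 12 * wL g + 12 * m + 60) := by
  have h' := asg2' (hp X r Z g m c e hX hr hZ hg hm he1 he2 hc1 hc2)
  have l3 : ∀ e : ℕ → ℕ → ℕ → ℕ, (bits (arr3 X r Z (wS g) e) : List (SSym E)).length =
      X * r * Z * wS g := by
    intro e
    unfold bits arr3
    rw [List.length_map, length_cat_of (L := r * (Z * wS g)) fun x _ => length_cat_of
      fun i _ => length_cat_of fun z _ => by simp]
    ring
  refine (callT exL exO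
    (ts X u v Z t g m (bits (arr3 X r Z (wS g) fun x i z => (e x i z).1))
        (bits (arr3 X r Z (wS g) fun x i z => (e x i z).2))
        (ar (wS g) r fun i => (c i).1) (ar (wS g) r fun i => (c i).2) d (una X) (una r)
        (una Z) a4 a5 a6 a7 a8)
    (ts X u v Z t g m (bits (arr3 X r Z (wS g) fun x i z =>
          (cmR (wS g) (20 * wL g) (e x i z) (c i)).1))
        (bits (arr3 X r Z (wS g) fun x i z => (cmR (wS g) (20 * wL g) (e x i z) (c i)).2))
        (ar (wS g) r fun i => (c i).1) (ar (wS g) r fun i => (c i).2) d (una X) (una r)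
        (una Z) a4 a5 a6 a7 a8) h'
    (by simp [exL]) (by simp [exL]) (by simp [exL]) (by simp [exO]) (by simp [exO])
    (by simp [exO]) ?_ ?_).mono ?_
  · simp [exO, exL, ldst, ts, TV.st]
  · funext q
    cases q <;> simp [unst, ldst, exL, exO, ts, TV.st]
  · simp only [ldt, unt, exL, exO, ts, List.map_cons, List.map_nil, List.sum_cons,
      List.sum_nil, TV.at_dr, TV.at_di, TV.at_l, TV.at_g, TV.at_m, TV.at_a1, TV.at_a2,
      TV.at_a3, TV.at_cr, TV.at_ci, len_una0, len_ar0, l3]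
    omega

/-- Long chirp arrays. -/
def cfL : List (Bool × V3 × I2 J) :=
  [(false, .d, k2 .kk), (false, .g, k2 .g), (false, .l, k2 .l), (false, .m, k2 .m)]

/-- Long chirp arrays. -/
def cfO : List (I2 J × V3) := [(k2 .cr, .cr), (k2 .ci, .ci)]

theorem cf_call {p : P2 J E} {Tb Tt : ℕ → ℕ} {C : ℕ} (hp : CfSpec p Tb Tt C)
    (hL : 12 ≤ u + v) (hg : 1 ≤ g) (hl : u + v ≤ wL g)
    (hm : 8064 * (2 ^ (u + v) * wS g) ≤ m) :
    Runs (callP V3.t cfL p cfO)
      (up (ts X u v Z t g m dr di [] [] (una (u + v)) a1 a2 a3 a4 a5 a6 a7 a8).st)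
      (up (ts X u v Z t g m dr di
        (ar (wS g) (2 ^ (u + v)) fun k => (cF (wS g) (20 * wL g) (u + v) k).1)
        (ar (wS g) (2 ^ (u + v)) fun k => (cF (wS g) (20 * wL g) (u + v) k).2)
        (una (u + v)) a1 a2 a3 a4 a5 a6 a7 a8).st)
      (C * (m + Tb m + 2 ^ (u + v) * wS g * g +
        (2 ^ (u + v - (u + v) / 4) + wL g ^ 2) * (wS g + Tt (wS g))) + 6 * (u + v) + 6 * g +
        6 * wL g + 6 * m + 12 * (2 ^ (u + v) * wS g) + 30) := by
  have h' := asg2' (hp (u + v) g m hL hg hl hm)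
  refine (callT cfL cfO
    (ts X u v Z t g m dr di [] [] (una (u + v)) a1 a2 a3 a4 a5 a6 a7 a8)
    (ts X u v Z t g m dr di
        (ar (wS g) (2 ^ (u + v)) fun k => (cF (wS g) (20 * wL g) (u + v) k).1)
        (ar (wS g) (2 ^ (u + v)) fun k => (cF (wS g) (20 * wL g) (u + v) k).2)
        (una (u + v)) a1 a2 a3 a4 a5 a6 a7 a8) h'
    (by simp [cfL]) (by simp [cfL]) (by simp [cfL]) (by simp [cfO]) (by simp [cfO])
    (by simp [cfO]) ?_ ?_).mono ?_
  · simp [cfO, cfL, ldst, ts, TV.st]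
  · funext q
    cases q <;> simp [unst, ldst, cfL, cfO, ts, TV.st]
  · simp only [ldt, unt, cfL, cfO, ts, List.map_cons, List.map_nil, List.sum_cons,
      List.sum_nil, TV.at_d, TV.at_l, TV.at_g, TV.at_m, TV.at_cr, TV.at_ci, len_una0, len_ar0]
    omega

/-- The last pass. -/
def ouL : List (Bool × V3 × I2 J) :=
  [(true, .dr, k0 .XR), (true, .di, k0 .XI), (false, .ht, k0 .WT), (false, .l, k0 .LL),
    (true, .d, k0 .UU)]

/-- The last pass. -/
def ouO : List (I2 J × V3) := [(k0 .XR, .dr)]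

theorem out_call {p : PW J E} {C : ℕ} (hp : OutPSpec p C) (n L : ℕ) (e e' : ℕ → ℕ)
    (hg : 1 ≤ g) (ht : 1 ≤ t) (htl : t ≤ wL g) (hL : 1 ≤ L) (hLl : L ≤ wL g)
    (he : ∀ k, e k < 2 ^ wS g) (he' : ∀ k, e' k < 2 ^ wS g) :
    Runs (callP V3.t ouL (lf0 p) ouO)
      (up (ts X u v Z t g m (ar (wS g) n e) (ar (wS g) n e') cr ci (una L) a1 a2 a3 a4 a5 a6
        a7 a8).st)
      (up (ts X u v Z t g m (ar t n fun k => rnd (wS g) (20 * wL g + L) t (e k)) [] cr ci []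
        a1 a2 a3 a4 a5 a6 a7 a8).st)
      (C * (n * wL g + wL g + 1) + 12 * (n * wS g) + 6 * t + 6 * wL g + 6 * L +
        6 * (n * t) + 20) := by
  have h := asg2 (hp n t (wL g) L e e' ht htl hL hLl (by rwa [← wS_eq hg])
    (by rwa [← wS_eq hg]))
  rw [← wS_eq hg] at h
  refine (callT ouL ouO
    (ts X u v Z t g m (ar (wS g) n e) (ar (wS g) n e') cr ci (una L) a1 a2 a3 a4 a5 a6
        a7 a8)
    (ts X u v Z t g m (ar t n fun k => rnd (wS g) (20 * wL g + L) t (e k)) [] cr ci []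
        a1 a2 a3 a4 a5 a6 a7 a8) h
    (by simp [ouL]) (by simp [ouL]) (by simp [ouL]) (by simp [ouO]) (by simp [ouO])
    (by simp [ouO]) ?_ ?_).mono ?_
  · simp [ouO, ouL, ldst, ts, TV.st]
  · funext q
    cases q <;> simp [unst, ldst, ouL, ouO, ts, TV.st]
  · simp only [ldt, unt, ouL, ouO, ts, List.map_cons, List.map_nil, List.sum_cons,
      List.sum_nil, TV.at_dr, TV.at_di, TV.at_ht, TV.at_d, TV.at_l, len_una0, len_ar0]
    omega

/-- The transform. -/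
theorem tr_call {p : P3 J E} {Tb : ℕ → ℕ} {C : ℕ} (hp : TrSpec p Tb C)
    (X' r Z' : ℕ) (c : ℕ → ℕ × ℕ) (e : ℕ → ℕ → ℕ → ℕ × ℕ) (hX : 1 ≤ X') (hr : 1 ≤ r)
    (hZ : 1 ≤ Z') (hg : 1 ≤ g) (hr' : r < 2 ^ (wS g - 1))
    (hm : 8064 * (X' * r * Z' * wS g) ≤ m)
    (he1 : ∀ x i z, (e x i z).1 < 2 ^ wS g) (he2 : ∀ x i z, (e x i z).2 < 2 ^ wS g)
    (hc1 : ∀ i, (c i).1 < 2 ^ wS g) (hc2 : ∀ i, (c i).2 < 2 ^ wS g) :
    Runs p
      (up (ts X u v Z t g m (bits (arr3 X' r Z' (wS g) fun x i z => (e x i z).1))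
        (bits (arr3 X' r Z' (wS g) fun x i z => (e x i z).2))
        (ar (wS g) r fun i => (c i).1) (ar (wS g) r fun i => (c i).2) d (una X') (una r)
        (una Z') a4 a5 a6 a7 a8).st)
      (up (ts X u v Z t g m (bits (arr3 X' r Z' (wS g) fun x k z =>
          (dftA (wS g) (20 * wL g) r c (fun i => e x i z) k).1))
        (bits (arr3 X' r Z' (wS g) fun x k z =>
          (dftA (wS g) (20 * wL g) r c (fun i => e x i z) k).2))
        [] [] d [] [] [] a4 a5 a6 a7 a8).st)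
      (C * (m + Tb m + X' * r * Z' * wS g * g)) := by
  have h := hp X' r Z' g m c e
    (ts X u v Z t g m (bits (arr3 X' r Z' (wS g) fun x i z => (e x i z).1))
        (bits (arr3 X' r Z' (wS g) fun x i z => (e x i z).2))
        (ar (wS g) r fun i => (c i).1) (ar (wS g) r fun i => (c i).2) d (una X') (una r)
        (una Z') a4 a5 a6 a7 a8).st hX hr hZ hg hr' hm he1 he2 hc1 hc2 rfl rfl rfl rfl rfl
    rfl rfl rfl rfl rfl rfl rfl rfl
  refine h.of_eq ?_
  congr 1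
  funext q
  cases q <;> rfl

end

end Vale.Agent.P338.GS.T3
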