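import Vale.Agent.P338.GS.TV

/-!
# P338, stage 5: the transposition of words, commands
-/

namespace Vale.Agent.P338.GS.T3

open Vale.Agent.P338 Vale.Agent.P338.GS

variable {ι E : Type}

/-- The contents during the computation. -/
def ts (X u v Z t g m : ℕ) (dr di cr ci d a1 a2 a3 a4 a5 a6 a7 a8 : List (SSym E)) : TV E :=
  { dr := dr, di := di, cr := cr, ci := ci, hx := una X, hu := una u, hv := una v
    hz := una Z, ht := una t, g := una g, l := una (wL g), m := una m, a := una (2 ^ u)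
    b := una (2 ^ v), c := una (2 ^ u * 2 ^ v), d := d, a1 := a1, a2 := a2, a3 := a3
    a4 := a4, a5 := a5, a6 := a6, a7 := a7, a8 := a8 }

/-- Parameters. -/
def cT0 : List D3 := [.pw2 .hu .a, .pw2 .hv .b, .mul .a .b .c]

/-- Before the first transform. -/
def cT2 : List D3 := [.cp .hv .d, .pop .d, .mul .hx .a .a1, .cp .b .a2, .cp .hz .a3]

/-- Before the second step. -/
def cT5a : List D3 :=
  [.cp .hv .d, .half .d .a4, .cp .hv .a5, .sub .a4 .a5, .pw2 .a4 .a6, .pw2 .a5 .a7]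

/-- Before the second step. -/
def cT5b : List D3 :=
  [.cp .hu .a8, .cp .hv .a8, .sub .a5 .a8, .pop .a8, .pop .a8, .cp .hu .d, .cp .hv .d,
    .pop .d, .pop .d, .clr .a4, .clr .a5]

/-- Before a product of arrays. -/
def cT7 : List D3 := [.cp .hx .a1, .cp .c .a2, .cp .hz .a3]

/-- Before the second transform. -/
def cT9 : List D3 :=
  [.clr .cr, .clr .ci, .clr .a1, .clr .a2, .clr .a3, .cp .hu .d, .pop .d, .cp .hx .a1,
    .cp .a .a2, .mul .b .hz .a3]

/-- Before the third transform. -/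
def cT12 : List D3 := [.cp .hu .d, .cp .hv .d]

/-- At the end. -/
def cT17 : List D3 :=
  [.clr .hx, .clr .hu, .clr .hv, .clr .hz, .clr .ht, .clr .g, .clr .l, .clr .m, .clr .a,
    .clr .b, .clr .c]

section

variable (X u v Z t g m : ℕ) (dr di cr ci d a1 a2 a3 a4 a5 a6 a7 a8 : List (SSym E))

theorem cT0_runs :
    Runs ((d3s cT0).map (Sum.inr : V3 → ι ⊕ V3))
      (up ({ dr := dr, hx := una X, hu := una u, hv := una v, hz := una Z, ht := una t
             g := una g, l := una (wL g), m := una m } : TV E).st)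
      (up (ts X u v Z t g m dr [] [] [] [] [] [] [] [] [] [] [] []).st)
      (60 * (2 ^ u * 2 ^ v) + 60 * 2 ^ u + 60 * 2 ^ v) := by
  have h := d3s_up (ι := ι) cT0 ({ dr := dr, hx := una X, hu := una u, hv := una v
                                   hz := una Z, ht := una t, g := una g, l := una (wL g)
                                   m := una m } : TV E).st (by
    simp [cT0, d3ok, D3.ok, D3.eff])
  refine (h.mono ?_).of_eq ?_
  · simp only [cT0, d3cost, D3.cost, D3.eff, TV.at_hu, TV.at_hv, TV.at_a, TV.at_b, TV.up_a,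
      TV.up_b, len_una0]
    have e1 : 2 ^ u * (2 ^ v * 10 + 8) = 10 * (2 ^ u * 2 ^ v) + 8 * 2 ^ u := by ring
    have e2 : 1 ≤ 2 ^ u := Nat.one_le_two_pow
    omega
  · simp only [cT0, d3eff, D3.eff, TV.at_hu, TV.at_hv, TV.at_a, TV.at_b, TV.at_c, TV.up_a,
      TV.up_b, TV.up_c, len_una0, List.length_nil, Nat.add_zero]
    rfl

theorem cT2_runs :
    Runs ((d3s cT2).map (Sum.inr : V3 → ι ⊕ V3))
      (up (ts X u v Z t g m dr di cr ci [] [] [] [] a4 a5 a6 a7 a8).st)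
      (up (ts X u v Z t g m dr di cr ci (una (v - 1)) (una (X * 2 ^ u)) (una (2 ^ v)) (una Z)
        a4 a5 a6 a7 a8).st)
      (10 * (X * 2 ^ u) + 8 * X + 6 * v + 6 * 2 ^ v + 6 * Z + 20) := by
  have h := d3s_up (ι := ι) cT2
    (ts X u v Z t g m dr di cr ci [] [] [] [] a4 a5 a6 a7 a8).st (by
    simp [cT2, d3ok, D3.ok, D3.eff, ts])
  refine (h.mono ?_).of_eq ?_
  · simp only [cT2, ts, d3cost, D3.cost, D3.eff, TV.at_hv, TV.at_d, TV.at_hx, TV.at_hz,
      TV.at_a, TV.at_b, TV.at_a1, TV.at_a2, TV.up_d, TV.up_a1, TV.up_a2,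
      len_una0, List.append_nil]
    have e1 : X * (2 ^ u * 10 + 8) = 10 * (X * 2 ^ u) + 8 * X := by ring
    omega
  · simp only [cT2, ts, d3eff, D3.eff, TV.at_hv, TV.at_d, TV.at_hx, TV.at_hz,
      TV.at_a, TV.at_b, TV.at_a1, TV.at_a2, TV.at_a3, TV.up_d, TV.up_a1, TV.up_a2, TV.up_a3,
      len_una0, List.append_nil, List.length_nil, Nat.add_zero, tail_una0]

theorem cT5a_runs :
    Runs ((d3s cT5a).map (Sum.inr : V3 → ι ⊕ V3))
      (up (ts X u v Z t g m dr di cr ci [] a1 a2 a3 [] [] [] [] a8).st)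
      (up (ts X u v Z t g m dr di cr ci [] a1 a2 a3 (una (v / 2)) (una (v - v / 2))
        (una (2 ^ (v / 2))) (una (2 ^ (v - v / 2))) a8).st)
      (100 * v + 40 * 2 ^ (v / 2) + 40 * 2 ^ (v - v / 2) + 20) := by
  have h := d3s_up (ι := ι) cT5a
    (ts X u v Z t g m dr di cr ci [] a1 a2 a3 [] [] [] [] a8).st (by
    simp [cT5a, d3ok, D3.ok, D3.eff, ts])
  refine (h.mono ?_).of_eq ?_
  · simp only [cT5a, ts, d3cost, D3.cost, D3.eff, TV.at_hv, TV.at_d, TV.at_a4, TV.at_a5,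
      TV.at_a6, TV.up_d, TV.up_a4, TV.up_a5, TV.up_a6,
      len_una0, List.append_nil, List.length_nil, Nat.add_zero]
    omega
  · simp only [cT5a, ts, d3eff, D3.eff, TV.at_hv, TV.at_d, TV.at_a4, TV.at_a5,
      TV.at_a6, TV.at_a7, TV.up_d, TV.up_a4, TV.up_a5, TV.up_a6, TV.up_a7,
      len_una0, List.append_nil, List.length_nil, Nat.add_zero]

theorem cT5b_runs :
    Runs ((d3s cT5b).map (Sum.inr : V3 → ι ⊕ V3))
      (up (ts X u v Z t g m dr di cr ci [] a1 a2 a3 (una (v / 2)) (una (v - v / 2))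
        a6 a7 []).st)
      (up (ts X u v Z t g m dr di cr ci (una (u + v - 2)) a1 a2 a3 [] [] a6 a7
        (una (u + v - (v - v / 2) - 2))).st)
      (50 * u + 50 * v + 30) := by
  have h := d3s_up (ι := ι) cT5b
    (ts X u v Z t g m dr di cr ci [] a1 a2 a3 (una (v / 2)) (una (v - v / 2))
        a6 a7 []).st (by
    simp [cT5b, d3ok, D3.ok, D3.eff, ts])
  refine (h.mono ?_).of_eq ?_
  · simp only [cT5b, ts, d3cost, D3.cost, D3.eff, TV.at_hu, TV.at_hv, TV.at_d, TV.at_a4,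
      TV.at_a5, TV.at_a8, TV.up_d, TV.up_a4, TV.up_a8,
      len_una0, una_app0, List.append_nil, List.length_nil, Nat.add_zero]
    omega
  · simp only [cT5b, ts, d3eff, D3.eff, TV.at_hu, TV.at_hv, TV.at_d, TV.at_a4,
      TV.at_a5, TV.at_a8, TV.up_d, TV.up_a4, TV.up_a5, TV.up_a8,
      len_una0, una_app0, List.append_nil, List.length_nil, Nat.add_zero, tail_una0]
    congr 3
    · congr 1
      omega
    · congr 1
      omega

theorem cT7_runs :
    Runs ((d3s cT7).map (Sum.inr : V3 → ι ⊕ V3))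
      (up (ts X u v Z t g m dr di cr ci d [] [] [] a4 a5 a6 a7 a8).st)
      (up (ts X u v Z t g m dr di cr ci d (una X) (una (2 ^ u * 2 ^ v)) (una Z)
        a4 a5 a6 a7 a8).st)
      (6 * X + 6 * (2 ^ u * 2 ^ v) + 6 * Z + 20) := by
  have h := d3s_up (ι := ι) cT7
    (ts X u v Z t g m dr di cr ci d [] [] [] a4 a5 a6 a7 a8).st (by
    simp [cT7, d3ok, D3.ok, D3.eff, ts])
  refine (h.mono ?_).of_eq ?_
  · simp only [cT7, ts, d3cost, D3.cost, D3.eff, TV.at_hx, TV.at_c, TV.at_hz, TV.at_a1,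
      TV.at_a2, TV.up_a1, TV.up_a2, len_una0, List.append_nil]
    omega
  · simp only [cT7, ts, d3eff, D3.eff, TV.at_hx, TV.at_c, TV.at_hz, TV.at_a1,
      TV.at_a2, TV.at_a3, TV.up_a1, TV.up_a2, TV.up_a3, List.append_nil]

theorem cT9_runs :
    Runs ((d3s cT9).map (Sum.inr : V3 → ι ⊕ V3))
      (up (ts X u v Z t g m dr di cr ci [] a1 a2 a3 a4 a5 a6 a7 a8).st)
      (up (ts X u v Z t g m dr di [] [] (una (u - 1)) (una X) (una (2 ^ u))
        (una (2 ^ v * Z)) a4 a5 a6 a7 a8).st)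
      (3 * cr.length + 3 * ci.length + 3 * a1.length + 3 * a2.length + 3 * a3.length +
        6 * X + 6 * u + 6 * 2 ^ u + 10 * (2 ^ v * Z) + 8 * 2 ^ v + 20) := by
  have h := d3s_up (ι := ι) cT9
    (ts X u v Z t g m dr di cr ci [] a1 a2 a3 a4 a5 a6 a7 a8).st (by
    simp [cT9, d3ok, D3.ok, D3.eff, ts])
  refine (h.mono ?_).of_eq ?_
  · simp only [cT9, ts, d3cost, D3.cost, D3.eff, TV.at_hx, TV.at_hu, TV.at_a, TV.at_b,
      TV.at_hz, TV.at_a1, TV.at_a2, TV.at_a3, TV.at_cr, TV.at_ci, TV.at_d,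
      TV.up_a1, TV.up_a2, TV.up_a3, TV.up_d, TV.up_cr, TV.up_ci, len_una0, List.append_nil]
    have e1 : 2 ^ v * (Z * 10 + 8) = 10 * (2 ^ v * Z) + 8 * 2 ^ v := by ring
    omega
  · simp only [cT9, ts, d3eff, D3.eff, TV.at_hx, TV.at_hu, TV.at_a, TV.at_b,
      TV.at_hz, TV.at_a1, TV.at_a2, TV.at_a3, TV.at_d,
      TV.up_a1, TV.up_a2, TV.up_a3, TV.up_d, TV.up_cr, TV.up_ci, len_una0, List.append_nil,
      tail_una0, List.length_nil, Nat.add_zero]

theorem cT12_runs :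
    Runs ((d3s cT12).map (Sum.inr : V3 → ι ⊕ V3))
      (up (ts X u v Z t g m dr di cr ci [] a1 a2 a3 a4 a5 a6 a7 a8).st)
      (up (ts X u v Z t g m dr di cr ci (una (u + v)) a1 a2 a3 a4 a5 a6 a7 a8).st)
      (6 * u + 6 * v + 10) := by
  have h := d3s_up (ι := ι) cT12
    (ts X u v Z t g m dr di cr ci [] a1 a2 a3 a4 a5 a6 a7 a8).st (by
    simp [cT12, d3ok, D3.ok, D3.eff, ts])
  refine (h.mono ?_).of_eq ?_
  · simp only [cT12, ts, d3cost, D3.cost, D3.eff, TV.at_hu, TV.at_hv, TV.up_d, len_una0]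
    omega
  · simp only [cT12, ts, d3eff, D3.eff, TV.at_hu, TV.at_hv, TV.at_d, TV.up_d,
      List.append_nil, una_app0]
    rw [Nat.add_comm v u]

theorem cT17_runs :
    Runs ((d3s cT17).map (Sum.inr : V3 → ι ⊕ V3))
      (up (ts X u v Z t g m dr [] [] [] [] [] [] [] [] [] [] [] []).st)
      (up ({ dr := dr } : TV E).st)
      (3 * X + 3 * u + 3 * v + 3 * Z + 3 * t + 3 * g + 3 * wL g + 3 * m + 3 * 2 ^ u +
        3 * 2 ^ v + 3 * (2 ^ u * 2 ^ v) + 20) := by
  have h := d3s_up (ι := ι) cT17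
    (ts X u v Z t g m dr [] [] [] [] [] [] [] [] [] [] [] []).st (by
    simp [cT17, d3ok, D3.ok])
  refine (h.mono ?_).of_eq ?_
  · simp only [cT17, ts, d3cost, D3.cost, D3.eff, TV.at_hx, TV.at_hu, TV.at_hv, TV.at_hz,
      TV.at_ht, TV.at_g, TV.at_l, TV.at_m, TV.at_a, TV.at_b, TV.at_c, TV.up_hx, TV.up_hu,
      TV.up_hv, TV.up_hz, TV.up_ht, TV.up_g, TV.up_l, TV.up_m, TV.up_a, TV.up_b, len_una0]
    omega
  · simp only [cT17, ts, d3eff, D3.eff, TV.up_hx, TV.up_hu,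
      TV.up_hv, TV.up_hz, TV.up_ht, TV.up_g, TV.up_l, TV.up_m, TV.up_a, TV.up_b, TV.up_c]

end

end Vale.Agent.P338.GS.T3
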