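import Vale.Agent.P338.GS.VCmd

/-!
# P338, stage 5: the stacks of level 3
-/

namespace Vale.Agent.P338.GS.T3

open Vale.Agent.P338 Vale.Agent.P338.GS

variable {E : Type}

/-- The contents of the stacks of level 3. -/
structure TV (E : Type) where
  dr : List (SSym E) := []
  di : List (SSym E) := []
  cr : List (SSym E) := []
  ci : List (SSym E) := []
  hx : List (SSym E) := []
  hu : List (SSym E) := []
  hv : List (SSym E) := []
  hz : List (SSym E) := []
  ht : List (SSym E) := []
  g : List (SSym E) := []
  l : List (SSym E) := []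
  m : List (SSym E) := []
  a : List (SSym E) := []
  b : List (SSym E) := []
  c : List (SSym E) := []
  d : List (SSym E) := []
  a1 : List (SSym E) := []
  a2 : List (SSym E) := []
  a3 : List (SSym E) := []
  a4 : List (SSym E) := []
  a5 : List (SSym E) := []
  a6 : List (SSym E) := []
  a7 : List (SSym E) := []
  a8 : List (SSym E) := []

/-- The store with these contents, all other stacks are empty. -/
def TV.st (p : TV E) : Store V3 (SSym E)
  | .dr => p.dr
  | .di => p.di
  | .cr => p.cr
  | .ci => p.ci
  | .hx => p.hx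
  | .hu => p.hu
  | .hv => p.hv
  | .hz => p.hz
  | .ht => p.ht
  | .g => p.g
  | .l => p.l
  | .m => p.m
  | .a => p.a
  | .b => p.b
  | .c => p.c
  | .d => p.d
  | .a1 => p.a1
  | .a2 => p.a2
  | .a3 => p.a3
  | .a4 => p.a4
  | .a5 => p.a5
  | .a6 => p.a6
  | .a7 => p.a7
  | .a8 => p.a8
  | _ => []

section TVlemmas

variable (p : TV E) (x : List (SSym E))

@[simp] theorem TV.at_dr : p.st .dr = p.dr := rfl
@[simp] theorem TV.at_di : p.st .di = p.di := rfl
@[simp] theorem TV.at_cr : p.st .cr = p.cr := rfl
@[simp] theorem TV.at_ci : p.st .ci = p.ci := rfl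
@[simp] theorem TV.at_hx : p.st .hx = p.hx := rfl
@[simp] theorem TV.at_hu : p.st .hu = p.hu := rfl
@[simp] theorem TV.at_hv : p.st .hv = p.hv := rfl
@[simp] theorem TV.at_hz : p.st .hz = p.hz := rfl
@[simp] theorem TV.at_ht : p.st .ht = p.ht := rfl
@[simp] theorem TV.at_g : p.st .g = p.g := rfl
@[simp] theorem TV.at_l : p.st .l = p.l := rfl
@[simp] theorem TV.at_m : p.st .m = p.m := rfl
@[simp] theorem TV.at_a : p.st .a = p.a := rfl
@[simp] theorem TV.at_b : p.st .b = p.b := rfl
@[simp] theorem TV.at_c : p.st .c = p.c := rfl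
@[simp] theorem TV.at_d : p.st .d = p.d := rfl
@[simp] theorem TV.at_a1 : p.st .a1 = p.a1 := rfl
@[simp] theorem TV.at_a2 : p.st .a2 = p.a2 := rfl
@[simp] theorem TV.at_a3 : p.st .a3 = p.a3 := rfl
@[simp] theorem TV.at_a4 : p.st .a4 = p.a4 := rfl
@[simp] theorem TV.at_a5 : p.st .a5 = p.a5 := rfl
@[simp] theorem TV.at_a6 : p.st .a6 = p.a6 := rfl
@[simp] theorem TV.at_a7 : p.st .a7 = p.a7 := rfl
@[simp] theorem TV.at_a8 : p.st .a8 = p.a8 := rfl
@[simp] theorem TV.at_t : p.st .t = [] := rfl
@[simp] theorem TV.at_e : p.st .e = [] := rfl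
@[simp] theorem TV.at_f : p.st .f = [] := rfl
@[simp] theorem TV.at_er : p.st .er = [] := rfl
@[simp] theorem TV.at_ei : p.st .ei = [] := rfl

@[simp] theorem TV.up_dr :
    Function.update p.st .dr x = ({ p with dr := x } : TV E).st := by
  funext q; cases q <;> simp [TV.st]
@[simp] theorem TV.up_di :
    Function.update p.st .di x = ({ p with di := x } : TV E).st := by
  funext q; cases q <;> simp [TV.st]
@[simp] theorem TV.up_cr :
    Function.update p.st .cr x = ({ p with cr := x } : TV E).st := by
  funext q; cases q <;> simp [TV.st]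
@[simp] theorem TV.up_ci :
    Function.update p.st .ci x = ({ p with ci := x } : TV E).st := by
  funext q; cases q <;> simp [TV.st]
@[simp] theorem TV.up_hx :
    Function.update p.st .hx x = ({ p with hx := x } : TV E).st := by
  funext q; cases q <;> simp [TV.st]
@[simp] theorem TV.up_hu :
    Function.update p.st .hu x = ({ p with hu := x } : TV E).st := by
  funext q; cases q <;> simp [TV.st]
@[simp] theorem TV.up_hv :
    Function.update p.st .hv x = ({ p with hv := x } : TV E).st := by
  funext q; cases q <;> simp [TV.st]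
@[simp] theorem TV.up_hz :
    Function.update p.st .hz x = ({ p with hz := x } : TV E).st := by
  funext q; cases q <;> simp [TV.st]
@[simp] theorem TV.up_ht :
    Function.update p.st .ht x = ({ p with ht := x } : TV E).st := by
  funext q; cases q <;> simp [TV.st]
@[simp] theorem TV.up_g :
    Function.update p.st .g x = ({ p with g := x } : TV E).st := by
  funext q; cases q <;> simp [TV.st]
@[simp] theorem TV.up_l :
    Function.update p.st .l x = ({ p with l := x } : TV E).st := by
  funext q; cases q <;> simp [TV.st]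
@[simp] theorem TV.up_m :
    Function.update p.st .m x = ({ p with m := x } : TV E).st := by
  funext q; cases q <;> simp [TV.st]
@[simp] theorem TV.up_a :
    Function.update p.st .a x = ({ p with a := x } : TV E).st := by
  funext q; cases q <;> simp [TV.st]
@[simp] theorem TV.up_b :
    Function.update p.st .b x = ({ p with b := x } : TV E).st := by
  funext q; cases q <;> simp [TV.st]
@[simp] theorem TV.up_c :
    Function.update p.st .c x = ({ p with c := x } : TV E).st := by
  funext q; cases q <;> simp [TV.st]
@[simp] theorem TV.up_d :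
    Function.update p.st .d x = ({ p with d := x } : TV E).st := by
  funext q; cases q <;> simp [TV.st]
@[simp] theorem TV.up_a1 :
    Function.update p.st .a1 x = ({ p with a1 := x } : TV E).st := by
  funext q; cases q <;> simp [TV.st]
@[simp] theorem TV.up_a2 :
    Function.update p.st .a2 x = ({ p with a2 := x } : TV E).st := by
  funext q; cases q <;> simp [TV.st]
@[simp] theorem TV.up_a3 :
    Function.update p.st .a3 x = ({ p with a3 := x } : TV E).st := by
  funext q; cases q <;> simp [TV.st]
@[simp] theorem TV.up_a4 :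
    Function.update p.st .a4 x = ({ p with a4 := x } : TV E).st := by
  funext q; cases q <;> simp [TV.st]
@[simp] theorem TV.up_a5 :
    Function.update p.st .a5 x = ({ p with a5 := x } : TV E).st := by
  funext q; cases q <;> simp [TV.st]
@[simp] theorem TV.up_a6 :
    Function.update p.st .a6 x = ({ p with a6 := x } : TV E).st := by
  funext q; cases q <;> simp [TV.st]
@[simp] theorem TV.up_a7 :
    Function.update p.st .a7 x = ({ p with a7 := x } : TV E).st := by
  funext q; cases q <;> simp [TV.st]
@[simp] theorem TV.up_a8 :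
    Function.update p.st .a8 x = ({ p with a8 := x } : TV E).st := by
  funext q; cases q <;> simp [TV.st]

end TVlemmas

/-! ### Commands -/

/-- Simple commands on the stacks of level 3; scratch stacks `t`, `e`, `f`. -/
inductive D3 : Type
  | cp : V3 → V3 → D3
  | push : V3 → D3
  | pop : V3 → D3
  | clr : V3 → D3
  | mul : V3 → V3 → V3 → D3
  | pw2 : V3 → V3 → D3
  | half : V3 → V3 → D3
  | sub : V3 → V3 → D3

/-- The program of a command. -/
def D3.prog : D3 → Prog V3 (SSym E)
  | .cp a b => Prog.copyOnto a b .t
  | .push a => Prog.push a mk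
  | .pop a => Prog.pop a
  | .clr a => Prog.clear a
  | .mul a c b => Prog.mulOnto a .t c .e 1 b mk
  | .pw2 a b => VC.pow2P a b .t .e .f
  | .half a b => VC.halfP a b
  | .sub a b => Prog.forr a .t (Prog.pop b)

/-- The effect of a command. -/
def D3.eff : D3 → Store V3 (SSym E) → Store V3 (SSym E)
  | .cp a b, s => Function.update s b (s a ++ s b)
  | .push a, s => Function.update s a (mk :: s a)
  | .pop a, s => Function.update s a (s a).tail
  | .clr a, s => Function.update s a []
  | .mul a c b, s => Function.update s b (una ((s a).length * (s c).length + (s b).length))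
  | .pw2 a b, s => Function.update s b (una (2 ^ (s a).length))
  | .half a b, s => Function.update (Function.update s a []) b
      (una ((s a).length / 2 + (s b).length))
  | .sub a b, s => Function.update s b (una ((s b).length - (s a).length))

/-- The condition under which a command works. -/
def D3.ok : D3 → Store V3 (SSym E) → Prop
  | .cp a b, s => a ≠ b ∧ a ≠ .t ∧ b ≠ .t ∧ s .t = []
  | .push _, _ => True
  | .pop _, _ => True
  | .clr _, _ => True
  | .mul a c b, s => [a, c, b, .t, .e].Nodup ∧ s .t = [] ∧ s .e = [] ∧ (∃ n, s a = una n) ∧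
      (∃ n, s c = una n) ∧ ∃ n, s b = una n
  | .pw2 a b, s => [a, b, .t, .e, .f].Nodup ∧ s b = [] ∧ s .t = [] ∧ s .e = [] ∧ s .f = [] ∧
      ∃ n, s a = una n
  | .half a b, s => a ≠ b ∧ (∃ n, s a = una n) ∧ ∃ n, s b = una n
  | .sub a b, s => a ≠ b ∧ a ≠ .t ∧ b ≠ .t ∧ s .t = [] ∧ (∃ n, s a = una n) ∧
      ∃ n, s b = una n

/-- A bound for the time of a command. -/
def D3.cost : D3 → Store V3 (SSym E) → ℕ
  | .cp a _, s => 6 * (s a).length + 1
  | .push _, _ => 1
  | .pop _, _ => 1
  | .clr a, s => 3 * (s a).length
  | .mul a c _, s => (s a).length * ((s c).length * 10 + 8) + 1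
  | .pw2 a _, s => 40 * 2 ^ (s a).length
  | .half a _, s => 5 * (s a).length + 1
  | .sub a _, s => 8 * (s a).length + 1

theorem D3.runs (c : D3) (s : Store V3 (SSym E)) (h : c.ok s) :
    Runs c.prog s (c.eff s) (c.cost s) := by
  cases c with
  | cp a b =>
    obtain ⟨h1, h2, h3, h4⟩ := h
    exact VC.cp h1 h2 h3 h4 rfl
  | push a => exact VC.push rfl
  | pop a => exact VC.pop rfl
  | clr a => exact VC.clr rfl
  | mul a c b =>
    obtain ⟨h1, h2, h3, ⟨n, h4⟩, ⟨n', h5⟩, n'', h6⟩ := h
    have r := VC.mul h1 h4 h5 h6 h2 h3 rfl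
    have l1 : (s a).length = n := by rw [h4]; simp [una]
    have l2 : (s c).length = n' := by rw [h5]; simp [una]
    have l3 : (s b).length = n'' := by rw [h6]; simp [una]
    simp only [D3.cost, D3.eff, l1, l2, l3]
    exact r
  | pw2 a b =>
    obtain ⟨h1, h2, h3, h4, h5, n, h6⟩ := h
    have r := VC.pw2 h1 h6 h2 h3 h4 h5 rfl
    have l1 : (s a).length = n := by rw [h6]; simp [una]
    simp only [D3.cost, D3.eff, l1]
    exact r
  | half a b =>
    obtain ⟨h1, ⟨n, h2⟩, n', h3⟩ := h
    have r := VC.half h1 n h2 h3 rfl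
    have l1 : (s a).length = n := by rw [h2]; simp [una]
    have l2 : (s b).length = n' := by rw [h3]; simp [una]
    simp only [D3.cost, D3.eff, l1, l2]
    exact r
  | sub a b =>
    obtain ⟨h1, h2, h3, h4, ⟨n, h5⟩, n', h6⟩ := h
    have r := VC.sub h1 h2 h3 h5 h6 h4 rfl
    have l1 : (s a).length = n := by rw [h5]; simp [una]
    have l2 : (s b).length = n' := by rw [h6]; simp [una]
    simp only [D3.cost, D3.eff, l1, l2]
    exact r

/-- The program of a list of commands. -/
def d3s : List D3 → Prog V3 (SSym E)
  | [] => Prog.skip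
  | c :: l => c.prog.seq (d3s l)

/-- The effect of a list of commands. -/
def d3eff : List D3 → Store V3 (SSym E) → Store V3 (SSym E)
  | [], s => s
  | c :: l, s => d3eff l (c.eff s)

/-- The condition for a list of commands. -/
def d3ok : List D3 → Store V3 (SSym E) → Prop
  | [], _ => True
  | c :: l, s => c.ok s ∧ d3ok l (c.eff s)

/-- The time of a list of commands. -/
def d3cost : List D3 → Store V3 (SSym E) → ℕ
  | [], _ => 1
  | c :: l, s => c.cost s + 1 + d3cost l (c.eff s)

theorem d3s_spec (l : List D3) : ∀ s : Store V3 (SSym E), d3ok l s →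
    Runs (d3s l) s (d3eff l s) (d3cost l s) := by
  induction l with
  | nil => intro s _; exact Runs.skip s
  | cons c l ih => intro s h; exact (c.runs s h.1).seq (ih _ h.2)

/-- Commands on the additional stacks. -/
theorem d3s_up {ι : Type} (l : List D3) (s : Store V3 (SSym E)) (h : d3ok l s) :
    Runs ((d3s l).map (Sum.inr : V3 → ι ⊕ V3)) (up s) (up (d3eff l s)) (d3cost l s) :=
  vlift_runs (d3s_spec l s h) _

@[simp] theorem una_app0 (m n : ℕ) : (una m ++ una n : List (SSym E)) = una (m + n) := by
  simp [una]

@[simp] theorem len_una0 (n : ℕ) : (una n : List (SSym E)).length = n := by simp [una]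

@[simp] theorem tail_una0 (n : ℕ) : (una n : List (SSym E)).tail = una (n - 1) := by
  cases n <;> simp [una, List.replicate_succ]

@[simp] theorem ex_una0 (n : ℕ) : ∃ m, (una n : List (SSym E)) = una m := ⟨n, rfl⟩

@[simp] theorem una_eq_nil0 (n : ℕ) : (una n : List (SSym E)) = [] ↔ n = 0 := by
  cases n <;> simp [una, List.replicate_succ]

@[simp] theorem ex_una_nil0 : ∃ m, ([] : List (SSym E)) = una m := ⟨0, rfl⟩

end Vale.Agent.P338.GS.T3
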