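import Vale.Agent.P338.GS.R2

/-!
# P338, stage 5: the full array of twiddle factors
-/

namespace Vale.Agent.P338.GS

open Vale.Agent.P338 R2

variable {J E : Type} [DecidableEq J]

/-! ### Calls from level 2 -/

/-- Program of level 0 as program of level 1. -/
noncomputable abbrev lf1 (p : PW J E) : P1 J E := p.map Sum.inl

/-- A command on the additional stacks of level 2. -/
noncomputable abbrev v2 (p : Prog V2 (SSym E)) : P2 J E := p.map Sum.inr

omit [DecidableEq J] in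
theorem v2_runs {p : Prog V2 (SSym E)} {s s' : Store V2 (SSym E)} {T : ℕ} (hp : Runs p s s' T) :
    Runs (v2 p : P2 J E) (up s) (up s') T := vlift_runs hp _

/-- Repetition: `x` becomes `y`; the block length is on `L`, the number of repetitions on
`R`. -/
noncomputable def repC (rp : PW J E) (x L R y : V2) : P2 J E :=
  callP .t [(true, x, Sum.inl (Sum.inr W.N1)), (false, L, Sum.inl (Sum.inr W.HX)),
    (false, R, Sum.inl (Sum.inr W.HR))] (lf1 rp) [(Sum.inl (Sum.inr W.N3), y)]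

theorem repC_runs {rp : PW J E} {C : ℕ} (hrp : RepSpec rp C) {x L R y : V2}
    (hnd : [x, L, R, V2.t].Nodup) (hyt : y ≠ V2.t) {n l r : ℕ} {b : ℕ → List (SSym E)}
    (hl : 1 ≤ l) (hb : ∀ i, (b i).length = l) {s s' : Store V2 (SSym E)}
    (hx : s x = cat n b) (hL : s L = una l) (hR : s R = una r) (ht : s .t = [])
    (hy : y = x ∨ s y = []) (e : s' = Function.update (Function.update s x [])
      y (cat n fun i => rep r (b i))) :
    Runs (repC rp x L R y) (up s) (up s')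
      ((C + 20) * (n * l * (r + 1) + l + r + 1)) := by
  simp only [List.nodup_cons, List.mem_cons, List.not_mem_nil, or_false, not_or,
    List.nodup_nil, and_true, not_false_eq_true] at hnd
  obtain ⟨⟨h1, h2, h3⟩, ⟨h4, h5⟩, h6⟩ := hnd
  have a := (hrp n l r b hl hb).asg1
  have e2 : s' y = cat n fun i => rep r (b i) := by rw [e, Function.update_self]
  have c := call_runs (ι := (Loc J ⊕ W) ⊕ V1) (V2.t) [(true, x, Sum.inl (Sum.inr W.N1)),
    (false, L, Sum.inl (Sum.inr W.HX)), (false, R, Sum.inl (Sum.inr W.HR))]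
    [(Sum.inl (Sum.inr W.N3), y)] (p := lf1 rp) s s'
    (T := C * (n * l * (r + 1) + l + r + 1)) (by
      simp only [ldl, unl, List.map_cons, List.map_nil, hx, hL, hR, e2]
      exact a) ht (by simp [h1, h2, h4]) (by simp) (by simp [Ne.symm h3, Ne.symm h5, Ne.symm h6])
    (by simp) (by simp) (by simpa using Ne.symm hyt) (by
      intro v hv
      simp only [List.map_cons, List.map_nil, List.mem_cons, List.not_mem_nil, or_false] at hv
      subst hv
      simp only [ldst]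
      rcases hy with rfl | hy
      · simp
      · by_cases hyx : v = x
        · subst hyx; simp
        · rw [Function.update_of_ne hyx, hy])
  refine (c.mono ?_).of_eq ?_
  · have lx : (s x).length = n * l := by rw [hx, length_cat_of fun i _ => hb i]
    have ly : (s' y).length = n * (r * l) := by
      rw [e2, length_cat_of (L := r * l) fun i _ => by rw [length_rep, hb i]]
    simp only [ldt, unt, List.map_cons, List.map_nil, List.sum_cons, List.sum_nil, lx, ly, hL,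
      hR, len_una]
    have e3 : n * l * (r + 1) = n * (r * l) + n * l := by ring
    have e4 : (C + 20) * (n * l * (r + 1) + l + r + 1) = C * (n * l * (r + 1) + l + r + 1) +
      20 * (n * (r * l) + n * l + l + r + 1) := by rw [← e3]; ring
    rw [e4]
    omega
  · congr 1
    funext v
    simp only [unst, ldst, List.map_cons, List.map_nil, List.mem_cons, List.not_mem_nil,
      or_false]
    by_cases hv : v = y
    · rw [if_pos hv]
    · rw [if_neg hv, e, Function.update_of_ne hv]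

/-- A short array of twiddle factors on `x`, `y`. -/
noncomputable def sqtC (sq : PW J E) (M N K x y : V2) : P2 J E :=
  callP .t [(false, M, Sum.inl (Sum.inr W.HR)), (false, N, Sum.inl (Sum.inr W.HN)),
    (true, K, Sum.inl (Sum.inr W.VV)), (false, .l, Sum.inl (Sum.inr W.LL))] (lf1 sq)
    [(Sum.inl (Sum.inr W.N1), x), (Sum.inl (Sum.inr W.N2), y)]

theorem sqtC_runs {sq : Bool → PW J E} {Tt : ℕ → ℕ} {C : ℕ} (hsq : SeqTwSpec sq Tt C)
    {M N K x y : V2} (hnd : [M, N, K, V2.l, V2.t].Nodup) (hxy : [x, y, V2.t].Nodup)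
    (cj : Bool) {m n κ ℓ : ℕ} (hm : 1 ≤ m) (hn : 1 ≤ n) (hℓ : 1 ≤ ℓ)
    (hb : m < 2 ^ (64 * ℓ - 1)) {s s' : Store V2 (SSym E)}
    (hM : s M = una m) (hN : s N = una n) (hK : s K = una κ) (hl : s .l = una ℓ)
    (ht : s .t = []) (hx : s x = []) (hy : s y = [])
    (e : s' = Function.update (Function.update (Function.update s K []) x
      (ar (64 * ℓ) (m * n) fun k =>
          (tA (64 * ℓ) (20 * ℓ) (rtc (64 * ℓ) (20 * ℓ) cj κ) (k / n) (k % n)).1)) y
      (ar (64 * ℓ) (m * n) fun k =>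
          (tA (64 * ℓ) (20 * ℓ) (rtc (64 * ℓ) (20 * ℓ) cj κ) (k / n) (k % n)).2)) :
    Runs (sqtC (sq cj) M N K x y) (up s) (up s')
      ((C + 60) * ((m * n + (κ + 1) * ℓ) * (64 * ℓ + Tt (64 * ℓ)))) := by
  simp only [List.nodup_cons, List.mem_cons, List.not_mem_nil, or_false, not_or,
    List.nodup_nil, and_true, not_false_eq_true] at hnd hxy
  obtain ⟨⟨h1, h2, h3, h4⟩, ⟨h5, h6, h7⟩, ⟨h8, h9⟩, h10⟩ := hnd
  obtain ⟨⟨g1, g2⟩, g3⟩ := hxy
  have a := (hsq cj m n κ ℓ hm hn hℓ hb).asg1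
  have e1 : s' x = ar (64 * ℓ) (m * n) fun k =>
      (tA (64 * ℓ) (20 * ℓ) (rtc (64 * ℓ) (20 * ℓ) cj κ) (k / n) (k % n)).1 := by
    rw [e, Function.update_of_ne g1, Function.update_self]
  have e2 : s' y = ar (64 * ℓ) (m * n) fun k =>
      (tA (64 * ℓ) (20 * ℓ) (rtc (64 * ℓ) (20 * ℓ) cj κ) (k / n) (k % n)).2 := by
    rw [e, Function.update_self]
  have c := call_runs (ι := (Loc J ⊕ W) ⊕ V1) (V2.t) [(false, M, Sum.inl (Sum.inr W.HR)),
    (false, N, Sum.inl (Sum.inr W.HN)), (true, K, Sum.inl (Sum.inr W.VV)),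
    (false, .l, Sum.inl (Sum.inr W.LL))]
    [(Sum.inl (Sum.inr W.N1), x), (Sum.inl (Sum.inr W.N2), y)] (p := lf1 (sq cj)) s s'
    (T := C * ((m * n + (κ + 1) * ℓ) * (64 * ℓ + Tt (64 * ℓ)))) (by
      simp only [ldl, unl, List.map_cons, List.map_nil, hM, hN, hK, hl, e1, e2]
      exact a) ht (by simp [h1, h2, h3, h5, h6, h8]) (by simp)
    (by simp [Ne.symm h4, Ne.symm h7, Ne.symm h9])
    (by simp) (by simp [g1]) (by simp [Ne.symm g2, Ne.symm g3]) (by
      intro v hv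
      simp only [List.map_cons, List.map_nil, List.mem_cons, List.not_mem_nil, or_false] at hv
      simp only [ldst]
      rw [Function.update_apply]
      split_ifs
      · rfl
      · rcases hv with rfl | rfl
        · exact hx
        · exact hy)
  refine (c.mono ?_).of_eq ?_
  · simp only [ldt, unt, List.map_cons, List.map_nil, List.sum_cons, List.sum_nil, e1, e2, hM,
      hN, hK, hl, len_una, len_ar]
    have e3 : (C + 60) * ((m * n + (κ + 1) * ℓ) * (64 * ℓ + Tt (64 * ℓ))) =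
        C * ((m * n + (κ + 1) * ℓ) * (64 * ℓ + Tt (64 * ℓ))) +
        60 * ((m * n + (κ + 1) * ℓ) * (64 * ℓ)) + 60 * ((m * n + (κ + 1) * ℓ) *
        Tt (64 * ℓ)) := by ring
    have e4 : (m * n + (κ + 1) * ℓ) * (64 * ℓ) = m * n * (64 * ℓ) +
        64 * ((κ + 1) * ℓ * ℓ) := by ring
    have e5 : m ≤ m * n := Nat.le_mul_of_pos_right _ hn
    have e6 : n ≤ m * n := Nat.le_mul_of_pos_left _ hm
    have e7 : m * n ≤ m * n * (64 * ℓ) := Nat.le_mul_of_pos_right _ (by omega)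
    have e8 : κ + 1 ≤ (κ + 1) * ℓ := Nat.le_mul_of_pos_right _ hℓ
    have e9 : (κ + 1) * ℓ ≤ (κ + 1) * ℓ * ℓ := Nat.le_mul_of_pos_right _ hℓ
    have e10 : ℓ ≤ (κ + 1) * ℓ := Nat.le_mul_of_pos_left _ (by omega)
    rw [e3, e4]
    omega
  · congr 1
    funext v
    simp only [unst, ldst, List.map_cons, List.map_nil, List.mem_cons, List.not_mem_nil,
      or_false]
    by_cases hv : v = x ∨ v = y
    · rw [if_pos hv]
    · rw [if_neg hv, e]
      rw [not_or] at hv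
      rw [Function.update_of_ne hv.2, Function.update_of_ne hv.1]

/-- Products of complex numbers. -/
noncomputable def cmaC (cma : P1 J E) (x₁ x₂ y₁ y₂ nn z₁ z₂ : V2) : P2 J E :=
  callP .t [(true, x₁, Sum.inr V1.xr), (true, x₂, Sum.inr V1.xi), (true, y₁, Sum.inr V1.yr),
    (true, y₂, Sum.inr V1.yi), (false, nn, Sum.inr V1.n), (false, .g, Sum.inr V1.g),
    (false, .l, Sum.inr V1.l), (false, .m, Sum.inr V1.m)] cma
    [(Sum.inr V1.zr, z₁), (Sum.inr V1.zi, z₂)]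

theorem wL_le {g : ℕ} (hg : 1 ≤ g) : wL g ≤ wS g := by rw [wS_eq hg]; omega

theorem g_le_wL (g : ℕ) : g ≤ wL g := by
  unfold wL
  exact Nat.le_mul_of_pos_left _ (by positivity)

theorem cmaC_runs {cma : P1 J E} {Tb : ℕ → ℕ} {C : ℕ} (hc : CmaSpec cma Tb C)
    {x₁ x₂ y₁ y₂ nn z₁ z₂ : V2}
    (hnd : [x₁, x₂, y₁, y₂, nn, V2.g, V2.l, V2.m, V2.t].Nodup) (hz : [z₁, z₂, V2.t].Nodup)
    {n g m : ℕ} (hn : 1 ≤ n) (hg : 1 ≤ g) (hm : 8064 * (n * wS g) ≤ m) {x y : ℕ → ℕ × ℕ}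
    (hx : ∀ q, (x q).1 < 2 ^ wS g) (hx' : ∀ q, (x q).2 < 2 ^ wS g)
    (hy : ∀ q, (y q).1 < 2 ^ wS g) (hy' : ∀ q, (y q).2 < 2 ^ wS g)
    {s s' : Store V2 (SSym E)}
    (h₁ : s x₁ = ar (wS g) n fun q => (x q).1) (h₂ : s x₂ = ar (wS g) n fun q => (x q).2)
    (h₃ : s y₁ = ar (wS g) n fun q => (y q).1) (h₄ : s y₂ = ar (wS g) n fun q => (y q).2)
    (h₅ : s nn = una n) (h₆ : s .g = una g) (h₇ : s .l = una (wL g)) (h₈ : s .m = una m)
    (ht : s .t = []) (hz₁ : z₁ ∈ [x₁, x₂, y₁, y₂] ∨ s z₁ = [])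
    (hz₂ : z₂ ∈ [x₁, x₂, y₁, y₂] ∨ s z₂ = [])
    (e : s' = Function.update (Function.update (Function.update (Function.update
      (Function.update (Function.update s y₂ []) y₁ []) x₂ []) x₁ []) z₁
      (ar (wS g) n fun q => (cmR (wS g) (20 * wL g) (x q) (y q)).1)) z₂
      (ar (wS g) n fun q => (cmR (wS g) (20 * wL g) (x q) (y q)).2)) :
    Runs (cmaC cma x₁ x₂ y₁ y₂ nn z₁ z₂) (up s) (up s')
      ((C + 20) * (m + Tb m + n * wS g * g)) := by
  simp only [List.nodup_cons, List.mem_cons, List.not_mem_nil, or_false, not_or,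
    List.nodup_nil, and_true, not_false_eq_true] at hnd hz
  obtain ⟨⟨a1, a2, a3, a4, a5, a6, a7, a8⟩, ⟨b1, b2, b3, b4, b5, b6, b7⟩,
    ⟨c1, c2, c3, c4, c5, c6⟩, ⟨d1, d2, d3, d4, d5⟩, ⟨e1, e2, e3, e4⟩, -⟩ := hnd
  obtain ⟨⟨g1, g2⟩, g3⟩ := hz
  have a := hc n g m x y hn hg hm hx hx' hy hy'
  rw [up_asg, up_asg] at a
  have k1 : s' z₁ = ar (wS g) n fun q => (cmR (wS g) (20 * wL g) (x q) (y q)).1 := by
    rw [e, Function.update_of_ne g1, Function.update_self]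
  have k2 : s' z₂ = ar (wS g) n fun q => (cmR (wS g) (20 * wL g) (x q) (y q)).2 := by
    rw [e, Function.update_self]
  have c := call_runs (ι := (Loc J ⊕ W) ⊕ V1) (V2.t) [(true, x₁, Sum.inr V1.xr),
    (true, x₂, Sum.inr V1.xi), (true, y₁, Sum.inr V1.yr),
    (true, y₂, Sum.inr V1.yi), (false, nn, Sum.inr V1.n), (false, .g, Sum.inr V1.g),
    (false, .l, Sum.inr V1.l), (false, .m, Sum.inr V1.m)]
    [(Sum.inr V1.zr, z₁), (Sum.inr V1.zi, z₂)] (p := cma) s s'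
    (T := C * (m + Tb m + n * wS g * g)) (by
      simp only [ldl, unl, List.map_cons, List.map_nil, h₁, h₂, h₃, h₄, h₅, h₆, h₇, h₈, k1, k2]
      exact a) ht (by
        simp [a1, a2, a3, a4, a5, a6, a7, b1, b2, b3, b4, b5, b6, c1, c2, c3, c4, c5,
          d1, d2, d3, d4, e1, e2, e3]) (by simp)
    (by simp [Ne.symm a8, Ne.symm b7, Ne.symm c6, Ne.symm d5, Ne.symm e4])
    (by simp) (by simp [g1]) (by simp [Ne.symm g2, Ne.symm g3]) (by
      intro v hv
      simp only [List.map_cons, List.map_nil, List.mem_cons, List.not_mem_nil, or_false] at hv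
      simp only [ldst]
      simp only [Function.update_apply]
      simp only [List.mem_cons, List.not_mem_nil, or_false] at hz₁ hz₂
      split_ifs with i1 i2 i3 i4
      · rfl
      · rfl
      · rfl
      · rfl
      · rcases hv with rfl | rfl
        · rcases hz₁ with h | h
          · rcases h with h | h | h | h
            · exact absurd h i1
            · exact absurd h i2
            · exact absurd h i3
            · exact absurd h i4
          · exact h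
        · rcases hz₂ with h | h
          · rcases h with h | h | h | h
            · exact absurd h i1
            · exact absurd h i2
            · exact absurd h i3
            · exact absurd h i4
          · exact h)
  refine (c.mono ?_).of_eq ?_
  · simp only [ldt, unt, List.map_cons, List.map_nil, List.sum_cons, List.sum_nil, k1, k2,
      h₁, h₂, h₃, h₄, h₅, h₆, h₇, h₈, len_una, len_ar]
    have l1 : wL g ≤ wS g := wL_le hg
    have l2 : g ≤ wL g := g_le_wL g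
    have l3 : wS g ≤ n * wS g := Nat.le_mul_of_pos_left _ hn
    have l4 : n ≤ n * wS g := Nat.le_mul_of_pos_right _ (by omega)
    have l5 : (C + 20) * (m + Tb m + n * wS g * g) = C * (m + Tb m + n * wS g * g) +
      20 * (m + Tb m + n * wS g * g) := by ring
    rw [l5]
    omega
  · congr 1
    funext v
    simp only [unst, ldst, List.map_cons, List.map_nil, List.mem_cons, List.not_mem_nil,
      or_false]
    by_cases hv : v = z₁ ∨ v = z₂
    · rw [if_pos hv]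
    · rw [if_neg hv, e]
      rw [not_or] at hv
      rw [Function.update_of_ne hv.2, Function.update_of_ne hv.1]

/-! ### The arrays -/

theorem tw_d (S M N₁ N₀ : ℕ) (F : ℕ → ℕ → ℕ) :
    (cat (M * N₁) fun i => rep N₀ (bits (bitsOf S (F (i / N₁) (i % N₁))))) =
      (ar S (M * (N₁ * N₀)) fun k => F (k / (N₁ * N₀)) (k % (N₁ * N₀) / N₀) :
        List (SSym E)) := by
  rw [rep_word S (M * N₁) N₀ fun i => F (i / N₁) (i % N₁), Nat.mul_assoc]
  refine ar_congr fun k _ => ?_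
  rw [Nat.div_div_eq_div_mul, Nat.mul_comm N₁ N₀, Nat.mod_mul_right_div_self]

theorem tw_e (S M N₁ N₀ : ℕ) (hN : 1 ≤ N₀) (F : ℕ → ℕ → ℕ) :
    (cat M fun i => rep N₁ (bits (cat N₀ fun j => bitsOf S
        (F ((i * N₀ + j) / N₀) ((i * N₀ + j) % N₀))))) =
      (ar S (M * (N₁ * N₀)) fun k => F (k / (N₁ * N₀)) (k % (N₁ * N₀) % N₀) :
        List (SSym E)) := by
  rw [rep_blk S M N₀ N₁ fun q => F (q / N₀) (q % N₀)]
  refine ar_congr fun k _ => ?_
  rw [Nat.mod_mul_left_mod, Nat.mul_comm _ N₀, Nat.mul_add_div (by omega),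
    Nat.div_eq_of_lt (Nat.mod_lt _ (by omega)), Nat.add_zero, Nat.mul_add_mod, Nat.mod_mod]

/-! ### The program -/

/-- The full array of twiddle factors; `g`, `l`, `m` are kept. -/
noncomputable def twfK (sq : Bool → PW J E) (rp : PW J E) (cma : P1 J E) (cj : Bool) :
    P2 J E :=
  (v2 (Prog.forr .l .t (Prog.pushN 64 .a mk))).seq <|
  (sqtC (sq cj) .m1 .n1 .k1 .b .c).seq <|
  (repC rp .b .a .n0 .d).seq <|
  (repC rp .c .a .n0 .e).seq <|
  (sqtC (sq cj) .m1 .n0 .k0 .b .c).seq <|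
  (v2 (Prog.mulOnto .n0 .t .a .h 1 .f mk)).seq <|
  (repC rp .b .f .n1 .fr).seq <|
  (repC rp .c .f .n1 .fi).seq <|
  (v2 (Prog.mulOnto .n1 .t .n0 .h 1 .zx mk)).seq <|
  (v2 (Prog.mulOnto .m1 .t .zx .h 1 .zr mk)).seq <|
  (cmaC cma .d .e .fr .fi .zr .er .ei).seq <|
  (v2 (Prog.clear .a)).seq <| (v2 (Prog.clear .f)).seq <| (v2 (Prog.clear .zx)).seq <|
  (v2 (Prog.clear .zr)).seq <| (v2 (Prog.clear .m1)).seq <| (v2 (Prog.clear .n1)).seq <|
  v2 (Prog.clear .n0)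

/-- The bound for the time. -/
def twfU (Tb Tt : ℕ → ℕ) (M N₁ N₀ κ₁ κ₀ g m : ℕ) : ℕ :=
  m + Tb m + M * (N₁ * N₀) * wS g * g +
    (M * N₁ + M * N₀ + (κ₁ + 1) * wL g + (κ₀ + 1) * wL g) * (wS g + Tt (wS g))

theorem twfU_bound {Tb Tt : ℕ → ℕ} {Cs Cr Cc M N₁ N₀ κ₁ κ₀ g m : ℕ} (hM : 1 ≤ M)
    (hN₁ : 1 ≤ N₁) (hN₀ : 1 ≤ N₀) (hg : 1 ≤ g) (hm : 8064 * (M * (N₁ * N₀) * wS g) ≤ m) :
    wL g * (2 * 64 + 8) + 1 + 1 + ((Cs + 60) * ((M * N₁ + (κ₁ + 1) * wL g) *
      (wS g + Tt (wS g))) + 1 + ((Cr + 20) * (M * N₁ * wS g * (N₀ + 1) + wS g + N₀ + 1) + 1 +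
      ((Cr + 20) * (M * N₁ * wS g * (N₀ + 1) + wS g + N₀ + 1) + 1 + ((Cs + 60) * ((M * N₀ +
      (κ₀ + 1) * wL g) * (wS g + Tt (wS g))) + 1 + (N₀ * (wS g * 10 + 8) + 1 + 1 +
      ((Cr + 20) * (M * (N₀ * wS g) * (N₁ + 1) + N₀ * wS g + N₁ + 1) + 1 +
      ((Cr + 20) * (M * (N₀ * wS g) * (N₁ + 1) + N₀ * wS g + N₁ + 1) + 1 +
      (N₁ * (N₀ * 10 + 8) + 1 + 1 + (M * (N₁ * N₀ * 10 + 8) + 1 + 1 +
      ((Cc + 20) * (m + Tb m + M * (N₁ * N₀) * wS g * g) + 1 + (3 * wS g + 1 +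
      (3 * (N₀ * wS g) + 1 + (3 * (N₁ * N₀) + 1 + (3 * (M * (N₁ * N₀)) + 1 + (3 * M + 1 +
      (3 * N₁ + 1 + 3 * N₀)))))))))))))))) ≤
      (4 * Cr + 2 * Cs + Cc + 400) * twfU Tb Tt M N₁ N₀ κ₁ κ₀ g m := by
  have hl : 1 ≤ wL g := hg.trans (g_le_wL g)
  have hlS : wL g ≤ wS g := wL_le hg
  unfold twfU
  generalize wS g = S at *
  generalize wL g = ℓ at *
  have x1 : M ≤ M * (N₁ * N₀) := Nat.le_mul_of_pos_right _ (Nat.mul_pos hN₁ hN₀)
  have x2 : N₁ ≤ N₁ * N₀ := Nat.le_mul_of_pos_right _ hN₀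
  have x3 : N₀ ≤ N₁ * N₀ := Nat.le_mul_of_pos_left _ hN₁
  have x4 : N₁ * N₀ ≤ M * (N₁ * N₀) := Nat.le_mul_of_pos_left _ hM
  have x5 : M * (N₁ * N₀) ≤ M * (N₁ * N₀) * S := Nat.le_mul_of_pos_right _ (by omega)
  have x6 : M * N₁ * S ≤ M * (N₁ * N₀) * S :=
    Nat.mul_le_mul_right _ (Nat.mul_le_mul_left _ x2)
  have x7 : M * (N₀ * S) ≤ M * (N₁ * N₀) * S := by
    rw [← Nat.mul_assoc]
    exact Nat.mul_le_mul_right _ (Nat.mul_le_mul_left _ x3)
  have x8 : N₀ * S ≤ M * (N₀ * S) := Nat.le_mul_of_pos_left _ hM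
  have x9 : S ≤ N₀ * S := Nat.le_mul_of_pos_left _ hN₀
  have y1 : M * N₁ * S * (N₀ + 1) = M * (N₁ * N₀) * S + M * N₁ * S := by ring
  have y2 : M * (N₀ * S) * (N₁ + 1) = M * (N₁ * N₀) * S + M * (N₀ * S) := by ring
  have y3 : N₀ * (S * 10 + 8) = 10 * (N₀ * S) + 8 * N₀ := by ring
  have y4 : N₁ * (N₀ * 10 + 8) = 10 * (N₁ * N₀) + 8 * N₁ := by ring
  have y5 : M * (N₁ * N₀ * 10 + 8) = 10 * (M * (N₁ * N₀)) + 8 * M := by ring
  have e0 : (M * N₁ + M * N₀ + (κ₁ + 1) * ℓ + (κ₀ + 1) * ℓ) * (S + Tt S) =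
      (M * N₁ + (κ₁ + 1) * ℓ) * (S + Tt S) + (M * N₀ + (κ₀ + 1) * ℓ) * (S + Tt S) := by ring
  rw [e0, y1, y2, y3, y4, y5]
  generalize (M * N₁ + (κ₁ + 1) * ℓ) * (S + Tt S) = P₁
  generalize (M * N₀ + (κ₀ + 1) * ℓ) * (S + Tt S) = P₀
  generalize M * (N₁ * N₀) * S * g = G
  generalize M * (N₁ * N₀) * S = Q₁ at *
  generalize M * N₁ * S = Q₂ at *
  generalize M * (N₀ * S) = Q₃ at *
  generalize M * (N₁ * N₀) = Q₄ at *
  generalize N₁ * N₀ = Q₅ at *
  generalize N₀ * S = Q₆ at *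
  obtain ⟨U, hU⟩ : ∃ U, U = m + Tb m + G + (P₁ + P₀) := ⟨_, rfl⟩
  rw [← hU]
  have u1 : (Cs + 60) * P₁ ≤ (Cs + 60) * U := Nat.mul_le_mul_left _ (by omega)
  have u2 : (Cs + 60) * P₀ ≤ (Cs + 60) * U := Nat.mul_le_mul_left _ (by omega)
  have u3 : (Cr + 20) * (Q₁ + Q₂ + S + N₀ + 1) ≤ (Cr + 20) * U :=
    Nat.mul_le_mul_left _ (by omega)
  have u4 : (Cr + 20) * (Q₁ + Q₃ + Q₆ + N₁ + 1) ≤ (Cr + 20) * U :=
    Nat.mul_le_mul_left _ (by omega)
  have u5 : (Cc + 20) * (m + Tb m + G) ≤ (Cc + 20) * U :=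
    Nat.mul_le_mul_left _ (by omega)
  have e1 : (4 * Cr + 2 * Cs + Cc + 400) * U = 4 * ((Cr + 20) * U) + 2 * ((Cs + 60) * U) +
    (Cc + 20) * U + 180 * U := by ring
  rw [e1]
  have v1 : 8064 * Q₁ ≤ U := by omega
  have w1 : ℓ ≤ Q₁ := by omega
  have w2 : S ≤ Q₁ := by omega
  have w3 : N₀ ≤ Q₁ := by omega
  have w4 : N₁ ≤ Q₁ := by omega
  have w5 : M ≤ Q₁ := by omega
  have w6 : Q₄ ≤ Q₁ := by omega
  have w7 : Q₅ ≤ Q₁ := by omega
  have w8 : Q₆ ≤ Q₁ := by omega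
  clear e1 e0 y1 y2 y3 y4 y5 x1 x2 x3 x4 x5 x6 x7 x8 x9 hU hm hlS hN₁ hN₀ hM hg
  generalize (Cs + 60) * P₁ = R₁ at *
  generalize (Cs + 60) * P₀ = R₂ at *
  generalize (Cr + 20) * (Q₁ + Q₂ + S + N₀ + 1) = R₃ at *
  generalize (Cr + 20) * (Q₁ + Q₃ + Q₆ + N₁ + 1) = R₄ at *
  generalize (Cc + 20) * (m + Tb m + G) = R₅ at *
  generalize (Cs + 60) * U = R₆ at *
  generalize (Cr + 20) * U = R₇ at *
  generalize (Cc + 20) * U = R₈ at *
  linarith

theorem twfK_runs {sq : Bool → PW J E} {rp : PW J E} {cma : P1 J E} {Tb Tt : ℕ → ℕ}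
    {Cs Cr Cc : ℕ} (hsq : SeqTwSpec sq Tt Cs) (hrp : RepSpec rp Cr) (hcma : CmaSpec cma Tb Cc)
    (cj : Bool) (M N₁ N₀ κ₁ κ₀ g m : ℕ) (hM : 1 ≤ M) (hN₁ : 1 ≤ N₁) (hN₀ : 1 ≤ N₀)
    (hg : 1 ≤ g) (hb : M < 2 ^ (wS g - 1)) (hm : 8064 * (M * (N₁ * N₀) * wS g) ≤ m)
    (q : R2 E) (q1 : q.t = []) (q2 : q.a = []) (q3 : q.b = []) (q4 : q.c = []) (q5 : q.d = [])
    (q6 : q.e = []) (q7 : q.f = []) (q8 : q.h = []) (q9 : q.fr = []) (q10 : q.fi = [])
    (q11 : q.zx = []) (q12 : q.zr = []) (q13 : q.er = []) (q14 : q.ei = [])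
    (q15 : q.m1 = una M) (q16 : q.n1 = una N₁) (q17 : q.n0 = una N₀) (q18 : q.k1 = una κ₁)
    (q19 : q.k0 = una κ₀) (q20 : q.g = una g) (q21 : q.l = una (wL g)) (q22 : q.m = una m) :
    Runs (twfK sq rp cma cj) (up q.st)
      (up ({ q with
        m1 := [], n1 := [], n0 := [], k1 := [], k0 := []
        er := ar (wS g) (M * (N₁ * N₀)) fun k =>
          (tF (wS g) (20 * wL g) (rtc (wS g) (20 * wL g) cj κ₁)
            (rtc (wS g) (20 * wL g) cj κ₀) N₀ (k / (N₁ * N₀)) (k % (N₁ * N₀))).1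
        ei := ar (wS g) (M * (N₁ * N₀)) fun k =>
          (tF (wS g) (20 * wL g) (rtc (wS g) (20 * wL g) cj κ₁)
            (rtc (wS g) (20 * wL g) cj κ₀) N₀ (k / (N₁ * N₀)) (k % (N₁ * N₀))).2 } : R2 E).st)
      ((4 * Cr + 2 * Cs + Cc + 400) * twfU Tb Tt M N₁ N₀ κ₁ κ₀ g m) := by
  have eS : wS g = 64 * wL g := wS_eq hg
  have hl : 1 ≤ wL g := hg.trans (g_le_wL g)
  have hS : 1 ≤ wS g := by omega
  set S := wS g with dS
  set B := 20 * wL g with dB
  set ρ₁ := rtc S B cj κ₁ with dρ₁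
  set ρ₀ := rtc S B cj κ₀ with dρ₀
  -- the word length
  set p1 : R2 E := { q with a := una S } with dp1
  have a1 : Runs (v2 (Prog.forr .l .t (Prog.pushN 64 .a mk)) : P2 J E) (up q.st) (up p1.st)
      (wL g * (2 * 64 + 8) + 1) := v2_runs (VC.scl (by decide) (by decide) (by decide) 64
      (n := wL g) (n' := 0) (s := q.st) (s' := p1.st) q21 q2 q1 (by
        rw [Nat.add_zero, Nat.mul_comm, ← eS]
        funext v; cases v <;> rfl))
  -- first small array
  set p2 : R2 E := { p1 with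
    k1 := []
    b := ar S (M * N₁) fun k => (tA S B ρ₁ (k / N₁) (k % N₁)).1
    c := ar S (M * N₁) fun k => (tA S B ρ₁ (k / N₁) (k % N₁)).2 } with dp2
  have a2 := sqtC_runs (J := J) (E := E) hsq (M := .m1) (N := .n1) (K := .k1) (x := .b)
    (y := .c) (by decide) (by decide) cj (m := M) (n := N₁) (κ := κ₁) (ℓ := wL g) hM hN₁ hl
    (by rw [← eS]; exact hb) (s := p1.st) (s' := p2.st) q15 q16 q18 q21 q1 q3 q4 (by
      rw [← eS]
      funext v; cases v <;> rfl)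
  rw [← eS] at a2
  -- repetitions
  set p3 : R2 E := { p2 with
    b := []
    d := ar S (M * (N₁ * N₀)) fun k => (tA S B ρ₁ (k / (N₁ * N₀)) (k % (N₁ * N₀) / N₀)).1 }
    with dp3
  have a3 := repC_runs (J := J) (E := E) hrp (x := .b) (L := .a) (R := .n0) (y := .d)
    (by decide) (by decide) (n := M * N₁) (l := S) (r := N₀)
    (b := fun i => bits (bitsOf S (tA S B ρ₁ (i / N₁) (i % N₁)).1)) hS (fun i => by simp)
    (s := p2.st) (s' := p3.st) (ar_eq _ _ _) rfl q17 q1 (Or.inr q5) (by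
      rw [tw_d S M N₁ N₀ fun i j => (tA S B ρ₁ i j).1]
      funext v; cases v <;> rfl)
  set p4 : R2 E := { p3 with
    c := []
    e := ar S (M * (N₁ * N₀)) fun k => (tA S B ρ₁ (k / (N₁ * N₀)) (k % (N₁ * N₀) / N₀)).2 }
    with dp4
  have a4 := repC_runs (J := J) (E := E) hrp (x := .c) (L := .a) (R := .n0) (y := .e)
    (by decide) (by decide) (n := M * N₁) (l := S) (r := N₀)
    (b := fun i => bits (bitsOf S (tA S B ρ₁ (i / N₁) (i % N₁)).2)) hS (fun i => by simp)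
    (s := p3.st) (s' := p4.st) (ar_eq _ _ _) rfl q17 q1 (Or.inr q6) (by
      rw [tw_d S M N₁ N₀ fun i j => (tA S B ρ₁ i j).2]
      funext v; cases v <;> rfl)
  -- second small array
  set p5 : R2 E := { p4 with
    k0 := []
    b := ar S (M * N₀) fun k => (tA S B ρ₀ (k / N₀) (k % N₀)).1
    c := ar S (M * N₀) fun k => (tA S B ρ₀ (k / N₀) (k % N₀)).2 } with dp5
  have a5 := sqtC_runs (J := J) (E := E) hsq (M := .m1) (N := .n0) (K := .k0) (x := .b)
    (y := .c) (by decide) (by decide) cj (m := M) (n := N₀) (κ := κ₀) (ℓ := wL g) hM hN₀ hl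
    (by rw [← eS]; exact hb) (s := p4.st) (s' := p5.st) q15 q17 q19 q21 q1 rfl rfl (by
      rw [← eS]
      funext v; cases v <;> rfl)
  rw [← eS] at a5
  set p6 : R2 E := { p5 with f := una (N₀ * S) } with dp6
  have a6 : Runs (v2 (Prog.mulOnto .n0 .t .a .h 1 .f mk) : P2 J E) (up p5.st) (up p6.st)
      (N₀ * (S * 10 + 8) + 1) := v2_runs (VC.mul (by decide)
      (n := N₀) (n' := S) (n'' := 0) (s := p5.st) (s' := p6.st) q17 rfl q7 q1 q8 (by
        funext v; cases v <;> rfl))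
  set p7 : R2 E := { p6 with
    b := []
    fr := ar S (M * (N₁ * N₀)) fun k => (tA S B ρ₀ (k / (N₁ * N₀)) (k % (N₁ * N₀) % N₀)).1 }
    with dp7
  have a7 := repC_runs (J := J) (E := E) hrp (x := .b) (L := .f) (R := .n1) (y := .fr)
    (by decide) (by decide) (n := M) (l := N₀ * S) (r := N₁)
    (b := fun i => bits (cat N₀ fun j => bitsOf S
      (tA S B ρ₀ ((i * N₀ + j) / N₀) ((i * N₀ + j) % N₀)).1))
    (Nat.mul_pos hN₀ hS) (fun i => by
      rw [len_bits, length_cat_of (L := S) fun i _ => length_bitsOf _ _])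
    (s := p6.st) (s' := p7.st) (ar_blk S M N₀ _) rfl q16 q1 (Or.inr q9) (by
      rw [tw_e S M N₁ N₀ hN₀ fun i j => (tA S B ρ₀ i j).1]
      funext v; cases v <;> rfl)
  set p8 : R2 E := { p7 with
    c := []
    fi := ar S (M * (N₁ * N₀)) fun k => (tA S B ρ₀ (k / (N₁ * N₀)) (k % (N₁ * N₀) % N₀)).2 }
    with dp8
  have a8 := repC_runs (J := J) (E := E) hrp (x := .c) (L := .f) (R := .n1) (y := .fi)
    (by decide) (by decide) (n := M) (l := N₀ * S) (r := N₁)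
    (b := fun i => bits (cat N₀ fun j => bitsOf S
      (tA S B ρ₀ ((i * N₀ + j) / N₀) ((i * N₀ + j) % N₀)).2))
    (Nat.mul_pos hN₀ hS) (fun i => by
      rw [len_bits, length_cat_of (L := S) fun i _ => length_bitsOf _ _])
    (s := p7.st) (s' := p8.st) (ar_blk S M N₀ _) rfl q16 q1 (Or.inr q10) (by
      rw [tw_e S M N₁ N₀ hN₀ fun i j => (tA S B ρ₀ i j).2]
      funext v; cases v <;> rfl)
  -- the number of words
  set p9 : R2 E := { p8 with zx := una (N₁ * N₀) } with dp9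
  have a9 : Runs (v2 (Prog.mulOnto .n1 .t .n0 .h 1 .zx mk) : P2 J E) (up p8.st) (up p9.st)
      (N₁ * (N₀ * 10 + 8) + 1) := v2_runs (VC.mul (by decide)
      (n := N₁) (n' := N₀) (n'' := 0) (s := p8.st) (s' := p9.st) q16 q17 q11 q1 q8 (by
        funext v; cases v <;> rfl))
  set p10 : R2 E := { p9 with zr := una (M * (N₁ * N₀)) } with dp10
  have a10 : Runs (v2 (Prog.mulOnto .m1 .t .zx .h 1 .zr mk) : P2 J E) (up p9.st) (up p10.st)
      (M * (N₁ * N₀ * 10 + 8) + 1) := v2_runs (VC.mul (by decide)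
      (n := M) (n' := N₁ * N₀) (n'' := 0) (s := p9.st) (s' := p10.st) q15 rfl q12 q1 q8 (by
        funext v; cases v <;> rfl))
  -- the product
  have hQ : 1 ≤ M * (N₁ * N₀) := Nat.mul_pos hM (Nat.mul_pos hN₁ hN₀)
  have hBS : B ≤ S := by omega
  set p11 : R2 E := { p10 with
    d := [], e := [], fr := [], fi := []
    er := ar S (M * (N₁ * N₀)) fun k =>
      (tF S B ρ₁ ρ₀ N₀ (k / (N₁ * N₀)) (k % (N₁ * N₀))).1
    ei := ar S (M * (N₁ * N₀)) fun k =>
      (tF S B ρ₁ ρ₀ N₀ (k / (N₁ * N₀)) (k % (N₁ * N₀))).2 } with dp11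
  have a11 := cmaC_runs (J := J) (E := E) hcma (x₁ := .d) (x₂ := .e) (y₁ := .fr) (y₂ := .fi)
    (nn := .zr) (z₁ := .er) (z₂ := .ei) (by decide) (by decide) (n := M * (N₁ * N₀)) (g := g)
    (m := m) hQ hg hm (x := fun k => tA S B ρ₁ (k / (N₁ * N₀)) (k % (N₁ * N₀) / N₀))
    (y := fun k => tA S B ρ₀ (k / (N₁ * N₀)) (k % (N₁ * N₀) % N₀))
    (fun _ => (cmR_lt hBS _ _).1) (fun _ => (cmR_lt hBS _ _).2)
    (fun _ => (cmR_lt hBS _ _).1) (fun _ => (cmR_lt hBS _ _).2)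
    (s := p10.st) (s' := p11.st) rfl rfl rfl rfl rfl q20 q21 q22 q1 (Or.inr q13) (Or.inr q14)
    (by funext v; cases v <;> rfl)
  -- the end
  set p12 : R2 E := { p11 with a := [] } with dp12
  have a12 : Runs (v2 (Prog.clear .a) : P2 J E) (up p11.st) (up p12.st) (3 * S) := by
    have := v2_runs (J := J) (VC.clr (a := V2.a) (s := p11.st) (s' := p12.st)
      (by funext v; cases v <;> rfl))
    exact this.mono (by show 3 * (una S : List (SSym E)).length ≤ _; rw [len_una])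
  set p13 : R2 E := { p12 with f := [] } with dp13
  have a13 : Runs (v2 (Prog.clear .f) : P2 J E) (up p12.st) (up p13.st) (3 * (N₀ * S)) := by
    have := v2_runs (J := J) (VC.clr (a := V2.f) (s := p12.st) (s' := p13.st)
      (by funext v; cases v <;> rfl))
    exact this.mono (by show 3 * (una (N₀ * S) : List (SSym E)).length ≤ _; rw [len_una])
  set p14 : R2 E := { p13 with zx := [] } with dp14
  have a14 : Runs (v2 (Prog.clear .zx) : P2 J E) (up p13.st) (up p14.st) (3 * (N₁ * N₀)) := by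
    have := v2_runs (J := J) (VC.clr (a := V2.zx) (s := p13.st) (s' := p14.st)
      (by funext v; cases v <;> rfl))
    exact this.mono (by show 3 * (una (N₁ * N₀) : List (SSym E)).length ≤ _; rw [len_una])
  set p15 : R2 E := { p14 with zr := [] } with dp15
  have a15 : Runs (v2 (Prog.clear .zr) : P2 J E) (up p14.st) (up p15.st)
      (3 * (M * (N₁ * N₀))) := by
    have := v2_runs (J := J) (VC.clr (a := V2.zr) (s := p14.st) (s' := p15.st)
      (by funext v; cases v <;> rfl))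
    exact this.mono (by
      show 3 * (una (M * (N₁ * N₀)) : List (SSym E)).length ≤ _; rw [len_una])
  set p16 : R2 E := { p15 with m1 := [] } with dp16
  have a16 : Runs (v2 (Prog.clear .m1) : P2 J E) (up p15.st) (up p16.st) (3 * M) := by
    have := v2_runs (J := J) (VC.clr (a := V2.m1) (s := p15.st) (s' := p16.st)
      (by funext v; cases v <;> rfl))
    exact this.mono (by show 3 * q.m1.length ≤ _; rw [q15, len_una])
  set p17 : R2 E := { p16 with n1 := [] } with dp17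
  have a17 : Runs (v2 (Prog.clear .n1) : P2 J E) (up p16.st) (up p17.st) (3 * N₁) := by
    have := v2_runs (J := J) (VC.clr (a := V2.n1) (s := p16.st) (s' := p17.st)
      (by funext v; cases v <;> rfl))
    exact this.mono (by show 3 * q.n1.length ≤ _; rw [q16, len_una])
  set p18 : R2 E := { p17 with n0 := [] } with dp18
  have a18 : Runs (v2 (Prog.clear .n0) : P2 J E) (up p17.st) (up p18.st) (3 * N₀) := by
    have := v2_runs (J := J) (VC.clr (a := V2.n0) (s := p17.st) (s' := p18.st)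
      (by funext v; cases v <;> rfl))
    exact this.mono (by show 3 * q.n0.length ≤ _; rw [q17, len_una])
  refine ((a1.seq (a2.seq (a3.seq (a4.seq (a5.seq (a6.seq (a7.seq (a8.seq (a9.seq (a10.seq
    (a11.seq (a12.seq (a13.seq (a14.seq (a15.seq (a16.seq (a17.seq a18))))))))))))))))).mono
    ?_).of_eq ?_
  · exact twfU_bound (Tb := Tb) (Tt := Tt) hM hN₁ hN₀ hg hm
  · congr 1
    have : p18 = ({ q with
        m1 := [], n1 := [], n0 := [], k1 := [], k0 := []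
        er := ar S (M * (N₁ * N₀)) fun k =>
          (tF S B ρ₁ ρ₀ N₀ (k / (N₁ * N₀)) (k % (N₁ * N₀))).1
        ei := ar S (M * (N₁ * N₀)) fun k =>
          (tF S B ρ₁ ρ₀ N₀ (k / (N₁ * N₀)) (k % (N₁ * N₀))).2 } : R2 E) := by
      simp only [dp18, dp17, dp16, dp15, dp14, dp13, dp12, dp11, dp10, dp9, dp8, dp7, dp6, dp5,
        dp4, dp3, dp2, dp1]
      congr 1 <;> simp [*]
    rw [this]

/-- The full array of twiddle factors. -/
noncomputable def twfP (sq : Bool → PW J E) (rp : PW J E) (cma : P1 J E) (cj : Bool) :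
    P2 J E :=
  (twfK sq rp cma cj).seq <| (v2 (Prog.clear .g)).seq <| (v2 (Prog.clear .l)).seq <|
    v2 (Prog.clear .m)

theorem twf_spec {sq : Bool → PW J E} {rp : PW J E} {cma : P1 J E} {Tb Tt : ℕ → ℕ}
    {Cs Cr Cc : ℕ} (hsq : SeqTwSpec sq Tt Cs) (hrp : RepSpec rp Cr) (hcma : CmaSpec cma Tb Cc) :
    TwfSpec (fun cj => twfP sq rp cma cj) Tb Tt (4 * Cr + 2 * Cs + Cc + 420) := by
  intro cj M N₁ N₀ κ₁ κ₀ g m hM hN₁ hN₀ hg hb hm
  set q : R2 E := { (R2.z : R2 E) with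
    m1 := una M, n1 := una N₁, n0 := una N₀, k1 := una κ₁, k0 := una κ₀, g := una g
    l := una (wL g), m := una m } with dq
  have a1 := twfK_runs (J := J) hsq hrp hcma cj M N₁ N₀ κ₁ κ₀ g m hM hN₁ hN₀ hg hb hm q
    rfl rfl rfl rfl rfl rfl rfl rfl rfl rfl rfl rfl rfl rfl rfl rfl rfl rfl rfl rfl rfl rfl
  set p1 : R2 E := { q with
        m1 := [], n1 := [], n0 := [], k1 := [], k0 := []
        er := ar (wS g) (M * (N₁ * N₀)) fun k =>
          (tF (wS g) (20 * wL g) (rtc (wS g) (20 * wL g) cj κ₁)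
            (rtc (wS g) (20 * wL g) cj κ₀) N₀ (k / (N₁ * N₀)) (k % (N₁ * N₀))).1
        ei := ar (wS g) (M * (N₁ * N₀)) fun k =>
          (tF (wS g) (20 * wL g) (rtc (wS g) (20 * wL g) cj κ₁)
            (rtc (wS g) (20 * wL g) cj κ₀) N₀ (k / (N₁ * N₀)) (k % (N₁ * N₀))).2 } with dp1
  set p2 : R2 E := { p1 with g := [] } with dp2
  have a2 := v2_runs (J := J) (VC.clr (a := V2.g) (s := p1.st) (s' := p2.st)
      (by funext v; cases v <;> rfl))
  set p3 : R2 E := { p2 with l := [] } with dp3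
  have a3 := v2_runs (J := J) (VC.clr (a := V2.l) (s := p2.st) (s' := p3.st)
      (by funext v; cases v <;> rfl))
  set p4 : R2 E := { p3 with m := [] } with dp4
  have a4 := v2_runs (J := J) (VC.clr (a := V2.m) (s := p3.st) (s' := p4.st)
      (by funext v; cases v <;> rfl))
  have e0 : q.st = asg [(V2.m1, una M), (V2.n1, una N₁), (V2.n0, una N₀), (V2.k1, una κ₁),
      (V2.k0, una κ₀), (V2.g, una g), (V2.l, una (wL g)), (V2.m, una m)] := by
    funext v; cases v <;> rfl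
  rw [e0] at a1
  refine ((a1.seq (a2.seq (a3.seq a4))).mono ?_).of_eq ?_
  · have k2 : (p1.st V2.g).length = g := len_una g
    have k3 : (p2.st V2.l).length = wL g := len_una (wL g)
    have k4 : (p3.st V2.m).length = m := len_una m
    rw [k2, k3, k4]
    have hQ : 1 ≤ M * (N₁ * N₀) := Nat.mul_pos hM (Nat.mul_pos hN₁ hN₀)
    have l1 : wL g ≤ wS g := wL_le hg
    have l2 : g ≤ wL g := g_le_wL g
    have l3 : wS g ≤ M * (N₁ * N₀) * wS g := Nat.le_mul_of_pos_left _ hQ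
    have l4 : m ≤ twfU Tb Tt M N₁ N₀ κ₁ κ₀ g m := by
      unfold twfU; rw [Nat.add_assoc, Nat.add_assoc]; exact Nat.le_add_right _ _
    have l5 : (4 * Cr + 2 * Cs + Cc + 420) * twfU Tb Tt M N₁ N₀ κ₁ κ₀ g m =
      (4 * Cr + 2 * Cs + Cc + 400) * twfU Tb Tt M N₁ N₀ κ₁ κ₀ g m +
        20 * twfU Tb Tt M N₁ N₀ κ₁ κ₀ g m := by ring
    show _ ≤ (4 * Cr + 2 * Cs + Cc + 420) * twfU Tb Tt M N₁ N₀ κ₁ κ₀ g m
    rw [l5]
    linarith
  · congr 1
    funext v; cases v <;> rfl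

end Vale.Agent.P338.GS
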