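import Vale.Agent.P338.GS.Iface2
import Vale.Agent.P338.TopLib

/-!
# P338, stage 5: simple commands on additional stacks, and lifting of procedures
-/

namespace Vale.Agent.P338.GS

open Vale.Agent.P338

/-! ### Commands on the stacks of any type `V` -/

namespace VC

variable {V E : Type} [DecidableEq V]

/-- `b := a ++ b` (copy). -/
theorem cp {a b t : V} (hab : a ≠ b) (hat : a ≠ t) (hbt : b ≠ t) {s s' : Store V (SSym E)}
    (ht : s t = []) (e : s' = Function.update s b (s a ++ s b)) :
    Runs (Prog.copyOnto a b t) s s' (6 * (s a).length + 1) :=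
  (Runs.copyOnto hab hat hbt s ht).of_eq e.symm

/-- Clear `a`. -/
theorem clr {a : V} {s s' : Store V (SSym E)} (e : s' = Function.update s a []) :
    Runs (Prog.clear a) s s' (3 * (s a).length) :=
  (Runs.clear a s).of_eq e.symm

/-- Push a symbol. -/
theorem push {a : V} {x : SSym E} {s s' : Store V (SSym E)}
    (e : s' = Function.update s a (x :: s a)) : Runs (Prog.push a x) s s' 1 :=
  (Runs.push a x s).of_eq e.symm

/-- Pop a symbol. -/
theorem pop {a : V} {s s' : Store V (SSym E)}
    (e : s' = Function.update s a (s a).tail) : Runs (Prog.pop a) s s' 1 :=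
  (Runs.pop a s).of_eq e.symm

/-- `b := k * a + b`, in unary. -/
theorem scl {a b t : V} (hab : a ≠ b) (hat : a ≠ t) (hbt : b ≠ t) (k : ℕ) {n n' : ℕ}
    {s s' : Store V (SSym E)} (ha : s a = una n) (hb : s b = una n') (ht : s t = [])
    (e : s' = Function.update s b (una (n * k + n'))) :
    Runs (Prog.forr a t (Prog.pushN k b mk)) s s' (n * (2 * k + 8) + 1) := by
  refine (Runs.scaleOnto hat hab hbt.symm k mk mk s n ha ht).of_eq ?_
  rw [e, hb]
  simp [una]

/-- `b := a * c + b`, in unary. -/
theorem mul {a c b t t' : V} (hnd : [a, c, b, t, t'].Nodup) {n n' n'' : ℕ}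
    {s s' : Store V (SSym E)} (ha : s a = una n) (hc : s c = una n') (hb : s b = una n'')
    (ht : s t = []) (ht' : s t' = []) (e : s' = Function.update s b (una (n * n' + n''))) :
    Runs (Prog.mulOnto a t c t' 1 b mk) s s' (n * (n' * 10 + 8) + 1) := by
  simp only [List.nodup_cons, List.mem_cons, List.not_mem_nil, or_false, not_or,
    List.nodup_nil, and_true, not_false_eq_true] at hnd
  obtain ⟨⟨h1, h2, h3, h4⟩, ⟨h5, h6, h7⟩, ⟨h8, h9⟩, h10⟩ := hnd
  have r := Runs.mulOnto (u := a) (t := t) (v := c) (t' := t') (i := b) h3 h1 h4 h2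
    (Ne.symm h6) h10 (Ne.symm h8) h7 h5 (Ne.symm h9) 1
    (mk : SSym E) mk mk s n n' ha hc ht ht'
  refine r.of_eq ?_
  rw [e, hb]
  simp [una]

/-- Pop `b` once for every symbol of `a`. -/
theorem sub {a b t : V} (hab : a ≠ b) (hat : a ≠ t) (hbt : b ≠ t) {n m : ℕ}
    {s s' : Store V (SSym E)} (ha : s a = una n) (hb : s b = una m) (ht : s t = [])
    (e : s' = Function.update s b (una (m - n))) :
    Runs (Prog.forr a t (Prog.pop b)) s s' (8 * n + 1) := by
  have h := Runs.forr' hat (body := (Prog.pop b : Prog V (SSym E))) n mk
    (fun k => Function.update s b (una (m - k))) (fun _ => 1)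
    (fun k _ => by rw [Function.update_of_ne hab, ha]; rfl)
    (fun k _ => by rw [Function.update_of_ne hbt.symm, ht])
    (by
      intro k hk l l'
      refine (Runs.pop b _).of_eq ?_
      have e : (una (m - (k + 1)) : List (SSym E)) = (una (m - k)).tail := by
        rw [show m - (k + 1) = m - k - 1 by omega]; simp [una]
      rw [e]
      funext q
      simp only [Function.update_apply]
      split_ifs <;> simp_all)
  simp only [Finset.sum_const, Finset.card_range, smul_eq_mul] at h
  have e' : Function.update s b (una (m - 0)) = s := by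
    rw [Nat.sub_zero, ← hb]; exact Function.update_eq_self _ _
  rw [e', ← e] at h
  exact h.mono (by omega)

/-- `b := 2 ^ a`. -/
def pow2P (a b t4 t5 t6 : V) : Prog V (SSym E) :=
  (Prog.push b mk).seq (Prog.forr a t5
    ((Prog.forr b t6 (Prog.pushN 1 t4 mk)).seq (Prog.rev t4 b)))

theorem pw2 {a b t4 t5 t6 : V} (hnd : [a, b, t4, t5, t6].Nodup) {n : ℕ}
    {s s' : Store V (SSym E)} (ha : s a = una n) (hb : s b = []) (e4 : s t4 = [])
    (e5 : s t5 = []) (e6 : s t6 = []) (e : s' = Function.update s b (una (2 ^ n))) :
    Runs (pow2P a b t4 t5 t6) s s' (40 * 2 ^ n) := by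
  simp only [List.nodup_cons, List.mem_cons, List.not_mem_nil, or_false, not_or,
    List.nodup_nil, and_true, not_false_eq_true] at hnd
  obtain ⟨⟨hab, ha4, ha5, ha6⟩, ⟨hb4, hb5, hb6⟩, ⟨h45, h46⟩, h56⟩ := hnd
  have h1 := Runs.push b (mk : SSym E) s
  have h2 := Runs.forr' ha5
    (body := (Prog.forr b t6 (Prog.pushN 1 t4 mk)).seq (Prog.rev t4 b)) n (mk : SSym E)
    (fun k => Function.update s b (una (2 ^ k))) (fun k => 13 * 2 ^ k + 2)
    (fun k _ => by rw [Function.update_of_ne hab, ha]; rfl)
    (fun k _ => by rw [Function.update_of_ne (Ne.symm hb5), e5])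
    (by
      intro k hk l l'
      set s1 : Store V (SSym E) := Function.update (Function.update
        (Function.update s b (una (2 ^ k))) a l) t5 l' with hs1
      have b1 : s1 b = List.replicate (2 ^ k) mk := by
        rw [hs1, Function.update_of_ne hb5, Function.update_of_ne (Ne.symm hab),
          Function.update_self]
        rfl
      have b2 : s1 t6 = [] := by
        rw [hs1, Function.update_of_ne (Ne.symm h56), Function.update_of_ne (Ne.symm ha6),
          Function.update_of_ne (Ne.symm hb6), e6]
      have b3 : s1 t4 = [] := by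
        rw [hs1, Function.update_of_ne h45, Function.update_of_ne (Ne.symm ha4),
          Function.update_of_ne (Ne.symm hb4), e4]
      have r1 := Runs.scaleOnto (v := b) (t' := t6) (i := t4) hb6 hb4 (Ne.symm h46) 1
        (mk : SSym E) mk s1 (2 ^ k) b1 b2
      have r2 := Runs.rev (i := t4) (j := b) (Ne.symm hb4)
        (Function.update s1 t4 (List.replicate (2 ^ k * 1) mk ++ s1 t4))
      refine ((r1.seq r2).mono ?_).of_eq ?_
      · rw [Function.update_self, b3]
        simp only [List.append_nil, List.length_replicate]
        omega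
      · rw [Function.update_self, b3, Function.update_of_ne hb4, b1]
        simp only [List.append_nil, mul_one, Function.update_idem, List.reverse_replicate,
          List.replicate_append_replicate]
        have e : 2 ^ k + 2 ^ k = 2 ^ (k + 1) := by ring
        rw [e]
        have e' : Function.update s1 t4 [] = s1 := by
          rw [← b3]; exact Function.update_eq_self _ _
        rw [e', hs1]
        funext q
        simp only [Function.update_apply]
        by_cases q1 : q = b
        · subst q1
          rw [if_pos rfl, if_neg hb5, if_neg (Ne.symm hab), if_pos rfl]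
          rfl
        · by_cases q2 : q = t5
          · rw [if_neg q1, if_pos q2, if_pos q2]
          · by_cases q3 : q = a
            · rw [if_neg q1, if_neg q2, if_pos q3, if_neg q2, if_pos q3]
            · rw [if_neg q1, if_neg q2, if_neg q3, if_neg q1, if_neg q2, if_neg q3, if_neg q1])
  have e0 : Function.update s b (una (2 ^ 0)) = Function.update s b (mk :: s b) := by
    rw [hb]; rfl
  rw [e0] at h2
  rw [e]
  refine (h1.seq h2).mono ?_
  have h3 : ∑ k ∈ Finset.range n, (13 * 2 ^ k + 2 + 4) = 13 * (2 ^ n - 1) + 6 * n := by
    have : ∑ k ∈ Finset.range n, 2 ^ k = 2 ^ n - 1 := by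
      have := Nat.geomSum_eq (m := 2) le_rfl n
      simpa using this
    rw [← this, Finset.mul_sum, Finset.sum_congr rfl fun k _ =>
      show 13 * 2 ^ k + 2 + 4 = 13 * 2 ^ k + 6 by ring, Finset.sum_add_distrib]
    simp [mul_comm]
  rw [h3]
  have h4 : n < 2 ^ n := Nat.lt_two_pow_self
  omega

/-- `b := a / 2 + b`, `a := 0`. -/
def halfP (a b : V) : Prog V (SSym E) :=
  Prog.loop (nonempty a) ((Prog.pop a).seq
    (Prog.ite (nonempty a) ((Prog.pop a).seq (Prog.push b mk)) Prog.skip))

theorem half {a b : V} (hab : a ≠ b) (n : ℕ) : ∀ {n' : ℕ} {s s' : Store V (SSym E)},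
    s a = una n → s b = una n' →
    s' = Function.update (Function.update s a []) b (una (n / 2 + n')) →
    Runs (halfP a b) s s' (5 * n + 1) := by
  induction n using Nat.strong_induction_on with
  | _ n ih =>
    intro n' s s' ha hb e
    rcases n with _ | _ | n
    · refine ((Runs.loopF (by simp [ha, una])).of_eq ?_).mono (by omega)
      rw [e]
      funext q
      simp only [Function.update_apply]
      split_ifs <;> simp_all [una]
    · have k1 : s a = [mk] := ha
      have a1 := Runs.pop a s
      have a2 : Runs (Prog.ite (nonempty a) ((Prog.pop a).seq (Prog.push b mk)) Prog.skip :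
          Prog V (SSym E)) (Function.update s a (s a).tail)
          (Function.update s a (s a).tail) (1 + 1) :=
        Runs.iteF (by simp [k1]) (Runs.skip _)
      have a3 : Runs (halfP a b : Prog V (SSym E)) (Function.update s a (s a).tail)
          (Function.update s a (s a).tail) 0 := Runs.loopF (by simp [k1])
      refine ((Runs.loopT (by simp [k1]) (a1.seq a2) a3).mono (by omega)).of_eq ?_
      rw [e, k1]
      funext q
      simp only [Function.update_apply]
      split_ifs with h1 h2 h2
      · exact absurd (h1.symm.trans h2) hab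
      · rfl
      · rw [h2, hb]; simp
      · rfl
    · have k1 : s a = mk :: mk :: una n := ha
      have a1 := Runs.pop a s
      have a2 := Runs.pop a (Function.update s a (s a).tail)
      have a3 := Runs.push b (mk : SSym E) (Function.update (Function.update s a (s a).tail) a
        (Function.update s a (s a).tail a).tail)
      have a4 : Runs (Prog.ite (nonempty a) ((Prog.pop a).seq (Prog.push b mk)) Prog.skip :
          Prog V (SSym E)) _ _ _ :=
        Runs.iteT (s := Function.update s a (s a).tail) (by simp [k1]) (a2.seq a3)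
      have a5 := ih n (by omega) (n' := n' + 1)
        (s := Function.update (Function.update (Function.update s a (s a).tail) a
          (Function.update s a (s a).tail a).tail) b
          (mk :: (Function.update (Function.update s a (s a).tail) a
            (Function.update s a (s a).tail a).tail) b)) (s' := s')
        (by rw [Function.update_of_ne hab]; simp [k1])
        (by simp [Function.update_of_ne (Ne.symm hab), hb, una, List.replicate_succ])
        (by
          rw [e, show (n + 2) / 2 + n' = n / 2 + (n' + 1) by omega]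
          funext q
          simp only [Function.update_apply]
          split_ifs <;> rfl)
      refine (Runs.loopT (by simp [k1]) (a1.seq a4) a5).mono
        (by omega)

end VC

/-! ### Lifting of procedures -/

section lift

variable {ι V Γ : Type} [DecidableEq ι] [DecidableEq V]

theorem elim_asg_nil (L : List (ι × List Γ)) :
    Sum.elim (asg L) (fun _ : V => ([] : List Γ)) =
      asg (L.map fun x => ((Sum.inl x.1 : ι ⊕ V), x.2)) := by
  induction L with
  | nil => funext x; rcases x with x | x <;> rfl
  | cons x L ih =>
    show Sum.elim (Function.update (asg L) x.1 x.2) _ = Function.update _ (Sum.inl x.1) x.2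
    rw [← elim_update_inl, ih]

theorem up_asg (L : List (V × List Γ)) :
    (up (asg L) : Store (ι ⊕ V) Γ) = asg (L.map fun x => ((Sum.inr x.1 : ι ⊕ V), x.2)) := by
  induction L with
  | nil => funext x; rcases x with x | x <;> rfl
  | cons x L ih =>
    show up (Function.update (asg L) x.1 x.2) = Function.update _ (Sum.inr x.1) x.2
    unfold up
    rw [← elim_update_inr, ← ih]
    rfl

/-- A procedure of the lower level is a procedure. -/
theorem asg_lift {p : Prog ι Γ} {a b : List (ι × List Γ)} {T : ℕ}
    (hp : Runs p (asg a) (asg b) T) :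
    Runs (p.map (Sum.inl : ι → ι ⊕ V)) (asg (a.map fun x => ((Sum.inl x.1 : ι ⊕ V), x.2)))
      (asg (b.map fun x => ((Sum.inl x.1 : ι ⊕ V), x.2))) T := by
  rw [← elim_asg_nil, ← elim_asg_nil]
  exact lift_runs hp _

end lift

variable {J E : Type} [DecidableEq J]

/-- Level 0 procedures as programs on the store of level 0. -/
theorem WRun.asg {p : PW J E} {a b : List (W × List (SSym E))} {T : ℕ} (hp : WRun p a b T) :
    Runs p (asg (a.map fun x => ((Sum.inr x.1 : Loc J ⊕ W), x.2)))
      (GS.asg (b.map fun x => ((Sum.inr x.1 : Loc J ⊕ W), x.2))) T := by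
  have := hp
  unfold WRun at this
  rwa [asW_eq, asW_eq] at this

/-- Level 0 procedures as programs of level 1. -/
theorem WRun.asg1 {p : PW J E} {a b : List (W × List (SSym E))} {T : ℕ} (hp : WRun p a b T) :
    Runs (p.map (Sum.inl : Loc J ⊕ W → (Loc J ⊕ W) ⊕ V1))
      (GS.asg (a.map fun x => ((Sum.inl (Sum.inr x.1) : (Loc J ⊕ W) ⊕ V1), x.2)))
      (GS.asg (b.map fun x => ((Sum.inl (Sum.inr x.1) : (Loc J ⊕ W) ⊕ V1), x.2))) T := by
  have := asg_lift (V := V1) hp.asg
  simpa only [List.map_map, Function.comp_def] using this

end Vale.Agent.P338.GS
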